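import Vale.Agent.P071.Setup

/-!
# Bounded measurable functions on the disc and elementary facts on the conformal factor
-/

open Complex Metric Set Filter Topology MeasureTheory
open scoped ContDiff ComplexConjugate Real

namespace Vale.Agent.P071

instance isFiniteMeasure_D : IsFiniteMeasure (volume.restrict D) :=
  isFiniteMeasure_restrict.2 measure_ball_lt_top.ne

/-- Bounded measurable functions on the disc. -/
structure BM {E : Type*} [NormedAddCommGroup E] (f : ℂ → E) : Prop where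
  meas : AEStronglyMeasurable f (volume.restrict D)
  bdd : ∃ M : ℝ, ∀ z ∈ D, ‖f z‖ ≤ M

section BM

variable {E : Type*} [NormedAddCommGroup E] {f g : ℂ → E}

lemma BM.bdd' (h : BM f) : ∃ M : ℝ, 0 ≤ M ∧ ∀ z ∈ D, ‖f z‖ ≤ M := by
  obtain ⟨M, hM⟩ := h.bdd
  exact ⟨M, (norm_nonneg _).trans (hM 0 (mem_ball_self one_pos)), hM⟩

lemma BM.memLp_top (h : BM f) : MemLp f ⊤ (volume.restrict D) := by
  obtain ⟨M, hM⟩ := h.bdd
  exact memLp_top_of_bound h.meas M (ae_restrict_of_forall_mem measurableSet_ball hM)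

lemma BM.memLp (h : BM f) : MemLp f 2 (volume.restrict D) := h.memLp_top.mono_exponent le_top

lemma BM.integrableOn (h : BM f) : IntegrableOn f D :=
  memLp_one_iff_integrable.1 (h.memLp_top.mono_exponent le_top)

lemma BM.of_continuousOn (hc : ContinuousOn f D) (hb : ∃ M : ℝ, ∀ z ∈ D, ‖f z‖ ≤ M) : BM f :=
  ⟨hc.aestronglyMeasurable measurableSet_ball, hb⟩

lemma BM.of_closedBall (hc : ContinuousOn f (closedBall 0 1)) : BM f := by
  obtain ⟨M, hM⟩ := (isCompact_closedBall (0 : ℂ) 1).exists_bound_of_continuousOn hc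
  exact .of_continuousOn (hc.mono ball_subset_closedBall)
    ⟨M, fun z hz => hM z (ball_subset_closedBall hz)⟩

lemma BM.of_continuous (hc : Continuous f) : BM f := .of_closedBall hc.continuousOn

lemma BM.of_continuousAt (hc : ∀ z ∈ closedBall (0 : ℂ) 1, ContinuousAt f z) : BM f :=
  .of_closedBall (continuousOn_of_forall_continuousAt hc)

lemma BM.const (c : E) : BM fun _ : ℂ => c := .of_continuous continuous_const

lemma BM.congr (h : BM f) (e : ∀ z ∈ D, f z = g z) : BM g := by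
  obtain ⟨M, hM⟩ := h.bdd
  exact ⟨h.meas.congr (ae_restrict_of_forall_mem measurableSet_ball e),
    M, fun z hz => e z hz ▸ hM z hz⟩

lemma BM.add (hf : BM f) (hg : BM g) : BM fun z => f z + g z := by
  obtain ⟨M, hM⟩ := hf.bdd
  obtain ⟨N, hN⟩ := hg.bdd
  exact ⟨hf.meas.add hg.meas, M + N, fun z hz =>
    (norm_add_le _ _).trans (add_le_add (hM z hz) (hN z hz))⟩

lemma BM.neg (hf : BM f) : BM fun z => -f z := by
  obtain ⟨M, hM⟩ := hf.bdd
  exact ⟨hf.meas.neg, M, fun z hz => by simpa using hM z hz⟩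

lemma BM.sub (hf : BM f) (hg : BM g) : BM fun z => f z - g z := by
  simpa only [sub_eq_add_neg] using hf.add hg.neg

lemma BM.norm (hf : BM f) : BM fun z => ‖f z‖ := by
  obtain ⟨M, hM⟩ := hf.bdd
  exact ⟨hf.meas.norm, M, fun z hz => by simpa using hM z hz⟩

lemma BM.mul {R : Type*} [NormedRing R] {f g : ℂ → R} (hf : BM f) (hg : BM g) :
    BM fun z => f z * g z := by
  obtain ⟨M, hM0, hM⟩ := hf.bdd'
  obtain ⟨N, hN⟩ := hg.bdd
  exact ⟨hf.meas.mul hg.meas, M * N, fun z hz =>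
    (norm_mul_le _ _).trans (mul_le_mul (hM z hz) (hN z hz) (norm_nonneg _) hM0)⟩

lemma BM.sq {R : Type*} [NormedRing R] {f : ℂ → R} (hf : BM f) : BM fun z => f z ^ 2 := by
  simpa only [pow_two] using hf.mul hf

lemma BM.const_mul {R : Type*} [NormedRing R] {f : ℂ → R} (hf : BM f) (c : R) :
    BM fun z => c * f z := (BM.const c).mul hf

lemma BM.clm [NormedSpace ℝ E] {F : Type*} [NormedAddCommGroup F] [NormedSpace ℝ F]
    (L : E →L[ℝ] F) (hf : BM f) : BM fun z => L (f z) := by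
  obtain ⟨M, hM⟩ := hf.bdd
  exact ⟨L.continuous.comp_aestronglyMeasurable hf.meas, ‖L‖ * M, fun z hz =>
    (L.le_opNorm _).trans (mul_le_mul_of_nonneg_left (hM z hz) (norm_nonneg _))⟩

lemma BM.ofReal {f : ℂ → ℝ} (hf : BM f) : BM fun z => (f z : ℂ) := hf.clm ofRealCLM

lemma BM.re {f : ℂ → ℂ} (hf : BM f) : BM fun z => (f z).re := hf.clm reCLM

lemma BM.im {f : ℂ → ℂ} (hf : BM f) : BM fun z => (f z).im := hf.clm imCLM

lemma BM.conj {f : ℂ → ℂ} (hf : BM f) : BM fun z => conj (f z) :=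
  hf.clm conjCLE.toContinuousLinearMap

lemma BM.abs {f : ℂ → ℝ} (hf : BM f) : BM fun z => |f z| := hf.norm

lemma BM.mul_memLp {R : Type*} [NormedRing R] {f g : ℂ → R} (hf : BM f)
    (hg : MemLp g 2 (volume.restrict D)) : MemLp (fun z => f z * g z) 2 (volume.restrict D) :=
  hg.mul' hf.memLp_top

lemma BM.memLp_mul {R : Type*} [NormedRing R] {f g : ℂ → R} (hf : BM f)
    (hg : MemLp g 2 (volume.restrict D)) : MemLp (fun z => g z * f z) 2 (volume.restrict D) :=
  hf.memLp_top.mul' hg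

lemma BM.mul_integrableOn {R : Type*} [NormedRing R] {f g : ℂ → R} (hf : BM f)
    (hg : IntegrableOn g D) : IntegrableOn (fun z => f z * g z) D :=
  memLp_one_iff_integrable.1 ((memLp_one_iff_integrable.2 hg).mul' hf.memLp_top)

lemma BM.of_fderiv [NormedSpace ℝ E] (hc : ContDiffOn ℝ 1 f D)
    (hb : ∃ M : ℝ, ∀ z ∈ D, ‖fderiv ℝ f z‖ ≤ M) : BM (dx f) ∧ BM (dy f) := by
  obtain ⟨M, hM⟩ := hb
  have h : ∀ z ∈ D, ContDiffAt ℝ 1 f z := fun z hz => hc.contDiffAt (isOpen_ball.mem_nhds hz)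
  exact ⟨.of_continuousOn (continuousOn_of_forall_continuousAt fun z hz =>
      (contDiffAt_dx (m := 0) (h z hz) (by norm_num)).continuousAt)
      ⟨M, fun z hz => (norm_dx_le f z).trans (hM z hz)⟩,
    .of_continuousOn (continuousOn_of_forall_continuousAt fun z hz =>
      (contDiffAt_dy (m := 0) (h z hz) (by norm_num)).continuousAt)
      ⟨M, fun z hz => (norm_dy_le f z).trans (hM z hz)⟩⟩

lemma BM.dx_of_contDiff [NormedSpace ℝ E] (hc : ContDiff ℝ 1 f) : BM (dx f) :=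
  .of_continuousAt fun _ _ => (contDiffAt_dx (m := 0) hc.contDiffAt (by norm_num)).continuousAt

lemma BM.dy_of_contDiff [NormedSpace ℝ E] (hc : ContDiff ℝ 1 f) : BM (dy f) :=
  .of_continuousAt fun _ _ => (contDiffAt_dy (m := 0) hc.contDiffAt (by norm_num)).continuousAt

lemma BM.lap_of_contDiff [NormedSpace ℝ E] (hc : ContDiff ℝ 2 f) : BM (lap f) :=
  .of_continuousAt fun _ _ => (contDiffAt_lap (m := 0) hc.contDiffAt (by norm_num)).continuousAt

lemma BM.dD_of_contDiff {f : ℂ → ℂ} (hc : ContDiff ℝ 1 f) : BM (dD f) :=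
  .of_continuousAt fun _ _ => (contDiffAt_dD (m := 0) hc.contDiffAt (by norm_num)).continuousAt

lemma BM.dB_of_contDiff {f : ℂ → ℂ} (hc : ContDiff ℝ 1 f) : BM (dB f) :=
  .of_continuousAt fun _ _ => (contDiffAt_dB (m := 0) hc.contDiffAt (by norm_num)).continuousAt

end BM

lemma Bdd1.bm {a : ℂ → ℝ} (h : Bdd1 a) : BM a ∧ BM (dx a) ∧ BM (dy a) := by
  obtain ⟨M, hM⟩ := h.bdd
  exact ⟨.of_continuousOn h.cd.continuousOn ⟨M, fun z hz => (hM z hz).1⟩,
    BM.of_fderiv h.cd ⟨M, fun z hz => (hM z hz).2⟩⟩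

lemma Bdd1.of_bm {a : ℂ → ℝ} (hc : ContDiffOn ℝ 1 a D) (h0 : BM a) (h1 : BM (dx a))
    (h2 : BM (dy a)) : Bdd1 a := by
  obtain ⟨M0, h00, h0⟩ := h0.bdd'
  obtain ⟨M1, h10, h1⟩ := h1.bdd'
  obtain ⟨M2, h20, h2⟩ := h2.bdd'
  refine ⟨hc, M0 + (M1 + M2), fun z hz => ⟨?_, ?_⟩⟩
  · have := h0 z hz
    rw [Real.norm_eq_abs] at this
    linarith
  · linarith [norm_fderiv_le a z, h1 z hz, h2 z hz]

lemma Bdd1.of_contDiff {a : ℂ → ℝ} (hc : ContDiff ℝ 1 a) : Bdd1 a :=
  .of_bm hc.contDiffOn (.of_continuous hc.continuous) (.dx_of_contDiff hc) (.dy_of_contDiff hc)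

lemma Bdd1.differentiableAt {a : ℂ → ℝ} (h : Bdd1 a) {z : ℂ} (hz : z ∈ D) :
    DifferentiableAt ℝ a z :=
  (h.cd.contDiffAt (isOpen_ball.mem_nhds hz)).differentiableAt (by norm_num)

lemma memLp_ofReal {f : ℂ → ℝ} (hf : MemLp f 2 (volume.restrict D)) :
    MemLp (fun z => (f z : ℂ)) 2 (volume.restrict D) := ofRealCLM.comp_memLp' hf

lemma memLp_conj {f : ℂ → ℂ} (hf : MemLp f 2 (volume.restrict D)) :
    MemLp (fun z => conj (f z)) 2 (volume.restrict D) :=
  conjCLE.toContinuousLinearMap.comp_memLp' hf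

lemma memLp_re {f : ℂ → ℂ} (hf : MemLp f 2 (volume.restrict D)) :
    MemLp (fun z => (f z).re) 2 (volume.restrict D) := reCLM.comp_memLp' hf

lemma memLp_im {f : ℂ → ℂ} (hf : MemLp f 2 (volume.restrict D)) :
    MemLp (fun z => (f z).im) 2 (volume.restrict D) := imCLM.comp_memLp' hf

lemma integrableOn_mul_of_memLp {R : Type*} [NormedRing R] {f g : ℂ → R}
    (hf : MemLp f 2 (volume.restrict D)) (hg : MemLp g 2 (volume.restrict D)) :
    IntegrableOn (fun z => f z * g z) D := hf.integrable_mul hg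

lemma integrableOn_mul_conj_re {f g : ℂ → ℂ} (hf : MemLp f 2 (volume.restrict D))
    (hg : MemLp g 2 (volume.restrict D)) : IntegrableOn (fun z => (f z * conj (g z)).re) D :=
  (integrableOn_mul_of_memLp hf (memLp_conj hg)).re

lemma integrableOn_norm_sq {E : Type*} [NormedAddCommGroup E] {f : ℂ → E}
    (hf : MemLp f 2 (volume.restrict D)) : IntegrableOn (fun z => ‖f z‖ ^ 2) D :=
  (memLp_two_iff_integrable_sq_norm hf.1).1 hf

lemma integrableOn_of_memLp {E : Type*} [NormedAddCommGroup E] {f : ℂ → E}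
    (hf : MemLp f 2 (volume.restrict D)) : IntegrableOn f D := hf.integrable (by norm_num)

lemma mul_conj_re_self (a : ℂ) : (a * conj a).re = ‖a‖ ^ 2 := by
  rw [mul_conj, ofReal_re, normSq_eq_norm_sq]

/-- Weighted Cauchy-Schwarz inequality. -/
lemma weighted_cs {α : Type*} [MeasurableSpace α] {m : Measure α} {w f g : α → ℝ}
    (hw : ∀ᵐ x ∂m, 0 ≤ w x) (h1 : Integrable (fun x => w x * f x ^ 2) m)
    (h2 : Integrable (fun x => w x * (f x * g x)) m) (h3 : Integrable (fun x => w x * g x ^ 2) m) :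
    (∫ x, w x * (f x * g x) ∂m) ^ 2 ≤ (∫ x, w x * f x ^ 2 ∂m) * ∫ x, w x * g x ^ 2 ∂m := by
  have h : ∀ t : ℝ, 0 ≤ (∫ x, w x * f x ^ 2 ∂m) * (t * t) + (2 * ∫ x, w x * (f x * g x) ∂m) * t +
      ∫ x, w x * g x ^ 2 ∂m := by
    intro t
    have e : (∫ x, w x * f x ^ 2 ∂m) * (t * t) + (2 * ∫ x, w x * (f x * g x) ∂m) * t +
        ∫ x, w x * g x ^ 2 ∂m = ∫ x, w x * (t * f x + g x) ^ 2 ∂m := by
      have i1 := h1.mul_const (t * t)
      have i2 := (h2.const_mul 2).mul_const t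
      have i3 : Integrable (fun x => w x * f x ^ 2 * (t * t) + 2 * (w x * (f x * g x)) * t) m :=
        i1.add i2
      rw [← integral_mul_const, ← integral_const_mul, ← integral_mul_const,
        ← integral_add i1 i2, ← integral_add i3 h3]
      exact integral_congr_ae (Eventually.of_forall fun x => by simp only; ring)
    rw [e]
    exact integral_nonneg_of_ae (hw.mono fun x hx => mul_nonneg hx (sq_nonneg _))
  have := discrim_le_zero h
  rw [discrim] at this
  nlinarith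

lemma integral_D_one : ∫ _ in D, (1 : ℝ) = π := by
  simp [Measure.real, Complex.volume_ball]

/-- The `L¹` norm is controlled by the `L²` norm. -/
lemma sq_integral_norm_le {E : Type*} [NormedAddCommGroup E] {f : ℂ → E}
    (hf : MemLp f 2 (volume.restrict D)) : (∫ z in D, ‖f z‖) ^ 2 ≤ π * ∫ z in D, ‖f z‖ ^ 2 := by
  have h := weighted_cs (m := volume.restrict D) (w := fun _ => 1) (f := fun _ => 1)
    (g := fun z => ‖f z‖) (Eventually.of_forall fun _ => zero_le_one) (by simp)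
    (by simpa using (integrableOn_of_memLp hf).norm) (by simpa [IntegrableOn] using integrableOn_norm_sq hf)
  simp only [one_mul, one_pow] at h
  rwa [integral_D_one] at h

/-- Scaling of integrals over discs. -/
lemma integral_ball_scale {E : Type*} [NormedAddCommGroup E] [NormedSpace ℝ E] (f : ℂ → E) {r : ℝ}
    (hr : 0 < r) : ∫ z in ball (0 : ℂ) r, f z = r ^ 2 • ∫ z in D, f (r * z) := by
  have h := Measure.setIntegral_comp_smul_of_pos volume f D hr
  rw [smul_unitBall_of_pos hr, finrank_real_complex] at h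
  simp only [real_smul] at h
  rw [h, smul_smul, mul_inv_cancel₀ (by positivity), one_smul]

lemma mul_mem_D {r : ℝ} (hr : 0 < r) (hr1 : r ≤ 1) {z : ℂ} (hz : z ∈ D) : (r : ℂ) * z ∈ D := by
  rw [mem_ball_zero_iff] at hz ⊢
  rw [norm_mul, norm_real, Real.norm_of_nonneg hr.le]
  nlinarith [norm_nonneg z]

lemma mul_mem_ball {r : ℝ} (hr : 0 < r) {z : ℂ} (hz : z ∈ D) : (r : ℂ) * z ∈ ball (0 : ℂ) r := by
  rw [mem_ball_zero_iff] at hz ⊢
  rw [norm_mul, norm_real, Real.norm_of_nonneg hr.le]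
  nlinarith [norm_nonneg z]

lemma mul_mem_D_of_lt {r : ℝ} (hr : 0 < r) (hr1 : r < 1) {z : ℂ} (hz : z ∈ closedBall (0 : ℂ) 1) :
    (r : ℂ) * z ∈ D := by
  rw [mem_closedBall_zero_iff] at hz
  rw [mem_ball_zero_iff, norm_mul, norm_real, Real.norm_of_nonneg hr.le]
  nlinarith [norm_nonneg z]

lemma integrableOn_ball_scale {E : Type*} [NormedAddCommGroup E] {f : ℂ → E} {r : ℝ}
    (hr : 0 < r) (hf : IntegrableOn f (ball (0 : ℂ) r)) : IntegrableOn (fun z => f (r * z)) D := by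
  have h := (integrable_comp_smul_iff volume ((ball (0 : ℂ) r).indicator f) hr.ne').2
    ((integrable_indicator_iff measurableSet_ball).2 hf)
  refine h.integrableOn.congr_fun (fun z hz => ?_) measurableSet_ball
  simp only [real_smul, indicator_of_mem (mul_mem_ball hr hz)]

lemma measurable_rho (φ : ℂ → ℂ) : Measurable (rho φ) :=
  (measurable_deriv φ).norm.pow_const 2

lemma rho_nonneg (φ : ℂ → ℂ) (z : ℂ) : 0 ≤ rho φ z := sq_nonneg _

lemma rho_eq (φ : ℂ → ℂ) (z : ℂ) : (rho φ z : ℂ) = deriv φ z * conj (deriv φ z) := by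
  rw [mul_conj, rho, normSq_eq_norm_sq]

lemma measurable_nu (φ : ℂ → ℂ) (μ r : ℝ) : Measurable (nu φ μ r) :=
  Measurable.ite measurableSet_ball
    (((measurable_rho φ).comp (measurable_const_mul _)).const_mul _) measurable_const

lemma nu_of_mem (φ : ℂ → ℂ) (μ r : ℝ) {z : ℂ} (hz : z ∈ D) :
    nu φ μ r z = r ^ 2 * μ * rho φ (r * z) := if_pos hz

lemma nu_one_of_mem (φ : ℂ → ℂ) (μ : ℝ) {z : ℂ} (hz : z ∈ D) : nu φ μ 1 z = μ * rho φ z := by
  rw [nu_of_mem φ μ 1 hz]; simp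

namespace Setup

variable {φ : ℂ → ℂ} {μ c C : ℝ} (S : Setup φ μ c C)
include S

lemma analyticAt {z : ℂ} (hz : z ∈ D) : AnalyticAt ℂ φ z :=
  S.diff.analyticAt (isOpen_ball.mem_nhds hz)

lemma analyticAt_deriv {z : ℂ} (hz : z ∈ D) : AnalyticAt ℂ (deriv φ) z := (S.analyticAt hz).deriv

lemma contDiffAt {n : WithTop ℕ∞} {z : ℂ} (hz : z ∈ D) : ContDiffAt ℝ n φ z :=
  (S.analyticAt hz).contDiffAt.restrict_scalars ℝ

lemma contDiffAt_deriv {n : WithTop ℕ∞} {z : ℂ} (hz : z ∈ D) : ContDiffAt ℝ n (deriv φ) z :=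
  (S.analyticAt_deriv hz).contDiffAt.restrict_scalars ℝ

lemma deriv_ne {z : ℂ} (hz : z ∈ D) : deriv φ z ≠ 0 :=
  norm_pos_iff.1 (S.c_pos.trans_le (S.lower z hz))

lemma C_pos : 0 < C :=
  S.c_pos.trans_le ((S.lower 0 (mem_ball_self one_pos)).trans (S.upper 0 (mem_ball_self one_pos)))

lemma rho_le {z : ℂ} (hz : z ∈ D) : rho φ z ≤ C ^ 2 :=
  pow_le_pow_left₀ (norm_nonneg _) (S.upper z hz) 2

lemma le_rho {z : ℂ} (hz : z ∈ D) : c ^ 2 ≤ rho φ z :=
  pow_le_pow_left₀ S.c_pos.le (S.lower z hz) 2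

lemma rho_pos1 {z : ℂ} (hz : z ∈ D) : 0 < rho φ z := (pow_pos S.c_pos 2).trans_le (S.le_rho hz)

lemma continuousAt_rho {z : ℂ} (hz : z ∈ D) : ContinuousAt (rho φ) z :=
  (S.analyticAt_deriv hz).continuousAt.norm.pow 2

lemma bm_deriv : BM (deriv φ) := ⟨(measurable_deriv φ).aestronglyMeasurable, C, S.upper⟩

lemma bm_rho : BM (rho φ) := S.bm_deriv.norm.sq

lemma bm_inv_deriv : BM fun z => (deriv φ z)⁻¹ :=
  ⟨(measurable_deriv φ).inv.aestronglyMeasurable, c⁻¹, fun z hz => by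
    rw [norm_inv]; exact inv_anti₀ S.c_pos (S.lower z hz)⟩

lemma bm_inv_rho : BM fun z => (rho φ z)⁻¹ :=
  S.bm_inv_deriv.norm.sq.congr fun z _ => by rw [norm_inv, inv_pow, rho]

lemma bm_div_deriv {f : ℂ → ℂ} (hf : BM f) : BM fun z => f z / deriv φ z := by
  simpa only [div_eq_mul_inv] using hf.mul S.bm_inv_deriv

lemma memLp_div_deriv {f : ℂ → ℂ} (hf : MemLp f 2 (volume.restrict D)) :
    MemLp (fun z => f z / deriv φ z) 2 (volume.restrict D) := by
  simpa only [div_eq_mul_inv] using S.bm_inv_deriv.memLp_mul hf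

lemma nu_nonneg (r : ℝ) (z : ℂ) : 0 ≤ nu φ μ r z := by
  unfold nu
  split_ifs
  · exact mul_nonneg (mul_nonneg (sq_nonneg _) S.mu_pos.le) (rho_nonneg _ _)
  · exact le_rfl

lemma nu_le {r : ℝ} (hr : 0 < r) (hr1 : r ≤ 1) (z : ℂ) : nu φ μ r z ≤ μ * C ^ 2 := by
  have := S.mu_pos
  unfold nu
  split_ifs with h
  · have h1 := S.rho_le (mul_mem_D hr hr1 h)
    have h2 : r ^ 2 ≤ 1 := pow_le_one₀ hr.le hr1
    have h3 := rho_nonneg φ (r * z)
    calc r ^ 2 * μ * rho φ (r * z) ≤ 1 * μ * C ^ 2 := by gcongr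
      _ = _ := by ring
  · positivity

lemma bm_nu {r : ℝ} (hr : 0 < r) (hr1 : r ≤ 1) : BM (nu φ μ r) :=
  ⟨(measurable_nu φ μ r).aestronglyMeasurable, μ * C ^ 2, fun z _ => by
    rw [Real.norm_of_nonneg (S.nu_nonneg r z)]; exact S.nu_le hr hr1 z⟩

lemma integral_rho_pos : 0 < ∫ z in D, rho φ z := by
  have h : ∫ _ in D, c ^ 2 * (1 : ℝ) ≤ ∫ z in D, rho φ z :=
    setIntegral_mono_on (BM.const _).integrableOn S.bm_rho.integrableOn measurableSet_ball
      fun z hz => by simpa using S.le_rho hz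
  rw [integral_const_mul, integral_D_one] at h
  have := Real.pi_pos
  have := S.c_pos
  exact lt_of_lt_of_le (by positivity) h

lemma exists_bound : ∃ B : ℝ, ∀ z ∈ D, ‖φ z‖ ≤ B := by
  refine ⟨‖φ 0‖ + C, fun z hz => ?_⟩
  have h := (convex_ball (0 : ℂ) 1).norm_image_sub_le_of_norm_deriv_le (f := φ) (C := C)
    (fun w hw => (S.analyticAt hw).differentiableAt) S.upper (mem_ball_self one_pos) hz
  have h1 : ‖z - 0‖ ≤ 1 := by simpa using (mem_ball_zero_iff.1 hz).le
  have h2 := S.C_pos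
  have h3 := norm_sub_norm_le (φ z) (φ 0)
  nlinarith

end Setup

end Vale.Agent.P071
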