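import Mathlib

/-!
# First and second order calculus on the plane
-/

open Complex Metric Set Filter Topology
open scoped ContDiff ComplexConjugate

namespace Vale.Agent.P071

section General

variable {E : Type*} [NormedAddCommGroup E] [NormedSpace ℝ E]

/-- Partial derivative in the real direction. -/
noncomputable def dx (f : ℂ → E) (z : ℂ) : E := fderiv ℝ f z 1

/-- Partial derivative in the imaginary direction. -/
noncomputable def dy (f : ℂ → E) (z : ℂ) : E := fderiv ℝ f z I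

/-- Laplacian. -/
noncomputable def lap (f : ℂ → E) (z : ℂ) : E := dx (dx f) z + dy (dy f) z

variable {f g : ℂ → E} {z : ℂ}

lemma fderiv_apply_eq (f : ℂ → E) (z w : ℂ) :
    fderiv ℝ f z w = w.re • dx f z + w.im • dy f z := by
  conv_lhs => rw [show w = w.re • (1 : ℂ) + w.im • I by simp]
  rw [map_add, map_smul, map_smul]; rfl

lemma dx_congr (h : f =ᶠ[𝓝 z] g) : dx f z = dx g z := by rw [dx, h.fderiv_eq]; rfl

lemma dy_congr (h : f =ᶠ[𝓝 z] g) : dy f z = dy g z := by rw [dy, h.fderiv_eq]; rfl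

lemma dx_eventuallyEq (h : f =ᶠ[𝓝 z] g) : dx f =ᶠ[𝓝 z] dx g :=
  h.eventuallyEq_nhds.mono fun _ hw => dx_congr hw

lemma dy_eventuallyEq (h : f =ᶠ[𝓝 z] g) : dy f =ᶠ[𝓝 z] dy g :=
  h.eventuallyEq_nhds.mono fun _ hw => dy_congr hw

lemma lap_congr (h : f =ᶠ[𝓝 z] g) : lap f z = lap g z := by
  rw [lap, lap, dx_congr (dx_eventuallyEq h), dy_congr (dy_eventuallyEq h)]

lemma dx_add (hf : DifferentiableAt ℝ f z) (hg : DifferentiableAt ℝ g z) :
    dx (fun w => f w + g w) z = dx f z + dx g z := by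
  unfold dx; rw [fderiv_fun_add hf hg]; rfl

lemma dy_add (hf : DifferentiableAt ℝ f z) (hg : DifferentiableAt ℝ g z) :
    dy (fun w => f w + g w) z = dy f z + dy g z := by
  unfold dy; rw [fderiv_fun_add hf hg]; rfl

lemma dx_sub (hf : DifferentiableAt ℝ f z) (hg : DifferentiableAt ℝ g z) :
    dx (fun w => f w - g w) z = dx f z - dx g z := by
  unfold dx; rw [fderiv_fun_sub hf hg]; rfl

lemma dy_sub (hf : DifferentiableAt ℝ f z) (hg : DifferentiableAt ℝ g z) :
    dy (fun w => f w - g w) z = dy f z - dy g z := by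
  unfold dy; rw [fderiv_fun_sub hf hg]; rfl

lemma dx_neg : dx (fun w => -f w) z = -dx f z := by
  unfold dx; rw [fderiv_fun_neg]; rfl

lemma dy_neg : dy (fun w => -f w) z = -dy f z := by
  unfold dy; rw [fderiv_fun_neg]; rfl

@[simp] lemma dx_const (c : E) : dx (fun _ => c) z = 0 := by simp [dx]

@[simp] lemma dy_const (c : E) : dy (fun _ => c) z = 0 := by simp [dy]

lemma dx_clm {F : Type*} [NormedAddCommGroup F] [NormedSpace ℝ F] (L : E →L[ℝ] F)
    (hf : DifferentiableAt ℝ f z) : dx (fun w => L (f w)) z = L (dx f z) := by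
  unfold dx
  rw [show (fun w => L (f w)) = L ∘ f from rfl, fderiv_comp z L.differentiableAt hf, L.fderiv]; rfl

lemma dy_clm {F : Type*} [NormedAddCommGroup F] [NormedSpace ℝ F] (L : E →L[ℝ] F)
    (hf : DifferentiableAt ℝ f z) : dy (fun w => L (f w)) z = L (dy f z) := by
  unfold dy
  rw [show (fun w => L (f w)) = L ∘ f from rfl, fderiv_comp z L.differentiableAt hf, L.fderiv]; rfl

lemma contDiffAt_dx {m n : WithTop ℕ∞} (hf : ContDiffAt ℝ n f z) (h : m + 1 ≤ n) :
    ContDiffAt ℝ m (dx f) z :=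
  (hf.fderiv_right h).clm_apply contDiffAt_const

lemma contDiffAt_dy {m n : WithTop ℕ∞} (hf : ContDiffAt ℝ n f z) (h : m + 1 ≤ n) :
    ContDiffAt ℝ m (dy f) z :=
  (hf.fderiv_right h).clm_apply contDiffAt_const

lemma differentiableAt_dx (hf : ContDiffAt ℝ 2 f z) : DifferentiableAt ℝ (dx f) z :=
  (contDiffAt_dx (m := 1) hf (by norm_num)).differentiableAt (by norm_num)

lemma differentiableAt_dy (hf : ContDiffAt ℝ 2 f z) : DifferentiableAt ℝ (dy f) z :=
  (contDiffAt_dy (m := 1) hf (by norm_num)).differentiableAt (by norm_num)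

lemma contDiffAt_lap {m n : WithTop ℕ∞} (hf : ContDiffAt ℝ n f z) (h : m + 2 ≤ n) :
    ContDiffAt ℝ m (lap f) z := by
  have h' : m + 1 + 1 ≤ n := by rwa [add_assoc, one_add_one_eq_two]
  exact (contDiffAt_dx (contDiffAt_dx hf h') le_rfl).add
    (contDiffAt_dy (contDiffAt_dy hf h') le_rfl)

lemma eventually_differentiableAt (hf : ContDiffAt ℝ 1 f z) :
    ∀ᶠ w in 𝓝 z, DifferentiableAt ℝ f w :=
  (hf.eventually (by simp)).mono fun _ h => h.differentiableAt (by norm_num)

lemma dx_dy_comm (hf : ContDiffAt ℝ 2 f z) : dx (dy f) z = dy (dx f) z := by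
  have h1 : DifferentiableAt ℝ (fderiv ℝ f) z :=
    (hf.fderiv_right (m := 1) (by norm_num)).differentiableAt (by norm_num)
  have h2 := (hf.isSymmSndFDerivAt (by simp)).eq 1 I
  unfold dx dy
  rw [fderiv_clm_apply h1 (differentiableAt_const _), fderiv_clm_apply h1 (differentiableAt_const _)]
  simpa using h2

lemma lap_add (hf : ContDiffAt ℝ 2 f z) (hg : ContDiffAt ℝ 2 g z) :
    lap (fun w => f w + g w) z = lap f z + lap g z := by
  have e := (eventually_differentiableAt (hf.of_le (by norm_num))).and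
    (eventually_differentiableAt (hg.of_le (by norm_num)))
  have e1 : dx (fun w => f w + g w) =ᶠ[𝓝 z] fun w => dx f w + dx g w :=
    e.mono fun w h => dx_add h.1 h.2
  have e2 : dy (fun w => f w + g w) =ᶠ[𝓝 z] fun w => dy f w + dy g w :=
    e.mono fun w h => dy_add h.1 h.2
  rw [lap, dx_congr e1, dy_congr e2, dx_add (differentiableAt_dx hf) (differentiableAt_dx hg),
    dy_add (differentiableAt_dy hf) (differentiableAt_dy hg), lap, lap]
  abel

lemma lap_clm {F : Type*} [NormedAddCommGroup F] [NormedSpace ℝ F] (L : E →L[ℝ] F)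
    (hf : ContDiffAt ℝ 2 f z) : lap (fun w => L (f w)) z = L (lap f z) := by
  have e := eventually_differentiableAt (hf.of_le (show (1 : WithTop ℕ∞) ≤ 2 by norm_num))
  have e1 : dx (fun w => L (f w)) =ᶠ[𝓝 z] fun w => L (dx f w) := e.mono fun w h => dx_clm L h
  have e2 : dy (fun w => L (f w)) =ᶠ[𝓝 z] fun w => L (dy f w) := e.mono fun w h => dy_clm L h
  rw [lap, dx_congr e1, dy_congr e2, dx_clm L (differentiableAt_dx hf),
    dy_clm L (differentiableAt_dy hf), lap, map_add]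

lemma lap_neg : lap (fun w => -f w) z = -lap f z := by
  have e1 : dx (fun w => -f w) = fun w => -dx f w := funext fun _ => dx_neg
  have e2 : dy (fun w => -f w) = fun w => -dy f w := funext fun _ => dy_neg
  rw [lap, e1, e2, dx_neg, dy_neg, lap]; abel

lemma lap_sub (hf : ContDiffAt ℝ 2 f z) (hg : ContDiffAt ℝ 2 g z) :
    lap (fun w => f w - g w) z = lap f z - lap g z := by
  simp only [sub_eq_add_neg]
  rw [lap_add hf hg.neg, lap_neg]

@[simp] lemma lap_const (c : E) : lap (fun _ => c) z = 0 := by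
  have e1 : dx (fun _ : ℂ => c) = fun _ => 0 := funext fun _ => dx_const c
  have e2 : dy (fun _ : ℂ => c) = fun _ => 0 := funext fun _ => dy_const c
  rw [lap, e1, e2]; simp

lemma norm_dx_le (f : ℂ → E) (z : ℂ) : ‖dx f z‖ ≤ ‖fderiv ℝ f z‖ := by
  simpa [dx] using (fderiv ℝ f z).le_opNorm 1

lemma norm_dy_le (f : ℂ → E) (z : ℂ) : ‖dy f z‖ ≤ ‖fderiv ℝ f z‖ := by
  simpa [dy] using (fderiv ℝ f z).le_opNorm I

lemma norm_fderiv_le (f : ℂ → E) (z : ℂ) : ‖fderiv ℝ f z‖ ≤ ‖dx f z‖ + ‖dy f z‖ := by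
  refine ContinuousLinearMap.opNorm_le_bound _ (by positivity) fun w => ?_
  rw [fderiv_apply_eq]
  refine (norm_add_le _ _).trans ?_
  rw [norm_smul, norm_smul, add_mul, mul_comm ‖dx f z‖, mul_comm ‖dy f z‖]
  gcongr
  · exact abs_re_le_norm w
  · exact abs_im_le_norm w

/-- Chain rule with a holomorphic inner function. -/
lemma dx_comp_holo {φ : ℂ → ℂ} (hf : DifferentiableAt ℝ f (φ z)) (hφ : DifferentiableAt ℂ φ z) :
    dx (fun w => f (φ w)) z = (deriv φ z).re • dx f (φ z) + (deriv φ z).im • dy f (φ z) := by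
  have h := hf.hasFDerivAt.comp z (hφ.hasDerivAt.hasFDerivAt.restrictScalars ℝ)
  unfold dx
  rw [show (fun w => f (φ w)) = f ∘ φ from rfl, h.fderiv]
  simp only [ContinuousLinearMap.comp_apply]
  rw [fderiv_apply_eq]
  simp [dx]

lemma dy_comp_holo {φ : ℂ → ℂ} (hf : DifferentiableAt ℝ f (φ z)) (hφ : DifferentiableAt ℂ φ z) :
    dy (fun w => f (φ w)) z = (-(deriv φ z).im) • dx f (φ z) + (deriv φ z).re • dy f (φ z) := by
  have h := hf.hasFDerivAt.comp z (hφ.hasDerivAt.hasFDerivAt.restrictScalars ℝ)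
  unfold dy
  rw [show (fun w => f (φ w)) = f ∘ φ from rfl, h.fderiv]
  simp only [ContinuousLinearMap.comp_apply]
  rw [fderiv_apply_eq]
  simp [dy]

end General

section Algebra

variable {A : Type*} [NormedCommRing A] [NormedAlgebra ℝ A] {f g : ℂ → A} {z : ℂ}

lemma dx_mul (hf : DifferentiableAt ℝ f z) (hg : DifferentiableAt ℝ g z) :
    dx (fun w => f w * g w) z = dx f z * g z + f z * dx g z := by
  unfold dx; rw [fderiv_fun_mul hf hg]; simp; ring

lemma dy_mul (hf : DifferentiableAt ℝ f z) (hg : DifferentiableAt ℝ g z) :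
    dy (fun w => f w * g w) z = dy f z * g z + f z * dy g z := by
  unfold dy; rw [fderiv_fun_mul hf hg]; simp; ring

lemma lap_mul (hf : ContDiffAt ℝ 2 f z) (hg : ContDiffAt ℝ 2 g z) :
    lap (fun w => f w * g w) z =
      lap f z * g z + 2 * (dx f z * dx g z + dy f z * dy g z) + f z * lap g z := by
  have hf1 := hf.differentiableAt (by norm_num)
  have hg1 := hg.differentiableAt (by norm_num)
  have e := (eventually_differentiableAt (hf.of_le (by norm_num))).and
    (eventually_differentiableAt (hg.of_le (by norm_num)))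
  have e1 : dx (fun w => f w * g w) =ᶠ[𝓝 z] fun w => dx f w * g w + f w * dx g w :=
    e.mono fun w h => dx_mul h.1 h.2
  have e2 : dy (fun w => f w * g w) =ᶠ[𝓝 z] fun w => dy f w * g w + f w * dy g w :=
    e.mono fun w h => dy_mul h.1 h.2
  have a1 := differentiableAt_dx hf
  have a2 := differentiableAt_dx hg
  have b1 := differentiableAt_dy hf
  have b2 := differentiableAt_dy hg
  rw [lap, dx_congr e1, dy_congr e2, dx_add (a1.fun_mul hg1) (hf1.fun_mul a2),
    dy_add (b1.fun_mul hg1) (hf1.fun_mul b2), dx_mul a1 hg1, dx_mul hf1 a2, dy_mul b1 hg1, dy_mul hf1 b2,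
    lap, lap]
  ring

end Algebra

section Wirtinger

/-- `dD = 2 ∂/∂z`. -/
noncomputable def dD (f : ℂ → ℂ) (z : ℂ) : ℂ := dx f z - I * dy f z

/-- `dB = 2 ∂/∂z̄`. -/
noncomputable def dB (f : ℂ → ℂ) (z : ℂ) : ℂ := dx f z + I * dy f z

variable {f g : ℂ → ℂ} {a : ℂ → ℝ} {z : ℂ}

lemma dD_congr (h : f =ᶠ[𝓝 z] g) : dD f z = dD g z := by rw [dD, dD, dx_congr h, dy_congr h]

lemma dB_congr (h : f =ᶠ[𝓝 z] g) : dB f z = dB g z := by rw [dB, dB, dx_congr h, dy_congr h]

lemma dD_add (hf : DifferentiableAt ℝ f z) (hg : DifferentiableAt ℝ g z) :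
    dD (fun w => f w + g w) z = dD f z + dD g z := by
  rw [dD, dx_add hf hg, dy_add hf hg, dD, dD]; ring

lemma dB_add (hf : DifferentiableAt ℝ f z) (hg : DifferentiableAt ℝ g z) :
    dB (fun w => f w + g w) z = dB f z + dB g z := by
  rw [dB, dx_add hf hg, dy_add hf hg, dB, dB]; ring

lemma dD_sub (hf : DifferentiableAt ℝ f z) (hg : DifferentiableAt ℝ g z) :
    dD (fun w => f w - g w) z = dD f z - dD g z := by
  rw [dD, dx_sub hf hg, dy_sub hf hg, dD, dD]; ring

lemma dB_sub (hf : DifferentiableAt ℝ f z) (hg : DifferentiableAt ℝ g z) :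
    dB (fun w => f w - g w) z = dB f z - dB g z := by
  rw [dB, dx_sub hf hg, dy_sub hf hg, dB, dB]; ring

lemma dD_neg : dD (fun w => -f w) z = -dD f z := by rw [dD, dx_neg, dy_neg, dD]; ring

lemma dB_neg : dB (fun w => -f w) z = -dB f z := by rw [dB, dx_neg, dy_neg, dB]; ring

lemma dD_mul (hf : DifferentiableAt ℝ f z) (hg : DifferentiableAt ℝ g z) :
    dD (fun w => f w * g w) z = dD f z * g z + f z * dD g z := by
  rw [dD, dx_mul hf hg, dy_mul hf hg, dD, dD]; ring

lemma dB_mul (hf : DifferentiableAt ℝ f z) (hg : DifferentiableAt ℝ g z) :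
    dB (fun w => f w * g w) z = dB f z * g z + f z * dB g z := by
  rw [dB, dx_mul hf hg, dy_mul hf hg, dB, dB]; ring

@[simp] lemma dD_const (c : ℂ) : dD (fun _ => c) z = 0 := by simp [dD]

@[simp] lemma dB_const (c : ℂ) : dB (fun _ => c) z = 0 := by simp [dB]

lemma dD_const_mul (c : ℂ) (hf : DifferentiableAt ℝ f z) :
    dD (fun w => c * f w) z = c * dD f z := by
  rw [dD_mul (differentiableAt_const c) hf]; simp

lemma dB_const_mul (c : ℂ) (hf : DifferentiableAt ℝ f z) :
    dB (fun w => c * f w) z = c * dB f z := by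
  rw [dB_mul (differentiableAt_const c) hf]; simp

lemma differentiableAt_conj' (hf : DifferentiableAt ℝ f z) :
    DifferentiableAt ℝ (fun w => conj (f w)) z :=
  (conjCLE.toContinuousLinearMap.differentiableAt).comp z hf

lemma contDiffAt_conj' {n : WithTop ℕ∞} (hf : ContDiffAt ℝ n f z) :
    ContDiffAt ℝ n (fun w => conj (f w)) z :=
  (conjCLE.toContinuousLinearMap.contDiff.contDiffAt).comp z hf

lemma differentiableAt_ofReal' (ha : DifferentiableAt ℝ a z) :
    DifferentiableAt ℝ (fun w => (a w : ℂ)) z :=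
  (ofRealCLM.differentiableAt).comp z ha

lemma contDiffAt_ofReal' {n : WithTop ℕ∞} (ha : ContDiffAt ℝ n a z) :
    ContDiffAt ℝ n (fun w => (a w : ℂ)) z :=
  (ofRealCLM.contDiff.contDiffAt).comp z ha

lemma contDiffAt_re' {n : WithTop ℕ∞} (hf : ContDiffAt ℝ n f z) :
    ContDiffAt ℝ n (fun w => (f w).re) z :=
  (reCLM.contDiff.contDiffAt).comp z hf

lemma contDiffAt_im' {n : WithTop ℕ∞} (hf : ContDiffAt ℝ n f z) :
    ContDiffAt ℝ n (fun w => (f w).im) z :=
  (imCLM.contDiff.contDiffAt).comp z hf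

lemma dx_conj (hf : DifferentiableAt ℝ f z) : dx (fun w => conj (f w)) z = conj (dx f z) :=
  dx_clm conjCLE.toContinuousLinearMap hf

lemma dy_conj (hf : DifferentiableAt ℝ f z) : dy (fun w => conj (f w)) z = conj (dy f z) :=
  dy_clm conjCLE.toContinuousLinearMap hf

lemma dx_ofReal (ha : DifferentiableAt ℝ a z) : dx (fun w => (a w : ℂ)) z = (dx a z : ℝ) :=
  dx_clm ofRealCLM ha

lemma dy_ofReal (ha : DifferentiableAt ℝ a z) : dy (fun w => (a w : ℂ)) z = (dy a z : ℝ) :=
  dy_clm ofRealCLM ha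

lemma lap_ofReal (ha : ContDiffAt ℝ 2 a z) : lap (fun w => (a w : ℂ)) z = (lap a z : ℝ) :=
  lap_clm ofRealCLM ha

lemma lap_conj (hf : ContDiffAt ℝ 2 f z) : lap (fun w => conj (f w)) z = conj (lap f z) :=
  lap_clm conjCLE.toContinuousLinearMap hf

lemma dx_re (hf : DifferentiableAt ℝ f z) : dx (fun w => (f w).re) z = (dx f z).re :=
  dx_clm reCLM hf

lemma dy_re (hf : DifferentiableAt ℝ f z) : dy (fun w => (f w).re) z = (dy f z).re :=
  dy_clm reCLM hf

lemma dx_im (hf : DifferentiableAt ℝ f z) : dx (fun w => (f w).im) z = (dx f z).im :=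
  dx_clm imCLM hf

lemma dy_im (hf : DifferentiableAt ℝ f z) : dy (fun w => (f w).im) z = (dy f z).im :=
  dy_clm imCLM hf

lemma lap_re (hf : ContDiffAt ℝ 2 f z) : lap (fun w => (f w).re) z = (lap f z).re :=
  lap_clm reCLM hf

lemma lap_im (hf : ContDiffAt ℝ 2 f z) : lap (fun w => (f w).im) z = (lap f z).im :=
  lap_clm imCLM hf

lemma dD_conj (hf : DifferentiableAt ℝ f z) : dD (fun w => conj (f w)) z = conj (dB f z) := by
  rw [dD, dx_conj hf, dy_conj hf, dB]; simp [sub_eq_add_neg]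

lemma dB_conj (hf : DifferentiableAt ℝ f z) : dB (fun w => conj (f w)) z = conj (dD f z) := by
  rw [dB, dx_conj hf, dy_conj hf, dD]; simp

lemma dD_ofReal (ha : DifferentiableAt ℝ a z) :
    dD (fun w => (a w : ℂ)) z = (dx a z : ℝ) - I * (dy a z : ℝ) := by
  rw [dD, dx_ofReal ha, dy_ofReal ha]

lemma dB_ofReal (ha : DifferentiableAt ℝ a z) :
    dB (fun w => (a w : ℂ)) z = (dx a z : ℝ) + I * (dy a z : ℝ) := by
  rw [dB, dx_ofReal ha, dy_ofReal ha]

lemma dB_ofReal_eq_conj (ha : DifferentiableAt ℝ a z) :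
    dB (fun w => (a w : ℂ)) z = conj (dD (fun w => (a w : ℂ)) z) := by
  rw [dB_ofReal ha, dD_ofReal ha]; simp

lemma norm_dD_ofReal_sq (ha : DifferentiableAt ℝ a z) :
    ‖dD (fun w => (a w : ℂ)) z‖ ^ 2 = dx a z ^ 2 + dy a z ^ 2 := by
  rw [dD_ofReal ha, Complex.sq_norm, normSq_apply]; simp; ring

lemma contDiffAt_dD {m n : WithTop ℕ∞} (hf : ContDiffAt ℝ n f z) (h : m + 1 ≤ n) :
    ContDiffAt ℝ m (dD f) z :=
  (contDiffAt_dx hf h).sub (contDiffAt_const.mul (contDiffAt_dy hf h))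

lemma contDiffAt_dB {m n : WithTop ℕ∞} (hf : ContDiffAt ℝ n f z) (h : m + 1 ≤ n) :
    ContDiffAt ℝ m (dB f) z :=
  (contDiffAt_dx hf h).add (contDiffAt_const.mul (contDiffAt_dy hf h))

lemma dB_dD (hf : ContDiffAt ℝ 2 f z) : dB (dD f) z = lap f z := by
  have a := differentiableAt_dx hf
  have b := differentiableAt_dy hf
  have : dD f = fun w => dx f w - I * dy f w := rfl
  rw [this, dB_sub a (b.const_mul I), dB_const_mul I b, dB, dB, lap,
    dx_dy_comm hf]
  linear_combination (-(dy (dy f) z)) * I_mul_I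

lemma dD_dB (hf : ContDiffAt ℝ 2 f z) : dD (dB f) z = lap f z := by
  have a := differentiableAt_dx hf
  have b := differentiableAt_dy hf
  have : dB f = fun w => dx f w + I * dy f w := rfl
  rw [this, dD_add a (b.const_mul I), dD_const_mul I b, dD, dD, lap,
    dx_dy_comm hf]
  linear_combination (-(dy (dy f) z)) * I_mul_I

lemma dx_holo (hf : DifferentiableAt ℂ f z) : dx f z = deriv f z := by
  rw [dx, (hf.hasDerivAt.hasFDerivAt.restrictScalars ℝ).fderiv]; simp

lemma dy_holo (hf : DifferentiableAt ℂ f z) : dy f z = I * deriv f z := by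
  rw [dy, (hf.hasDerivAt.hasFDerivAt.restrictScalars ℝ).fderiv]; simp

lemma dB_holo (hf : DifferentiableAt ℂ f z) : dB f z = 0 := by
  rw [dB, dx_holo hf, dy_holo hf]; linear_combination (deriv f z) * I_mul_I

lemma dD_holo (hf : DifferentiableAt ℂ f z) : dD f z = 2 * deriv f z := by
  rw [dD, dx_holo hf, dy_holo hf]; linear_combination (-deriv f z) * I_mul_I

lemma dD_comp_holo {φ : ℂ → ℂ} (hf : DifferentiableAt ℝ f (φ z)) (hφ : DifferentiableAt ℂ φ z) :
    dD (fun w => f (φ w)) z = deriv φ z * dD f (φ z) := by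
  rw [dD, dx_comp_holo hf hφ, dy_comp_holo hf hφ, dD]
  conv_rhs => rw [← re_add_im (deriv φ z)]
  simp only [real_smul, ofReal_neg]
  linear_combination ((deriv φ z).im * dy f (φ z)) * I_mul_I

lemma dB_comp_holo {φ : ℂ → ℂ} (hf : DifferentiableAt ℝ f (φ z)) (hφ : DifferentiableAt ℂ φ z) :
    dB (fun w => f (φ w)) z = conj (deriv φ z) * dB f (φ z) := by
  rw [dB, dx_comp_holo hf hφ, dy_comp_holo hf hφ, dB]
  conv_rhs => rw [← re_add_im (deriv φ z)]
  simp only [real_smul, ofReal_neg, map_add, map_mul, conj_ofReal, conj_I]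
  linear_combination ((deriv φ z).im * dy f (φ z)) * I_mul_I

/-- The Laplacian of a composition with a holomorphic map. -/
lemma lap_comp_holo {φ : ℂ → ℂ} (hf : ContDiffAt ℝ 2 f (φ z)) (hφ : AnalyticAt ℂ φ z) :
    lap (fun w => f (φ w)) z = (‖deriv φ z‖ ^ 2 : ℝ) * lap f (φ z) := by
  have hφ2 : ContDiffAt ℝ 2 φ z := (hφ.contDiffAt (n := 2)).restrict_scalars ℝ
  have h1 : ContDiffAt ℝ 2 (fun w => f (φ w)) z := hf.comp z hφ2
  have e1 : ∀ᶠ w in 𝓝 z, DifferentiableAt ℝ f (φ w) :=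
    hφ.continuousAt.eventually (eventually_differentiableAt (hf.of_le (by norm_num)))
  have e2 : dD (fun w => f (φ w)) =ᶠ[𝓝 z] fun w => deriv φ w * dD f (φ w) := by
    filter_upwards [e1, hφ.eventually_analyticAt] with w h1 h2
    exact dD_comp_holo h1 h2.differentiableAt
  have d1 : DifferentiableAt ℝ (dD f) (φ z) :=
    (contDiffAt_dD (m := 1) hf (by norm_num)).differentiableAt (by norm_num)
  have d2 : DifferentiableAt ℂ (deriv φ) z := hφ.deriv.differentiableAt
  have d3 : DifferentiableAt ℝ (fun w => dD f (φ w)) z :=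
    d1.comp z (hφ.differentiableAt.restrictScalars ℝ)
  rw [← dB_dD h1, dB_congr e2, dB_mul (d2.restrictScalars ℝ) d3, dB_holo d2,
    dB_comp_holo d1 hφ.differentiableAt, dB_dD hf, zero_mul, zero_add, ← mul_assoc, mul_conj,
    normSq_eq_norm_sq]

lemma lap_comp_holo_real {φ : ℂ → ℂ} (ha : ContDiffAt ℝ 2 a (φ z)) (hφ : AnalyticAt ℂ φ z) :
    lap (fun w => a (φ w)) z = ‖deriv φ z‖ ^ 2 * lap a (φ z) := by
  have hφ2 : ContDiffAt ℝ 2 φ z := (hφ.contDiffAt (n := 2)).restrict_scalars ℝ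
  have h := lap_comp_holo (f := fun w => (a w : ℂ)) (contDiffAt_ofReal' ha) hφ
  rw [lap_ofReal (a := fun w => a (φ w)) (ha.comp z hφ2), lap_ofReal ha] at h
  exact_mod_cast h

lemma norm_dD_le (f : ℂ → ℂ) (z : ℂ) : ‖dD f z‖ ≤ 2 * ‖fderiv ℝ f z‖ := by
  refine (norm_sub_le _ _).trans ?_
  rw [norm_mul, norm_I, one_mul]
  linarith [norm_dx_le f z, norm_dy_le f z]

lemma norm_dB_le (f : ℂ → ℂ) (z : ℂ) : ‖dB f z‖ ≤ 2 * ‖fderiv ℝ f z‖ := by
  refine (norm_add_le _ _).trans ?_
  rw [norm_mul, norm_I, one_mul]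
  linarith [norm_dx_le f z, norm_dy_le f z]

lemma norm_fderiv_le_dD_dB (f : ℂ → ℂ) (z : ℂ) : ‖fderiv ℝ f z‖ ≤ ‖dD f z‖ + ‖dB f z‖ := by
  have h1 : dx f z = (1 / 2 : ℂ) * (dD f z + dB f z) := by rw [dD, dB]; ring
  have h2 : dy f z = (I / 2 : ℂ) * (dD f z - dB f z) := by
    rw [dD, dB]; linear_combination (dy f z) * I_mul_I
  refine (norm_fderiv_le f z).trans ?_
  rw [h1, h2, norm_mul, norm_mul]
  have := norm_add_le (dD f z) (dB f z)
  have := norm_sub_le (dD f z) (dB f z)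
  simp only [norm_div, norm_one, norm_I, Complex.norm_ofNat]
  linarith

/-- The real derivative in terms of the Wirtinger derivatives. -/
lemma fderiv_apply_eq_dD_dB (f : ℂ → ℂ) (z w : ℂ) :
    fderiv ℝ f z w = (w * dD f z + conj w * dB f z) / 2 := by
  rw [fderiv_apply_eq, dD, dB]
  conv_rhs => rw [← re_add_im w]
  simp only [real_smul, map_add, map_mul, conj_ofReal, conj_I]
  linear_combination (w.im * dy f z) * I_mul_I

end Wirtinger

end Vale.Agent.P071
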