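import Vale.Agent.P071.Defs
import Vale.Agent.Lib.RiemannMapping

open Metric Set

namespace Vale.Agent.P071

/-- A conformal parametrisation of `Ω` by the unit disc with two-sided derivative bounds. -/
structure ConfMap (Ω : Set ℂ) (p : ℂ) (φ ψ : ℂ → ℂ) (c C : ℝ) : Prop where
  isOpen : IsOpen Ω
  c_pos : 0 < c
  diff : DifferentiableOn ℂ φ (ball 0 1)
  diff' : DifferentiableOn ℂ ψ Ω
  maps : MapsTo φ (ball 0 1) Ω
  maps' : MapsTo ψ Ω (ball 0 1)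
  left : ∀ z ∈ ball (0 : ℂ) 1, ψ (φ z) = z
  right : ∀ x ∈ Ω, φ (ψ x) = x
  zero : φ 0 = p
  lower : ∀ z ∈ ball (0 : ℂ) 1, c ≤ ‖deriv φ z‖
  upper : ∀ z ∈ ball (0 : ℂ) 1, ‖deriv φ z‖ ≤ C

open Filter Topology in
lemma conf_local_ball {Ω : Set ℂ} (hopen : IsOpen Ω) (hC2 : HasC2Boundary Ω) {y0 : ℂ}
    (hy0 : y0 ∈ frontier Ω) : ∃ δ : ℝ, 0 < δ ∧ ∃ R0 : ℝ, 0 < R0 ∧ ∀ R : ℝ, 0 < R → R ≤ R0 →
      ∀ y ∈ ball y0 δ, y ∈ frontier Ω → ∃ n : ℂ, ‖n‖ = 1 ∧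
      ball (y - R * n) R ⊆ Ω ∧ ball (y + R * n) R ⊆ Ωᶜ := by
  obtain ⟨ε, F, hε, hF, hF0, hΩ⟩ := hC2 y0 hy0
  have hFa : ContDiffAt ℝ 2 F y0 := hF.contDiffAt (ball_mem_nhds y0 hε)
  have hF1 : ContDiffAt ℝ 1 (fderiv ℝ F) y0 := hFa.fderiv_right (by norm_num)
  obtain ⟨K, t, ht, hK⟩ := hF1.exists_lipschitzOnWith
  set m := ‖fderiv ℝ F y0‖ / 2 with hm
  have hm0 : 0 < m := by
    have := norm_pos_iff.2 hF0
    positivity
  have hev : ∀ᶠ y in 𝓝 y0, m < ‖fderiv ℝ F y‖ :=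
    hF1.continuousAt.norm.eventually (lt_mem_nhds (by linarith))
  obtain ⟨δ, hδ, hball⟩ := Metric.nhds_basis_ball.eventually_iff.1
    (hev.and (Eventually.and ht (ball_mem_nhds y0 hε)))
  have hdiff : ∀ z ∈ ball y0 ε, HasFDerivAt F (fderiv ℝ F z) z := fun z hz =>
    ((hF.contDiffAt (isOpen_ball.mem_nhds hz)).differentiableAt (by norm_num)).hasFDerivAt
  refine ⟨δ / 2, by positivity, min (δ / 4) (m / (2 * (K + 1))), by positivity, ?_⟩
  intro R hR hR0 y hy hyf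
  have hR1 : R ≤ δ / 4 := hR0.trans (min_le_left _ _)
  have hR2 : 2 * R * K ≤ m := by
    have h1 : R ≤ m / (2 * (K + 1)) := hR0.trans (min_le_right _ _)
    rw [le_div_iff₀ (by positivity)] at h1
    nlinarith
  have hyδ : y ∈ ball y0 δ := ball_subset_ball (by linarith) hy
  have hFy : F y = 0 := by
    rw [hopen.frontier_eq] at hyf
    refine le_antisymm ?_ (not_lt.1 (fun h => hyf.2 ((hΩ y (hball hyδ).2.2).2 h)))
    by_contra hc
    have h1 : ∀ᶠ z in 𝓝 y, 0 < F z :=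
      (hdiff y (hball hyδ).2.2).continuousAt.eventually (lt_mem_nhds (not_le.1 hc))
    obtain ⟨z, hz1, hz2, hz3⟩ := ((mem_closure_iff_frequently.1 hyf.1).and_eventually
      (h1.and (isOpen_ball.mem_nhds (hball hyδ).2.2))).exists
    exact absurd ((hΩ z hz3).1 hz1) (not_lt.2 hz2.le)
  set L := fderiv ℝ F y with hL
  have hLm : m < ‖L‖ := (hball hyδ).1
  have hsub : ∀ z : ℂ, ‖z - y‖ < 2 * R → closedBall y ‖z - y‖ ⊆ ball y0 δ := by
    intro z hz w hw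
    have h1 := dist_triangle w y y0
    rw [mem_closedBall] at hw
    rw [mem_ball] at hy ⊢
    linarith
  have htaylor : ∀ z : ℂ, ‖z - y‖ < 2 * R → |F z - L (z - y)| ≤ K * ‖z - y‖ * ‖z - y‖ := by
    intro z hz
    have h := (convex_closedBall y ‖z - y‖).norm_image_sub_le_of_norm_hasFDerivWithin_le'
      (f := F) (f' := fderiv ℝ F) (φ := L) (C := K * ‖z - y‖)
      (fun w hw => (hdiff w (hball (hsub z hz hw)).2.2).hasFDerivWithinAt)
      (fun w hw => by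
        have h1 := hK.dist_le_mul w (hball (hsub z hz hw)).2.1 y (hball hyδ).2.1
        rw [dist_eq_norm] at h1
        exact h1.trans (mul_le_mul_of_nonneg_left (mem_closedBall.1 hw) K.2))
      (mem_closedBall_self (norm_nonneg _)) (by rw [mem_closedBall, dist_eq_norm] : z ∈ _)
    rwa [hFy, sub_zero, Real.norm_eq_abs] at h
  set g : ℂ := (InnerProductSpace.toDual ℝ ℂ).symm L with hg
  have hgn : ‖g‖ = ‖L‖ := LinearIsometryEquiv.norm_map _ _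
  have hgL : ∀ w, L w = inner ℝ g w := fun w => InnerProductSpace.toDual_symm_apply.symm
  have hL0 : 0 < ‖L‖ := hm0.trans hLm
  set n : ℂ := ‖L‖⁻¹ • g with hn
  have hn1 : ‖n‖ = 1 := by
    rw [hn, norm_smul, hgn, norm_inv, norm_norm, inv_mul_cancel₀ hL0.ne']
  have hLn : ∀ w, L w = ‖L‖ * inner ℝ w n := by
    intro w
    rw [hgL, hn, inner_smul_right, real_inner_comm, ← mul_assoc, mul_inv_cancel₀ hL0.ne', one_mul]
  have hRn : (R : ℂ) * n = R • n := Complex.real_smul.symm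
  have hRnn : ‖R • n‖ = R := by rw [norm_smul, hn1, mul_one, Real.norm_of_nonneg hR.le]
  refine ⟨n, hn1, fun z hz => ?_, fun z hz => ?_⟩
  · rw [mem_ball, dist_eq_norm, hRn] at hz
    have h1 : z - (y - R • n) = (z - y) + R • n := by ring
    rw [h1] at hz
    have h2 : ‖z - y‖ < 2 * R := by
      have := norm_sub_le (z - y + R • n) (R • n)
      rw [add_sub_cancel_right, hRnn] at this
      linarith
    have h3 := norm_add_sq_real (z - y) (R • n)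
    rw [hRnn, inner_smul_right] at h3
    have h4 : ‖z - y + R • n‖ ^ 2 < R ^ 2 := by gcongr
    have h5 := (abs_le.1 (htaylor z h2)).2
    rw [hLn] at h5
    refine (hΩ z (hball (hsub z h2 (by rw [mem_closedBall, dist_eq_norm]))).2.2).2 ?_
    have h6 : 2 * (R * inner ℝ (z - y) n) < -‖z - y‖ ^ 2 := by linarith
    have h7 := mul_lt_mul_of_pos_left h6 hL0
    have h8 : 2 * R * K * ‖z - y‖ ^ 2 ≤ ‖L‖ * ‖z - y‖ ^ 2 := by gcongr; linarith
    have h9 : R * F z < 0 := by nlinarith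
    by_contra hc
    exact absurd h9 (not_lt.2 (mul_nonneg hR.le (not_lt.1 hc)))
  · rw [mem_ball, dist_eq_norm, hRn] at hz
    have h1 : z - (y + R • n) = (z - y) - R • n := by ring
    rw [h1] at hz
    have h2 : ‖z - y‖ < 2 * R := by
      have := norm_add_le (z - y - R • n) (R • n)
      rw [sub_add_cancel, hRnn] at this
      linarith
    have h3 := norm_sub_sq_real (z - y) (R • n)
    rw [hRnn, inner_smul_right] at h3
    have h4 : ‖z - y - R • n‖ ^ 2 < R ^ 2 := by gcongr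
    have h5 := (abs_le.1 (htaylor z h2)).1
    rw [hLn] at h5
    intro hzΩ
    have h10 := (hΩ z (hball (hsub z h2 (by rw [mem_closedBall, dist_eq_norm]))).2.2).1 hzΩ
    have h6 : ‖z - y‖ ^ 2 < 2 * (R * inner ℝ (z - y) n) := by linarith
    have h7 := mul_lt_mul_of_pos_left h6 hL0
    have h8 : 2 * R * K * ‖z - y‖ ^ 2 ≤ ‖L‖ * ‖z - y‖ ^ 2 := by gcongr; linarith
    have h9 : 0 < R * F z := by nlinarith
    nlinarith

open Filter Topology in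
/-- Uniform two-sided ball condition for bounded `C²` domains. -/
theorem two_sided_ball {Ω : Set ℂ} (hopen : IsOpen Ω) (hbdd : Bornology.IsBounded Ω)
    (hC2 : HasC2Boundary Ω) : ∃ R : ℝ, 0 < R ∧ ∀ y ∈ frontier Ω, ∃ n : ℂ, ‖n‖ = 1 ∧
      ball (y - R * n) R ⊆ Ω ∧ ball (y + R * n) R ⊆ Ωᶜ := by
  have hK : IsCompact (frontier Ω) :=
    Metric.isCompact_of_isClosed_isBounded isClosed_frontier
      (hbdd.closure.subset frontier_subset_closure)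
  have key : ∃ R0 : ℝ, 0 < R0 ∧ ∀ R : ℝ, 0 < R → R ≤ R0 → ∀ y ∈ frontier Ω, y ∈ frontier Ω →
      ∃ n : ℂ, ‖n‖ = 1 ∧ ball (y - R * n) R ⊆ Ω ∧ ball (y + R * n) R ⊆ Ωᶜ := by
    refine hK.induction_on (p := fun s => ∃ R0 : ℝ, 0 < R0 ∧ ∀ R : ℝ, 0 < R → R ≤ R0 →
      ∀ y ∈ s, y ∈ frontier Ω →
      ∃ n : ℂ, ‖n‖ = 1 ∧ ball (y - R * n) R ⊆ Ω ∧ ball (y + R * n) R ⊆ Ωᶜ) ?_ ?_ ?_ ?_
    · exact ⟨1, one_pos, fun _ _ _ y hy => absurd hy (notMem_empty y)⟩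
    · rintro s t hst ⟨R0, h0, h⟩
      exact ⟨R0, h0, fun R h1 h2 y hy => h R h1 h2 y (hst hy)⟩
    · rintro s t ⟨R0, h0, h⟩ ⟨R1, h1, h'⟩
      refine ⟨min R0 R1, lt_min h0 h1, fun R h2 h3 y hy => ?_⟩
      rcases hy with hy | hy
      · exact h R h2 (h3.trans (min_le_left _ _)) y hy
      · exact h' R h2 (h3.trans (min_le_right _ _)) y hy
    · intro y0 hy0
      obtain ⟨δ, hδ, h⟩ := conf_local_ball hopen hC2 hy0
      exact ⟨ball y0 δ, mem_nhdsWithin_of_mem_nhds (ball_mem_nhds _ hδ), h⟩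
  obtain ⟨R0, h0, h⟩ := key
  exact ⟨R0, h0, fun y hy => h R0 h0 le_rfl y hy hy⟩

open Vale.Agent.Lib.RMT

lemma conf_mob_bound {a w : ℂ} {s : ℝ} (hs : s < 1) (ha : ‖a‖ ≤ s) (hw : ‖w‖ ≤ 1) :
    (1 - ‖mob a w‖ ^ 2) * (1 - s) ^ 2 ≤ 1 - ‖w‖ ^ 2 := by
  have ha' : ‖a‖ < 1 := ha.trans_lt hs
  have h1 : 1 - s ≤ ‖1 - (starRingEnd ℂ) a * w‖ := by
    have h2 := norm_sub_norm_le (1 : ℂ) ((starRingEnd ℂ) a * w)
    rw [norm_one, norm_mul, RCLike.norm_conj] at h2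
    nlinarith [norm_nonneg a, norm_nonneg w]
  have h3 : 0 < ‖1 - (starRingEnd ℂ) a * w‖ := by linarith
  have h4 : 0 ≤ 1 - ‖w‖ ^ 2 := by nlinarith [norm_nonneg w]
  have h5 : 0 ≤ 1 - ‖a‖ ^ 2 := by nlinarith [norm_nonneg a]
  have h6 : (1 - s) ^ 2 ≤ ‖1 - (starRingEnd ℂ) a * w‖ ^ 2 := by gcongr
  rw [one_sub_norm_mob_sq ha' hw, div_mul_eq_mul_div, div_le_iff₀ (by positivity)]
  calc (1 - ‖a‖ ^ 2) * (1 - ‖w‖ ^ 2) * (1 - s) ^ 2
      ≤ 1 * (1 - ‖w‖ ^ 2) * ‖1 - (starRingEnd ℂ) a * w‖ ^ 2 := by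
        gcongr
        nlinarith [norm_nonneg a]
    _ = _ := by ring

lemma conf_nearest {Ω : Set ℂ} (hopen : IsOpen Ω) (hne : Ωᶜ.Nonempty) {x : ℂ} (hx : x ∈ Ω) :
    0 < infDist x Ωᶜ ∧ ball x (infDist x Ωᶜ) ⊆ Ω ∧
      ∃ y ∈ frontier Ω, ‖x - y‖ = infDist x Ωᶜ := by
  have h1 : 0 < infDist x Ωᶜ :=
    (hopen.isClosed_compl.notMem_iff_infDist_pos hne).1 (by simpa using hx)
  have h2 : ball x (infDist x Ωᶜ) ⊆ Ω := by
    simpa using (ball_infDist_subset_compl (x := x) (s := Ωᶜ))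
  obtain ⟨y, hy, hxy⟩ := hopen.isClosed_compl.exists_infDist_eq_dist hne x
  refine ⟨h1, h2, y, ?_, by rw [hxy, dist_eq_norm]⟩
  rw [hopen.frontier_eq]
  refine ⟨closure_mono h2 ?_, hy⟩
  rw [closure_ball x h1.ne', mem_closedBall, dist_comm, hxy]

lemma conf_far {Ω : Set ℂ} {x c : ℂ} {d R : ℝ} (hd : 0 < d) (hR : 0 < R) (h1 : ball x d ⊆ Ω)
    (h2 : ball c R ⊆ Ωᶜ) : d + R ≤ ‖x - c‖ := by
  rw [← dist_eq_norm, ← disjoint_ball_ball_iff hd hR]
  exact Disjoint.mono h1 h2 disjoint_compl_right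

open Filter Topology in
lemma conf_e1 {Ω : Set ℂ} (hopen : IsOpen Ω) {φ ψ : ℂ → ℂ} (hφ : DifferentiableOn ℂ φ (ball 0 1))
    (hψ : DifferentiableOn ℂ ψ Ω) (hm : MapsTo φ (ball 0 1) Ω) (hm' : MapsTo ψ Ω (ball 0 1))
    (hl : ∀ z ∈ ball (0 : ℂ) 1, ψ (φ z) = z) {z : ℂ} (hz : z ∈ ball (0 : ℂ) 1) {d : ℝ}
    (hd : 0 < d) (hbx : ball (φ z) d ⊆ Ω) : d ≤ ‖deriv φ z‖ * (1 - ‖z‖ ^ 2) := by
  have hφz : HasDerivAt φ (deriv φ z) z :=
    (hφ.differentiableAt (isOpen_ball.mem_nhds hz)).hasDerivAt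
  have h1 := norm_deriv_le_of_ball hd (hψ.mono hbx)
    (fun w hw => ball_subset_closedBall (hm' (hbx hw)))
    (by rw [hl z hz]; exact mem_ball_zero_iff.1 hz)
  rw [hl z hz, le_div_iff₀ hd] at h1
  have h2 := ((hψ.differentiableAt (hopen.mem_nhds (hm hz))).hasDerivAt.comp z hφz).deriv
  have h3 : (ψ ∘ φ) =ᶠ[𝓝 z] id := mem_of_superset (isOpen_ball.mem_nhds hz) hl
  rw [h3.deriv_eq, deriv_id] at h2
  have h4 : ‖deriv ψ (φ z)‖ * ‖deriv φ z‖ = 1 := by rw [← norm_mul, ← h2, norm_one]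
  calc d = ‖deriv φ z‖ * (‖deriv ψ (φ z)‖ * d) := by
        rw [← mul_assoc, mul_comm ‖deriv φ z‖, h4, one_mul]
    _ ≤ _ := by gcongr

lemma conf_e23 {φ : ℂ → ℂ} (hφ : DifferentiableOn ℂ φ (ball 0 1)) {q : ℂ} {R d s0 : ℝ}
    (hR : 0 < R) (hd : 0 < d) (hs01 : s0 < 1) (hfar : ∀ w ∈ ball (0 : ℂ) 1, R ≤ ‖φ w - q‖)
    (h0 : R / ‖φ 0 - q‖ ≤ s0) {z : ℂ} (hz : z ∈ ball (0 : ℂ) 1) (hdist : ‖φ z - q‖ = d + R) :
    ‖deriv φ z‖ * (1 - ‖z‖ ^ 2) * R ≤ d * (2 * R + d) ∧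
      (1 - ‖z‖ ^ 2) * (1 - s0) ^ 2 * R ≤ 2 * d := by
  have hz1 : ‖z‖ < 1 := mem_ball_zero_iff.1 hz
  have hφz : HasDerivAt φ (deriv φ z) z :=
    (hφ.differentiableAt (isOpen_ball.mem_nhds hz)).hasDerivAt
  have hnz : ∀ w ∈ ball (0 : ℂ) 1, φ w - q ≠ 0 := fun w hw =>
    norm_pos_iff.1 (hR.trans_le (hfar w hw))
  set G : ℂ → ℂ := fun w => (R : ℂ) / (φ w - q) with hG
  have hGn : ∀ w, ‖G w‖ = R / ‖φ w - q‖ := by
    intro w
    rw [hG]
    simp only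
    rw [norm_div, Complex.norm_real, Real.norm_of_nonneg hR.le]
  have hGd : DifferentiableOn ℂ G (ball 0 1) :=
    (differentiableOn_const _).div (hφ.sub_const _) hnz
  have hGm : MapsTo G (ball 0 1) (closedBall 0 1) := by
    intro w hw
    rw [mem_closedBall_zero_iff, hGn, div_le_one (hR.trans_le (hfar w hw))]
    exact hfar w hw
  have hGz : ‖G z‖ = R / (d + R) := by rw [hGn, hdist]
  have hGz1 : ‖G z‖ < 1 := by
    rw [hGz, div_lt_one (by positivity)]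
    linarith
  have h3 : 1 - (R / (d + R)) ^ 2 = d * (2 * R + d) / (d + R) ^ 2 := by
    field_simp
    ring
  constructor
  · have h1 := schwarz_pick hGd hGm hz1 hGz1
    have h2 : HasDerivAt G ((0 * (φ z - q) - R * deriv φ z) / (φ z - q) ^ 2) z :=
      (hasDerivAt_const z (R : ℂ)).fun_div (hφz.sub_const _) (hnz z hz)
    rw [h2.deriv, hGz, zero_mul, zero_sub, norm_div, norm_neg, norm_mul, norm_pow, hdist,
      Complex.norm_real, Real.norm_of_nonneg hR.le] at h1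
    rw [h3, div_mul_eq_mul_div, div_le_div_iff_of_pos_right (by positivity)] at h1
    linarith
  · have hG0 : ‖G 0‖ ≤ s0 := by rwa [hGn]
    have h1 := norm_mob_le_of_ball hGd hGm (hG0.trans_lt hs01) hz
    rw [sub_zero, div_one] at h1
    have h2 := conf_mob_bound hs01 hG0 hGz1.le
    have h4 : 1 - ‖G z‖ ^ 2 ≤ 2 * d / R := by
      rw [hGz, h3, div_le_div_iff₀ (by positivity) hR]
      nlinarith [mul_pos hd hR, mul_pos hd (mul_pos hd hR), mul_pos hd (mul_pos hd hd)]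
    have h5 : ‖mob (G 0) (G z)‖ ^ 2 ≤ ‖z‖ ^ 2 := by gcongr
    rw [← le_div_iff₀ hR]
    refine le_trans ?_ (h2.trans h4)
    gcongr

lemma conf_e4 {ψ : ℂ → ℂ} {c x : ℂ} {R d s : ℝ} (hR : 0 < R) (hd : 0 < d) (hRd : d < R)
    (hs1 : s < 1) (hψ : DifferentiableOn ℂ ψ (ball c R))
    (hm : MapsTo ψ (ball c R) (closedBall 0 1)) (h1 : ‖ψ c‖ ≤ s) (h2 : ‖x - c‖ = R - d) :
    (1 - s) ^ 2 / R * d ≤ 1 - ‖ψ x‖ ^ 2 := by
  have hx : x ∈ ball c R := by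
    rw [mem_ball, dist_eq_norm, h2]
    linarith
  have h3 := norm_mob_le_of_ball hψ hm (h1.trans_lt hs1) hx
  rw [h2] at h3
  have h4 := conf_mob_bound hs1 h1 (mem_closedBall_zero_iff.1 (hm hx))
  have h5 : ‖mob (ψ c) (ψ x)‖ ^ 2 ≤ ((R - d) / R) ^ 2 := by gcongr
  have h6 : d / R ≤ 1 - ((R - d) / R) ^ 2 := by
    have h7 : 1 - ((R - d) / R) ^ 2 = d * (2 * R - d) / R ^ 2 := by
      field_simp
      ring
    rw [h7, div_le_div_iff₀ hR (by positivity)]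
    nlinarith [mul_pos (mul_pos hd hR) (sub_pos.2 hRd)]
  calc (1 - s) ^ 2 / R * d = d / R * (1 - s) ^ 2 := by ring
    _ ≤ (1 - ‖mob (ψ c) (ψ x)‖ ^ 2) * (1 - s) ^ 2 := by
        gcongr
        linarith
    _ ≤ _ := h4

lemma conf_geom {x y v : ℂ} {R d : ℝ} (hRd : d < R) (hv : ‖v‖ = R) (hxy : ‖x - y‖ = d)
    (hdist : ‖x - (y + v)‖ = d + R) : ‖x - (y - v)‖ = R - d := by
  have h3 := parallelogram_law_with_norm ℝ (x - y) v
  have h4 : x - y + v = x - (y - v) := by ring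
  have h5 : x - y - v = x - (y + v) := by ring
  rw [h4, h5, hdist, hxy, hv] at h3
  refine (sq_eq_sq₀ (norm_nonneg _) (by linarith)).1 ?_
  nlinarith

lemma conf_core {Ω : Set ℂ} (hbdd : Bornology.IsBounded Ω) {ψ : ℂ → ℂ}
    (hψ : DifferentiableOn ℂ ψ Ω) (hm' : MapsTo ψ Ω (ball 0 1)) {R : ℝ} (hR : 0 < R) :
    ∃ s : ℝ, s < 1 ∧ ∀ x, R ≤ infDist x Ωᶜ → ‖ψ x‖ ≤ s := by
  have hsub : {x | R ≤ infDist x Ωᶜ} ⊆ Ω := by
    intro x hx
    by_contra hc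
    have : infDist x Ωᶜ = 0 := infDist_zero_of_mem hc
    have h2 : R ≤ infDist x Ωᶜ := hx
    linarith
  have hK : IsCompact {x | R ≤ infDist x Ωᶜ} :=
    Metric.isCompact_of_isClosed_isBounded
      (isClosed_le continuous_const (continuous_infDist_pt _)) (hbdd.subset hsub)
  rcases Set.eq_empty_or_nonempty {x | R ≤ infDist x Ωᶜ} with h | h
  · refine ⟨0, one_pos, fun x hx => ?_⟩
    have : x ∈ {x | R ≤ infDist x Ωᶜ} := hx
    rw [h] at this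
    exact absurd this (notMem_empty x)
  · obtain ⟨x0, hx0, hmax⟩ := hK.exists_isMaxOn h (hψ.continuousOn.mono hsub).norm
    exact ⟨‖ψ x0‖, mem_ball_zero_iff.1 (hm' (hsub hx0)), fun x hx => hmax hx⟩

theorem exists_confMap {Ω : Set ℂ} (hopen : IsOpen Ω) (hbdd : Bornology.IsBounded Ω)
    (hsc : IsSimplyConnected Ω) (hC2 : HasC2Boundary Ω) {p : ℂ} (hp : p ∈ Ω) :
    ∃ (φ ψ : ℂ → ℂ) (c C : ℝ), ConfMap Ω p φ ψ c C := by
  have hne : Ω ≠ univ := by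
    rintro rfl
    exact NormedSpace.unbounded_univ ℝ ℂ hbdd
  have hne' : Ωᶜ.Nonempty := nonempty_compl.2 hne
  obtain ⟨φ, ψ, hφ, hψ, hm, hm', hl, hr, h0⟩ := riemann_mapping hopen hsc hne hp
  obtain ⟨R, hR, hball⟩ := two_sided_ball hopen hbdd hC2
  obtain ⟨B, hB0, hB⟩ : ∃ B : ℝ, 0 < B ∧ ∀ x ∈ Ω, infDist x Ωᶜ ≤ B := by
    obtain ⟨q, hq⟩ := hne'
    obtain ⟨B, hB0, hB⟩ := hbdd.subset_closedBall_lt 0 q
    exact ⟨B, hB0, fun x hx => (infDist_le_dist_of_mem hq).trans (hB hx)⟩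
  obtain ⟨s, hs1, hs⟩ := conf_core hbdd hψ hm' hR
  obtain ⟨hdp, hbp, -⟩ := conf_nearest hopen hne' hp
  generalize infDist p Ωᶜ = dp at hdp hbp
  obtain ⟨s0, hs0⟩ : ∃ s0, s0 = R / (dp + R) := ⟨_, rfl⟩
  have hs01 : s0 < 1 := by
    rw [hs0, div_lt_one (by positivity)]
    linarith
  have h1s : 0 < 1 - s := by linarith
  have h1s0 : 0 < 1 - s0 := by linarith
  obtain ⟨κ, hκ0, hκ1, hκ2⟩ : ∃ κ : ℝ, 0 < κ ∧ κ ≤ (1 - s) / B ∧ κ ≤ (1 - s) ^ 2 / R :=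
    ⟨min ((1 - s) / B) ((1 - s) ^ 2 / R), by positivity, min_le_left _ _, min_le_right _ _⟩
  have main : ∀ z ∈ ball (0 : ℂ) 1,
      R * (1 - s0) ^ 2 / 2 ≤ ‖deriv φ z‖ ∧ ‖deriv φ z‖ ≤ (2 * R + B) / (R * κ) := by
    intro z hz
    have hz1 : ‖z‖ < 1 := mem_ball_zero_iff.1 hz
    have hzz : 0 < 1 - ‖z‖ ^ 2 := by nlinarith [norm_nonneg z]
    have hx : φ z ∈ Ω := hm hz
    obtain ⟨hd, hbx, y, hy, hxy⟩ := conf_nearest hopen hne' hx
    have hdB := hB _ hx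
    have hsz := hs (φ z)
    rw [hl z hz] at hsz
    generalize infDist (φ z) Ωᶜ = d at hd hbx hxy hdB hsz
    obtain ⟨n, hn, hin, hout⟩ := hball y hy
    have hRn : ‖(R : ℂ) * n‖ = R := by
      rw [norm_mul, hn, mul_one, Complex.norm_real, Real.norm_of_nonneg hR.le]
    generalize (R : ℂ) * n = v at hin hout hRn
    have e1 := conf_e1 hopen hφ hψ hm hm' hl hz hd hbx
    have hdist : ‖φ z - (y + v)‖ = d + R := by
      refine le_antisymm ?_ (conf_far hd hR hbx hout)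
      have h1 : φ z - (y + v) = (φ z - y) - v := by ring
      have h2 := norm_sub_le (φ z - y) v
      rwa [← h1, hxy, hRn] at h2
    have hfar : ∀ w ∈ ball (0 : ℂ) 1, R ≤ ‖φ w - (y + v)‖ := by
      intro w hw
      by_contra hc
      exact hout (by rw [mem_ball, dist_eq_norm]; exact not_le.1 hc) (hm hw)
    obtain ⟨e2, e3⟩ := conf_e23 hφ hR hd hs01 hfar (by
      rw [h0, hs0]
      gcongr
      exact conf_far hdp hR hbp hout) hz hdist
    have e4 : κ * d ≤ 1 - ‖z‖ ^ 2 := by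
      rcases le_or_gt R d with hRd | hRd
      · have h1 := hsz hRd
        calc κ * d ≤ (1 - s) / B * B := by gcongr
          _ = 1 - s := by field_simp
          _ ≤ _ := by nlinarith [norm_nonneg z]
      · have h1 : ‖ψ (y - v)‖ ≤ s := by
          refine hs _ ((le_infDist hne').2 (fun w hw => ?_))
          by_contra hc
          exact hw (hin (by rw [mem_ball, dist_comm]; exact not_le.1 hc))
        have h3 := conf_e4 hR hd hRd hs1 (hψ.mono hin)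
          (fun w hw => ball_subset_closedBall (hm' (hin hw))) h1 (conf_geom hRd hRn hxy hdist)
        rw [hl z hz] at h3
        exact le_trans (by gcongr) h3
    generalize 1 - ‖z‖ ^ 2 = t at hzz e1 e2 e3 e4
    have hA := norm_nonneg (deriv φ z)
    generalize ‖deriv φ z‖ = A at hA e1 e2
    constructor
    · have h1 : t * (R * (1 - s0) ^ 2 / 2) ≤ t * A := by linarith
      exact le_of_mul_le_mul_left h1 hzz
    · rw [le_div_iff₀ (by positivity)]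
      have h1 : A * (κ * d) * R ≤ A * t * R := by gcongr
      have h3 : d * (2 * R + d) ≤ d * (2 * R + B) := by gcongr
      have h2 : d * (A * (R * κ)) ≤ d * (2 * R + B) := by linarith
      exact le_of_mul_le_mul_left h2 hd
  exact ⟨φ, ψ, R * (1 - s0) ^ 2 / 2, (2 * R + B) / (R * κ), hopen, by positivity, hφ, hψ, hm, hm',
    hl, hr, h0, fun z hz => (main z hz).1, fun z hz => (main z hz).2⟩

end Vale.Agent.P071
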