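import Mathlib

open MeasureTheory
open scoped ContDiff

namespace Vale.Agent.P071

/-- `v ∈ H¹(Ω)` with weak gradient `g = ∂ₓ v + i ∂_y v`; the plane is `ℂ = ℝ²`. -/
def IsH1 (Ω : Set ℂ) (v : ℂ → ℝ) (g : ℂ → ℂ) : Prop :=
  MemLp v 2 (volume.restrict Ω) ∧ MemLp g 2 (volume.restrict Ω) ∧
    ∀ φ : ℂ → ℝ, ContDiff ℝ ∞ φ → HasCompactSupport φ → tsupport φ ⊆ Ω →
      (∫ z in Ω, v z * fderiv ℝ φ z 1 = -∫ z in Ω, (g z).re * φ z) ∧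
      (∫ z in Ω, v z * fderiv ℝ φ z Complex.I = -∫ z in Ω, (g z).im * φ z)

/-- The first positive Neumann eigenvalue: the infimum of the Rayleigh quotient over nonzero
mean-zero functions in `H¹(Ω)`. -/
noncomputable def mu1 (Ω : Set ℂ) : ℝ :=
  sInf {t : ℝ | ∃ (v : ℂ → ℝ) (g : ℂ → ℂ), IsH1 Ω v g ∧ ∫ z in Ω, v z = 0 ∧
    ∫ z in Ω, v z ^ 2 ≠ 0 ∧ t = (∫ z in Ω, ‖g z‖ ^ 2) / ∫ z in Ω, v z ^ 2}

/-- `u ∈ V(Ω)`: a weak solution of `-Δ u = μ₁(Ω) u` with the Neumann boundary condition. -/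
def IsNeumannEigen (Ω : Set ℂ) (u : ℂ → ℝ) : Prop :=
  ∃ g : ℂ → ℂ, IsH1 Ω u g ∧ ∀ (v : ℂ → ℝ) (h : ℂ → ℂ), IsH1 Ω v h →
    ∫ z in Ω, ((g z).re * (h z).re + (g z).im * (h z).im) = mu1 Ω * ∫ z in Ω, u z * v z

/-- `Ω` has a `C²` boundary: near each boundary point it is the sublevel set `F < 0` of a `C²`
function with nonzero gradient. -/
def HasC2Boundary (Ω : Set ℂ) : Prop :=
  ∀ y ∈ frontier Ω, ∃ (ε : ℝ) (F : ℂ → ℝ), 0 < ε ∧ ContDiffOn ℝ 2 F (Metric.ball y ε) ∧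
    fderiv ℝ F y ≠ 0 ∧ ∀ z ∈ Metric.ball y ε, (z ∈ Ω ↔ F z < 0)

end Vale.Agent.P071
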