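import Vale.Agent.P071.Setup

/-!
# Basic facts on test functions and admissible pairs
-/

open Complex Metric Set Filter Topology MeasureTheory
open scoped ContDiff ComplexConjugate

namespace Vale.Agent.P071

variable {φ : ℂ → ℂ} {μ c C θ : ℝ}

instance sl_isFiniteMeasure : IsFiniteMeasure (volume.restrict D) :=
  isFiniteMeasure_restrict.mpr measure_ball_lt_top.ne

lemma sl_ae_mem : ∀ᵐ z ∂(volume.restrict D), z ∈ D := ae_restrict_mem measurableSet_ball

lemma sl_norm_lt {z : ℂ} (hz : z ∈ D) : ‖z‖ < 1 := mem_ball_zero_iff.mp hz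

lemma sl_aesm {E : Type*} [NormedAddCommGroup E] {f : ℂ → E} (hf : ContinuousOn f D) :
    AEStronglyMeasurable f (volume.restrict D) := hf.aestronglyMeasurable measurableSet_ball

lemma sl_memLp_of_bound {E : Type*} [NormedAddCommGroup E] {f : ℂ → E} (hf : ContinuousOn f D)
    {M : ℝ} (hM : ∀ z ∈ D, ‖f z‖ ≤ M) (p : ENNReal) : MemLp f p (volume.restrict D) :=
  MemLp.of_bound (sl_aesm hf) M (sl_ae_mem.mono hM)

lemma sl_memLp_of_continuous {E : Type*} [NormedAddCommGroup E] {f : ℂ → E} (hf : Continuous f)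
    (p : ENNReal) : MemLp f p (volume.restrict D) := by
  obtain ⟨M, hM⟩ := (isCompact_closedBall (0 : ℂ) 1).exists_bound_of_continuousOn hf.continuousOn
  exact sl_memLp_of_bound hf.continuousOn (fun z hz => hM z (ball_subset_closedBall hz)) p

lemma sl_memLp_mul {m f : ℂ → ℂ} (hm : ContinuousOn m D) {M : ℝ} (hM : ∀ z ∈ D, ‖m z‖ ≤ M)
    {p : ENNReal} (hf : MemLp f p (volume.restrict D)) :
    MemLp (fun z => m z * f z) p (volume.restrict D) := by
  refine hf.of_le_mul (c := M) ((sl_aesm hm).mul hf.1) (sl_ae_mem.mono fun z hz => ?_)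
  rw [norm_mul]
  exact mul_le_mul_of_nonneg_right (hM z hz) (norm_nonneg _)

lemma sl_memLp_conj {f : ℂ → ℂ} {p : ENNReal} (hf : MemLp f p (volume.restrict D)) :
    MemLp (fun z => conj (f z)) p (volume.restrict D) :=
  conjCLE.toContinuousLinearMap.comp_memLp' hf

lemma sl_integrable_mul_conj {f g : ℂ → ℂ} (hf : MemLp f 2 (volume.restrict D))
    (hg : MemLp g 2 (volume.restrict D)) :
    Integrable (fun z => f z * conj (g z)) (volume.restrict D) :=
  hf.integrable_mul (sl_memLp_conj hg)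

lemma sl_integrable_re_mul_conj {f g : ℂ → ℂ} (hf : MemLp f 2 (volume.restrict D))
    (hg : MemLp g 2 (volume.restrict D)) :
    Integrable (fun z => (f z * conj (g z)).re) (volume.restrict D) :=
  (sl_integrable_mul_conj hf hg).re

lemma sl_integrable_norm_sq {E : Type*} [NormedAddCommGroup E] {f : ℂ → E}
    (hf : MemLp f 2 (volume.restrict D)) :
    Integrable (fun z => ‖f z‖ ^ 2) (volume.restrict D) :=
  (memLp_two_iff_integrable_sq_norm hf.1).mp hf

lemma sl_re_mul_conj_self (w : ℂ) : (w * conj w).re = ‖w‖ ^ 2 := by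
  rw [mul_conj, ofReal_re, normSq_eq_norm_sq]

lemma sl_contDiffAt {E : Type*} [NormedAddCommGroup E] [NormedSpace ℝ E] {f : ℂ → E}
    {n : WithTop ℕ∞} (hf : ContDiffOn ℝ n f D) {z : ℂ} (hz : z ∈ D) : ContDiffAt ℝ n f z :=
  hf.contDiffAt (isOpen_ball.mem_nhds hz)

lemma sl_exists_sphere {z : ℂ} (hz : z ∈ D) : ∃ s ∈ sphere (0 : ℂ) 1, ‖z - s‖ = 1 - ‖z‖ := by
  by_cases h0 : z = 0
  · exact ⟨1, by simp, by simp [h0]⟩
  · have hn : 0 < ‖z‖ := norm_pos_iff.mpr h0
    have hlt := sl_norm_lt hz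
    refine ⟨(‖z‖⁻¹ : ℝ) • z, by simp [hn.ne'], ?_⟩
    have h1 : z - (‖z‖⁻¹ : ℝ) • z = (1 - ‖z‖⁻¹ : ℝ) • z := by rw [sub_smul, one_smul]
    have h2 : 1 - ‖z‖⁻¹ ≤ 0 := by
      have : 1 ≤ ‖z‖⁻¹ := (one_le_inv₀ hn).mpr hlt.le
      linarith
    rw [h1, norm_smul, Real.norm_eq_abs, abs_of_nonpos h2]
    field_simp
    ring

/-- A `C¹` function vanishing on the circle is `O(1 - |z|)`. -/
lemma sl_bound_of_zero {E : Type*} [NormedAddCommGroup E] [NormedSpace ℝ E] {f : ℂ → E}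
    (hf : ContDiff ℝ 1 f) (h0 : ∀ z ∈ sphere (0 : ℂ) 1, f z = 0) :
    ∃ M, ∀ z ∈ D, ‖f z‖ ≤ M * (1 - ‖z‖) := by
  obtain ⟨M, hM⟩ := (isCompact_closedBall (0 : ℂ) 1).exists_bound_of_continuousOn
    (hf.continuous_fderiv (by norm_num)).continuousOn
  refine ⟨M, fun z hz => ?_⟩
  obtain ⟨s, hs, hzs⟩ := sl_exists_sphere hz
  have h1 := (convex_closedBall (0 : ℂ) 1).norm_image_sub_le_of_norm_fderiv_le
    (fun x _ => hf.differentiable (by norm_num) x) hM (sphere_subset_closedBall hs)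
    (ball_subset_closedBall hz)
  rwa [h0 s hs, sub_zero, hzs] at h1

lemma UC.of_contDiff {U : ℂ → ℂ} (hU : ContDiff ℝ 2 U)
    (h : ∀ z ∈ sphere (0 : ℂ) 1, (U z).im = 0) : UC U := by
  refine ⟨hU.contDiffOn, ?_⟩
  obtain ⟨M₁, h₁⟩ := (isCompact_closedBall (0 : ℂ) 1).exists_bound_of_continuousOn
    hU.continuous.continuousOn
  obtain ⟨M₂, h₂⟩ := (isCompact_closedBall (0 : ℂ) 1).exists_bound_of_continuousOn
    (hU.continuous_fderiv (by norm_num)).continuousOn
  obtain ⟨M₃, h₃⟩ := sl_bound_of_zero (f := fun z => (U z).im)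
    (imCLM.contDiff.comp (hU.of_le (by norm_num))) h
  refine ⟨max M₁ (max M₂ M₃), fun z hz => ⟨?_, ?_, ?_⟩⟩
  · exact (h₁ z (ball_subset_closedBall hz)).trans (le_max_left _ _)
  · exact (h₂ z (ball_subset_closedBall hz)).trans ((le_max_left _ _).trans (le_max_right _ _))
  · refine (h₃ z hz).trans (mul_le_mul_of_nonneg_right
      ((le_max_right _ _).trans (le_max_right _ _)) ?_)
    linarith [sl_norm_lt hz]

lemma UC.differentiableAt {U : ℂ → ℂ} (hU : UC U) {z : ℂ} (hz : z ∈ D) :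
    DifferentiableAt ℝ U z := (sl_contDiffAt hU.cd hz).differentiableAt (by norm_num)

lemma UC.continuousOn {U : ℂ → ℂ} (hU : UC U) : ContinuousOn U D := hU.cd.continuousOn

lemma UC.continuousOn_dD {U : ℂ → ℂ} (hU : UC U) : ContinuousOn (dD U) D := fun _ hz =>
  (contDiffAt_dD (m := 1) (sl_contDiffAt hU.cd hz) (by norm_num)).continuousAt.continuousWithinAt

lemma UC.continuousOn_dB {U : ℂ → ℂ} (hU : UC U) : ContinuousOn (dB U) D := fun _ hz =>
  (contDiffAt_dB (m := 1) (sl_contDiffAt hU.cd hz) (by norm_num)).continuousAt.continuousWithinAt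

lemma UC.mul {U V : ℂ → ℂ} (hU : UC U) (hV : UC V) : UC fun z => U z * V z := by
  refine ⟨hU.cd.mul hV.cd, ?_⟩
  obtain ⟨M₁, h₁⟩ := hU.bdd
  obtain ⟨M₂, h₂⟩ := hV.bdd
  refine ⟨2 * (M₁ * M₂), fun z hz => ?_⟩
  obtain ⟨a1, a2, a3⟩ := h₁ z hz
  obtain ⟨b1, b2, b3⟩ := h₂ z hz
  have hM₁ : 0 ≤ M₁ := (norm_nonneg _).trans a1
  have hM₂ : 0 ≤ M₂ := (norm_nonneg _).trans b1
  have hz1 : 0 ≤ 1 - ‖z‖ := by linarith [sl_norm_lt hz]
  refine ⟨?_, ?_, ?_⟩
  · rw [norm_mul]
    have := mul_le_mul a1 b1 (norm_nonneg _) hM₁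
    nlinarith [mul_nonneg hM₁ hM₂]
  · rw [fderiv_fun_mul (hU.differentiableAt hz) (hV.differentiableAt hz)]
    refine (norm_add_le _ _).trans ?_
    rw [norm_smul, norm_smul]
    have := mul_le_mul a1 b2 (norm_nonneg _) hM₁
    have := mul_le_mul b1 a2 (norm_nonneg _) hM₂
    nlinarith
  · rw [mul_im]
    refine (abs_add_le _ _).trans ?_
    rw [abs_mul, abs_mul]
    have := mul_le_mul ((abs_re_le_norm _).trans a1) b3 (abs_nonneg _) hM₁
    have := mul_le_mul a3 ((abs_re_le_norm _).trans b1) (abs_nonneg _) (mul_nonneg hM₁ hz1)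
    nlinarith

lemma UC.conj {U : ℂ → ℂ} (hU : UC U) : UC fun z => conj (U z) := by
  refine ⟨fun z hz => (contDiffAt_conj' (sl_contDiffAt hU.cd hz)).contDiffWithinAt, ?_⟩
  obtain ⟨M, h⟩ := hU.bdd
  refine ⟨4 * M, fun z hz => ?_⟩
  obtain ⟨a1, a2, a3⟩ := h z hz
  have hM : 0 ≤ M := (norm_nonneg _).trans a1
  have hz1 : 0 ≤ 1 - ‖z‖ := by linarith [sl_norm_lt hz]
  refine ⟨?_, ?_, ?_⟩
  · rw [norm_conj]; linarith
  · refine (norm_fderiv_le_dD_dB _ _).trans ?_
    rw [dD_conj (hU.differentiableAt hz), dB_conj (hU.differentiableAt hz), norm_conj, norm_conj]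
    linarith [norm_dD_le U z, norm_dB_le U z]
  · rw [conj_im, abs_neg]
    nlinarith [mul_nonneg hM hz1]

lemma UC.memLp {U : ℂ → ℂ} (hU : UC U) : MemLp U 2 (volume.restrict D) := by
  obtain ⟨M, h⟩ := hU.bdd
  exact sl_memLp_of_bound hU.continuousOn (fun z hz => (h z hz).1) 2

lemma UC.memLp_dD {U : ℂ → ℂ} (hU : UC U) : MemLp (dD U) 2 (volume.restrict D) := by
  obtain ⟨M, h⟩ := hU.bdd
  refine sl_memLp_of_bound hU.continuousOn_dD (M := 2 * M) (fun z hz => ?_) 2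
  linarith [norm_dD_le U z, (h z hz).2.1]

lemma UC.memLp_dB {U : ℂ → ℂ} (hU : UC U) : MemLp (dB U) 2 (volume.restrict D) := by
  obtain ⟨M, h⟩ := hU.bdd
  refine sl_memLp_of_bound hU.continuousOn_dB (M := 2 * M) (fun z hz => ?_) 2
  linarith [norm_dB_le U z, (h z hz).2.1]

/-- The Jacobian of a test function integrates to zero. -/
theorem UC.integral_dD_eq {U : ℂ → ℂ} (hU : UC U) :
    ∫ z in D, ‖dD U z‖ ^ 2 = ∫ z in D, ‖dB U z‖ ^ 2 := by
  set p : ℂ → ℝ := fun z => (U z).re with hp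
  set q : ℂ → ℝ := fun z => (U z).im with hq
  set W : ℂ → ℂ := fun z => (q z : ℂ) * (I * dD (fun w => (p w : ℂ)) z) with hW
  have hp2 : ∀ z ∈ D, ContDiffAt ℝ 2 p z := fun z hz => contDiffAt_re' (sl_contDiffAt hU.cd hz)
  have hq2 : ∀ z ∈ D, ContDiffAt ℝ 2 q z := fun z hz => contDiffAt_im' (sl_contDiffAt hU.cd hz)
  have hD1 : ∀ z ∈ D, ContDiffAt ℝ 1 (dD fun w => (p w : ℂ)) z := fun z hz =>
    contDiffAt_dD (contDiffAt_ofReal' (hp2 z hz)) (by norm_num)
  have hW1 : ContDiffOn ℝ 1 W D := fun z hz =>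
    (((contDiffAt_ofReal' (hq2 z hz)).of_le (by norm_num)).mul
      (contDiffAt_const.mul (hD1 z hz))).contDiffWithinAt
  have key : ∀ z ∈ D, (dB W z).re = (‖dB U z‖ ^ 2 - ‖dD U z‖ ^ 2) / 4 := by
    intro z hz
    have d0 := hU.differentiableAt hz
    have d1 : DifferentiableAt ℝ p z := (hp2 z hz).differentiableAt (by norm_num)
    have d2 : DifferentiableAt ℝ q z := (hq2 z hz).differentiableAt (by norm_num)
    have d3 : DifferentiableAt ℝ (dD fun w => (p w : ℂ)) z :=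
      (hD1 z hz).differentiableAt (by norm_num)
    rw [hW, dB_mul (differentiableAt_ofReal' d2) (d3.const_mul I), dB_const_mul I d3,
      dB_dD (contDiffAt_ofReal' (hp2 z hz)), lap_ofReal (hp2 z hz), dB_ofReal d2, dD_ofReal d1,
      hp, hq, dx_re d0, dy_re d0, dx_im d0, dy_im d0, Complex.sq_norm, Complex.sq_norm,
      normSq_apply, normSq_apply, dB, dD]
    simp
    ring
  have i1 := sl_integrable_norm_sq hU.memLp_dD
  have i2 := sl_integrable_norm_sq hU.memLp_dB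
  have hint : IntegrableOn (fun z => (dB W z).re) D := by
    refine ((i2.sub i1).div_const 4).congr (sl_ae_mem.mono fun z hz => ?_)
    simp only [key z hz, Pi.sub_apply]
  obtain ⟨M, hM⟩ := hU.bdd
  have h0 := green_zero hW1 hint (g := fun _ => M * (4 * M)) (integrable_const _) (by
    intro z hz
    obtain ⟨a1, a2, a3⟩ := hM z hz
    have hM0 : 0 ≤ M := (norm_nonneg _).trans a1
    have hz1 : 0 ≤ 1 - ‖z‖ := by linarith [sl_norm_lt hz]
    have d0 := hU.differentiableAt hz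
    have d1 : DifferentiableAt ℝ p z := (hp2 z hz).differentiableAt (by norm_num)
    have b1 : ‖dD (fun w => (p w : ℂ)) z‖ ≤ 4 * M := by
      rw [dD_ofReal d1, hp, dx_re d0, dy_re d0]
      refine (norm_sub_le _ _).trans ?_
      rw [norm_mul, norm_I, one_mul, norm_real, norm_real, Real.norm_eq_abs, Real.norm_eq_abs]
      linarith [abs_re_le_norm (dx U z), abs_re_le_norm (dy U z), norm_dx_le U z, norm_dy_le U z]
    refine (abs_re_le_norm _).trans ?_
    rw [norm_mul, hW]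
    simp only [norm_mul, norm_I, one_mul, norm_real, Real.norm_eq_abs]
    have b2 := mul_le_mul a3 b1 (norm_nonneg _) (mul_nonneg hM0 hz1)
    have b3 : 0 ≤ |q z| * ‖dD (fun w => (p w : ℂ)) z‖ := by positivity
    have b4 := mul_le_mul_of_nonneg_left (sl_norm_lt hz).le b3
    nlinarith)
  rw [setIntegral_congr_fun measurableSet_ball key, integral_div, integral_sub i2 i1] at h0
  linarith

lemma Setup.continuousOn_deriv (S : Setup φ μ c C) : ContinuousOn (deriv φ) D :=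
  (S.diff.deriv isOpen_ball).continuousOn

lemma Setup.deriv_ne_zero (S : Setup φ μ c C) {z : ℂ} (hz : z ∈ D) : deriv φ z ≠ 0 :=
  norm_pos_iff.mp (S.c_pos.trans_le (S.lower z hz))

lemma Setup.memLp_mul (S : Setup φ μ c C) {f : ℂ → ℂ} {p : ENNReal}
    (hf : MemLp f p (volume.restrict D)) :
    MemLp (fun z => deriv φ z * f z) p (volume.restrict D) :=
  sl_memLp_mul S.continuousOn_deriv S.upper hf

lemma Setup.memLp_div (S : Setup φ μ c C) {f : ℂ → ℂ} {p : ENNReal}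
    (hf : MemLp f p (volume.restrict D)) :
    MemLp (fun z => f z / deriv φ z) p (volume.restrict D) := by
  have h := sl_memLp_mul (m := fun z => (deriv φ z)⁻¹) (M := c⁻¹)
    (S.continuousOn_deriv.inv₀ fun z hz => S.deriv_ne_zero hz) (fun z hz => by
      rw [norm_inv]
      exact inv_anti₀ S.c_pos (S.lower z hz)) hf
  simpa only [div_eq_inv_mul] using h

lemma sl_adm_integrable (S : Setup φ μ c C) {v Φ U : ℂ → ℂ} (hv : MemLp v 2 (volume.restrict D))
    (hΦ : MemLp Φ 2 (volume.restrict D)) (hU : UC U) :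
    Integrable (fun z => (v z * conj (dD U z) + deriv φ z * Φ z * conj (U z)).re)
      (volume.restrict D) :=
  ((sl_integrable_mul_conj hv hU.memLp_dD).add
    (sl_integrable_mul_conj (S.memLp_mul hΦ) hU.memLp)).re

lemma Adm.add {v Φ v' Φ' : ℂ → ℂ} (S : Setup φ μ c C) (h : Adm φ v Φ) (h' : Adm φ v' Φ') :
    Adm φ (fun z => v z + v' z) (fun z => Φ z + Φ' z) := by
  refine ⟨h.l2v.add h'.l2v, h.l2F.add h'.l2F, fun U hU => ?_⟩
  have h1 := integral_add (sl_adm_integrable S h.l2v h.l2F hU)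
    (sl_adm_integrable S h'.l2v h'.l2F hU)
  rw [h.eq U hU, h'.eq U hU, add_zero] at h1
  rw [← h1]
  congr 1
  funext z
  rw [← add_re]
  congr 1
  ring

lemma Adm.smul {v Φ : ℂ → ℂ} (h : Adm φ v Φ) (t : ℝ) :
    Adm φ (fun z => t * v z) (fun z => t * Φ z) := by
  refine ⟨h.l2v.const_mul _, h.l2F.const_mul _, fun U hU => ?_⟩
  have h1 : ∀ z, (t * v z * conj (dD U z) + deriv φ z * (t * Φ z) * conj (U z)).re =
      t * (v z * conj (dD U z) + deriv φ z * Φ z * conj (U z)).re := by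
    intro z
    rw [← re_ofReal_mul]
    congr 1
    ring
  simp only [h1]
  rw [integral_const_mul, h.eq U hU, mul_zero]

lemma Adm.congr {v Φ v' Φ' : ℂ → ℂ} (h : Adm φ v Φ) (hv : v =ᵐ[volume.restrict D] v')
    (hΦ : Φ =ᵐ[volume.restrict D] Φ') : Adm φ v' Φ' := by
  refine ⟨h.l2v.ae_eq hv, h.l2F.ae_eq hΦ, fun U hU => ?_⟩
  rw [← h.eq U hU]
  refine integral_congr_ae ?_
  filter_upwards [hv, hΦ] with z h1 h2
  rw [h1, h2]

/-- Multiplying an admissible pair by a test function `m`. -/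
lemma Adm.mul {v Φ m : ℂ → ℂ} (S : Setup φ μ c C) (h : Adm φ v Φ) (hm : UC m) :
    Adm φ (fun z => m z * v z) (fun z => m z * Φ z + dB m z * v z / deriv φ z) := by
  obtain ⟨M, hM⟩ := hm.bdd
  have hM1 : ∀ z ∈ D, ‖m z‖ ≤ M := fun z hz => (hM z hz).1
  have hM2 : ∀ z ∈ D, ‖dB m z‖ ≤ 2 * M := fun z hz => by
    linarith [norm_dB_le m z, (hM z hz).2.1]
  refine ⟨sl_memLp_mul hm.continuousOn hM1 h.l2v, (sl_memLp_mul hm.continuousOn hM1 h.l2F).add
    (S.memLp_div (sl_memLp_mul hm.continuousOn_dB hM2 h.l2v)), fun U hU => ?_⟩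
  rw [← h.eq _ (hm.conj.mul hU)]
  refine setIntegral_congr_fun measurableSet_ball fun z hz => ?_
  have d1 := hm.differentiableAt hz
  have d2 := hU.differentiableAt hz
  have h0 := S.deriv_ne_zero hz
  rw [dD_mul (differentiableAt_conj' d1) d2, dD_conj d1]
  congr 1
  simp only [map_add, map_mul, conj_conj]
  field_simp
  ring

/-- Smooth compactly supported fields are admissible. -/
lemma adm_of_compactSupport (S : Setup φ μ c C) {v : ℂ → ℂ} (hv : ContDiff ℝ 1 v)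
    (hs : tsupport v ⊆ D) : Adm φ v (fun z => dB v z / deriv φ z) := by
  have hc : Continuous (dB v) := continuous_iff_continuousAt.mpr fun z =>
    (contDiffAt_dB (m := 0) hv.contDiffAt (by norm_num)).continuousAt
  have l1 := sl_memLp_of_continuous hv.continuous 2
  have l2 := S.memLp_div (sl_memLp_of_continuous hc 2)
  refine ⟨l1, l2, fun U hU => ?_⟩
  obtain ⟨M₁, h₁⟩ := sl_bound_of_zero hv fun z hz => by
    by_contra hne
    have := sl_norm_lt (hs (subset_tsupport v hne))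
    rw [mem_sphere_zero_iff_norm.mp hz] at this
    exact lt_irrefl _ this
  obtain ⟨M₂, h₂⟩ := hU.bdd
  have key : ∀ z ∈ D, (dB (fun z => v z * conj (U z)) z).re =
      (v z * conj (dD U z) + deriv φ z * (dB v z / deriv φ z) * conj (U z)).re := by
    intro z hz
    have d1 : DifferentiableAt ℝ v z := hv.differentiable (by norm_num) z
    have d2 := hU.differentiableAt hz
    have h0 := S.deriv_ne_zero hz
    rw [dB_mul d1 (differentiableAt_conj' d2), dB_conj d2]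
    congr 1
    field_simp
    ring
  rw [← setIntegral_congr_fun measurableSet_ball key]
  refine green_zero (hv.contDiffOn.mul (hU.conj.cd.of_le (by norm_num))) ?_
    (g := fun _ => M₁ * M₂) (integrable_const _) fun z hz => ?_
  · exact (sl_adm_integrable S l1 l2 hU).congr (sl_ae_mem.mono fun z hz => (key z hz).symm)
  · refine (abs_re_le_norm _).trans ?_
    rw [norm_mul, norm_mul, norm_conj]
    have b1 := h₁ z hz
    have b2 := mul_le_mul b1 (h₂ z hz).1 (norm_nonneg _) ((norm_nonneg _).trans b1)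
    have b3 : 0 ≤ ‖v z‖ * ‖U z‖ := by positivity
    have b4 := mul_le_mul_of_nonneg_left (sl_norm_lt hz).le b3
    nlinarith

lemma Setup.rho_pos (S : Setup φ μ c C) {z : ℂ} (hz : z ∈ D) : 0 < rho φ z :=
  pow_pos (norm_pos_iff.mpr (S.deriv_ne_zero hz)) 2

lemma Setup.continuousOn_rho (S : Setup φ μ c C) : ContinuousOn (rho φ) D :=
  S.continuousOn_deriv.norm.pow 2

lemma sl_re_sq_add_im_sq (S : Setup φ μ c C) (Φ : ℂ → ℂ) {z : ℂ} (hz : z ∈ D) :
    (deriv φ z * Φ z).re ^ 2 / rho φ z + (deriv φ z * Φ z).im ^ 2 / rho φ z = ‖Φ z‖ ^ 2 := by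
  have h0 := (S.rho_pos hz).ne'
  rw [← add_div, div_eq_iff h0, rho, ← mul_pow, mul_comm ‖Φ z‖, ← norm_mul, Complex.sq_norm,
    normSq_apply]
  ring

lemma sl_integrable_re_sq (S : Setup φ μ c C) {Φ : ℂ → ℂ} (hΦ : MemLp Φ 2 (volume.restrict D)) :
    Integrable (fun z => (deriv φ z * Φ z).re ^ 2 / rho φ z) (volume.restrict D) := by
  refine (sl_integrable_norm_sq hΦ).mono' ?_ (sl_ae_mem.mono fun z hz => ?_)
  · exact (((S.memLp_mul hΦ).re.1.aemeasurable.pow_const 2).div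
      (sl_aesm S.continuousOn_rho).aemeasurable).aestronglyMeasurable
  · have h0 := S.rho_pos hz
    rw [Real.norm_of_nonneg (by positivity), ← sl_re_sq_add_im_sq S Φ hz]
    have : 0 ≤ (deriv φ z * Φ z).im ^ 2 / rho φ z := by positivity
    linarith

lemma sl_integrable_im_sq (S : Setup φ μ c C) {Φ : ℂ → ℂ} (hΦ : MemLp Φ 2 (volume.restrict D)) :
    Integrable (fun z => (deriv φ z * Φ z).im ^ 2 / rho φ z) (volume.restrict D) := by
  refine (sl_integrable_norm_sq hΦ).mono' ?_ (sl_ae_mem.mono fun z hz => ?_)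
  · exact (((S.memLp_mul hΦ).im.1.aemeasurable.pow_const 2).div
      (sl_aesm S.continuousOn_rho).aemeasurable).aestronglyMeasurable
  · have h0 := S.rho_pos hz
    rw [Real.norm_of_nonneg (by positivity), ← sl_re_sq_add_im_sq S Φ hz]
    have : 0 ≤ (deriv φ z * Φ z).re ^ 2 / rho φ z := by positivity
    linarith

lemma sl_EB_self (v Φ : ℂ → ℂ) :
    EB μ v Φ v Φ = (∫ z in D, ‖Φ z‖ ^ 2) - μ * ∫ z in D, ‖v z‖ ^ 2 := by
  simp only [EB, sl_re_mul_conj_self]

lemma sl_integral_norm_sq_eq (S : Setup φ μ c C) {Φ : ℂ → ℂ}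
    (hΦ : MemLp Φ 2 (volume.restrict D)) :
    ∫ z in D, ‖Φ z‖ ^ 2 = (∫ z in D, (deriv φ z * Φ z).re ^ 2 / rho φ z) +
      ∫ z in D, (deriv φ z * Φ z).im ^ 2 / rho φ z := by
  rw [← integral_add (sl_integrable_re_sq S hΦ) (sl_integrable_im_sq S hΦ)]
  exact setIntegral_congr_fun measurableSet_ball fun z hz => (sl_re_sq_add_im_sq S Φ hz).symm

lemma Ground.of_adm (hG : Ground φ μ θ) {v Φ : ℂ → ℂ} (h : Adm φ v Φ) :
    μ * ∫ z in D, ‖v z‖ ^ 2 ≤ (∫ z in D, (deriv φ z * Φ z).re ^ 2 / rho φ z) +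
      θ * ∫ z in D, (deriv φ z * Φ z).im ^ 2 / rho φ z :=
  hG v Φ h.l2v h.l2F fun U hU h0 =>
    h.eq U (UC.of_contDiff (hU.of_le (by norm_cast)) h0)

lemma Ground.EB_nonneg (S : Setup φ μ c C) (hθ : θ ≤ 1) (hG : Ground φ μ θ) {v Φ : ℂ → ℂ}
    (h : Adm φ v Φ) : 0 ≤ EB μ v Φ v Φ := by
  have h1 := hG.of_adm h
  have h2 : 0 ≤ ∫ z in D, (deriv φ z * Φ z).im ^ 2 / rho φ z :=
    setIntegral_nonneg measurableSet_ball fun z hz => by
      have := S.rho_pos hz
      positivity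
  rw [sl_EB_self, sl_integral_norm_sq_eq S h.l2F]
  nlinarith

lemma sl_re_mul_conj_comm (a b : ℂ) : (a * conj b).re = (b * conj a).re := by
  simp only [mul_re, conj_re, conj_im]
  ring

lemma EB_symm (v Φ v' Φ' : ℂ → ℂ) : EB μ v Φ v' Φ' = EB μ v' Φ' v Φ := by
  simp only [EB, sl_re_mul_conj_comm (v _), sl_re_mul_conj_comm (Φ _)]

lemma sl_integral_norm_add_sq {f g : ℂ → ℂ} (hf : MemLp f 2 (volume.restrict D))
    (hg : MemLp g 2 (volume.restrict D)) (t : ℝ) :
    ∫ z in D, ‖f z + t * g z‖ ^ 2 = (∫ z in D, ‖f z‖ ^ 2) +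
      2 * t * (∫ z in D, (f z * conj (g z)).re) + t ^ 2 * ∫ z in D, ‖g z‖ ^ 2 := by
  have i1 := sl_integrable_norm_sq hf
  have i2 := (sl_integrable_re_mul_conj hf hg).const_mul (2 * t)
  have i3 := (sl_integrable_norm_sq hg).const_mul (t ^ 2)
  have i4 : Integrable (fun z => ‖f z‖ ^ 2 + 2 * t * (f z * conj (g z)).re)
      (volume.restrict D) := i1.add i2
  rw [← integral_const_mul, ← integral_const_mul, ← integral_add i1 i2, ← integral_add i4 i3]
  congr 1
  funext z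
  simp only [Complex.sq_norm, normSq_apply, add_re, add_im, mul_re, mul_im, ofReal_re, ofReal_im,
    conj_re, conj_im]
  ring

/-- Cauchy-Schwarz for the nonnegative energy form. -/
lemma Ground.EB_sq_le (S : Setup φ μ c C) (hθ : θ ≤ 1) (hG : Ground φ μ θ) {v Φ v' Φ' : ℂ → ℂ}
    (h : Adm φ v Φ) (h' : Adm φ v' Φ') :
    EB μ v Φ v' Φ' ^ 2 ≤ EB μ v Φ v Φ * EB μ v' Φ' v' Φ' := by
  have h1 : ∀ t : ℝ, 0 ≤ EB μ v' Φ' v' Φ' * (t * t) + 2 * EB μ v Φ v' Φ' * t + EB μ v Φ v Φ := by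
    intro t
    have h2 := hG.EB_nonneg S hθ (h.add S (h'.smul t))
    rw [sl_EB_self, sl_integral_norm_add_sq h.l2v h'.l2v,
      sl_integral_norm_add_sq h.l2F h'.l2F] at h2
    rw [sl_EB_self, sl_EB_self, EB]
    linarith
  have h3 := discrim_le_zero h1
  rw [discrim] at h3
  nlinarith

end Vale.Agent.P071
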