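import Vale.Agent.P071.KernelDefs
import Vale.Agent.P071.SetupLemmas

/-!
# Density of polynomial data
-/

open Complex Metric Set Filter Topology MeasureTheory
open scoped ContDiff ComplexConjugate Real

namespace Vale.Agent.P071

/-- Monomials in `z` and `conj z`. -/
noncomputable def denseMon (c : ℂ) (a b : ℕ) (z : ℂ) : ℂ := c * (z ^ a * conj z ^ b)

/-- Polynomials in `z` and `conj z`. -/
def densePoly : AddSubmonoid (ℂ → ℂ) :=
  AddSubmonoid.closure {f | ∃ c a b, f = denseMon c a b}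

lemma dense_mon_mem (c : ℂ) (a b : ℕ) : denseMon c a b ∈ densePoly :=
  AddSubmonoid.subset_closure ⟨c, a, b, rfl⟩

lemma dense_induction {P : (ℂ → ℂ) → Prop} (h0 : P 0) (hm : ∀ c a b, P (denseMon c a b))
    (hadd : ∀ f g, P f → P g → P (f + g)) {f : ℂ → ℂ} (hf : f ∈ densePoly) : P f := by
  induction hf using AddSubmonoid.closure_induction with
  | mem x hx =>
    obtain ⟨c, a, b, rfl⟩ := hx
    exact hm c a b
  | zero => exact h0
  | add x y _ _ hx hy => exact hadd x y hx hy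

lemma dense_mul_mem {f g : ℂ → ℂ} (hf : f ∈ densePoly) (hg : g ∈ densePoly) :
    f * g ∈ densePoly := by
  refine dense_induction (P := fun f => f * g ∈ densePoly) ?_ ?_ ?_ hf
  · rw [zero_mul]; exact zero_mem _
  · intro c a b
    refine dense_induction (P := fun g => denseMon c a b * g ∈ densePoly) ?_ ?_ ?_ hg
    · rw [mul_zero]; exact zero_mem _
    · intro c' a' b'
      have : denseMon c a b * denseMon c' a' b' = denseMon (c * c') (a + a') (b + b') := by
        funext z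
        simp only [denseMon, Pi.mul_apply]
        ring
      rw [this]
      exact dense_mon_mem _ _ _
    · intro f g hf hg
      rw [mul_add]; exact add_mem hf hg
  · intro f f' hf hf'
    rw [add_mul]; exact add_mem hf hf'

lemma dense_contDiff_conj : ContDiff ℝ ∞ fun z : ℂ => conj z := conjCLE.contDiff

lemma dense_contDiff_mon (c : ℂ) (a b : ℕ) : ContDiff ℝ ∞ (denseMon c a b) :=
  contDiff_const.mul ((contDiff_id.pow a).mul (dense_contDiff_conj.pow b))

lemma dense_contDiff {f : ℂ → ℂ} (hf : f ∈ densePoly) : ContDiff ℝ ∞ f :=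
  dense_induction (P := fun f => ContDiff ℝ ∞ f) contDiff_const dense_contDiff_mon
    (fun _ _ hf hg => hf.add hg) hf

/-- The Stone-Weierstrass theorem. -/
lemma dense_uniform {s : Set ℂ} (hs : IsCompact s) {f : ℂ → ℂ} (hf : ContinuousOn f s) {δ : ℝ}
    (hδ : 0 < δ) : ∃ q ∈ densePoly, ∀ z ∈ s, ‖f z - q z‖ ≤ δ := by
  have : CompactSpace s := isCompact_iff_compactSpace.mp hs
  let F : C(s, ℂ) := ⟨s.domRestrict f, hf.domRestrict⟩
  have h1 : F ∈ (polynomialFunctions s).starClosure.topologicalClosure := by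
    rw [polynomialFunctions.starClosure_topologicalClosure]
    exact StarSubalgebra.mem_top
  rw [← SetLike.mem_coe, StarSubalgebra.topologicalClosure_coe, Metric.mem_closure_iff] at h1
  obtain ⟨g, hg, hd⟩ := h1 δ hδ
  rw [SetLike.mem_coe, polynomialFunctions.starClosure_eq_adjoin_X] at hg
  have h2 : (∃ q ∈ densePoly, ∀ z : s, g z = q z) ∧
      ∃ q ∈ densePoly, ∀ z : s, conj (g z) = q z := by
    clear hd
    induction hg using StarAlgebra.adjoin_induction with
    | mem x hx =>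
      rw [mem_singleton_iff] at hx
      subst hx
      exact ⟨⟨_, dense_mon_mem 1 1 0, fun z => by simp [denseMon]⟩,
        ⟨_, dense_mon_mem 1 0 1, fun z => by simp [denseMon]⟩⟩
    | algebraMap r =>
      exact ⟨⟨_, dense_mon_mem r 0 0, fun z => by simp [denseMon]⟩,
        ⟨_, dense_mon_mem (conj r) 0 0, fun z => by simp [denseMon]⟩⟩
    | add x y _ _ hx hy =>
      obtain ⟨⟨p, hp, hp'⟩, ⟨p₁, hp₁, hp₁'⟩⟩ := hx
      obtain ⟨⟨q, hq, hq'⟩, ⟨q₁, hq₁, hq₁'⟩⟩ := hy
      exact ⟨⟨_, add_mem hp hq, fun z => by simp [hp', hq']⟩,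
        ⟨_, add_mem hp₁ hq₁, fun z => by simp [hp₁', hq₁']⟩⟩
    | mul x y _ _ hx hy =>
      obtain ⟨⟨p, hp, hp'⟩, ⟨p₁, hp₁, hp₁'⟩⟩ := hx
      obtain ⟨⟨q, hq, hq'⟩, ⟨q₁, hq₁, hq₁'⟩⟩ := hy
      exact ⟨⟨_, dense_mul_mem hp hq, fun z => by simp [hp', hq']⟩,
        ⟨_, dense_mul_mem hp₁ hq₁, fun z => by simp [hp₁', hq₁']⟩⟩
    | star x _ hx =>
      obtain ⟨⟨p, hp, hp'⟩, ⟨p₁, hp₁, hp₁'⟩⟩ := hx
      exact ⟨⟨_, hp₁, fun z => by simp [← hp₁']⟩, ⟨_, hp, fun z => by simp [← hp']⟩⟩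
  obtain ⟨q, hq, hq'⟩ := h2.1
  refine ⟨q, hq, fun z hz => ?_⟩
  have h3 := ContinuousMap.dist_apply_le_dist (f := F) (g := g) ⟨z, hz⟩
  rw [hq', dist_eq_norm] at h3
  exact h3.trans hd.le

/-- Polynomials are dense in `L²` of the disc. -/
lemma dense_L2 {f : ℂ → ℂ} (hf : MemLp f 2 (volume.restrict D)) {ε : ℝ} (hε : 0 < ε) :
    ∃ q ∈ densePoly, ∫ z in D, ‖f z - q z‖ ^ 2 ≤ ε := by
  have hf' : MemLp f (ENNReal.ofReal 2) (volume.restrict D) := by simpa using hf
  obtain ⟨g, hg, hg'⟩ := hf'.exists_boundedContinuous_integral_rpow_sub_le two_pos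
    (ε := ε / 4) (by positivity)
  have hg2 : MemLp g 2 (volume.restrict D) := by simpa using hg'
  simp only [Real.rpow_ofNat] at hg
  set V : ℝ := (volume.restrict D).real univ with hV
  have hV0 : 0 ≤ V := measureReal_nonneg
  obtain ⟨q, hq, hq'⟩ := dense_uniform (isCompact_closedBall (0 : ℂ) 1) g.continuous.continuousOn
    (δ := √(ε / (4 * (V + 1)))) (by positivity)
  refine ⟨q, hq, ?_⟩
  have hq2 := sl_memLp_of_continuous (dense_contDiff hq).continuous 2
  have i1 := sl_integrable_norm_sq (hf.sub hq2)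
  have i2 := sl_integrable_norm_sq (hf.sub hg2)
  simp only [Pi.sub_apply] at i1 i2
  have h1 : ∫ z in D, ‖f z - q z‖ ^ 2 ≤
      ∫ z in D, (2 * ‖f z - g z‖ ^ 2 + 2 * (ε / (4 * (V + 1)))) := by
    refine integral_mono_ae i1 ((i2.const_mul 2).add (integrable_const _))
      (sl_ae_mem.mono fun z hz => ?_)
    have h2 := hq' z (ball_subset_closedBall hz)
    have h3 : ‖g z - q z‖ ^ 2 ≤ ε / (4 * (V + 1)) := by
      rw [← Real.sq_sqrt (show 0 ≤ ε / (4 * (V + 1)) by positivity)]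
      exact pow_le_pow_left₀ (norm_nonneg _) h2 2
    have h4 := norm_sub_le_norm_sub_add_norm_sub (f z) (g z) (q z)
    have h5 := pow_le_pow_left₀ (norm_nonneg _) h4 2
    simp only
    nlinarith [sq_nonneg (‖f z - g z‖ - ‖g z - q z‖)]
  rw [integral_add (i2.const_mul 2) (integrable_const _), integral_const_mul, integral_const,
    ← hV, smul_eq_mul] at h1
  have h6 : V * (2 * (ε / (4 * (V + 1)))) ≤ ε / 2 := by
    rw [show V * (2 * (ε / (4 * (V + 1)))) = ε / 2 * (V / (V + 1)) by field_simp; ring]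
    exact mul_le_of_le_one_right (by positivity) ((div_le_one (by positivity)).mpr (by linarith))
  linarith

lemma dense_diff_mon (c : ℂ) (a b : ℕ) (z : ℂ) : DifferentiableAt ℝ (denseMon c a b) z :=
  (dense_contDiff_mon c a b).differentiable (by simp) z

lemma dense_dD_mon (c : ℂ) (a b : ℕ) : dD (denseMon c a b) = denseMon (2 * a * c) (a - 1) b := by
  funext z
  have h1 : DifferentiableAt ℂ (fun w : ℂ => w ^ a) z := differentiableAt_pow a
  have h2 : DifferentiableAt ℂ (fun w : ℂ => w ^ b) z := differentiableAt_pow b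
  have h3 : (fun w : ℂ => conj w ^ b) = fun w => conj (w ^ b) := funext fun w => by simp
  have h4 : DifferentiableAt ℝ (fun w : ℂ => conj w ^ b) z := by
    rw [h3]; exact differentiableAt_conj' (h2.restrictScalars ℝ)
  unfold denseMon
  rw [dD_const_mul c ((h1.restrictScalars ℝ).fun_mul h4), dD_mul (h1.restrictScalars ℝ) h4, h3,
    dD_conj (h2.restrictScalars ℝ), dB_holo h2, dD_holo h1]
  simp
  ring

lemma dense_dB_mon (c : ℂ) (a b : ℕ) : dB (denseMon c a b) = denseMon (2 * b * c) a (b - 1) := by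
  funext z
  have h1 : DifferentiableAt ℂ (fun w : ℂ => w ^ a) z := differentiableAt_pow a
  have h2 : DifferentiableAt ℂ (fun w : ℂ => w ^ b) z := differentiableAt_pow b
  have h3 : (fun w : ℂ => conj w ^ b) = fun w => conj (w ^ b) := funext fun w => by simp
  have h4 : DifferentiableAt ℝ (fun w : ℂ => conj w ^ b) z := by
    rw [h3]; exact differentiableAt_conj' (h2.restrictScalars ℝ)
  unfold denseMon
  rw [dB_const_mul c ((h1.restrictScalars ℝ).fun_mul h4), dB_mul (h1.restrictScalars ℝ) h4, h3,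
    dB_conj (h2.restrictScalars ℝ), dB_holo h1, dD_holo h2]
  simp [map_ofNat]
  ring

lemma dense_two_le : (2 : WithTop ℕ∞) ≤ ∞ := by norm_cast

lemma dense_lap_mon (c : ℂ) (a b : ℕ) (z : ℂ) :
    lap (denseMon c a b) z = denseMon (4 * a * b * c) (a - 1) (b - 1) z := by
  rw [← dB_dD ((dense_contDiff_mon c a b).of_le dense_two_le).contDiffAt, dense_dD_mon,
    dense_dB_mon]
  congr 1
  ring

lemma dense_mon_sphere (c : ℂ) (a b k : ℕ) {z : ℂ} (hz : z ∈ S1) :
    denseMon c (a + k) (b + k) z = denseMon c a b z := by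
  have h1 : z * conj z = 1 := by
    rw [mul_conj, normSq_eq_norm_sq, mem_sphere_zero_iff_norm.mp hz]; simp
  unfold denseMon
  rw [pow_add, pow_add, mul_mul_mul_comm, ← mul_pow, h1, one_pow, mul_one]

lemma dense_exists_lap {q : ℂ → ℂ} (hq : q ∈ densePoly) :
    ∃ η : ℂ → ℂ, ContDiff ℝ ∞ η ∧ (∀ z ∈ S1, η z = 0) ∧ ∀ z, lap η z = -q z := by
  refine dense_induction
    (P := fun q => ∃ η : ℂ → ℂ, ContDiff ℝ ∞ η ∧ (∀ z ∈ S1, η z = 0) ∧ ∀ z, lap η z = -q z)
    ⟨fun _ => 0, contDiff_const, fun _ _ => rfl, fun z => by simp⟩ ?_ ?_ hq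
  · intro c a b
    set c' : ℂ := c / (4 * (a + 1) * (b + 1)) with hc'
    obtain ⟨k, l, m, hkl, ha, hb⟩ : ∃ k l m : ℕ, k * l = 0 ∧ a + 1 = k + m ∧ b + 1 = l + m := by
      rcases le_total a b with h | h
      · exact ⟨0, b - a, a + 1, by simp, by simp, by omega⟩
      · exact ⟨a - b, 0, b + 1, by simp, by omega, by simp⟩
    refine ⟨fun z => denseMon c' k l z - denseMon c' (a + 1) (b + 1) z,
      (dense_contDiff_mon _ _ _).sub (dense_contDiff_mon _ _ _), fun z hz => ?_, fun z => ?_⟩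
    · simp only
      rw [ha, hb, dense_mon_sphere _ _ _ _ hz, sub_self]
    · rw [lap_sub ((dense_contDiff_mon _ _ _).of_le dense_two_le).contDiffAt
        ((dense_contDiff_mon _ _ _).of_le dense_two_le).contDiffAt, dense_lap_mon, dense_lap_mon]
      have h1 : (4 * (k : ℂ) * l * c') = 0 := by
        have : (k : ℂ) * l = 0 := by exact_mod_cast hkl
        rw [mul_assoc 4, this]; simp
      have h2 : (4 * ((a + 1 : ℕ) : ℂ) * ((b + 1 : ℕ) : ℂ) * c') = c := by
        have e1 : (a : ℂ) + 1 ≠ 0 := by exact_mod_cast Nat.succ_ne_zero a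
        have e2 : (b : ℂ) + 1 ≠ 0 := by exact_mod_cast Nat.succ_ne_zero b
        rw [hc']; push_cast; field_simp
      rw [h1, h2]
      simp [denseMon]
  · rintro f g ⟨η, h1, h2, h3⟩ ⟨η', h1', h2', h3'⟩
    refine ⟨fun z => η z + η' z, h1.add h1', fun z hz => by simp [h2 z hz, h2' z hz], fun z => ?_⟩
    rw [lap_add (h1.of_le dense_two_le).contDiffAt (h1'.of_le dense_two_le).contDiffAt, h3, h3']
    simp only [Pi.add_apply]
    ring

lemma dense_exists_dD {q : ℂ → ℂ} (hq : q ∈ densePoly) :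
    ∃ U : ℂ → ℂ, ContDiff ℝ ∞ U ∧ (∀ z ∈ S1, (U z).im = 0) ∧ ∀ z, dD U z = q z := by
  refine dense_induction
    (P := fun q => ∃ U : ℂ → ℂ, ContDiff ℝ ∞ U ∧ (∀ z ∈ S1, (U z).im = 0) ∧ ∀ z, dD U z = q z)
    ⟨fun _ => 0, contDiff_const, fun _ _ => rfl, fun z => by simp⟩ ?_ ?_ hq
  · intro c a b
    set c' : ℂ := c / (2 * (a + 1)) with hc'
    obtain ⟨d, k, hd⟩ : ∃ (d : ℂ) (k : ℕ), ∀ z ∈ S1,
        (denseMon c' (a + 1) b z + denseMon d 0 k z).im = 0 := by
      rcases le_total b (a + 1) with h | h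
      · obtain ⟨k, hk⟩ := Nat.exists_eq_add_of_le' h
        refine ⟨conj c', k, fun z hz => ?_⟩
        have h1 := dense_mon_sphere c' k 0 b hz
        rw [zero_add, ← hk] at h1
        have h2 : denseMon (conj c') 0 k z = conj (denseMon c' k 0 z) := by simp [denseMon]
        rw [h1, h2, add_conj, ofReal_im]
      · obtain ⟨k, hk⟩ := Nat.exists_eq_add_of_le' h
        refine ⟨-c', k, fun z hz => ?_⟩
        have h1 := dense_mon_sphere c' 0 k (a + 1) hz
        rw [zero_add, ← hk] at h1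
        rw [h1]
        simp [denseMon]
    refine ⟨fun z => denseMon c' (a + 1) b z + denseMon d 0 k z,
      (dense_contDiff_mon _ _ _).add (dense_contDiff_mon _ _ _), hd, fun z => ?_⟩
    rw [dD_add (dense_diff_mon _ _ _ _) (dense_diff_mon _ _ _ _), dense_dD_mon, dense_dD_mon]
    have h2 : (2 * ((a + 1 : ℕ) : ℂ) * c') = c := by
      have e1 : (a : ℂ) + 1 ≠ 0 := by exact_mod_cast Nat.succ_ne_zero a
      rw [hc']; push_cast; field_simp
    rw [h2]
    simp [denseMon]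
  · rintro f g ⟨U, h1, h2, h3⟩ ⟨U', h1', h2', h3'⟩
    refine ⟨fun z => U z + U' z, h1.add h1', fun z hz => by simp [h2 z hz, h2' z hz], fun z => ?_⟩
    rw [dD_add (h1.differentiable (by simp) z) (h1'.differentiable (by simp) z), h3, h3']
    rfl

theorem dense_lap {k : ℂ → ℂ} (hk : MemLp k 2 (volume.restrict D)) {ε : ℝ} (hε : 0 < ε) :
    ∃ η : ℂ → ℂ, ContDiff ℝ ∞ η ∧ (∀ z ∈ S1, η z = 0) ∧ ∫ z in D, ‖k z + lap η z‖ ^ 2 ≤ ε := by
  obtain ⟨q, hq, hq'⟩ := dense_L2 hk hε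
  obtain ⟨η, h1, h2, h3⟩ := dense_exists_lap hq
  refine ⟨η, h1, h2, ?_⟩
  simpa only [h3, ← sub_eq_add_neg] using hq'

theorem dense_dD {v : ℂ → ℂ} (hv : MemLp v 2 (volume.restrict D)) {ε : ℝ} (hε : 0 < ε) :
    ∃ U : ℂ → ℂ, ContDiff ℝ ∞ U ∧ (∀ z ∈ S1, (U z).im = 0) ∧
      ∫ z in D, ‖v z - dD U z‖ ^ 2 ≤ ε := by
  obtain ⟨q, hq, hq'⟩ := dense_L2 hv hε
  obtain ⟨U, h1, h2, h3⟩ := dense_exists_dD hq
  refine ⟨U, h1, h2, ?_⟩
  simpa only [h3] using hq'

theorem dense_circle {f : ℂ → ℝ} (hf : ContinuousOn f S1) {ε : ℝ} (hε : 0 < ε) :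
    ∃ K : ℂ → ℝ, ContDiff ℝ ∞ K ∧ ∀ z ∈ S1, |f z - K z| ≤ ε := by
  obtain ⟨q, hq, hq'⟩ := dense_uniform (isCompact_sphere (0 : ℂ) 1) (f := fun z => (f z : ℂ))
    (continuous_ofReal.comp_continuousOn hf) hε
  refine ⟨fun z => (q z).re, reCLM.contDiff.comp (dense_contDiff hq), fun z hz => ?_⟩
  have h1 := abs_re_le_norm ((f z : ℂ) - q z)
  rw [sub_re, ofReal_re] at h1
  exact h1.trans (hq' z hz)

end Vale.Agent.P071
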