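import Vale.Agent.P071.GR

/-!
# The first Neumann eigenvalue is strictly below the Dirichlet spectrum
-/

open Complex Metric Set Filter Topology MeasureTheory
open scoped ContDiff ComplexConjugate Real

namespace Vale.Agent.P071

variable {φ : ℂ → ℂ} {μ c C : ℝ}

lemma dx_dy_sep {f g f' g' : ℝ → ℝ} (hf : ∀ t, HasDerivAt f (f' t) t)
    (hg : ∀ t, HasDerivAt g (g' t) t) :
    (dx (fun w : ℂ => f w.re * g w.im) = fun w => f' w.re * g w.im) ∧
      dy (fun w : ℂ => f w.re * g w.im) = fun w => f w.re * g' w.im := by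
  have h : ∀ w : ℂ, HasFDerivAt (fun w : ℂ => f w.re * g w.im)
      (f w.re • (g' w.im • imCLM) + g w.im • (f' w.re • reCLM)) w := fun w =>
    ((hf w.re).comp_hasFDerivAt w reCLM.hasFDerivAt).mul
      ((hg w.im).comp_hasFDerivAt w imCLM.hasFDerivAt)
  constructor
  · funext w; rw [dx, (h w).fderiv]; simp [mul_comm]
  · funext w; rw [dy, (h w).fderiv]; simp

lemma Setup.bm_comp (S : Setup φ μ c C) {E : ℂ → ℝ} (hE : Continuous E) :
    BM fun z => E (φ z) := by
  obtain ⟨B, hB⟩ := S.exists_bound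
  obtain ⟨M, hM⟩ := (isCompact_closedBall (0 : ℂ) B).exists_bound_of_continuousOn hE.continuousOn
  exact .of_continuousOn (hE.comp_continuousOn S.diff.continuousOn)
    ⟨M, fun z hz => hM _ (mem_closedBall_zero_iff.2 (hB z hz))⟩

lemma Setup.comp_wave (S : Setup φ μ c C) {E : ℂ → ℝ} (hE : ContDiff ℝ 2 E)
    (hl : ∀ w, lap E w = -(μ * E w)) :
    Bdd1 (fun z => E (φ z)) ∧ ContDiffOn ℝ 2 (fun z => E (φ z)) D ∧
      (∀ z ∈ D, lap (fun z => E (φ z)) z = -(μ * rho φ z * E (φ z))) ∧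
      ∀ z ∈ D, dx (fun z => E (φ z)) z ^ 2 + dy (fun z => E (φ z)) z ^ 2 =
        rho φ z * (dx E (φ z) ^ 2 + dy E (φ z) ^ 2) := by
  have hc : ContDiffOn ℝ 2 (fun z => E (φ z)) D := fun z hz =>
    (hE.contDiffAt.comp z (S.contDiffAt hz)).contDiffWithinAt
  have hd : ∀ w, DifferentiableAt ℝ E w := fun w => hE.contDiffAt.differentiableAt (by norm_num)
  have b1 : BM fun z => dx E (φ z) := S.bm_comp (continuous_iff_continuousAt.2 fun w =>
    (differentiableAt_dx hE.contDiffAt).continuousAt)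
  have b2 : BM fun z => dy E (φ z) := S.bm_comp (continuous_iff_continuousAt.2 fun w =>
    (differentiableAt_dy hE.contDiffAt).continuousAt)
  refine ⟨.of_bm (hc.of_le (by norm_num)) (S.bm_comp hE.continuous) ?_ ?_, hc, fun z hz => ?_,
    fun z hz => ?_⟩
  · exact ((S.bm_deriv.re.mul b1).add (S.bm_deriv.im.mul b2)).congr fun z hz =>
      (dx_comp_holo (hd _) (S.analyticAt hz).differentiableAt).symm
  · exact ((S.bm_deriv.im.neg.mul b1).add (S.bm_deriv.re.mul b2)).congr fun z hz =>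
      (dy_comp_holo (hd _) (S.analyticAt hz).differentiableAt).symm
  · rw [lap_comp_holo_real hE.contDiffAt (S.analyticAt hz), hl, rho]; ring
  · rw [dx_comp_holo (hd _) (S.analyticAt hz).differentiableAt,
      dy_comp_holo (hd _) (S.analyticAt hz).differentiableAt, rho, Complex.sq_norm, normSq_apply]
    simp only [smul_eq_mul]; ring

/-- A plane wave with negative Neumann energy. -/
lemma Setup.exists_wave (S : Setup φ μ c C) : ∃ a : ℂ → ℝ, Bdd1 a ∧ ContDiffOn ℝ 2 a D ∧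
    (∀ z ∈ D, lap a z = -(μ * rho φ z * a z)) ∧
    ∫ z in D, (dx a z ^ 2 + dy a z ^ 2 - μ * (rho φ z * a z ^ 2)) < 0 := by
  obtain ⟨B, hB⟩ := S.exists_bound
  have hB0 : 0 ≤ B := (norm_nonneg _).trans (hB 0 (mem_ball_self one_pos))
  have hμ := S.mu_pos
  set β := min (Real.sqrt μ) (1 / (2 * (B + 1))) with hβ
  have hβ0 : 0 < β := lt_min (Real.sqrt_pos.2 hμ) (by positivity)
  have hβ1 : β ^ 2 ≤ μ := by
    have := pow_le_pow_left₀ hβ0.le (min_le_left (Real.sqrt μ) (1 / (2 * (B + 1)))) 2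
    rwa [Real.sq_sqrt hμ.le] at this
  have hβ2 : β * (2 * (B + 1)) ≤ 1 := (le_div_iff₀ (by positivity)).1 (min_le_right _ _)
  set α := Real.sqrt (μ - β ^ 2) with hα
  have hα2 : α ^ 2 = μ - β ^ 2 := Real.sq_sqrt (by linarith)
  have hcos : ∀ k t : ℝ, HasDerivAt (fun t => Real.cos (k * t)) (-k * Real.sin (k * t)) t :=
    fun k t => by
      refine ((hasDerivAt_id t).const_mul k).cos.congr_deriv ?_
      simp [mul_comm]
  have hsin : ∀ k t : ℝ, HasDerivAt (fun t => Real.sin (k * t)) (k * Real.cos (k * t)) t :=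
    fun k t => by
      refine ((hasDerivAt_id t).const_mul k).sin.congr_deriv ?_
      simp [mul_comm]
  set E₁ : ℂ → ℝ := fun w => Real.cos (α * w.re) * Real.cos (β * w.im) with hE₁
  set E₂ : ℂ → ℝ := fun w => Real.sin (α * w.re) * Real.cos (β * w.im) with hE₂
  have hre : ContDiff ℝ 2 fun w : ℂ => w.re := reCLM.contDiff
  have him : ContDiff ℝ 2 fun w : ℂ => w.im := imCLM.contDiff
  have c1 : ContDiff ℝ 2 E₁ := (contDiff_const.mul hre).cos.mul (contDiff_const.mul him).cos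
  have c2 : ContDiff ℝ 2 E₂ := (contDiff_const.mul hre).sin.mul (contDiff_const.mul him).cos
  have d1 := dx_dy_sep (hcos α) (hcos β)
  have d2 := dx_dy_sep (hsin α) (hcos β)
  have l1 : ∀ w, lap E₁ w = -(μ * E₁ w) := fun w => by
    rw [lap, d1.1, d1.2, (dx_dy_sep (fun t => (hsin α t).const_mul (-α)) (hcos β)).1,
      (dx_dy_sep (hcos α) (fun t => (hsin β t).const_mul (-β))).2]
    simp only [hE₁]
    linear_combination (-Real.cos (α * w.re) * Real.cos (β * w.im)) * hα2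
  have l2 : ∀ w, lap E₂ w = -(μ * E₂ w) := fun w => by
    rw [lap, d2.1, d2.2, (dx_dy_sep (fun t => (hcos α t).const_mul α) (hcos β)).1,
      (dx_dy_sep (hsin α) (fun t => (hsin β t).const_mul (-β))).2]
    simp only [hE₂]
    linear_combination (-Real.sin (α * w.re) * Real.cos (β * w.im)) * hα2
  obtain ⟨a1, a2, a3, a4⟩ := S.comp_wave c1 l1
  obtain ⟨b1, b2, b3, b4⟩ := S.comp_wave c2 l2
  by_contra hcon
  push Not at hcon
  have h1 := hcon _ a1 a2 a3
  have h2 := hcon _ b1 b2 b3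
  have hi : ∀ {a : ℂ → ℝ}, Bdd1 a →
      IntegrableOn (fun z => dx a z ^ 2 + dy a z ^ 2 - μ * (rho φ z * a z ^ 2)) D := fun h =>
    ((h.bm.2.1.sq.add h.bm.2.2.sq).sub ((S.bm_rho.mul h.bm.1.sq).const_mul μ)).integrableOn
  have h3 := add_nonneg h1 h2
  rw [← integral_add (hi a1) (hi b1)] at h3
  have h4 := h3.trans (setIntegral_mono_on ((hi a1).add (hi b1))
    (BM.const (-(c ^ 2 * β ^ 2 * Real.cos 1) * 1)).integrableOn measurableSet_ball ?_)
  · rw [integral_const_mul, integral_D_one] at h4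
    have := Real.pi_pos
    have := S.c_pos
    have := Real.cos_one_pos
    have : 0 < c ^ 2 * β ^ 2 * Real.cos 1 * π := by positivity
    linarith
  · intro z hz
    simp only [a4 z hz, b4 z hz]
    rw [d1.1, d1.2, d2.1, d2.2]
    simp only [hE₁, hE₂]
    have e1 := Real.sin_sq_add_cos_sq (α * (φ z).re)
    have e2 := Real.cos_two_mul' (β * (φ z).im)
    have e3 : Real.cos 1 ≤ Real.cos (2 * (β * (φ z).im)) := by
      rw [← Real.cos_abs (2 * _)]
      refine Real.cos_le_cos_of_nonneg_of_le_pi (abs_nonneg _) (by linarith [Real.pi_gt_three]) ?_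
      rw [abs_mul, abs_mul, abs_of_pos hβ0, abs_two]
      have := (abs_im_le_norm (φ z)).trans (hB z hz)
      nlinarith
    have e4 := S.le_rho hz
    have e5 : c ^ 2 * β ^ 2 * Real.cos 1 ≤ rho φ z * β ^ 2 * Real.cos (2 * (β * (φ z).im)) := by
      have := Real.cos_one_pos
      have := rho_nonneg φ z
      gcongr
    have e6 : μ = α ^ 2 + β ^ 2 := by linarith
    rw [e2] at e5
    rw [e6]
    have e7 : Real.sin (α * (φ z).re) ^ 2 = 1 - Real.cos (α * (φ z).re) ^ 2 := by linarith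
    ring_nf at e5 ⊢
    rw [e7]
    linarith

/-- Strict Dirichlet inequality for smooth functions. -/
lemma Setup.exists_gap_smooth (S : Setup φ μ c C) : ∃ γ : ℝ, 0 < γ ∧ ∀ ψ : ℂ → ℝ,
    ContDiff ℝ 2 ψ → (∀ z ∈ S1, ψ z = 0) → γ * (∫ z in D, rho φ z * ψ z) ^ 2 ≤
      (∫ z in D, (dx ψ z ^ 2 + dy ψ z ^ 2)) - μ * ∫ z in D, rho φ z * ψ z ^ 2 := by
  obtain ⟨a, a1, a2, a3, a4⟩ := S.exists_wave
  have hi1 : ∀ {a : ℂ → ℝ}, Bdd1 a → IntegrableOn (fun z => dx a z ^ 2 + dy a z ^ 2) D := fun h =>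
    (h.bm.2.1.sq.add h.bm.2.2.sq).integrableOn
  have hi2 : ∀ {a : ℂ → ℝ}, Bdd1 a → IntegrableOn (fun z => μ * (rho φ z * a z ^ 2)) D := fun h =>
    ((S.bm_rho.mul h.bm.1.sq).const_mul μ).integrableOn
  have hq : ∀ {a : ℂ → ℝ}, Bdd1 a → ∫ z in D, rho φ z * a z = 0 →
      0 ≤ ∫ z in D, (dx a z ^ 2 + dy a z ^ 2 - μ * (rho φ z * a z ^ 2)) := fun h h0 => by
    rw [integral_sub (hi1 h) (hi2 h), integral_const_mul, sub_nonneg]
    exact S.poincare _ h h0
  set m := ∫ z in D, rho φ z * a z with hm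
  have hm0 : m ≠ 0 := fun h => absurd (hq a1 h) (not_le.2 a4)
  set κ := ∫ z in D, (dx a z ^ 2 + dy a z ^ 2 - μ * (rho φ z * a z ^ 2)) with hκ
  refine ⟨-κ / m ^ 2, div_pos (by linarith) (by positivity), fun ψ hψ h0 => ?_⟩
  have p1 : Bdd1 ψ := .of_contDiff (hψ.of_le (by norm_num))
  set t := (∫ z in D, rho φ z * ψ z) / m with ht
  have e1 : ∀ z ∈ D, dx (fun w => ψ w - t * a w) z = dx ψ z - t * dx a z := fun z hz => by
    rw [dx_sub (p1.differentiableAt hz) ((a1.differentiableAt hz).const_mul t),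
      dx_mul (differentiableAt_const t) (a1.differentiableAt hz)]; simp
  have e2 : ∀ z ∈ D, dy (fun w => ψ w - t * a w) z = dy ψ z - t * dy a z := fun z hz => by
    rw [dy_sub (p1.differentiableAt hz) ((a1.differentiableAt hz).const_mul t),
      dy_mul (differentiableAt_const t) (a1.differentiableAt hz)]; simp
  have f1 : Bdd1 fun w => ψ w - t * a w :=
    .of_bm (p1.cd.sub (contDiffOn_const.mul a1.cd)) (p1.bm.1.sub (a1.bm.1.const_mul t))
      ((p1.bm.2.1.sub (a1.bm.2.1.const_mul t)).congr fun z hz => (e1 z hz).symm)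
      ((p1.bm.2.2.sub (a1.bm.2.2.const_mul t)).congr fun z hz => (e2 z hz).symm)
  have f2 : ∫ z in D, rho φ z * (ψ z - t * a z) = 0 := by
    have : ∫ z in D, rho φ z * (ψ z - t * a z) =
        ∫ z in D, (rho φ z * ψ z - t * (rho φ z * a z)) :=
      integral_congr_ae (Eventually.of_forall fun z => by simp only; ring)
    rw [this, integral_sub (S.bm_rho.mul p1.bm.1).integrableOn
      ((S.bm_rho.mul a1.bm.1).const_mul t).integrableOn, integral_const_mul, ← hm, ht,
      div_mul_cancel₀ _ hm0, sub_self]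
  have bl : BM (lap a) := (((S.bm_rho.const_mul μ).mul a1.bm.1).neg).congr fun z hz =>
    (a3 z hz).symm
  have f3 := dirichlet_orth hψ h0 a2 a1.bm.2.1 a1.bm.2.2 bl
  have f4 := hq f1 f2
  have i1 := Integrable.sub' (hi1 p1) (hi2 p1)
  have i2 : IntegrableOn (fun z => -2 * t * (dx ψ z * dx a z + dy ψ z * dy a z + ψ z * lap a z))
      D := ((((p1.bm.2.1.mul a1.bm.2.1).add (p1.bm.2.2.mul a1.bm.2.2)).add
        (p1.bm.1.mul bl)).const_mul _).integrableOn
  have i3 : IntegrableOn (fun z => t ^ 2 * (dx a z ^ 2 + dy a z ^ 2 - μ * (rho φ z * a z ^ 2)))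
      D := ((hi1 a1).sub (hi2 a1)).const_mul _
  have f5 : ∫ z in D, (dx (fun w => ψ w - t * a w) z ^ 2 + dy (fun w => ψ w - t * a w) z ^ 2 -
      μ * (rho φ z * (ψ z - t * a z) ^ 2)) =
      ∫ z in D, ((dx ψ z ^ 2 + dy ψ z ^ 2 - μ * (rho φ z * ψ z ^ 2)) +
        (-2 * t * (dx ψ z * dx a z + dy ψ z * dy a z + ψ z * lap a z) +
          t ^ 2 * (dx a z ^ 2 + dy a z ^ 2 - μ * (rho φ z * a z ^ 2)))) :=
    setIntegral_congr_fun measurableSet_ball fun z hz => by
      simp only [e1 z hz, e2 z hz, a3 z hz]; ring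
  rw [f5, integral_add i1 (i2.fun_add i3), integral_add i2 i3, integral_sub (hi1 p1) (hi2 p1),
    integral_const_mul, integral_const_mul, integral_const_mul, f3, ← hκ] at f4
  have : -κ / m ^ 2 * (∫ z in D, rho φ z * ψ z) ^ 2 = -(t ^ 2 * κ) := by
    rw [ht]; field_simp
  rw [this]
  linarith

/-- Strict Dirichlet inequality for Green potentials. -/
lemma Setup.exists_gap (S : Setup φ μ c C) : ∃ γ : ℝ, 0 < γ ∧ ∀ k : ℂ → ℝ,
    MemLp k 2 (volume.restrict D) → γ * (∫ z in D, rho φ z * GR k z) ^ 2 ≤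
      (∫ z in D, k z * GR k z) - μ * ∫ z in D, rho φ z * GR k z ^ 2 := by
  obtain ⟨γ, hγ, h⟩ := S.exists_gap_smooth
  obtain ⟨G, hG0, hG⟩ := exists_GR_bound
  refine ⟨γ, hγ, fun k hk => ?_⟩
  have hε : ∀ j : ℕ, (0 : ℝ) < 1 / ((j : ℝ) + 1) := fun j => by positivity
  choose ψ h1 h2 h3 using fun j => dense_lap_real hk (hε j)
  have h4 : ∀ j, ContDiff ℝ 2 (ψ j) := fun j => (h1 j).of_le (by norm_cast)
  have bψ : ∀ j, BM (ψ j) := fun j => .of_continuous (h4 j).continuous
  have bl : ∀ j, BM (lap (ψ j)) := fun j => .lap_of_contDiff (h4 j)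
  have hd : ∀ j, MemLp (fun z => k z + lap (ψ j) z) 2 (volume.restrict D) := fun j =>
    hk.add (bl j).memLp
  have hε0 : Tendsto (fun j : ℕ => (1 : ℝ) / ((j : ℝ) + 1)) atTop (𝓝 0) :=
    tendsto_one_div_add_atTop_nhds_zero_nat
  have hε1 : ∀ j : ℕ, (1 : ℝ) / ((j : ℝ) + 1) ≤ 1 := fun j => by
    rw [div_le_one (by positivity)]; linarith [Nat.cast_nonneg (α := ℝ) j]
  have h5 : ∀ j, ∀ x ∈ D, |ψ j x - GR k x| ≤ Real.sqrt (G * (1 / ((j : ℝ) + 1))) := by
    intro j x hx
    refine Real.abs_le_sqrt ?_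
    have e := GR_sub_mul hk (bl j).neg.memLp 1 (ball_subset_closedBall hx)
    rw [← GR_rep (h4 j) (h2 j) hx] at e
    have e2 := (hG _ (hd j)).1 x (ball_subset_closedBall hx)
    simp only [one_mul, sub_neg_eq_add] at e
    rw [e] at e2
    calc (ψ j x - GR k x) ^ 2 = (GR k x - ψ j x) ^ 2 := by ring
      _ ≤ _ := e2.trans (mul_le_mul_of_nonneg_left (h3 j) hG0.le)
  have hδ : Tendsto (fun j : ℕ => Real.sqrt (G * (1 / ((j : ℝ) + 1)))) atTop (𝓝 0) := by
    simpa using (hε0.const_mul G).sqrt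
  have h6 : ∀ x ∈ D, Tendsto (fun j => ψ j x) atTop (𝓝 (GR k x)) := fun x hx =>
    tendsto_sub_nhds_zero_iff.1 (squeeze_zero_norm (fun j => h5 j x hx) hδ)
  obtain ⟨B, hB0, hB⟩ := (bm_GR hk).bdd'
  have h7 : ∀ j, ∀ x ∈ D, |ψ j x| ≤ B + Real.sqrt G := fun j x hx => by
    have a1 := h5 j x hx
    have a2 : |GR k x| ≤ B := hB x hx
    have a3 : Real.sqrt (G * (1 / ((j : ℝ) + 1))) ≤ Real.sqrt G :=
      Real.sqrt_le_sqrt (by nlinarith [hε1 j])
    have a4 := abs_sub_abs_le_abs_sub (ψ j x) (GR k x)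
    linarith
  set B' := B + Real.sqrt G with hB'
  have hB'0 : 0 ≤ B' := by positivity
  have t0 : ∀ {w : ℂ → ℝ}, IntegrableOn w D → ∀ n : ℕ,
      Tendsto (fun j => ∫ z in D, w z * ψ j z ^ n) atTop (𝓝 (∫ z in D, w z * GR k z ^ n)) := by
    intro w hw n
    refine tendsto_integral_of_dominated_convergence (fun z => ‖w z‖ * B' ^ n)
      (fun j => hw.aestronglyMeasurable.mul ((bψ j).meas.pow n)) (hw.norm.mul_const _)
      (fun j => ae_restrict_of_forall_mem measurableSet_ball fun z hz => ?_)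
      (ae_restrict_of_forall_mem measurableSet_ball fun z hz => ((h6 z hz).pow n).const_mul _)
    rw [norm_mul, norm_pow]
    exact mul_le_mul_of_nonneg_left (pow_le_pow_left₀ (norm_nonneg _) (h7 j z hz) n)
      (norm_nonneg _)
  have t1 := t0 S.bm_rho.integrableOn 1
  have t2 := t0 S.bm_rho.integrableOn 2
  have t3 := t0 (integrableOn_of_memLp hk) 1
  simp only [pow_one] at t1 t3
  have t4 : Tendsto (fun j => ∫ z in D, (k z + lap (ψ j) z) * ψ j z) atTop (𝓝 0) := by
    have hδ' : Tendsto (fun j : ℕ => Real.sqrt (π * (1 / ((j : ℝ) + 1))) * B') atTop (𝓝 0) := by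
      simpa using (hε0.const_mul π).sqrt.mul_const B'
    refine squeeze_zero_norm (fun j => ?_) hδ'
    have a1 := sq_integral_norm_le (hd j)
    simp only [Real.norm_eq_abs, sq_abs] at a1
    have a2 : ∫ z in D, |k z + lap (ψ j) z| ≤ Real.sqrt (π * (1 / ((j : ℝ) + 1))) :=
      Real.le_sqrt_of_sq_le (a1.trans (mul_le_mul_of_nonneg_left (h3 j) Real.pi_pos.le))
    refine le_trans (norm_integral_le_of_norm_le ((integrableOn_of_memLp (hd j)).norm.mul_const B')
      (ae_restrict_of_forall_mem measurableSet_ball fun z hz => ?_)) ?_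
    · rw [norm_mul]
      exact mul_le_mul_of_nonneg_left (h7 j z hz) (norm_nonneg _)
    · rw [integral_mul_const]
      exact mul_le_mul_of_nonneg_right a2 hB'0
  have t5 := t3.sub t4
  rw [sub_zero] at t5
  refine le_of_tendsto_of_tendsto' ((t1.pow 2).const_mul γ) (t5.sub (t2.const_mul μ)) fun j => ?_
  refine (h _ (h4 j) (h2 j)).trans (le_of_eq ?_)
  rw [dirichlet_energy (h4 j) (h2 j), ← integral_sub ((bψ j).memLp_mul hk |> integrableOn_of_memLp)
    ((bψ j).memLp_mul (hd j) |> integrableOn_of_memLp)]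
  congr 1
  exact integral_congr_ae (Eventually.of_forall fun z => by simp only; ring)

lemma ground_arith {n x K : ℝ} (hn : 0 ≤ n) (hK : 0 < K)
    (h : x ^ 4 ≤ n ^ 2 * K * (n * x - x ^ 2)) : x ≤ max (1 / 2) (1 - 1 / (8 * K)) * n := by
  by_cases h1 : x ≤ 1 / 2 * n
  · exact h1.trans (mul_le_mul_of_nonneg_right (le_max_left _ _) hn)
  · refine le_trans ?_ (mul_le_mul_of_nonneg_right (le_max_right _ _) hn)
    push Not at h1
    have hx0 : 0 < x := by linarith
    have h2 : x ^ 3 ≤ n ^ 2 * K * (n - x) := by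
      refine le_of_mul_le_mul_left ?_ hx0
      nlinarith
    rcases hn.eq_or_lt with h3 | h3
    · rw [← h3] at h2
      have : 0 < x ^ 3 := by positivity
      nlinarith
    · have h4 : (1 / 2 * n) ^ 3 ≤ x ^ 3 := pow_le_pow_left₀ (by linarith) h1.le 3
      have h5 : n / 8 ≤ K * (n - x) := by
        refine le_of_mul_le_mul_left ?_ (pow_pos h3 2)
        nlinarith
      have h6 : (1 - 1 / (8 * K)) * n = n - (n / 8) / K := by field_simp
      rw [h6]
      have : (n / 8) / K ≤ n - x := by rw [div_le_iff₀ hK]; linarith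
      linarith

/-- The contraction estimate on the unit disc. -/
lemma Setup.exists_contr (S : Setup φ μ c C) : ∃ θ : ℝ, 0 < θ ∧ θ < 1 ∧ ∀ g : ℂ → ℝ, BM g →
    (∀ z ∈ D, 0 ≤ g z) → ∫ x in D, nu φ μ 1 x * GR (fun y => nu φ μ 1 y * g y) x ^ 2 ≤
      θ ^ 2 * ∫ x in D, nu φ μ 1 x * g x ^ 2 := by
  obtain ⟨γ, hγ, h⟩ := S.exists_gap
  obtain ⟨G, hG0, hG⟩ := exists_GR_bound
  have hμ := S.mu_pos
  have hC := S.C_pos
  set K := μ * C ^ 2 * G * μ ^ 2 / γ with hK
  have hK0 : 0 < K := by positivity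
  refine ⟨max (1 / 2) (1 - 1 / (8 * K)), lt_max_of_lt_left (by norm_num),
    max_lt (by norm_num) (by have : 0 < 1 / (8 * K) := by positivity
                             linarith), fun g hg hg0 => ?_⟩
  set ν := nu φ μ 1 with hν
  have bν : BM ν := S.bm_nu one_pos le_rfl
  have ν0 : ∀ z, 0 ≤ ν z := S.nu_nonneg 1
  have ν0' : ∀ᵐ z ∂(volume.restrict D), 0 ≤ ν z := Eventually.of_forall ν0
  set u := GR fun y => ν y * g y with hu
  have bk := bν.mul hg
  have bu : BM u := bm_GR bk.memLp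
  have u0 : ∀ z ∈ D, 0 ≤ u z := fun z hz =>
    GR_nonneg (fun y hy => mul_nonneg (ν0 y) (hg0 y hy)) (ball_subset_closedBall hz)
  have bk2 := bν.mul bu
  set u2 := GR fun y => ν y * u y with hu2
  have bu2 : BM u2 := bm_GR bk2.memLp
  set X := ∫ x in D, ν x * u x ^ 2 with hX
  set N := ∫ x in D, ν x * g x ^ 2 with hN
  have X0 : 0 ≤ X := integral_nonneg fun z => mul_nonneg (ν0 z) (sq_nonneg _)
  have N0 : 0 ≤ N := integral_nonneg fun z => mul_nonneg (ν0 z) (sq_nonneg _)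
  have a1 := h _ bk.memLp
  rw [← hu] at a1
  have e1 : μ * ∫ z in D, rho φ z * u z ^ 2 = X := by
    rw [← integral_const_mul]
    exact setIntegral_congr_fun measurableSet_ball fun z hz => by
      simp only [hν, nu_one_of_mem φ μ hz]; ring
  have e2 : μ * ∫ z in D, rho φ z * u z = ∫ z in D, |ν z * u z| := by
    rw [← integral_const_mul]
    exact setIntegral_congr_fun measurableSet_ball fun z hz => by
      rw [abs_of_nonneg (mul_nonneg (ν0 z) (u0 z hz)), hν, nu_one_of_mem φ μ hz]; ring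
  have a2 := weighted_cs ν0' (bν.mul hg.sq).integrableOn (bν.mul (hg.mul bu)).integrableOn
    (bν.mul bu.sq).integrableOn
  have a3 := weighted_cs ν0' (bν.mul hg.sq).integrableOn (bν.mul (hg.mul bu2)).integrableOn
    (bν.mul bu2.sq).integrableOn
  have e3 : ∫ z in D, ν z * (g z * u2 z) = X := by
    have := GR_symm bk.memLp bk2.memLp
    rw [← hu, ← hu2] at this
    calc ∫ z in D, ν z * (g z * u2 z) = ∫ z in D, ν z * g z * u2 z := by simp only [mul_assoc]
      _ = ∫ z in D, u z * (ν z * u z) := this.symm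
      _ = X := integral_congr_ae (Eventually.of_forall fun z => by simp only; ring)
  have a4 : ∫ z in D, ν z * u2 z ^ 2 ≤ μ * C ^ 2 * (G * (∫ z in D, |ν z * u z|) ^ 2) := by
    refine le_trans ?_ (mul_le_mul_of_nonneg_left (hG _ bk2.memLp).2 (by positivity))
    rw [← integral_const_mul]
    exact setIntegral_mono_on (bν.mul bu2.sq).integrableOn (bu2.sq.const_mul _).integrableOn
      measurableSet_ball fun z _ =>
        mul_le_mul_of_nonneg_right (S.nu_le one_pos le_rfl z) (sq_nonneg _)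
  rw [e3, ← hN] at a3
  rw [← hN, ← hX] at a2
  rw [← e2] at a4
  rw [e1] at a1
  have a5 : ∫ z in D, ν z * g z * u z ≤ Real.sqrt N * Real.sqrt X := by
    rw [← Real.sqrt_mul N0]
    refine Real.le_sqrt_of_sq_le ?_
    simpa only [mul_assoc] using a2
  have a6 := ground_arith (x := Real.sqrt X) (Real.sqrt_nonneg N) hK0 (by
    have e4 : Real.sqrt X ^ 4 = X ^ 2 := by
      rw [show (4 : ℕ) = 2 * 2 from rfl, pow_mul, Real.sq_sqrt X0]
    rw [e4, Real.sq_sqrt N0, Real.sq_sqrt X0]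
    refine a3.trans ?_
    rw [mul_assoc]
    refine mul_le_mul_of_nonneg_left (a4.trans ?_) N0
    have : μ * C ^ 2 * (G * (μ * ∫ z in D, rho φ z * u z) ^ 2) =
        K * (γ * (∫ z in D, rho φ z * u z) ^ 2) := by
      rw [hK]; field_simp
    rw [this]
    exact mul_le_mul_of_nonneg_left (by linarith) hK0.le)
  have a7 := pow_le_pow_left₀ (Real.sqrt_nonneg X) a6 2
  rwa [mul_pow, Real.sq_sqrt N0, Real.sq_sqrt X0] at a7

lemma integral_scale_indicator {r : ℝ} (hr : 0 < r) (hr1 : r ≤ 1) (f : ℂ → ℝ) :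
    ∫ z in D, (ball (0 : ℂ) r).indicator f z = ∫ z in D, r ^ 2 * f (r * z) := by
  rw [setIntegral_indicator measurableSet_ball, inter_eq_right.2 (ball_subset_ball hr1),
    integral_ball_scale f hr, integral_const_mul, smul_eq_mul]

/-- The contraction estimate on smaller discs. -/
lemma Setup.pot (S : Setup φ μ c C) {θ : ℝ} (hθ0 : 0 < θ) (hθ1 : θ < 1)
    (h : ∀ g : ℂ → ℝ, BM g → (∀ z ∈ D, 0 ≤ g z) →
      ∫ x in D, nu φ μ 1 x * GR (fun y => nu φ μ 1 y * g y) x ^ 2 ≤
        θ ^ 2 * ∫ x in D, nu φ μ 1 x * g x ^ 2) {r : ℝ} (hr : 0 < r) (hr1 : r ≤ 1) :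
    Pot (nu φ μ r) (μ * C ^ 2) θ := by
  refine ⟨measurable_nu φ μ r, S.nu_nonneg r, S.nu_le hr hr1, hθ0, hθ1, fun g hg hg0 ⟨M, hM⟩ => ?_⟩
  have hr' : (r : ℂ) ≠ 0 := ofReal_ne_zero.2 hr.ne'
  set g' : ℂ → ℝ := (ball (0 : ℂ) r).indicator fun y => g (y / r) with hg'
  have mg' : Measurable g' := (hg.comp (measurable_id.div_const _)).indicator measurableSet_ball
  have g'0 : ∀ z, 0 ≤ g' z := fun z => indicator_nonneg (fun _ _ => hg0 _) z
  have bg' : BM g' := ⟨mg'.aestronglyMeasurable, M, fun z _ =>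
    (norm_indicator_le_norm_self _ _).trans (by rw [Real.norm_of_nonneg (hg0 _)]; exact hM _)⟩
  have bg : BM g := ⟨hg.aestronglyMeasurable, M, fun z _ => by
    rw [Real.norm_of_nonneg (hg0 _)]; exact hM _⟩
  have hν : ∀ z ∈ D, nu φ μ r z = r ^ 2 * nu φ μ 1 (r * z) := fun z hz => by
    rw [nu_of_mem φ μ r hz, nu_one_of_mem φ μ (mul_mem_D hr hr1 hz)]; ring
  have b1 := S.bm_nu one_pos le_rfl
  have br := S.bm_nu hr hr1
  have bk := b1.mul bg'
  set u := GR fun y => nu φ μ 1 y * g' y with hu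
  have bu : BM u := bm_GR bk.memLp
  have mu : Measurable u := measurable_GR ((measurable_nu φ μ 1).mul mg')
  have e1 : ∀ w : ℂ → ℝ, ∀ n : ℕ, n ≠ 0 → ∫ y in D, w y * g' y ^ n =
      ∫ y in D, r ^ 2 * (w (r * y) * g y ^ n) := by
    intro w n hn
    have := integral_scale_indicator hr hr1 fun y => w y * g (y / r) ^ n
    simp only [mul_div_cancel_left₀ _ hr'] at this
    rw [← this]
    refine integral_congr_ae (Eventually.of_forall fun y => ?_)
    by_cases hy : y ∈ ball (0 : ℂ) r <;> simp [hg', hy, hn]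
  have a1 : ∀ x ∈ D, ∫ y in D, G0 x y * (nu φ μ r y * g y) ≤ u (r * x) := by
    intro x hx
    have hrx := mul_mem_D hr hr1 hx
    have e2 := e1 (fun y => G0 (r * x) y * nu φ μ 1 y) 1 one_ne_zero
    simp only [pow_one, mul_assoc] at e2
    rw [hu, GR, e2]
    have i1 : IntegrableOn
        (fun y => r ^ 2 * (G0 (r * x) (r * y) * (nu φ μ 1 (r * y) * g y))) D := by
      have i2 := (integrableOn_G0_mul bk.memLp (ball_subset_closedBall hrx)).mono_set
        (ball_subset_ball hr1)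
      have i3 := integrableOn_ball_scale hr i2
      refine (i3.const_mul (r ^ 2)).congr (ae_restrict_of_forall_mem measurableSet_ball
        fun y hy => ?_)
      simp only [hg', indicator_of_mem (mul_mem_ball hr hy), mul_div_cancel_left₀ _ hr']
    refine setIntegral_mono_on (integrableOn_G0_mul (br.mul bg).memLp (ball_subset_closedBall hx))
      i1 measurableSet_ball fun y hy => ?_
    rw [hν y hy]
    have := G0_le_scale (ball_subset_closedBall hx) (ball_subset_closedBall hy) hr hr1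
    have h2 : 0 ≤ r ^ 2 * nu φ μ 1 (r * y) * g y :=
      mul_nonneg (mul_nonneg (sq_nonneg _) (S.nu_nonneg _ _)) (hg0 _)
    nlinarith
  have bur : BM fun x : ℂ => u (r * x) := by
    obtain ⟨B, hB⟩ := bu.bdd
    exact ⟨(mu.comp (measurable_const_mul _)).aestronglyMeasurable, B, fun z hz =>
      hB _ (mul_mem_D hr hr1 hz)⟩
  calc ∫ x in D, nu φ μ r x * (∫ y in D, G0 x y * (nu φ μ r y * g y)) ^ 2
      ≤ ∫ x in D, r ^ 2 * (nu φ μ 1 (r * x) * u (r * x) ^ 2) := by
        refine setIntegral_mono_on (br.mul (bm_GR (br.mul bg).memLp).sq).integrableOn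
          ((br.mul bur.sq).congr fun z hz => by rw [hν z hz]; ring).integrableOn
          measurableSet_ball fun x hx => ?_
        rw [← mul_assoc, ← hν x hx]
        refine mul_le_mul_of_nonneg_left (pow_le_pow_left₀ ?_ (a1 x hx) 2) (S.nu_nonneg _ _)
        exact GR_nonneg (fun y _ => mul_nonneg (S.nu_nonneg _ _) (hg0 _))
          (ball_subset_closedBall hx)
    _ = ∫ x in D, (ball (0 : ℂ) r).indicator (fun x => nu φ μ 1 x * u x ^ 2) x :=
        (integral_scale_indicator hr hr1 fun x => nu φ μ 1 x * u x ^ 2).symm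
    _ ≤ ∫ x in D, nu φ μ 1 x * u x ^ 2 :=
        integral_mono ((b1.mul bu.sq).integrableOn.indicator measurableSet_ball)
          (b1.mul bu.sq).integrableOn
          (indicator_le_self' fun x _ => mul_nonneg (S.nu_nonneg _ _) (sq_nonneg _))
    _ ≤ θ ^ 2 * ∫ x in D, nu φ μ 1 x * g' x ^ 2 := h g' bg' fun z _ => g'0 z
    _ = θ ^ 2 * ∫ x in D, nu φ μ r x * g x ^ 2 := by
        rw [e1 _ 2 two_ne_zero]
        congr 1
        exact setIntegral_congr_fun measurableSet_ball fun z hz => by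
          simp only [hν z hz]; ring

/-- The Dirichlet Poincare inequality with a gain. -/
lemma Setup.dirichlet (S : Setup φ μ c C) {θ : ℝ} (hθ0 : 0 < θ)
    (h : ∀ g : ℂ → ℝ, BM g → (∀ z ∈ D, 0 ≤ g z) →
      ∫ x in D, nu φ μ 1 x * GR (fun y => nu φ μ 1 y * g y) x ^ 2 ≤
        θ ^ 2 * ∫ x in D, nu φ μ 1 x * g x ^ 2) {ψ : ℂ → ℝ} (hψ : ContDiff ℝ 2 ψ)
    (h0 : ∀ z ∈ S1, ψ z = 0) :
    μ * ∫ z in D, rho φ z * ψ z ^ 2 ≤ θ * ∫ z in D, (dx ψ z ^ 2 + dy ψ z ^ 2) := by
  set ν := nu φ μ 1 with hν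
  have bν : BM ν := S.bm_nu one_pos le_rfl
  have ν0 : ∀ z, 0 ≤ ν z := S.nu_nonneg 1
  have bψ : BM ψ := .of_continuous hψ.continuous
  have bk : BM fun z => -lap ψ z := (BM.lap_of_contDiff hψ).neg
  have bf := bν.mul bψ
  set X := ∫ x in D, ν x * ψ x ^ 2 with hX
  have e1 : μ * ∫ z in D, rho φ z * ψ z ^ 2 = X := by
    rw [← integral_const_mul]
    exact setIntegral_congr_fun measurableSet_ball fun z hz => by
      simp only [hν, nu_one_of_mem φ μ hz]; ring
  set u := GR fun y => ν y * ψ y with hu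
  have bu : BM u := bm_GR bf.memLp
  set u' := GR fun y => ν y * |ψ y| with hu'
  have bu' : BM u' := bm_GR (bν.mul bψ.abs).memLp
  have a1 := h _ bψ.abs fun z _ => abs_nonneg _
  simp only [sq_abs] at a1
  rw [← hu', ← hX] at a1
  have a2 : ∫ z in D, ν z * ψ z * u z ≤ θ * X := by
    have i1 : IntegrableOn (fun z => θ / 2 * (ν z * ψ z ^ 2)) D :=
      ((bν.mul bψ.sq).const_mul _).integrableOn
    have i2 : IntegrableOn (fun z => 1 / (2 * θ) * (ν z * u' z ^ 2)) D :=
      ((bν.mul bu'.sq).const_mul _).integrableOn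
    refine (setIntegral_mono_on (bf.mul bu).integrableOn (i1.fun_add i2) measurableSet_ball
      fun z hz => ?_).trans ?_
    · have b1 := abs_GR_le (fun y => ν y * ψ y) (ball_subset_closedBall hz)
      simp only [abs_mul, abs_of_nonneg (ν0 _)] at b1
      rw [← hu, ← hu'] at b1
      have b2 : ψ z * u z ≤ |ψ z| * u' z :=
        (le_abs_self _).trans (by rw [abs_mul]; gcongr)
      have b3 : |ψ z| * u' z ≤ θ / 2 * ψ z ^ 2 + 1 / (2 * θ) * u' z ^ 2 := by
        have : θ / 2 * ψ z ^ 2 + 1 / (2 * θ) * u' z ^ 2 - |ψ z| * u' z =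
            (θ * |ψ z| - u' z) ^ 2 / (2 * θ) := by
          rw [← sq_abs (ψ z)]; field_simp; ring
        have h2 : 0 ≤ (θ * |ψ z| - u' z) ^ 2 / (2 * θ) := by positivity
        linarith
      have := mul_le_mul_of_nonneg_left (b2.trans b3) (ν0 z)
      linarith
    · rw [integral_add i1 i2, integral_const_mul, integral_const_mul, ← hX]
      have : 1 / (2 * θ) * (∫ z in D, ν z * u' z ^ 2) ≤ 1 / (2 * θ) * (θ ^ 2 * X) := by gcongr
      have e : 1 / (2 * θ) * (θ ^ 2 * X) = θ / 2 * X := by field_simp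
      linarith
  have a3 := GR_psd (bk.sub (bf.const_mul θ⁻¹)).memLp
  have e2 : ∫ z in D, u z * -lap ψ z = X := by
    rw [GR_symm bf.memLp bk.memLp]
    exact setIntegral_congr_fun measurableSet_ball fun z hz => by
      simp only [← GR_rep hψ h0 hz]; ring
  have i3 := (bk.mul bψ).integrableOn
  have i4 := ((bu.mul bk).const_mul θ⁻¹).integrableOn
  have i5 := ((bν.mul bψ.sq).const_mul θ⁻¹).integrableOn
  have i6 := ((bf.mul bu).const_mul (θ⁻¹ ^ 2)).integrableOn
  have e3 : ∫ z in D, (-lap ψ z - θ⁻¹ * (ν z * ψ z)) *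
      GR (fun y => -lap ψ y - θ⁻¹ * (ν y * ψ y)) z = ∫ z in D, (-lap ψ z * ψ z -
        θ⁻¹ * (u z * -lap ψ z) - θ⁻¹ * (ν z * ψ z ^ 2) + θ⁻¹ ^ 2 * (ν z * ψ z * u z)) :=
    setIntegral_congr_fun measurableSet_ball fun z hz => by
      simp only [GR_sub_mul bk.memLp bf.memLp θ⁻¹ (ball_subset_closedBall hz), ← GR_rep hψ h0 hz,
        ← hu]
      ring
  rw [e3, integral_add ((Integrable.sub' i3 i4).sub' i5) i6, integral_sub (Integrable.sub' i3 i4) i5,
    integral_sub i3 i4, integral_const_mul, integral_const_mul, integral_const_mul, e2, ← hX,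
    ← dirichlet_energy hψ h0] at a3
  rw [e1]
  have a4 : θ⁻¹ ^ 2 * ∫ z in D, ν z * ψ z * u z ≤ θ⁻¹ ^ 2 * (θ * X) := by gcongr
  have e4 : θ⁻¹ ^ 2 * (θ * X) = θ⁻¹ * X := by field_simp
  have a5 : θ⁻¹ * X ≤ ∫ z in D, (dx ψ z ^ 2 + dy ψ z ^ 2) := by linarith
  rwa [inv_mul_le_iff₀ hθ0] at a5

lemma amgm_aux {F a s : ℝ} (hs : 0 < s) : -(F * a) ≤ F ^ 2 / s / 2 + s * a ^ 2 / 2 := by
  have : F ^ 2 / s / 2 + s * a ^ 2 / 2 + F * a = (F + s * a) ^ 2 / (2 * s) := by
    field_simp; ring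
  have h2 : 0 ≤ (F + s * a) ^ 2 / (2 * s) := by positivity
  linarith

lemma Setup.ground (S : Setup φ μ c C) {θ : ℝ} (hθ0 : 0 < θ)
    (h : ∀ ψ : ℂ → ℝ, ContDiff ℝ 2 ψ → (∀ z ∈ S1, ψ z = 0) →
      μ * ∫ z in D, rho φ z * ψ z ^ 2 ≤ θ * ∫ z in D, (dx ψ z ^ 2 + dy ψ z ^ 2)) :
    Ground φ μ θ := by
  intro v Φ hv hΦ hw
  have hμ := S.mu_pos
  set F : ℂ → ℂ := fun z => deriv φ z * Φ z with hF
  have hF2 : MemLp F 2 (volume.restrict D) := S.bm_deriv.mul_memLp hΦ
  have iP : IntegrableOn (fun z => (F z).re ^ 2 / rho φ z) D := by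
    simpa only [div_eq_inv_mul, pow_two] using S.bm_inv_rho.mul_integrableOn
      (integrableOn_mul_of_memLp (memLp_re hF2) (memLp_re hF2))
  have iQ : IntegrableOn (fun z => (F z).im ^ 2 / rho φ z) D := by
    simpa only [div_eq_inv_mul, pow_two] using S.bm_inv_rho.mul_integrableOn
      (integrableOn_mul_of_memLp (memLp_im hF2) (memLp_im hF2))
  set P := ∫ z in D, (F z).re ^ 2 / rho φ z with hP
  set Q := ∫ z in D, (F z).im ^ 2 / rho φ z with hQ
  have h1 : ∫ z in D, (F z).re = 0 := by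
    simpa only [dD_const, map_zero, mul_zero, zero_add, map_one, mul_one] using
      hw (fun _ => 1) contDiff_const (by simp)
  refine le_of_forall_pos_le_add fun ε hε => ?_
  obtain ⟨U, hU, hU0, hUε⟩ := dense_dD hv (div_pos hε hμ)
  have hU2 : ContDiff ℝ 2 U := hU.of_le (by norm_cast)
  have hU1 : ContDiff ℝ 1 U := hU.of_le (by norm_cast)
  have hUd : ∀ z, DifferentiableAt ℝ U z := fun z => hU1.contDiffAt.differentiableAt (by norm_num)
  set m := (∫ z in D, rho φ z * (U z).re) / ∫ z in D, rho φ z with hm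
  set a : ℂ → ℝ := fun z => (U z).re - m with ha
  set ψ : ℂ → ℝ := fun z => (U z).im with hψ
  have ca : ContDiff ℝ 2 a := (reCLM.contDiff.comp hU2).sub contDiff_const
  have cψ : ContDiff ℝ 2 ψ := imCLM.contDiff.comp hU2
  have ba : Bdd1 a := .of_contDiff (ca.of_le (by norm_num))
  have bψ : Bdd1 ψ := .of_contDiff (cψ.of_le (by norm_num))
  have bU : BM U := .of_continuous hU.continuous
  have bD : BM (dD U) := .dD_of_contDiff hU1
  have bB : BM (dB U) := .dB_of_contDiff hU1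
  have p1 := S.poincare a ba (by
    simp only [ha, mul_sub]
    rw [integral_sub (S.bm_rho.mul bU.re).integrableOn (S.bm_rho.mul (BM.const m)).integrableOn,
      integral_mul_const, hm, mul_div_cancel₀ _ S.integral_rho_pos.ne', sub_self])
  have p2 := h ψ cψ hU0
  have hre : ∀ z, DifferentiableAt ℝ (fun w => (U w).re) z := fun z =>
    reCLM.differentiableAt.comp z (hUd z)
  have j1 := (ba.bm.2.1.sq.add ba.bm.2.2.sq).integrableOn
  have j2 := (bψ.bm.2.1.sq.add bψ.bm.2.2.sq).integrableOn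
  have p3 : (∫ z in D, (dx a z ^ 2 + dy a z ^ 2)) + ∫ z in D, (dx ψ z ^ 2 + dy ψ z ^ 2) =
      ∫ z in D, ‖dD U z‖ ^ 2 := by
    have e := (UC.of_contDiff hU2 hU0).integral_dD_eq
    have e2 : ∫ z in D, ‖dD U z‖ ^ 2 = ∫ z in D, 1 / 2 * (‖dD U z‖ ^ 2 + ‖dB U z‖ ^ 2) := by
      rw [integral_const_mul, integral_add bD.norm.sq.integrableOn bB.norm.sq.integrableOn, ← e]
      ring
    rw [e2, ← integral_add j1 j2]
    refine integral_congr_ae (Eventually.of_forall fun z => ?_)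
    simp only [ha, hψ, dx_sub (hre z) (differentiableAt_const m),
      dy_sub (hre z) (differentiableAt_const m), dx_re (hUd z), dy_re (hUd z), dx_im (hUd z),
      dy_im (hUd z), dx_const, dy_const, dD, dB, Complex.sq_norm, normSq_apply]
    simp
    ring
  have k1 := integrableOn_mul_conj_re hv bD.memLp
  have k2 := integrableOn_mul_conj_re hF2 bU.memLp
  have p4 := hw U hU hU0
  simp only [add_re] at p4
  rw [integral_add k1 k2] at p4
  have k3 : IntegrableOn (fun z => m * (F z).re) D :=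
    (integrableOn_of_memLp (memLp_re hF2)).const_mul m
  have p5 : ∫ z in D, (v z * conj (dD U z)).re =
      ∫ z in D, (m * (F z).re - (F z * conj (U z)).re) := by
    rw [integral_sub k3 k2, integral_const_mul, h1]
    simp only [hF]
    linarith
  have l1 : IntegrableOn (fun z => 1 / (2 * μ) * ((F z).re ^ 2 / rho φ z)) D := iP.const_mul _
  have l2 : IntegrableOn (fun z => μ / 2 * (rho φ z * a z ^ 2)) D :=
    ((S.bm_rho.mul ba.bm.1.sq).const_mul _).integrableOn
  have l3 : IntegrableOn (fun z => θ / (2 * μ) * ((F z).im ^ 2 / rho φ z)) D := iQ.const_mul _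
  have l4 : IntegrableOn (fun z => μ / (2 * θ) * (rho φ z * ψ z ^ 2)) D :=
    ((S.bm_rho.mul bψ.bm.1.sq).const_mul _).integrableOn
  have p6 := setIntegral_mono_on (Integrable.sub' k3 k2)
    ((l1.fun_add l2).fun_add (l3.fun_add l4)) measurableSet_ball (fun z hz => by
      have hρ := S.rho_pos1 hz
      have q1 := amgm_aux (F := (F z).re) (a := a z) (mul_pos hμ hρ)
      have q2 := amgm_aux (F := (F z).im) (a := ψ z) (div_pos (mul_pos hμ hρ) hθ0)
      have q3 : m * (F z).re - (F z * conj (U z)).re = -((F z).re * a z) + -((F z).im * ψ z) := by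
        simp [ha, hψ]; ring
      rw [q3]
      refine (add_le_add q1 q2).trans (le_of_eq ?_)
      field_simp)
  rw [← p5, integral_add (l1.fun_add l2) (l3.fun_add l4), integral_add l1 l2, integral_add l3 l4,
    integral_const_mul, integral_const_mul, integral_const_mul, integral_const_mul, ← hP,
    ← hQ] at p6
  have p7 : ∫ z in D, ‖v z - dD U z‖ ^ 2 = (∫ z in D, ‖v z‖ ^ 2) -
      2 * (∫ z in D, (v z * conj (dD U z)).re) + ∫ z in D, ‖dD U z‖ ^ 2 := by
    rw [← integral_const_mul, ← integral_sub (integrableOn_norm_sq hv) (k1.const_mul 2),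
      ← integral_add (Integrable.sub' (integrableOn_norm_sq hv) (k1.const_mul 2))
        bD.norm.sq.integrableOn]
    refine integral_congr_ae (Eventually.of_forall fun z => ?_)
    simp only [Complex.sq_norm, normSq_sub]
    ring
  have p8 : μ / (2 * θ) * ∫ z in D, rho φ z * ψ z ^ 2 ≤
      1 / 2 * ∫ z in D, (dx ψ z ^ 2 + dy ψ z ^ 2) := by
    have : μ / (2 * θ) * ∫ z in D, rho φ z * ψ z ^ 2 =
        1 / (2 * θ) * (μ * ∫ z in D, rho φ z * ψ z ^ 2) := by ring
    rw [this]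
    refine (mul_le_mul_of_nonneg_left p2 (by positivity)).trans (le_of_eq ?_)
    field_simp
  have p9 : ∫ z in D, ‖v z‖ ^ 2 ≤ 1 / μ * P + θ / μ * Q + ε / μ := by
    have e1 : 1 / (2 * μ) * P = 1 / 2 * (1 / μ * P) := by field_simp
    have e2 : θ / (2 * μ) * Q = 1 / 2 * (θ / μ * Q) := by field_simp
    linarith
  refine (mul_le_mul_of_nonneg_left p9 hμ.le).trans (le_of_eq ?_)
  field_simp

theorem exists_ground (S : Setup φ μ c C) : ∃ θ : ℝ, θ < 1 ∧
    (∀ r : ℝ, 0 < r → r ≤ 1 → Pot (nu φ μ r) (μ * C ^ 2) θ) ∧ Ground φ μ θ := by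
  obtain ⟨θ, h0, h1, h⟩ := S.exists_contr
  exact ⟨θ, h1, fun r hr hr1 => S.pot h0 h1 h hr hr1,
    S.ground h0 fun ψ hψ hψ0 => S.dirichlet h0 h hψ hψ0⟩

end Vale.Agent.P071
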