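import Vale.Agent.P071.KernelDefs

/-!
# Elementary facts on the explicit kernels
-/

open Complex Metric Set Filter Topology MeasureTheory
open scoped ContDiff ComplexConjugate Real

namespace Vale.Agent.P071

lemma kern0_norm_le {x : ℂ} (hx : x ∈ Db) : ‖x‖ ≤ 1 := by simpa using hx

lemma kern0_norm_sub_le {x y : ℂ} (hx : x ∈ Db) (hy : y ∈ Db) : ‖x - y‖ ≤ 2 := by
  have := norm_sub_le x y
  have := kern0_norm_le hx
  have := kern0_norm_le hy
  linarith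

lemma kern0_D_sub : D ⊆ Db := ball_subset_closedBall

lemma kern0_S1_sub : S1 ⊆ Db := sphere_subset_closedBall

lemma kern0_zero_mem : (0 : ℂ) ∈ Db := by simp

lemma dl_nonneg {x : ℂ} (hx : x ∈ Db) : 0 ≤ dl x := by
  have h := kern0_norm_le hx
  have h0 := norm_nonneg x
  unfold dl; nlinarith

lemma dl_pos {x : ℂ} (hx : x ∈ D) : 0 < dl x := by
  have h : ‖x‖ < 1 := by simpa using hx
  have h0 := norm_nonneg x
  unfold dl; nlinarith

lemma dl_le_one (x : ℂ) : dl x ≤ 1 := by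
  unfold dl; nlinarith [sq_nonneg ‖x‖]

lemma dl_eq_zero {s : ℂ} (hs : s ∈ S1) : dl s = 0 := by
  have h : ‖s‖ = 1 := by simpa using hs
  simp [dl, h]

lemma ec_mem (θ : ℝ) : ec θ ∈ S1 := by
  simp

lemma G0_symm (x y : ℂ) : G0 x y = G0 y x := by
  unfold G0; rw [norm_sub_rev, mul_comm (dl x)]

lemma K0_symm (x y : ℂ) : K0 x y = K0 y x := by
  unfold K0; rw [norm_sub_rev, mul_comm (dl x), G0_symm]

lemma kern0_continuous_dl : Continuous dl := by
  unfold dl; fun_prop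

lemma kern0_measurable_dl : Measurable dl := kern0_continuous_dl.measurable

lemma measurable_G0 : Measurable (Function.uncurry G0) := by
  have h := kern0_measurable_dl
  change Measurable fun z : ℂ × ℂ =>
    Real.log (1 + dl z.1 * dl z.2 / ‖z.1 - z.2‖ ^ 2) / (4 * π)
  fun_prop

lemma measurable_K0 : Measurable (Function.uncurry K0) := by
  have h := kern0_measurable_dl
  have hG := measurable_G0
  change Measurable fun z : ℂ × ℂ => if dl z.1 * dl z.2 = 0 then 1 / (4 * π * ‖z.1 - z.2‖ ^ 2)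
    else Function.uncurry G0 z / (dl z.1 * dl z.2)
  refine Measurable.ite ?_ (by fun_prop) (hG.div (by fun_prop))
  exact measurableSet_eq_fun (by fun_prop) measurable_const

lemma measurable_P0 : Measurable (Function.uncurry P0) := by
  have h := kern0_measurable_dl
  change Measurable fun z : ℂ × ℂ => dl z.1 / (2 * π * ‖z.1 - z.2‖ ^ 2)
  fun_prop

lemma kern0_arg_nonneg {x y : ℂ} (hx : x ∈ Db) (hy : y ∈ Db) :
    0 ≤ dl x * dl y / ‖x - y‖ ^ 2 :=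
  div_nonneg (mul_nonneg (dl_nonneg hx) (dl_nonneg hy)) (sq_nonneg _)

lemma G0_nonneg {x y : ℂ} (hx : x ∈ Db) (hy : y ∈ Db) : 0 ≤ G0 x y := by
  have := kern0_arg_nonneg hx hy
  exact div_nonneg (Real.log_nonneg (by linarith)) (by positivity)

lemma K0_nonneg {x y : ℂ} (hx : x ∈ Db) (hy : y ∈ Db) : 0 ≤ K0 x y := by
  unfold K0
  split_ifs
  · positivity
  · exact div_nonneg (G0_nonneg hx hy) (mul_nonneg (dl_nonneg hx) (dl_nonneg hy))

lemma P0_nonneg {x : ℂ} (hx : x ∈ Db) (s : ℂ) : 0 ≤ P0 x s :=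
  div_nonneg (dl_nonneg hx) (by positivity)

lemma kern0_rpow_half {u : ℝ} (hu : 0 ≤ u) : u ^ (-(1 / 2) : ℝ) = (√u)⁻¹ := by
  rw [Real.rpow_neg hu, Real.sqrt_eq_rpow]

lemma kern0_rpow_three_half {u : ℝ} (hu : 0 ≤ u) : u ^ (-(3 / 2) : ℝ) = (√u)⁻¹ ^ 3 := by
  rw [Real.rpow_neg hu, Real.sqrt_eq_rpow, inv_pow, ← Real.rpow_natCast, ← Real.rpow_mul hu]
  norm_num

lemma kern0_inv_eq {u : ℝ} (hu : 0 ≤ u) : u⁻¹ = (√u)⁻¹ ^ 2 := by
  rw [inv_pow, Real.sq_sqrt hu]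

lemma kern0_log_le {a b : ℝ} (ha : 0 ≤ a) (hb : 0 ≤ b) (h : a ≤ b ^ 2) :
    Real.log (1 + a) ≤ 2 * b := by
  have h1 : Real.log (1 + a) ≤ Real.log ((1 + b) ^ 2) :=
    Real.log_le_log (by linarith) (by nlinarith)
  have h2 : Real.log (1 + b) ≤ b := by
    have := Real.log_le_sub_one_of_pos (show 0 < 1 + b by linarith)
    linarith
  rw [Real.log_pow] at h1
  push_cast at h1
  linarith

/-- `log (1 + a) ≤ 4 a^(1/4)`, so one may take the constant `1`. -/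
lemma G0_le {x y : ℂ} (hx : x ∈ Db) (hy : y ∈ Db) : G0 x y ≤ ‖x - y‖ ^ (-(1 / 2) : ℝ) := by
  rcases eq_or_ne x y with rfl | hxy
  · simp [G0]
  have hr : 0 < ‖x - y‖ := norm_pos_iff.2 (sub_ne_zero.2 hxy)
  have hr2 := kern0_norm_sub_le hx hy
  rw [kern0_rpow_half hr.le]
  set r := ‖x - y‖ with hrdef
  have hs : 0 < √r := Real.sqrt_pos.2 hr
  have hs2 : √r ^ 2 = r := Real.sq_sqrt hr.le
  have hd : dl x * dl y ≤ 1 :=
    mul_le_one₀ (dl_le_one x) (dl_nonneg hy) (dl_le_one y)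
  have ha := kern0_arg_nonneg hx hy
  have h1 : 1 + dl x * dl y / r ^ 2 ≤ (2 / √r) ^ 4 := by
    have e : (2 / √r) ^ 4 = 16 / r ^ 2 := by
      rw [div_pow, show √r ^ 4 = (√r ^ 2) ^ 2 by ring, hs2]; norm_num
    rw [e, le_div_iff₀ (by positivity), add_mul, div_mul_cancel₀ _ (by positivity)]
    nlinarith
  have h2 : Real.log (1 + dl x * dl y / r ^ 2) ≤ 4 * (2 / √r) := by
    have h3 := Real.log_le_log (by linarith) h1
    rw [Real.log_pow] at h3
    have h4 := Real.log_le_sub_one_of_pos (show 0 < 2 / √r by positivity)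
    push_cast at h3
    linarith
  unfold G0
  rw [div_le_iff₀ (by positivity)]
  refine h2.trans ?_
  have hpi := Real.pi_gt_three
  have hi : 0 < (√r)⁻¹ := by positivity
  rw [div_eq_mul_inv]
  nlinarith

lemma K0_le {x y : ℂ} (hx : x ∈ Db) (hy : y ∈ Db) : K0 x y ≤ 1 / (4 * π * ‖x - y‖ ^ 2) := by
  unfold K0
  split_ifs with h
  · exact le_rfl
  have hpos : 0 < dl x * dl y :=
    lt_of_le_of_ne (mul_nonneg (dl_nonneg hx) (dl_nonneg hy)) (Ne.symm h)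
  have ha := kern0_arg_nonneg hx hy
  have h1 : Real.log (1 + dl x * dl y / ‖x - y‖ ^ 2) ≤ dl x * dl y / ‖x - y‖ ^ 2 := by
    have := Real.log_le_sub_one_of_pos
      (show 0 < 1 + dl x * dl y / ‖x - y‖ ^ 2 by linarith)
    linarith
  rw [div_le_iff₀ hpos]
  unfold G0
  rw [div_le_iff₀ (by positivity)]
  refine h1.trans (le_of_eq ?_)
  rcases eq_or_ne ‖x - y‖ 0 with h0 | h0
  · simp [h0]
  · field_simp

lemma dl_mul_dl_mul_K0 {x y : ℂ} (hx : x ∈ Db) (hy : y ∈ Db) :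
    dl x * dl y * K0 x y = G0 x y := by
  have _ := hx
  have _ := hy
  unfold K0
  split_ifs with h
  · simp [G0, h]
  · exact mul_div_cancel₀ _ h

lemma dl_mul_K0_le {x q : ℂ} (hx : x ∈ Db) (hq : q ∈ Db) : dl x * K0 x q ≤ ‖x - q‖⁻¹ := by
  rcases eq_or_ne x q with rfl | hxy
  · have := K0_le hx hx
    have h2 := K0_nonneg hx hx
    have h3 : K0 x x = 0 := by
      simp only [sub_self, norm_zero] at this
      norm_num at this
      linarith
    simp [h3]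
  have hr : 0 < ‖x - q‖ := norm_pos_iff.2 (sub_ne_zero.2 hxy)
  have hpi := Real.pi_gt_three
  rcases le_or_gt (dl x) (4 * π * ‖x - q‖) with h | h
  · calc dl x * K0 x q ≤ (4 * π * ‖x - q‖) * (1 / (4 * π * ‖x - q‖ ^ 2)) :=
          mul_le_mul h (K0_le hx hq) (K0_nonneg hx hq) (by positivity)
      _ = ‖x - q‖⁻¹ := by field_simp
  · have hn1 := kern0_norm_le hx
    have hn2 := kern0_norm_le hq
    have hn3 : ‖q‖ ≤ ‖x‖ + ‖x - q‖ := by
      have := norm_sub_le x (x - q)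
      simpa using this
    have hdq : dl x - 2 * ‖x - q‖ ≤ dl q := by
      unfold dl
      have h0 := norm_nonneg x
      have h1 := norm_nonneg q
      rcases le_total ‖q‖ ‖x‖ with h2 | h2
      · nlinarith
      · nlinarith
    have hd2 : dl x ≤ 2 * dl q := by nlinarith
    have hqpos : 0 < dl q := by nlinarith
    have hG : G0 x q ≤ dl q * ‖x - q‖⁻¹ := by
      have h1 : Real.log (1 + dl x * dl q / ‖x - q‖ ^ 2) ≤ 2 * (2 * dl q / ‖x - q‖) := by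
        refine kern0_log_le (kern0_arg_nonneg hx hq) (by positivity) ?_
        rw [div_pow]
        refine div_le_div_of_nonneg_right ?_ (by positivity)
        nlinarith
      unfold G0
      rw [div_le_iff₀ (by positivity)]
      refine h1.trans ?_
      rw [div_eq_mul_inv]
      have : 0 < dl q * ‖x - q‖⁻¹ := by positivity
      nlinarith
    rw [← dl_mul_dl_mul_K0 hx hq] at hG
    have : dl q * (dl x * K0 x q) ≤ dl q * ‖x - q‖⁻¹ := by linarith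
    exact le_of_mul_le_mul_left this hqpos

lemma K0_boundary {s : ℂ} (hs : s ∈ S1) (t : ℂ) : K0 s t = 1 / (4 * π * ‖s - t‖ ^ 2) := by
  unfold K0
  rw [dl_eq_zero hs, zero_mul, if_pos rfl]

lemma two_mul_dl_mul_K0 (x : ℂ) {s : ℂ} (hs : s ∈ S1) : 2 * dl x * K0 x s = P0 x s := by
  rw [K0_symm, K0_boundary hs, norm_sub_rev]
  unfold P0
  rcases eq_or_ne ‖x - s‖ 0 with h0 | h0
  · simp [h0]
  · field_simp
    ring

lemma K0_lower {x y : ℂ} (hx : x ∈ Db) (hy : y ∈ Db) (hxy : x ≠ y) : 1 / (20 * π) ≤ K0 x y := by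
  have hr : 0 < ‖x - y‖ := norm_pos_iff.2 (sub_ne_zero.2 hxy)
  have hr2 := kern0_norm_sub_le hx hy
  have hr4 : ‖x - y‖ ^ 2 ≤ 4 := by nlinarith
  have hpi := Real.pi_pos
  unfold K0
  split_ifs with h
  · refine one_div_le_one_div_of_le (by positivity) ?_
    nlinarith
  have hpos : 0 < dl x * dl y :=
    lt_of_le_of_ne (mul_nonneg (dl_nonneg hx) (dl_nonneg hy)) (Ne.symm h)
  have hd : dl x * dl y ≤ 1 :=
    mul_le_one₀ (dl_le_one x) (dl_nonneg hy) (dl_le_one y)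
  have ha := kern0_arg_nonneg hx hy
  have h1 := Real.one_sub_inv_le_log_of_pos
    (show 0 < 1 + dl x * dl y / ‖x - y‖ ^ 2 by linarith)
  have h2 : dl x * dl y / 5 ≤ 1 - (1 + dl x * dl y / ‖x - y‖ ^ 2)⁻¹ := by
    have e : 1 - (1 + dl x * dl y / ‖x - y‖ ^ 2)⁻¹ =
        dl x * dl y / (‖x - y‖ ^ 2 + dl x * dl y) := by
      field_simp
      ring
    rw [e]
    exact div_le_div_of_nonneg_left hpos.le (by positivity) (by linarith)
  rw [le_div_iff₀ hpos]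
  unfold G0
  rw [le_div_iff₀ (by positivity)]
  refine le_trans (le_of_eq ?_) (h2.trans h1)
  field_simp
  ring

/-- Domain monotonicity of the Green function. -/
lemma G0_le_scale {x y : ℂ} (hx : x ∈ Db) (hy : y ∈ Db) {r : ℝ} (hr : 0 < r) (hr1 : r ≤ 1) :
    G0 x y ≤ G0 (r * x) (r * y) := by
  have key : ∀ z : ℂ, dl z ≤ dl (r * z) := by
    intro z
    unfold dl
    rw [norm_mul, Complex.norm_real, Real.norm_eq_abs, abs_of_pos hr, mul_pow]
    have : r ^ 2 ≤ 1 := by nlinarith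
    nlinarith [sq_nonneg ‖z‖]
  have ha := kern0_arg_nonneg hx hy
  unfold G0
  refine div_le_div_of_nonneg_right (Real.log_le_log (by linarith) ?_) (by positivity)
  rcases eq_or_ne x y with rfl | hxy
  · simp
  have hpos : 0 < ‖x - y‖ := norm_pos_iff.2 (sub_ne_zero.2 hxy)
  have e : ‖(r : ℂ) * x - r * y‖ = r * ‖x - y‖ := by
    rw [← mul_sub, norm_mul, Complex.norm_real, Real.norm_eq_abs, abs_of_pos hr]
  rw [e]
  have h1 : dl x * dl y ≤ dl (r * x) * dl (r * y) :=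
    mul_le_mul (key x) (key y) (dl_nonneg hy) ((dl_nonneg hx).trans (key x))
  have h2 : (r * ‖x - y‖) ^ 2 ≤ ‖x - y‖ ^ 2 := by
    refine pow_le_pow_left₀ (by positivity) ?_ 2
    nlinarith
  have h3 : 0 ≤ dl x * dl y := mul_nonneg (dl_nonneg hx) (dl_nonneg hy)
  gcongr
  exact h3.trans h1

lemma kern0_aux_inv {u v d : ℝ} (hu : 0 < u) (huv : u ≤ v) (hd : 0 < d) (h : d ≤ u + v) :
    (√u)⁻¹ ^ 2 * (√v)⁻¹ ^ 2 ≤ 2 * (√d)⁻¹ * (√u)⁻¹ ^ 3 := by
  have hv : 0 < v := hu.trans_le huv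
  have hsu : 0 < √u := Real.sqrt_pos.2 hu
  have hsv : 0 < √v := Real.sqrt_pos.2 hv
  have hsd : 0 < √d := Real.sqrt_pos.2 hd
  have h1 : (√v)⁻¹ ≤ (√u)⁻¹ := inv_anti₀ hsu (Real.sqrt_le_sqrt huv)
  have h2 : (√v)⁻¹ ≤ 2 * (√d)⁻¹ := by
    have h3 : √d ≤ 2 * √v := by
      rw [Real.sqrt_le_iff]
      refine ⟨by positivity, ?_⟩
      rw [mul_pow, Real.sq_sqrt hv.le]
      linarith
    rw [← div_eq_mul_inv, le_div_iff₀ hsd, inv_mul_le_iff₀ hsv]
    linarith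
  have hi : 0 < (√v)⁻¹ := by positivity
  calc (√u)⁻¹ ^ 2 * (√v)⁻¹ ^ 2 = (√u)⁻¹ ^ 2 * ((√v)⁻¹ * (√v)⁻¹) := by ring
    _ ≤ (√u)⁻¹ ^ 2 * ((√u)⁻¹ * (2 * (√d)⁻¹)) := by gcongr
    _ = 2 * (√d)⁻¹ * (√u)⁻¹ ^ 3 := by ring

/-- Splitting a product of two simple poles. -/
lemma inv_mul_inv_le {a b y : ℂ} (hab : a ≠ b) :
    ‖y - a‖⁻¹ * ‖y - b‖⁻¹ ≤ 2 * ‖a - b‖ ^ (-(1 / 2) : ℝ) *
      (‖y - a‖ ^ (-(3 / 2) : ℝ) + ‖y - b‖ ^ (-(3 / 2) : ℝ)) := by
  have hd : 0 < ‖a - b‖ := norm_pos_iff.2 (sub_ne_zero.2 hab)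
  rcases eq_or_lt_of_le (norm_nonneg (y - a)) with hu | hu
  · rw [← hu, inv_zero, zero_mul]; positivity
  rcases eq_or_lt_of_le (norm_nonneg (y - b)) with hv | hv
  · rw [← hv, inv_zero, mul_zero]; positivity
  have htri : ‖a - b‖ ≤ ‖y - a‖ + ‖y - b‖ := by
    have := norm_sub_le (y - b) (y - a)
    rw [show y - b - (y - a) = a - b by ring] at this
    linarith
  rw [kern0_rpow_half hd.le, kern0_rpow_three_half hu.le, kern0_rpow_three_half hv.le,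
    kern0_inv_eq hu.le, kern0_inv_eq hv.le, mul_add]
  rcases le_total ‖y - a‖ ‖y - b‖ with h | h
  · have := kern0_aux_inv hu h hd htri
    have h2 : 0 ≤ 2 * (√‖a - b‖)⁻¹ * (√‖y - b‖)⁻¹ ^ 3 := by positivity
    linarith
  · have := kern0_aux_inv hv h hd (by linarith)
    have h2 : 0 ≤ 2 * (√‖a - b‖)⁻¹ * (√‖y - a‖)⁻¹ ^ 3 := by positivity
    linarith

lemma rpow_half_mul_inv_le (a b y : ℂ) :
    ‖y - a‖ ^ (-(1 / 2) : ℝ) * ‖y - b‖⁻¹ ≤
      ‖y - a‖ ^ (-(3 / 2) : ℝ) + ‖y - b‖ ^ (-(3 / 2) : ℝ) := by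
  rw [kern0_rpow_half (norm_nonneg _), kern0_rpow_three_half (norm_nonneg _),
    kern0_rpow_three_half (norm_nonneg _), kern0_inv_eq (norm_nonneg (y - b))]
  have hα : 0 ≤ (√‖y - a‖)⁻¹ := by positivity
  have hβ : 0 ≤ (√‖y - b‖)⁻¹ := by positivity
  generalize (√‖y - a‖)⁻¹ = α at hα
  generalize (√‖y - b‖)⁻¹ = β at hβ
  rcases le_total α β with h | h
  · have : α * β ^ 2 ≤ β * β ^ 2 := by gcongr
    nlinarith [pow_nonneg hα 3]
  · have : α * β ^ 2 ≤ α * α ^ 2 := by gcongr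
    nlinarith [pow_nonneg hβ 3]

lemma inv_le_two_mul_rpow {a y : ℂ} (ha : a ∈ Db) (hy : y ∈ Db) :
    ‖y - a‖⁻¹ ≤ 2 * ‖y - a‖ ^ (-(3 / 2) : ℝ) := by
  rcases eq_or_lt_of_le (norm_nonneg (y - a)) with hu | hu
  · rw [← hu, inv_zero]; positivity
  have h2 := kern0_norm_sub_le hy ha
  rw [kern0_rpow_three_half hu.le, kern0_inv_eq hu.le]
  have hs : 0 < √‖y - a‖ := Real.sqrt_pos.2 hu
  have h3 : √‖y - a‖ ≤ 2 := by
    rw [Real.sqrt_le_iff]; constructor <;> linarith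
  have h4 : 1 ≤ 2 * (√‖y - a‖)⁻¹ := by
    rw [← div_eq_mul_inv, le_div_iff₀ hs]; linarith
  have h5 : 0 ≤ (√‖y - a‖)⁻¹ ^ 2 := by positivity
  nlinarith

end Vale.Agent.P071
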