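import Vale.Agent.P071.SetupLemmas
import Vale.Agent.P071.Kernel0

/-!
# Zero modes: multipliers with a pole at the point one
-/

open Complex Metric Set Filter Topology MeasureTheory
open scoped ContDiff ComplexConjugate Real

namespace Vale.Agent.P071

/-- The holomorphic multiplier. -/
noncomputable def mzH (z : ℂ) : ℂ := I * (1 + z) / (1 - z)

/-- Its derivative. -/
noncomputable def mzH' (z : ℂ) : ℂ := 2 * I / (1 - z) ^ 2

/-- The regularised denominator. -/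
noncomputable def mzN (d : ℝ) (z : ℂ) : ℂ := (1 - z) * (1 - conj z) + d

/-- The regularised multiplier. -/
noncomputable def mzM (d : ℝ) (z : ℂ) : ℂ := I * (1 + z) * (1 - conj z) / mzN d z

/-- The basic singular function. -/
noncomputable def mzT (z : ℂ) : ℝ := (√‖z - 1‖)⁻¹

variable {d : ℝ} {z : ℂ}

lemma mzN_eq (d : ℝ) (z : ℂ) : mzN d z = ((‖z - 1‖ ^ 2 + d : ℝ) : ℂ) := by
  have : (1 - conj z) = conj (1 - z) := by simp
  rw [mzN, this, mul_conj, normSq_eq_norm_sq, norm_sub_rev]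
  push_cast
  ring

lemma mzN_ne (hd : 0 < d) (z : ℂ) : mzN d z ≠ 0 := by
  rw [mzN_eq]
  exact ofReal_ne_zero.mpr (by positivity)

lemma mz_contDiff_conj : ContDiff ℝ 2 fun z : ℂ => conj z := conjCLE.contDiff

lemma mzN_contDiff (d : ℝ) : ContDiff ℝ 2 (mzN d) :=
  ((contDiff_const.sub contDiff_id).mul (contDiff_const.sub mz_contDiff_conj)).add contDiff_const

lemma mzM_contDiff (hd : 0 < d) : ContDiff ℝ 2 (mzM d) := by
  have h1 : ContDiff ℝ 2 fun z : ℂ => I * (1 + z) * (1 - conj z) :=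
    (contDiff_const.mul (contDiff_const.add contDiff_id)).mul (contDiff_const.sub mz_contDiff_conj)
  have h2 : ContDiff ℝ 2 fun z => (mzN d z)⁻¹ := (mzN_contDiff d).inv (mzN_ne hd)
  have h3 : mzM d = fun z => I * (1 + z) * (1 - conj z) * (mzN d z)⁻¹ := by
    funext z
    rw [mzM, div_eq_mul_inv]
  rw [h3]
  exact h1.mul h2

lemma mzM_UC (hd : 0 < d) : UC (mzM d) := by
  refine UC.of_contDiff (mzM_contDiff hd) fun z hz => ?_
  have h1 : z.re ^ 2 + z.im ^ 2 = 1 := by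
    have := mem_sphere_zero_iff_norm.mp hz
    have h2 := Complex.sq_norm z
    rw [this, normSq_apply] at h2
    linarith
  rw [mzM, mzN_eq, div_ofReal_im]
  simp only [mul_im, mul_re, I_re, I_im, add_re, add_im, sub_re, sub_im, one_re, one_im, conj_re,
    conj_im]
  rw [div_eq_zero_iff]
  left
  linarith

lemma mz_derivs (hd : 0 < d) (z : ℂ) :
    dD (mzM d) z = 2 * I * (1 - conj z) / mzN d z +
        2 * I * (1 + z) * (1 - conj z) ^ 2 / mzN d z ^ 2 ∧
      dB (mzM d) z = -(2 * I * (1 + z) * d / mzN d z ^ 2) := by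
  have h0 := mzN_ne hd z
  have di : DifferentiableAt ℝ (fun w : ℂ => w) z := differentiableAt_id
  have dc : DifferentiableAt ℝ (fun w : ℂ => conj w) z := differentiableAt_conj' di
  have b1 : dB (fun w : ℂ => w) z = 0 := dB_holo differentiableAt_id
  have a1 : dD (fun w : ℂ => w) z = 2 := by
    rw [dD_holo (f := fun w : ℂ => w) differentiableAt_id]; simp
  have b2 : dB (fun w : ℂ => conj w) z = 2 := by rw [dB_conj di, a1, map_ofNat]
  have a2 : dD (fun w : ℂ => conj w) z = 0 := by rw [dD_conj di, b1, map_zero]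
  have c1 : DifferentiableAt ℝ (fun _ : ℂ => (1 : ℂ)) z := differentiableAt_const _
  have d1 := (mzM_contDiff hd).differentiable (by norm_num) z
  have d2 := (mzN_contDiff d).differentiable (by norm_num) z
  have d3 : DifferentiableAt ℝ (fun w : ℂ => 1 - w) z := c1.fun_sub di
  have d4 : DifferentiableAt ℝ (fun w : ℂ => 1 - conj w) z := c1.fun_sub dc
  have d5 : DifferentiableAt ℝ (fun w : ℂ => 1 + w) z := c1.fun_add di
  have e1 : (fun w => mzM d w * mzN d w) = fun w => I * (1 + w) * (1 - conj w) := by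
    funext w
    rw [mzM, div_mul_cancel₀ _ (mzN_ne hd w)]
  have n1 : dD (mzN d) z = -2 * (1 - conj z) := by
    unfold mzN
    rw [dD_add (d3.fun_mul d4) (differentiableAt_const _), dD_mul d3 d4, dD_sub c1 di,
      dD_sub c1 dc, a1, a2]
    simp
  have n2 : dB (mzN d) z = -2 * (1 - z) := by
    unfold mzN
    rw [dB_add (d3.fun_mul d4) (differentiableAt_const _), dB_mul d3 d4, dB_sub c1 di,
      dB_sub c1 dc, b1, b2]
    simp
    ring
  have e2 := dD_mul d1 d2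
  have e3 := dB_mul d1 d2
  rw [e1, dD_mul (d5.const_mul I) d4, dD_const_mul I d5, dD_add c1 di, dD_sub c1 dc, a1, a2, n1,
    dD_const, mzM] at e2
  rw [e1, dB_mul (d5.const_mul I) d4, dB_const_mul I d5, dB_add c1 di, dB_sub c1 dc, b1, b2, n2,
    dB_const, mzM] at e3
  have e4 : (d : ℂ) = mzN d z - (1 - z) * (1 - conj z) := by rw [mzN]; ring
  constructor
  · field_simp at e2 ⊢
    linear_combination -e2
  · rw [e4]
    field_simp at e3 ⊢
    linear_combination -e3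

lemma mz_norm_pos (hz : z ∈ D) : 0 < ‖z - 1‖ := by
  rw [norm_pos_iff, sub_ne_zero]
  rintro rfl
  simp at hz

lemma mz_ne (hz : z ∈ D) : 1 - z ≠ 0 := by
  rw [← norm_pos_iff, norm_sub_rev]
  exact mz_norm_pos hz

lemma mz_conj_ne (hz : z ∈ D) : 1 - conj z ≠ 0 := by
  have : (1 - conj z) = conj (1 - z) := by simp
  rw [this, map_ne_zero]
  exact mz_ne hz

lemma mz_norm_le (hz : z ∈ D) : ‖z - 1‖ ≤ 2 := by
  have := norm_sub_le z 1
  rw [norm_one] at this
  linarith [sl_norm_lt hz]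

lemma mz_norm_add_le (hz : z ∈ D) : ‖1 + z‖ ≤ 2 := by
  have := norm_add_le 1 z
  rw [norm_one] at this
  linarith [sl_norm_lt hz]

lemma mz_norm_conj (z : ℂ) : ‖1 - conj z‖ = ‖z - 1‖ := by
  have : (1 - conj z) = conj (1 - z) := by simp
  rw [this, norm_conj, norm_sub_rev]

lemma mzT_pos (hz : z ∈ D) : 0 < mzT z := inv_pos.mpr (Real.sqrt_pos.mpr (mz_norm_pos hz))

lemma mzT_sq (z : ℂ) : mzT z ^ 2 = ‖z - 1‖⁻¹ := (kern0_inv_eq (norm_nonneg _)).symm

lemma mzT_four (z : ℂ) : mzT z ^ 4 = (‖z - 1‖ ^ 2)⁻¹ := by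
  rw [← inv_pow, ← mzT_sq]; ring

lemma mzT_ge (hz : z ∈ D) : 1 / 2 ≤ mzT z := by
  have h1 : √‖z - 1‖ ≤ 2 := Real.sqrt_le_iff.mpr ⟨by norm_num, by linarith [mz_norm_le hz]⟩
  rw [one_div]
  exact inv_anti₀ (Real.sqrt_pos.mpr (mz_norm_pos hz)) h1

lemma mz_norm_N (hd : 0 < d) (z : ℂ) : ‖mzN d z‖ = ‖z - 1‖ ^ 2 + d := by
  rw [mzN_eq, norm_real, Real.norm_of_nonneg (by positivity)]

lemma mzH_le (hz : z ∈ D) : ‖mzH z‖ ≤ 2 * mzT z ^ 2 := by
  have h1 := mz_norm_pos hz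
  rw [mzH, norm_div, norm_mul, norm_I, one_mul, norm_sub_rev, mzT_sq, ← div_eq_mul_inv]
  gcongr
  exact mz_norm_add_le hz

lemma mzH'_le (z : ℂ) : ‖mzH' z‖ ≤ 8 * mzT z ^ 4 := by
  rw [mzH', norm_div, norm_mul, norm_I, mul_one, norm_pow, norm_sub_rev, mzT_four,
    ← div_eq_mul_inv, Complex.norm_ofNat]
  gcongr
  norm_num

lemma mzM_le (hd : 0 < d) (hz : z ∈ D) : ‖mzM d z‖ ≤ 2 * mzT z ^ 2 := by
  have h1 := mz_norm_pos hz
  rw [mzM, norm_div, norm_mul, norm_mul, norm_I, one_mul, mz_norm_conj, mz_norm_N hd, mzT_sq]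
  calc _ ≤ 2 * ‖z - 1‖ / ‖z - 1‖ ^ 2 := by
        gcongr
        · exact mz_norm_add_le hz
        · linarith
    _ = _ := by field_simp

lemma mz_dD_le (hd : 0 < d) (hz : z ∈ D) : ‖dD (mzM d) z‖ ≤ 8 * mzT z ^ 4 := by
  have h1 := mz_norm_pos hz
  rw [(mz_derivs hd z).1]
  refine (norm_add_le _ _).trans ?_
  simp only [norm_div, norm_mul, norm_I, mul_one, mz_norm_conj, mz_norm_N hd, norm_pow,
    Complex.norm_ofNat, mzT_four]
  calc _ ≤ 2 * 2 / ‖z - 1‖ ^ 2 + 2 * 2 * ‖z - 1‖ ^ 2 / (‖z - 1‖ ^ 2) ^ 2 := by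
        gcongr
        · exact mz_norm_le hz
        · linarith
        · exact mz_norm_add_le hz
        · linarith
    _ = _ := by field_simp; ring

lemma mz_dB_le (hd : 0 < d) (hz : z ∈ D) : ‖dB (mzM d) z‖ ≤ 8 * mzT z ^ 4 := by
  have h1 := mz_norm_pos hz
  rw [(mz_derivs hd z).2]
  simp only [norm_neg, norm_div, norm_mul, norm_I, mul_one, mz_norm_N hd, norm_pow,
    Complex.norm_ofNat, mzT_four, norm_real, Real.norm_of_nonneg hd.le]
  calc _ ≤ 2 * 4 * (‖z - 1‖ ^ 2 + d) / (‖z - 1‖ ^ 2 + d) ^ 2 := by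
        gcongr
        · linarith [mz_norm_add_le hz]
        · linarith [sq_nonneg ‖z - 1‖]
    _ = 8 / (‖z - 1‖ ^ 2 + d) := by field_simp; ring
    _ ≤ 8 / ‖z - 1‖ ^ 2 := by gcongr; linarith
    _ = _ := by rw [div_eq_mul_inv]

lemma mzN_tendsto (z : ℂ) :
    Tendsto (fun d : ℝ => mzN d z) (𝓝[>] 0) (𝓝 ((1 - z) * (1 - conj z))) := by
  have h : ContinuousAt (fun d : ℝ => mzN d z) 0 := by unfold mzN; fun_prop
  have h1 := h.tendsto.mono_left (nhdsWithin_le_nhds (s := Ioi 0))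
  simpa [mzN] using h1

lemma mzM_tendsto (hz : z ∈ D) : Tendsto (fun d : ℝ => mzM d z) (𝓝[>] 0) (𝓝 (mzH z)) := by
  have h1 := mz_ne hz
  have h2 := mz_conj_ne hz
  have h3 := (tendsto_const_nhds (x := I * (1 + z) * (1 - conj z))).div (mzN_tendsto z)
    (mul_ne_zero h1 h2)
  have h4 : mzH z = I * (1 + z) * (1 - conj z) / ((1 - z) * (1 - conj z)) := by
    rw [mzH]; field_simp
  rw [h4]
  exact h3

lemma mz_dD_tendsto (hz : z ∈ D) :
    Tendsto (fun d : ℝ => dD (mzM d) z) (𝓝[>] 0) (𝓝 (2 * mzH' z)) := by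
  have h1 := mz_ne hz
  have h2 := mz_conj_ne hz
  have h3 := ((tendsto_const_nhds (x := 2 * I * (1 - conj z))).div (mzN_tendsto z)
    (mul_ne_zero h1 h2)).add
    ((tendsto_const_nhds (x := 2 * I * (1 + z) * (1 - conj z) ^ 2)).div ((mzN_tendsto z).pow 2)
      (pow_ne_zero 2 (mul_ne_zero h1 h2)))
  have h4 : 2 * mzH' z = 2 * I * (1 - conj z) / ((1 - z) * (1 - conj z)) +
      2 * I * (1 + z) * (1 - conj z) ^ 2 / ((1 - z) * (1 - conj z)) ^ 2 := by
    rw [mzH']; field_simp; ring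
  rw [h4]
  refine h3.congr' ?_
  filter_upwards [self_mem_nhdsWithin] with d hd
  exact (mz_derivs hd z).1.symm

lemma mz_dB_tendsto (hz : z ∈ D) : Tendsto (fun d : ℝ => dB (mzM d) z) (𝓝[>] 0) (𝓝 0) := by
  have h1 := mz_ne hz
  have h2 := mz_conj_ne hz
  have h0 : Tendsto (fun d : ℝ => 2 * I * (1 + z) * (d : ℂ)) (𝓝[>] 0) (𝓝 0) := by
    have h : ContinuousAt (fun d : ℝ => 2 * I * (1 + z) * (d : ℂ)) 0 := by fun_prop
    simpa using h.tendsto.mono_left (nhdsWithin_le_nhds (s := Ioi 0))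
  have h3 := (h0.div ((mzN_tendsto z).pow 2) (pow_ne_zero 2 (mul_ne_zero h1 h2))).neg
  rw [zero_div, neg_zero] at h3
  refine h3.congr' ?_
  filter_upwards [self_mem_nhdsWithin] with d hd
  exact (mz_derivs hd z).2.symm

lemma mzH_continuousOn : ContinuousOn mzH D :=
  ContinuousOn.div (by fun_prop) (by fun_prop) fun _ hz => mz_ne hz

lemma mzH'_continuousOn : ContinuousOn mzH' D :=
  ContinuousOn.div (by fun_prop) (by fun_prop) fun _ hz => pow_ne_zero 2 (mz_ne hz)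

lemma mzT_integrable : IntegrableOn (fun z => mzT z ^ 3) D := by
  obtain ⟨I₀, hI⟩ := exists_sing_bound
  have h := (hI 1 (by simp)).1
  simp only [kern0_rpow_three_half (norm_nonneg _)] at h
  exact h

/-- Dominated convergence with the singular bound. -/
lemma mz_dct {F : ℝ → ℂ → ℝ} {f : ℂ → ℝ} {K : ℝ}
    (hm : ∀ d, 0 < d → Integrable (F d) (volume.restrict D))
    (hb : ∀ d, 0 < d → ∀ z ∈ D, |F d z| ≤ K * mzT z ^ 3)
    (hl : ∀ z ∈ D, Tendsto (fun d => F d z) (𝓝[>] 0) (𝓝 (f z))) :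
    Tendsto (fun d => ∫ z in D, F d z) (𝓝[>] 0) (𝓝 (∫ z in D, f z)) := by
  refine tendsto_integral_filter_of_dominated_convergence (fun z => K * mzT z ^ 3) ?_ ?_
    (mzT_integrable.const_mul K) (sl_ae_mem.mono hl)
  · filter_upwards [self_mem_nhdsWithin] with d hd
    exact (hm d hd).1
  · filter_upwards [self_mem_nhdsWithin] with d hd
    exact sl_ae_mem.mono (hb d hd)

lemma mz_memLp {f : ℂ → ℂ} (hf : ContinuousOn f D) {K : ℝ} (hb : ∀ z ∈ D, ‖f z‖ ≤ K * mzT z) :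
    MemLp f 2 (volume.restrict D) := by
  rw [memLp_two_iff_integrable_sq_norm (sl_aesm hf)]
  refine (mzT_integrable.const_mul (2 * K ^ 2)).mono' (sl_aesm (hf.norm.pow 2))
    (sl_ae_mem.mono fun z hz => ?_)
  rw [Real.norm_of_nonneg (sq_nonneg _)]
  have h1 := pow_le_pow_left₀ (norm_nonneg _) (hb z hz) 2
  have h2 := mzT_ge hz
  have h3 : 0 ≤ (K * mzT z) ^ 2 * (2 * mzT z - 1) := mul_nonneg (sq_nonneg _) (by linarith)
  nlinarith

/-- Decay of the potential and of the field at the point one. -/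
lemma mz_decay {φ : ℂ → ℂ} {μ : ℝ} {v Φ : ℂ → ℂ} {a : ℂ → ℝ} {V : ℂ → ℂ}
    (hm : Mode φ μ v Φ a V) (ha : a 1 = 0) (hV : V 1 = 0) :
    ∃ H : ℝ, 0 ≤ H ∧ ∀ z ∈ D, ‖V z‖ * mzT z ≤ H ∧ |a z| * mzT z ^ 3 ≤ H := by
  obtain ⟨H₀, hH₀⟩ := hm.holder
  set H := max H₀ 0 with hH
  have hH0 : 0 ≤ H := le_max_right _ _
  have h1 : ∀ z ∈ D, ‖V z‖ ≤ H * √‖z - 1‖ := by
    intro z hz
    have := hH₀ z (kern0_D_sub hz) 1 (by simp)
    rw [hV, sub_zero, ← Real.sqrt_eq_rpow] at this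
    exact this.trans (mul_le_mul_of_nonneg_right (le_max_left _ _) (Real.sqrt_nonneg _))
  have hd : ∀ z ∈ D, DifferentiableAt ℝ a z := fun z hz =>
    (sl_contDiffAt hm.smooth hz).differentiableAt (by simp)
  have h2 : ∀ z ∈ D, ‖fderiv ℝ a z‖ ≤ 2 * ‖V z‖ := by
    intro z hz
    have e1 := norm_dD_ofReal_sq (hd z hz)
    rw [hm.dDa z hz] at e1
    have e2 : |dx a z| ≤ ‖V z‖ := abs_le_of_sq_le_sq (by nlinarith [sq_nonneg (dy a z)])
      (norm_nonneg _)
    have e3 : |dy a z| ≤ ‖V z‖ := abs_le_of_sq_le_sq (by nlinarith [sq_nonneg (dx a z)])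
      (norm_nonneg _)
    have e4 := norm_fderiv_le a z
    rw [Real.norm_eq_abs, Real.norm_eq_abs] at e4
    linarith
  obtain ⟨K, hK⟩ := hm.lip
  refine ⟨2 * H, by positivity, fun z hz => ?_⟩
  have hr := mz_norm_pos hz
  have hs : 0 < √‖z - 1‖ := Real.sqrt_pos.mpr hr
  have h3 : |a z| ≤ 2 * (H * √‖z - 1‖) * ‖z - 1‖ := by
    have t1 : Tendsto (fun t : ℝ => |a z - a (1 + t * (z - 1))|) (𝓝[>] 0) (𝓝 |a z|) := by
      have hc := hK.continuous
      have h : ContinuousAt (fun t : ℝ => |a z - a (1 + t * (z - 1))|) 0 := by fun_prop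
      simpa [ha] using h.tendsto.mono_left (nhdsWithin_le_nhds (s := Ioi 0))
    refine le_of_tendsto t1 ?_
    filter_upwards [Ioo_mem_nhdsGT (zero_lt_one' ℝ)] with t ht
    have hw1 : ‖(1 + t * (z - 1) : ℂ) - 1‖ ≤ ‖z - 1‖ := by
      rw [add_sub_cancel_left, norm_mul, norm_real, Real.norm_of_nonneg ht.1.le]
      nlinarith [ht.2]
    have hw2 : (1 + t * (z - 1) : ℂ) ∈ D := by
      have e : (1 + t * (z - 1) : ℂ) = ((1 - t : ℝ) : ℂ) + t * z := by push_cast; ring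
      rw [mem_ball_zero_iff, e]
      refine (norm_add_le _ _).trans_lt ?_
      rw [norm_mul, norm_real, norm_real, Real.norm_of_nonneg ht.1.le,
        Real.norm_of_nonneg (by linarith [ht.2])]
      nlinarith [sl_norm_lt hz, ht.1]
    have hw3 : ‖z - (1 + t * (z - 1))‖ ≤ ‖z - 1‖ := by
      have e : z - (1 + t * (z - 1)) = ((1 - t : ℝ) : ℂ) * (z - 1) := by push_cast; ring
      rw [e, norm_mul, norm_real, Real.norm_of_nonneg (by linarith [ht.2])]
      nlinarith [ht.1]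
    have h4 := ((convex_ball (0 : ℂ) 1).inter
      (convex_closedBall (1 : ℂ) ‖z - 1‖)).norm_image_sub_le_of_norm_fderiv_le
      (f := a) (C := 2 * (H * √‖z - 1‖)) (x := 1 + t * (z - 1)) (y := z)
      (fun w hw => hd w hw.1) (fun w hw => by
        refine (h2 w hw.1).trans (mul_le_mul_of_nonneg_left ((h1 w hw.1).trans ?_) (by norm_num))
        exact mul_le_mul_of_nonneg_left (Real.sqrt_le_sqrt (mem_closedBall_iff_norm.mp hw.2)) hH0)
      ⟨hw2, mem_closedBall_iff_norm.mpr hw1⟩ ⟨hz, mem_closedBall_iff_norm.mpr le_rfl⟩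
    rw [Real.norm_eq_abs] at h4
    exact h4.trans (mul_le_mul_of_nonneg_left hw3 (by positivity))
  constructor
  · rw [mzT, mul_inv_le_iff₀ hs]
    nlinarith [h1 z hz, mul_nonneg hH0 hs.le]
  · rw [mzT, inv_pow, mul_inv_le_iff₀ (by positivity)]
    have e : √‖z - 1‖ ^ 3 = √‖z - 1‖ * ‖z - 1‖ := by
      rw [pow_succ', Real.sq_sqrt hr.le]
    rw [e]
    linarith

end Vale.Agent.P071
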