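import Vale.Agent.P071.Reg
import Vale.Agent.P071.ModeZeroAux

/-!
# Zero modes have multiplicity at most two
-/

open Complex Metric Set Filter Topology MeasureTheory
open scoped ContDiff ComplexConjugate Real

namespace Vale.Agent.P071

variable {φ : ℂ → ℂ} {μ c C θ : ℝ}

lemma mz_UC_of_mode {v Φ : ℂ → ℂ} {a : ℂ → ℝ} {V : ℂ → ℂ} (hm : Mode φ μ v Φ a V) :
    UC fun z => (a z : ℂ) := by
  have hcd : ∀ z ∈ D, ContDiffAt ℝ 2 a z := fun z hz =>
    (sl_contDiffAt hm.smooth hz).of_le (by norm_cast)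
  refine ⟨fun z hz => (contDiffAt_ofReal' (hcd z hz)).contDiffWithinAt, ?_⟩
  obtain ⟨K, hK⟩ := hm.lip
  obtain ⟨M₁, h₁⟩ := (isCompact_closedBall (0 : ℂ) 1).exists_bound_of_continuousOn
    hK.continuous.continuousOn
  obtain ⟨M₂, h₂⟩ := (isCompact_closedBall (0 : ℂ) 1).exists_bound_of_continuousOn hm.contV
  refine ⟨max M₁ (2 * M₂), fun z hz => ⟨?_, ?_, ?_⟩⟩
  · rw [norm_real]
    exact (h₁ z (kern0_D_sub hz)).trans (le_max_left _ _)
  · refine (norm_fderiv_le_dD_dB _ _).trans (le_trans ?_ (le_max_right _ _))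
    rw [dB_ofReal_eq_conj ((hcd z hz).differentiableAt (by norm_num)), norm_conj, hm.dDa z hz]
    linarith [h₂ z (kern0_D_sub hz)]
  · rw [ofReal_im, abs_zero]
    have h0 : 0 ≤ M₁ := (norm_nonneg _).trans (h₁ z (kern0_D_sub hz))
    exact mul_nonneg (h0.trans (le_max_left _ _)) (by linarith [sl_norm_lt hz])

theorem mode_eq_zero (S : Setup φ μ c C) (hθ : θ < 1) (hG : Ground φ μ θ) {v Φ : ℂ → ℂ}
    (h : Adm φ v Φ) {a : ℂ → ℝ} {V : ℂ → ℂ} (hm : Mode φ μ v Φ a V) (ha : a 1 = 0)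
    (hV : V 1 = 0) : ∀ z ∈ D, a z = 0 := by
  obtain ⟨H, hH0, hH⟩ := mz_decay hm ha hV
  have hμ := S.mu_pos
  have hUa := mz_UC_of_mode hm
  have hC0 : 0 ≤ C := (norm_nonneg _).trans (S.upper 0 (by simp))
  set P : ℂ → ℂ := fun z => -((μ * rho φ z * a z : ℝ) : ℂ) with hP
  set Ψ : ℂ → ℂ := fun z => P z / deriv φ z with hΨ
  have hPΨ : ∀ z ∈ D, deriv φ z * Ψ z = P z := fun z hz => by
    rw [hΨ]
    exact mul_div_cancel₀ _ (S.deriv_ne_zero hz)
  have h1 : Adm φ V Ψ := by
    refine h.congr hm.v_eq ?_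
    filter_upwards [hm.F_eq, sl_ae_mem] with z h1 hz
    rw [hΨ]
    simp only [hP]
    rw [← h1, mul_div_cancel_left₀ _ (S.deriv_ne_zero hz)]
  have cV : ContinuousOn V D := hm.contV.mono kern0_D_sub
  have ca : ContinuousOn (fun z => (a z : ℂ)) D := hUa.continuousOn
  have cP : ContinuousOn P D := by
    have c1 : ContinuousOn a D := hm.smooth.continuousOn
    have c2 := S.continuousOn_rho
    exact (continuous_ofReal.comp_continuousOn ((continuousOn_const.mul c2).mul c1)).neg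
  -- pointwise bounds
  have P1 : ∀ z ∈ D, ∀ u : ℂ, ‖u‖ ≤ 2 * mzT z ^ 2 → ‖u * V z‖ ≤ 2 * H * mzT z := by
    intro z hz u hu
    have := mzT_pos hz
    calc ‖u * V z‖ = ‖u‖ * ‖V z‖ := norm_mul _ _
      _ ≤ 2 * mzT z ^ 2 * ‖V z‖ := by gcongr
      _ = 2 * (‖V z‖ * mzT z) * mzT z := by ring
      _ ≤ 2 * H * mzT z := by gcongr; exact (hH z hz).1
  have P2 : ∀ z ∈ D, ∀ u : ℂ, ‖u‖ ≤ 8 * mzT z ^ 4 → ‖u * a z‖ ≤ 8 * H * mzT z := by
    intro z hz u hu
    have := mzT_pos hz
    calc ‖u * a z‖ = ‖u‖ * |a z| := by rw [norm_mul, norm_real, Real.norm_eq_abs]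
      _ ≤ 8 * mzT z ^ 4 * |a z| := by gcongr
      _ = 8 * (|a z| * mzT z ^ 3) * mzT z := by ring
      _ ≤ 8 * H * mzT z := by gcongr; exact (hH z hz).2
  have P3 : ∀ z ∈ D, ∀ u : ℂ, ‖u‖ ≤ 2 * mzT z ^ 2 → ‖u * a z‖ ≤ 8 * H * mzT z := by
    intro z hz u hu
    refine P2 z hz u (hu.trans ?_)
    have h2 := mzT_ge hz
    have h3 : 0 ≤ mzT z ^ 2 * (4 * mzT z ^ 2 - 1) := mul_nonneg (sq_nonneg _) (by nlinarith)
    nlinarith
  have P4 : ∀ z ∈ D, ∀ u : ℂ, ‖u‖ ≤ 8 * mzT z ^ 4 → ‖u * V z‖ ≤ 8 * H * mzT z ^ 3 := by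
    intro z hz u hu
    have := mzT_pos hz
    calc ‖u * V z‖ = ‖u‖ * ‖V z‖ := norm_mul _ _
      _ ≤ 8 * mzT z ^ 4 * ‖V z‖ := by gcongr
      _ = 8 * (‖V z‖ * mzT z) * mzT z ^ 3 := by ring
      _ ≤ 8 * H * mzT z ^ 3 := by gcongr; exact (hH z hz).1
  have P5 : ∀ z ∈ D, ∀ u : ℂ, ‖u‖ ≤ 2 * mzT z ^ 2 →
      ‖u * P z‖ ≤ μ * C ^ 2 * (8 * H) * mzT z := by
    intro z hz u hu
    have e : u * P z = -((μ * rho φ z : ℝ) * (u * a z)) := by simp only [hP]; push_cast; ring
    have h2 := S.rho_pos hz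
    have h3 : rho φ z ≤ C ^ 2 := pow_le_pow_left₀ (norm_nonneg _) (S.upper z hz) 2
    rw [e, norm_neg, norm_mul, norm_real, Real.norm_of_nonneg (by positivity), mul_assoc _ (8 * H)]
    gcongr
    exact P3 z hz u hu
  have T1 : ∀ z ∈ D, mzT z ≤ 4 * mzT z ^ 3 := by
    intro z hz
    have h2 := mzT_ge hz
    have h3 : 0 ≤ mzT z * (4 * mzT z ^ 2 - 1) := mul_nonneg (by linarith) (by nlinarith)
    nlinarith
  have T2 : ∀ z ∈ D, ∀ (x y : ℂ) (K L : ℝ), ‖x‖ ≤ K * mzT z → ‖y‖ ≤ L * mzT z →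
      ‖x * conj y‖ ≤ 2 * (K * L) * mzT z ^ 3 := by
    intro z hz x y K L hx hy
    have h2 := mzT_ge hz
    have h3 := mul_le_mul hx hy (norm_nonneg _) ((norm_nonneg _).trans hx)
    have h4 : 0 ≤ K * mzT z * (L * mzT z) := (mul_nonneg (norm_nonneg _) (norm_nonneg _)).trans h3
    have h5 := mul_nonneg h4 (show 0 ≤ 2 * mzT z - 1 by linarith)
    rw [norm_mul, norm_conj]
    nlinarith
  have lf : MemLp (fun z => mzH z * V z) 2 (volume.restrict D) :=
    mz_memLp (mzH_continuousOn.mul cV) fun z hz => P1 z hz _ (mzH_le hz)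
  have lg : MemLp (fun z => mzH' z * a z) 2 (volume.restrict D) :=
    mz_memLp (mzH'_continuousOn.mul ca) fun z hz => P2 z hz _ (mzH'_le z)
  have lw : MemLp (fun z => mzH z * Ψ z) 2 (volume.restrict D) := by
    have := S.memLp_div (mz_memLp (mzH_continuousOn.mul cP) fun z hz => P5 z hz _ (mzH_le hz))
    simpa only [hΨ, Pi.mul_apply, mul_div_assoc] using this
  -- the multiplied pair is admissible
  have h2 : Adm φ (fun z => mzH z * V z) (fun z => mzH z * Ψ z) := by
    refine ⟨lf, lw, fun U hU => ?_⟩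
    obtain ⟨M, hM⟩ := hU.bdd
    have hM0 : 0 ≤ M := (norm_nonneg _).trans (hM 0 (by simp)).1
    have key := mz_dct (F := fun d z => (mzM d z * V z * conj (dD U z) + deriv φ z *
        (mzM d z * Ψ z + dB (mzM d) z * V z / deriv φ z) * conj (U z)).re)
      (f := fun z => (mzH z * V z * conj (dD U z) + deriv φ z * (mzH z * Ψ z) * conj (U z)).re)
      (K := 2 * H * 4 * (2 * M) + (μ * C ^ 2 * (8 * H) * 4 + 8 * H) * M)
      (fun d hd => sl_adm_integrable S (h1.mul S (mzM_UC hd)).l2v (h1.mul S (mzM_UC hd)).l2F hU)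
      (fun d hd z hz => by
        have e : deriv φ z * (mzM d z * Ψ z + dB (mzM d) z * V z / deriv φ z) =
            mzM d z * P z + dB (mzM d) z * V z := by
          have := S.deriv_ne_zero hz
          rw [← hPΨ z hz]
          field_simp
        have b1 := P1 z hz _ (mzM_le hd hz)
        have b2 := P5 z hz _ (mzM_le hd hz)
        have b3 := P4 z hz _ (mz_dB_le hd hz)
        have b4 : ‖dD U z‖ ≤ 2 * M := by linarith [norm_dD_le U z, (hM z hz).2.1]
        have b5 := T1 z hz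
        have b6 := mzT_pos hz
        refine (abs_re_le_norm _).trans ((norm_add_le _ _).trans ?_)
        rw [e, norm_mul _ (conj _), norm_mul _ (conj _), norm_conj, norm_conj]
        calc _ ≤ 2 * H * (4 * mzT z ^ 3) * (2 * M) +
              (μ * C ^ 2 * (8 * H) * (4 * mzT z ^ 3) + 8 * H * mzT z ^ 3) * M := by
              gcongr
              · exact b1.trans (by gcongr)
              · exact (norm_add_le _ _).trans (add_le_add (b2.trans (by gcongr)) b3)
              · exact (hM z hz).1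
          _ = _ := by ring)
      (fun z hz => by
        have t1 := mzM_tendsto hz
        have t2 := mz_dB_tendsto hz
        have t3 := (((t1.mul_const (V z)).mul_const (conj (dD U z))).add
          ((((t1.mul_const (Ψ z)).add ((t2.mul_const (V z)).div_const (deriv φ z))).const_mul
            (deriv φ z)).mul_const (conj (U z))))
        rw [zero_mul, zero_div, add_zero] at t3
        exact (continuous_re.tendsto _).comp t3)
    refine tendsto_nhds_unique key (tendsto_const_nhds.congr' ?_)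
    filter_upwards [self_mem_nhdsWithin] with d hd
    exact ((h1.mul S (mzM_UC hd)).eq U hU).symm
  -- the test functions
  have hU : ∀ d, 0 < d → UC fun z => mzM d z * a z := fun d hd => (mzM_UC hd).mul hUa
  have eD : ∀ d, 0 < d → ∀ z ∈ D,
      dD (fun z => mzM d z * a z) z = mzM d z * V z + dD (mzM d) z * a z := by
    intro d hd z hz
    rw [dD_mul ((mzM_UC hd).differentiableAt hz) (hUa.differentiableAt hz), hm.dDa z hz, add_comm]
  have eB : ∀ d, 0 < d → ∀ z ∈ D,
      dB (fun z => mzM d z * a z) z = mzM d z * conj (V z) + dB (mzM d) z * a z := by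
    intro d hd z hz
    rw [dB_mul ((mzM_UC hd).differentiableAt hz) (hUa.differentiableAt hz),
      dB_ofReal_eq_conj ((sl_contDiffAt hm.smooth hz).differentiableAt (by simp)), hm.dDa z hz,
      add_comm]
  have bD : ∀ d, 0 < d → ∀ z ∈ D, ‖dD (fun z => mzM d z * a z) z‖ ≤ 10 * H * mzT z := by
    intro d hd z hz
    rw [eD d hd z hz]
    refine (norm_add_le _ _).trans ?_
    linarith [P1 z hz _ (mzM_le hd hz), P2 z hz _ (mz_dD_le hd hz)]
  have bB : ∀ d, 0 < d → ∀ z ∈ D, ‖dB (fun z => mzM d z * a z) z‖ ≤ 10 * H * mzT z := by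
    intro d hd z hz
    rw [eB d hd z hz]
    refine (norm_add_le _ _).trans ?_
    have := P1 z hz _ (mzM_le hd hz)
    rw [norm_mul] at this
    rw [norm_mul, norm_conj]
    linarith [P2 z hz _ (mz_dB_le hd hz)]
  have tD : ∀ z ∈ D, Tendsto (fun d => dD (fun z => mzM d z * a z) z) (𝓝[>] 0)
      (𝓝 (mzH z * V z + (2 : ℝ) * (mzH' z * a z))) := by
    intro z hz
    have t := ((mzM_tendsto hz).mul_const (V z)).add ((mz_dD_tendsto hz).mul_const (a z : ℂ))
    rw [mul_assoc] at t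
    refine t.congr' ?_
    filter_upwards [self_mem_nhdsWithin] with d hd
    exact (eD d hd z hz).symm
  have tB : ∀ z ∈ D, Tendsto (fun d => dB (fun z => mzM d z * a z) z) (𝓝[>] 0)
      (𝓝 (mzH z * conj (V z))) := by
    intro z hz
    have t := ((mzM_tendsto hz).mul_const (conj (V z))).add
      ((mz_dB_tendsto hz).mul_const (a z : ℂ))
    rw [zero_mul, add_zero] at t
    refine t.congr' ?_
    filter_upwards [self_mem_nhdsWithin] with d hd
    exact (eB d hd z hz).symm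
  have sq : ∀ z ∈ D, ∀ x : ℂ, ‖x‖ ≤ 10 * H * mzT z →
      |‖x‖ ^ 2| ≤ 2 * (10 * H * (10 * H)) * mzT z ^ 3 := by
    intro z hz x hx
    have := T2 z hz x x _ _ hx hx
    rwa [norm_mul, norm_conj, ← pow_two, ← abs_of_nonneg (sq_nonneg ‖x‖)] at this
  have k1 := mz_dct (F := fun d z => ‖dD (fun z => mzM d z * a z) z‖ ^ 2)
    (fun d hd => sl_integrable_norm_sq (hU d hd).memLp_dD)
    (fun d hd z hz => sq z hz _ (bD d hd z hz)) (fun z hz => (tD z hz).norm.pow 2)
  have k2 := mz_dct (F := fun d z => ‖dB (fun z => mzM d z * a z) z‖ ^ 2)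
    (fun d hd => sl_integrable_norm_sq (hU d hd).memLp_dB)
    (fun d hd z hz => sq z hz _ (bB d hd z hz)) (fun z hz => (tB z hz).norm.pow 2)
  have k3 := tendsto_nhds_unique k1 (k2.congr' (by
    filter_upwards [self_mem_nhdsWithin] with d hd
    exact (hU d hd).integral_dD_eq.symm))
  have e1 : ∀ z, ‖mzH z * conj (V z)‖ = ‖mzH z * V z‖ := fun z => by
    rw [norm_mul, norm_mul, norm_conj]
  simp only [e1] at k3
  rw [sl_integral_norm_add_sq lf lg] at k3
  have k4 := mz_dct (F := fun d z => (mzH z * V z * conj (dD (fun z => mzM d z * a z) z) +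
      deriv φ z * (mzH z * Ψ z) * conj (mzM d z * a z)).re)
    (f := fun z => (mzH z * V z * conj (mzH z * V z + (2 : ℝ) * (mzH' z * a z)) +
      deriv φ z * (mzH z * Ψ z) * conj (mzH z * a z)).re)
    (K := 2 * (2 * H * (10 * H)) + 2 * (μ * C ^ 2 * (8 * H) * (8 * H)))
    (fun d hd => sl_adm_integrable S lf lw (hU d hd))
    (fun d hd z hz => by
      have e : deriv φ z * (mzH z * Ψ z) = mzH z * P z := by rw [← hPΨ z hz]; ring
      have b1 := T2 z hz _ _ _ _ (P1 z hz _ (mzH_le hz)) (bD d hd z hz)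
      have b2 := T2 z hz _ _ _ _ (P5 z hz _ (mzH_le hz)) (P3 z hz _ (mzM_le hd hz))
      refine (abs_re_le_norm _).trans ((norm_add_le _ _).trans ?_)
      rw [e]
      linarith)
    (fun z hz => by
      have t1 := (continuous_conj.tendsto _).comp (tD z hz)
      have t2 := (continuous_conj.tendsto _).comp ((mzM_tendsto hz).mul_const (a z : ℂ))
      exact (continuous_re.tendsto _).comp
        ((t1.const_mul (mzH z * V z)).add (t2.const_mul (deriv φ z * (mzH z * Ψ z)))))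
  have k5 := tendsto_nhds_unique k4 (tendsto_const_nhds.congr' (by
    filter_upwards [self_mem_nhdsWithin] with d hd
    exact (h2.eq _ (hU d hd)).symm))
  have e2 : ∀ z ∈ D, (mzH z * V z * conj (mzH z * V z + (2 : ℝ) * (mzH' z * a z)) +
      deriv φ z * (mzH z * Ψ z) * conj (mzH z * a z)).re =
      ‖mzH z * V z‖ ^ 2 + 2 * (mzH z * V z * conj (mzH' z * a z)).re -
        μ⁻¹ * ‖mzH z * Ψ z‖ ^ 2 := by
    intro z hz
    have e : deriv φ z * (mzH z * Ψ z) = mzH z * P z := by rw [← hPΨ z hz]; ring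
    have r0 := (S.rho_pos hz).ne'
    have e3 : ‖mzH z * Ψ z‖ ^ 2 = μ ^ 2 * rho φ z * (‖mzH z‖ ^ 2 * a z ^ 2) := by
      have e4 : ‖Ψ z‖ ^ 2 = (μ * rho φ z * a z) ^ 2 / rho φ z := by
        simp only [hΨ, hP]
        rw [norm_div, div_pow, norm_neg, norm_real, Real.norm_eq_abs, sq_abs]
        rfl
      rw [norm_mul, mul_pow, e4]
      field_simp
    have e5 : (mzH z * P z * conj (mzH z * a z)).re =
        -(μ * rho φ z * (‖mzH z‖ ^ 2 * a z ^ 2)) := by
      have e6 : mzH z * P z * conj (mzH z * a z) =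
          ((-(μ * rho φ z * a z ^ 2) : ℝ) : ℂ) * (mzH z * conj (mzH z)) := by
        simp only [hP, map_mul, conj_ofReal]
        push_cast
        ring
      rw [e6, re_ofReal_mul, sl_re_mul_conj_self]
      ring
    rw [e, add_re, e5, e3, map_add, mul_add, add_re, sl_re_mul_conj_self, map_mul, conj_ofReal,
      mul_left_comm, re_ofReal_mul]
    field_simp
    ring
  have i1 := sl_integrable_norm_sq lf
  have i2 := (sl_integrable_re_mul_conj lf lg).const_mul 2
  have i3 := (sl_integrable_norm_sq lw).const_mul μ⁻¹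
  have i4 : Integrable (fun z => ‖mzH z * V z‖ ^ 2 + 2 * (mzH z * V z * conj (mzH' z * a z)).re)
      (volume.restrict D) := i1.add i2
  rw [setIntegral_congr_fun measurableSet_ball e2, integral_sub i4 i3, integral_add i1 i2,
    integral_const_mul, integral_const_mul] at k5
  have k6 := hG.EB_nonneg S hθ.le h2
  rw [sl_EB_self] at k6
  set A := ∫ z in D, ‖mzH z * V z‖ ^ 2
  set B := ∫ z in D, (mzH z * V z * conj (mzH' z * a z)).re
  set W := ∫ z in D, ‖mzH z * Ψ z‖ ^ 2
  set E := ∫ z in D, ‖mzH' z * a z‖ ^ 2 with hE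
  have k7 : W = μ * (A + 2 * B) := by
    have : μ⁻¹ * W = A + 2 * B := by linarith
    rw [← this]
    field_simp
  have k8 : E ≤ 0 := by
    have : μ * E ≤ 0 := by nlinarith
    exact nonpos_of_mul_nonpos_right this hμ
  have k9 : E = 0 := le_antisymm k8 (integral_nonneg fun _ => sq_nonneg _)
  rw [hE, integral_eq_zero_iff_of_nonneg (fun _ => sq_nonneg _) (sl_integrable_norm_sq lg)] at k9
  have k10 : a =ᵐ[volume.restrict D] fun _ => 0 := by
    filter_upwards [k9, sl_ae_mem] with z h0 hz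
    have h3 : mzH' z ≠ 0 :=
      div_ne_zero (mul_ne_zero two_ne_zero I_ne_zero) (pow_ne_zero 2 (mz_ne hz))
    simpa [h3] using h0
  exact Measure.eqOn_open_of_ae_eq k10 isOpen_ball hm.smooth.continuousOn continuousOn_const

lemma Mode.add {v Φ v' Φ' V V' : ℂ → ℂ} {a a' : ℂ → ℝ} (h : Mode φ μ v Φ a V)
    (h' : Mode φ μ v' Φ' a' V') :
    Mode φ μ (fun z => v z + v' z) (fun z => Φ z + Φ' z) (fun z => a z + a' z)
      (fun z => V z + V' z) where
  smooth := h.smooth.add h'.smooth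
  lip := by
    obtain ⟨K, hK⟩ := h.lip
    obtain ⟨K', hK'⟩ := h'.lip
    exact ⟨_, hK.add hK'⟩
  eq := fun z hz => by
    rw [lap_add ((sl_contDiffAt h.smooth hz).of_le (by norm_cast))
      ((sl_contDiffAt h'.smooth hz).of_le (by norm_cast)), h.eq z hz, h'.eq z hz]
    ring
  contV := h.contV.add h'.contV
  dDa := fun z hz => by
    simp only [ofReal_add]
    rw [dD_add ((mz_UC_of_mode h).differentiableAt hz) ((mz_UC_of_mode h').differentiableAt hz),
      h.dDa z hz, h'.dDa z hz]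
  holder := by
    obtain ⟨H, hH⟩ := h.holder
    obtain ⟨H', hH'⟩ := h'.holder
    refine ⟨H + H', fun z hz w hw => ?_⟩
    rw [add_sub_add_comm, add_mul]
    exact (norm_add_le _ _).trans (add_le_add (hH z hz w hw) (hH' z hz w hw))
  tang := fun z hz => by rw [mul_add, add_re, h.tang z hz, h'.tang z hz, add_zero]
  v_eq := by
    filter_upwards [h.v_eq, h'.v_eq] with z h1 h2
    rw [h1, h2]
  F_eq := by
    filter_upwards [h.F_eq, h'.F_eq] with z h1 h2
    rw [mul_add, h1, h2]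
    push_cast
    ring

lemma Mode.smul {v Φ V : ℂ → ℂ} {a : ℂ → ℝ} (h : Mode φ μ v Φ a V) (t : ℝ) :
    Mode φ μ (fun z => t * v z) (fun z => t * Φ z) (fun z => t * a z) (fun z => t * V z) where
  smooth := contDiffOn_const.mul h.smooth
  lip := by
    obtain ⟨K, hK⟩ := h.lip
    exact ⟨_, (lipschitzWith_smul t).comp hK⟩
  eq := fun z hz => by
    rw [lap_mul contDiffAt_const ((sl_contDiffAt h.smooth hz).of_le (by norm_cast)), h.eq z hz]
    simp
    ring
  contV := continuousOn_const.mul h.contV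
  dDa := fun z hz => by
    simp only [ofReal_mul]
    rw [dD_const_mul _ ((mz_UC_of_mode h).differentiableAt hz), h.dDa z hz]
  holder := by
    obtain ⟨H, hH⟩ := h.holder
    refine ⟨|t| * H, fun z hz w hw => ?_⟩
    rw [← mul_sub, norm_mul, norm_real, Real.norm_eq_abs, mul_assoc]
    exact mul_le_mul_of_nonneg_left (hH z hz w hw) (abs_nonneg _)
  tang := fun z hz => by rw [mul_left_comm, re_ofReal_mul, h.tang z hz, mul_zero]
  v_eq := by
    filter_upwards [h.v_eq] with z h1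
    rw [h1]
  F_eq := by
    filter_upwards [h.F_eq] with z h1
    rw [mul_left_comm, h1]
    push_cast
    ring

theorem three_dependent (S : Setup φ μ c C) (hθ : θ < 1) (hG : Ground φ μ θ)
    {v Φ : Fin 3 → ℂ → ℂ} (h : ∀ i, ZeroMode φ μ (v i) (Φ i)) :
    ∃ t : Fin 3 → ℝ, t ≠ 0 ∧ (∀ᵐ z ∂(volume.restrict D), ∑ i, (t i : ℂ) * v i z = 0) ∧
      ∀ᵐ z ∂(volume.restrict D), ∑ i, (t i : ℂ) * Φ i z = 0 := by
  choose a V hm using fun i => exists_mode S hθ hG (h i)
  let L : (Fin 3 → ℝ) →ₗ[ℝ] ℝ × ℝ :=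
    { toFun := fun t => (t 0 * a 0 1 + t 1 * a 1 1 + t 2 * a 2 1,
        t 0 * (V 0 1).im + t 1 * (V 1 1).im + t 2 * (V 2 1).im)
      map_add' := fun s t => by
        ext <;> simp only [Pi.add_apply, Prod.fst_add, Prod.snd_add] <;> ring
      map_smul' := fun s t => by
        ext <;> simp only [Pi.smul_apply, smul_eq_mul, Prod.smul_fst, Prod.smul_snd,
          RingHom.id_apply] <;> ring }
  have hL : LinearMap.ker L ≠ ⊥ := L.ker_ne_bot_of_finrank_lt (by simp)
  obtain ⟨t, ht, ht0⟩ := Submodule.exists_mem_ne_zero_of_ne_bot hL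
  have ht1 := congrArg Prod.fst (LinearMap.mem_ker.mp ht)
  have ht2 := congrArg Prod.snd (LinearMap.mem_ker.mp ht)
  have hA := ((((h 0).adm.smul (t 0)).add S ((h 1).adm.smul (t 1))).add S ((h 2).adm.smul (t 2)))
  have hM := (((hm 0).smul (t 0)).add ((hm 1).smul (t 1))).add ((hm 2).smul (t 2))
  have hz := mode_eq_zero S hθ hG hA hM ht1 (by
    have h1 := hM.tang 1 (by simp)
    rw [one_mul] at h1
    refine Complex.ext h1 ?_
    simp only [add_im, im_ofReal_mul]
    exact ht2)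
  refine ⟨t, ht0, ?_, ?_⟩
  · filter_upwards [hM.v_eq, sl_ae_mem] with z h1 hzD
    rw [Fin.sum_univ_three, h1, ← hM.dDa z hzD]
    have h2 : (fun w => ((t 0 * a 0 w + t 1 * a 1 w + t 2 * a 2 w : ℝ) : ℂ)) =ᶠ[𝓝 z]
        fun _ => 0 := by
      filter_upwards [isOpen_ball.mem_nhds hzD] with w hw
      rw [hz w hw, ofReal_zero]
    rw [dD_congr h2, dD_const]
  · filter_upwards [hM.F_eq, sl_ae_mem] with z h1 hzD
    rw [hz z hzD, mul_zero, ofReal_zero, neg_zero] at h1
    rw [Fin.sum_univ_three]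
    exact (mul_eq_zero.mp h1).resolve_left (S.deriv_ne_zero hzD)

end Vale.Agent.P071
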