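import Vale.Agent.P071.Kernel

/-!
# Rigidity of the kernel `dd`
-/

open Complex Metric Set Filter Topology MeasureTheory
open scoped ContDiff ComplexConjugate Real

namespace Vale.Agent.P071

variable {ν : ℂ → ℝ} {A θ : ℝ}

lemma norel_log_sub_le {a b r : ℝ} (ha : 0 < a) (hb : 0 < b) (hr : 0 ≤ r) (h : a ≤ b + r) :
    Real.log a - Real.log b ≤ 2 * (√r * (√b)⁻¹) := by
  rw [← Real.log_div ha.ne' hb.ne']
  have h1 : a / b ≤ 1 + r / b := by
    rw [div_le_iff₀ hb, add_mul, div_mul_cancel₀ _ hb.ne']; linarith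
  refine (Real.log_le_log (by positivity) h1).trans
    (kern0_log_le (by positivity) (by positivity) (le_of_eq ?_))
  rw [mul_pow, inv_pow, Real.sq_sqrt hr, Real.sq_sqrt hb.le, div_eq_mul_inv]

lemma norel_G0_eq {x y : ℂ} (hx : x ∈ Db) (hy : y ∈ Db) (hxy : x ≠ y) :
    4 * π * G0 x y = Real.log (‖x - y‖ ^ 2 + dl x * dl y) - 2 * Real.log ‖x - y‖ := by
  have hr : 0 < ‖x - y‖ := norm_pos_iff.2 (sub_ne_zero.2 hxy)
  have hd : 0 ≤ dl x * dl y := mul_nonneg (dl_nonneg hx) (dl_nonneg hy)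
  have e : 1 + dl x * dl y / ‖x - y‖ ^ 2 = (‖x - y‖ ^ 2 + dl x * dl y) / ‖x - y‖ ^ 2 := by
    field_simp
  unfold G0
  rw [e, Real.log_div (by positivity) (by positivity), Real.log_pow]
  field_simp
  push_cast
  ring

lemma norel_G0_zero {y : ℂ} (hy : y ∈ Db) (hy0 : y ≠ 0) :
    4 * π * G0 0 y = -(2 * Real.log ‖y‖) := by
  rw [norel_G0_eq kern0_zero_mem hy hy0.symm]
  simp [dl]

lemma norel_logN {x y : ℂ} (hx : ‖x‖ ≤ 1 / 2) (hy : y ∈ Db) :
    |Real.log (‖x - y‖ ^ 2 + dl x * dl y)| ≤ 4 * ‖x‖ := by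
  have hb := kern0_norm_le hy
  have ha0 := norm_nonneg x
  have hb0 := norm_nonneg y
  have hr0 := norm_nonneg (x - y)
  have hab : ‖x‖ * ‖y‖ ≤ ‖x‖ := by nlinarith
  have hab0 : 0 ≤ ‖x‖ * ‖y‖ := by positivity
  have h1 : ‖x - y‖ ^ 2 ≤ (‖x‖ + ‖y‖) ^ 2 := pow_le_pow_left₀ hr0 (norm_sub_le x y) 2
  have h2 : (‖x‖ - ‖y‖) ^ 2 ≤ ‖x - y‖ ^ 2 := by
    rw [← sq_abs]
    exact pow_le_pow_left₀ (abs_nonneg _) (abs_norm_sub_norm_le x y) 2
  have h3 : ‖x - y‖ ^ 2 + dl x * dl y ≤ (1 + ‖x‖) ^ 2 := by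
    unfold dl; nlinarith
  have h4 : (1 - ‖x‖) ^ 2 ≤ ‖x - y‖ ^ 2 + dl x * dl y := by
    have : (1 - ‖x‖) ^ 2 ≤ (1 - ‖x‖ * ‖y‖) ^ 2 :=
      pow_le_pow_left₀ (by linarith) (by linarith) 2
    unfold dl; nlinarith
  have hp : 0 < 1 - ‖x‖ := by linarith
  have h5 := Real.log_le_log (lt_of_lt_of_le (by positivity) h4) h3
  have h6 := Real.log_le_log (by positivity) h4
  rw [Real.log_pow] at h5 h6
  push_cast at h5 h6
  have h7 := Real.log_le_sub_one_of_pos (show 0 < 1 + ‖x‖ by linarith)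
  have h8 := Real.one_sub_inv_le_log_of_pos hp
  have h9 : (1 - ‖x‖)⁻¹ ≤ 1 + 2 * ‖x‖ := by
    rw [inv_le_iff_one_le_mul₀ hp]; nlinarith
  rw [abs_le]
  constructor <;> linarith

lemma norel_G0_diff {x y : ℂ} (hx : ‖x‖ ≤ 1 / 2) (hy : y ∈ Db) (hy0 : y ≠ 0) (hyx : y ≠ x) :
    |G0 x y - G0 0 y| ≤ √‖x‖ * (‖y - x‖ ^ (-(1 / 2) : ℝ) + ‖y - 0‖ ^ (-(1 / 2) : ℝ)) := by
  have hx' : x ∈ Db := by
    simp only [mem_closedBall, dist_zero_right]; linarith
  have hr : 0 < ‖x - y‖ := norm_pos_iff.2 (sub_ne_zero.2 hyx.symm)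
  have hn : 0 < ‖y‖ := norm_pos_iff.2 hy0
  have e1 := norel_G0_eq hx' hy hyx.symm
  have e2 := norel_G0_zero hy hy0
  have h1 := abs_le.1 (norel_logN hx hy)
  have h2 := norel_log_sub_le hr hn (norm_nonneg x) (by linarith [norm_sub_le x y])
  have h3 := norel_log_sub_le hn hr (norm_nonneg x) (by
    have := norm_sub_le x (x - y)
    rw [sub_sub_cancel] at this
    linarith)
  rw [sub_zero, norm_sub_rev y x, kern0_rpow_half hr.le, kern0_rpow_half hn.le]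
  have hs0 : 0 ≤ √‖x‖ := Real.sqrt_nonneg _
  have hs : ‖x‖ ≤ √‖x‖ := by
    refine Real.le_sqrt_of_sq_le ?_
    nlinarith [norm_nonneg x]
  have hβ : 1 ≤ (√‖y‖)⁻¹ := by
    refine (one_le_inv₀ (Real.sqrt_pos.2 hn)).2 ?_
    exact Real.sqrt_le_one.2 (kern0_norm_le hy)
  have hα : 0 ≤ √‖x‖ * (√‖x - y‖)⁻¹ := by positivity
  have h4 : √‖x‖ ≤ √‖x‖ * (√‖y‖)⁻¹ := le_mul_of_one_le_right hs0 hβ
  have hpi := Real.pi_gt_three
  have h5 : |4 * π * (G0 x y - G0 0 y)| ≤ 8 * (√‖x‖ * ((√‖x - y‖)⁻¹ + (√‖y‖)⁻¹)) := by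
    rw [mul_sub, e1, e2, abs_le, mul_add]
    constructor <;> linarith
  rw [abs_mul, abs_of_pos (by positivity : 0 < 4 * π)] at h5
  have h6 : 0 ≤ √‖x‖ * ((√‖x - y‖)⁻¹ + (√‖y‖)⁻¹) := by positivity
  have h7 := abs_nonneg (G0 x y - G0 0 y)
  nlinarith

lemma norel_Y_le (hν : Pot ν A θ) (n : ℕ) {s y : ℂ} (hs : s ∈ S1) (hy : y ∈ D) :
    dl y * TK K0 ν n y s ≤ (1 + 2 * kernY A θ / θ) * θ ^ n * ‖y - s‖⁻¹ := by
  have hθ := hν.θ_pos
  have hY := kernY_nonneg hν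
  have hs' := kern0_S1_sub hs
  have hy' := kern0_D_sub hy
  have hne : y ≠ s := by
    rintro rfl
    have h1 := dl_pos hy
    rw [dl_eq_zero hs] at h1
    exact lt_irrefl _ h1
  have hr : 0 < ‖y - s‖ := norm_pos_iff.2 (sub_ne_zero.2 hne)
  cases n with
  | zero =>
    refine (dl_mul_K0_le hy' hs').trans ?_
    rw [pow_zero, mul_one]
    exact le_mul_of_one_le_left (by positivity) (le_add_of_nonneg_right (by positivity))
  | succ n =>
    refine (kern_Y_le hν n hy' hs').trans ?_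
    have h1 : 1 / 2 ≤ ‖y - s‖⁻¹ := by
      rw [one_div]
      exact inv_anti₀ hr (kern0_norm_sub_le hy' hs')
    have e : (1 + 2 * kernY A θ / θ) * θ ^ (n + 1) = θ ^ (n + 1) + 2 * (kernY A θ * θ ^ n) := by
      field_simp
      ring
    rw [e]
    have h2 : 0 ≤ kernY A θ * θ ^ n := by positivity
    have h3 : 0 ≤ θ ^ (n + 1) := by positivity
    nlinarith

lemma norel_int (hν : Pot ν A θ) (n : ℕ) {s x : ℂ} (hs : s ∈ S1) (hx : x ∈ Db) :
    IntegrableOn (fun y => G0 x y * (ν y * (dl y * TK K0 ν n y s))) D := by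
  have hθ := hν.θ_pos
  have hY := kernY_nonneg hν
  have hA := hν.A_nonneg
  have hs' := kern0_S1_sub hs
  refine (kern_dom' ((kern_meas_G0 x).mul (hν.meas.mul (kern_meas_Y hν.meas n s))) hx hs'
    (c := A * ((1 + 2 * kernY A θ / θ) * θ ^ n)) (by positivity) (fun y hy => ?_)
    fun y hy => ?_).1
  · exact mul_nonneg (G0_nonneg hx (kern0_D_sub hy))
      (mul_nonneg (hν.nonneg y) (kern_Y_nonneg hν.nonneg n (kern0_D_sub hy) hs'))
  · have hy' := kern0_D_sub hy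
    have h1 : G0 x y ≤ ‖y - x‖ ^ (-(1 / 2) : ℝ) := by rw [G0_symm]; exact G0_le hy' hx
    have h2 := norel_Y_le hν n hs hy
    have h3 := kern_Y_nonneg hν.nonneg n hy' hs'
    have h4 := hν.nonneg y
    have h5 := hν.le y
    calc G0 x y * (ν y * (dl y * TK K0 ν n y s))
        ≤ ‖y - x‖ ^ (-(1 / 2) : ℝ) * (A * ((1 + 2 * kernY A θ / θ) * θ ^ n * ‖y - s‖⁻¹)) := by
          gcongr
      _ = A * ((1 + 2 * kernY A θ / θ) * θ ^ n) * (‖y - x‖ ^ (-(1 / 2) : ℝ) * ‖y - s‖⁻¹) := by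
          ring
      _ ≤ _ := mul_le_mul_of_nonneg_left (rpow_half_mul_inv_le x s y) (by positivity)

lemma norel_Y_diff_succ (hν : Pot ν A θ) (n : ℕ) {s x : ℂ} (hs : s ∈ S1) (hx : ‖x‖ ≤ 1 / 2) :
    |dl x * TK K0 ν (n + 1) x s - dl 0 * TK K0 ν (n + 1) 0 s| ≤
      √‖x‖ * (A * ((1 + 2 * kernY A θ / θ) * θ ^ n)) * (4 * kernI) := by
  have hθ := hν.θ_pos
  have hY := kernY_nonneg hν
  have hA := hν.A_nonneg
  have hs' := kern0_S1_sub hs
  have hx' : x ∈ Db := by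
    simp only [mem_closedBall, dist_zero_right]; linarith
  have h0 := kern0_zero_mem
  rw [kern_Y_succ ν n hx', kern_Y_succ ν n h0,
    ← integral_sub (norel_int hν n hs hx') (norel_int hν n hs h0)]
  set c := A * ((1 + 2 * kernY A θ / θ) * θ ^ n) with hc
  have hc0 : 0 ≤ √‖x‖ * c := by positivity
  have i1 : IntegrableOn
      (fun y : ℂ => ‖y - x‖ ^ (-(3 / 2) : ℝ) + ‖y - s‖ ^ (-(3 / 2) : ℝ)) D :=
    (kern_sing hx').1.add (kern_sing hs').1
  have i2 : IntegrableOn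
      (fun y : ℂ => ‖y - 0‖ ^ (-(3 / 2) : ℝ) + ‖y - s‖ ^ (-(3 / 2) : ℝ)) D :=
    (kern_sing h0).1.add (kern_sing hs').1
  have hg : IntegrableOn (fun y : ℂ => √‖x‖ * c *
      ((‖y - x‖ ^ (-(3 / 2) : ℝ) + ‖y - s‖ ^ (-(3 / 2) : ℝ)) +
        (‖y - 0‖ ^ (-(3 / 2) : ℝ) + ‖y - s‖ ^ (-(3 / 2) : ℝ)))) D := (i1.add i2).const_mul _
  rw [← Real.norm_eq_abs]
  refine (norm_integral_le_of_norm_le hg ?_).trans ?_
  · filter_upwards [kern_ae_mem, kern_ae_ne 0, kern_ae_ne x] with y hy hy0 hyx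
    have hy' := kern0_D_sub hy
    have h1 := norel_G0_diff hx hy' hy0 hyx
    have h2 := norel_Y_le hν n hs hy
    have h3 := kern_Y_nonneg hν.nonneg n hy' hs'
    have h4 := hν.nonneg y
    have h5 := hν.le y
    rw [← sub_mul, Real.norm_eq_abs, abs_mul, abs_of_nonneg (mul_nonneg h4 h3)]
    calc |G0 x y - G0 0 y| * (ν y * (dl y * TK K0 ν n y s))
        ≤ √‖x‖ * (‖y - x‖ ^ (-(1 / 2) : ℝ) + ‖y - 0‖ ^ (-(1 / 2) : ℝ)) *
          (A * ((1 + 2 * kernY A θ / θ) * θ ^ n * ‖y - s‖⁻¹)) := by gcongr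
      _ = √‖x‖ * c * (‖y - x‖ ^ (-(1 / 2) : ℝ) * ‖y - s‖⁻¹ +
          ‖y - 0‖ ^ (-(1 / 2) : ℝ) * ‖y - s‖⁻¹) := by rw [hc]; ring
      _ ≤ _ := mul_le_mul_of_nonneg_left
          (add_le_add (rpow_half_mul_inv_le x s y) (rpow_half_mul_inv_le 0 s y)) hc0
  · rw [integral_const_mul, integral_add i1 i2, integral_add (kern_sing hx').1 (kern_sing hs').1,
      integral_add (kern_sing h0).1 (kern_sing hs').1]
    have a1 := (kern_sing hx').2
    have a2 := (kern_sing hs').2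
    have a3 := (kern_sing h0).2
    exact mul_le_mul_of_nonneg_left (by linarith) hc0

lemma norel_Y_diff_zero {s x : ℂ} (hs : s ∈ S1) (hx : ‖x‖ ≤ 1 / 2) :
    |dl x * K0 x s - dl 0 * K0 0 s| ≤ √‖x‖ := by
  have hn : ‖s‖ = 1 := by simpa using hs
  have ht := norm_nonneg x
  have h1 : ‖s - x‖ ≤ 1 + ‖x‖ := by linarith [norm_sub_le s x]
  have h2 : 1 - ‖x‖ ≤ ‖s - x‖ := by linarith [norm_sub_norm_le s x]
  have hr : 0 < ‖s - x‖ := by linarith
  have hsq : ‖x‖ ≤ √‖x‖ := by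
    refine Real.le_sqrt_of_sq_le ?_
    nlinarith
  refine le_trans ?_ hsq
  have hpi := Real.pi_gt_three
  rw [K0_symm x s, K0_symm 0 s, K0_boundary hs, K0_boundary hs, sub_zero, hn]
  have e : dl x * (1 / (4 * π * ‖s - x‖ ^ 2)) - dl 0 * (1 / (4 * π * 1 ^ 2)) =
      (1 - ‖x‖ ^ 2 - ‖s - x‖ ^ 2) / (4 * π * ‖s - x‖ ^ 2) := by
    simp only [dl, norm_zero]
    field_simp
    ring
  rw [e, abs_div, abs_of_pos (by positivity : 0 < 4 * π * ‖s - x‖ ^ 2),
    div_le_iff₀ (by positivity)]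
  have h3 : 1 / 4 ≤ ‖s - x‖ ^ 2 := by nlinarith
  have h4 : 3 ≤ 4 * π * ‖s - x‖ ^ 2 := by nlinarith
  have h5 : |1 - ‖x‖ ^ 2 - ‖s - x‖ ^ 2| ≤ ‖x‖ * 3 := by
    rw [abs_le]
    constructor <;> nlinarith
  exact h5.trans (mul_le_mul_of_nonneg_left h4 ht)

lemma norel_holder (hν : Pot ν A θ) : ∃ H : ℝ, 0 ≤ H ∧ ∀ s ∈ S1, ∀ x : ℂ, ‖x‖ ≤ 1 / 2 →
    |dl x * KK ν x s - KK ν 0 s| ≤ H * √‖x‖ := by
  have hθ := hν.θ_pos
  have hθ1 : 0 < 1 - θ := sub_pos.2 hν.θ_lt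
  have hY := kernY_nonneg hν
  have hA := hν.A_nonneg
  have hI := kernI_nonneg
  obtain ⟨C, -, hKB⟩ := kern_KB hν
  set H := 1 + A * (1 + 2 * kernY A θ / θ) * (4 * kernI) / θ with hH
  refine ⟨H * (1 - θ)⁻¹, by positivity, fun s hs x hx => ?_⟩
  have hs' := kern0_S1_sub hs
  have hx' : x ∈ Db := by
    simp only [mem_closedBall, dist_zero_right]; linarith
  have e0 : KK ν 0 s = dl 0 * KK ν 0 s := by simp [dl]
  rw [e0]
  unfold KK
  rw [← tsum_mul_left, ← tsum_mul_left, ← ((hKB.summable x hx' s hs').mul_left _).tsum_sub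
    ((hKB.summable 0 kern0_zero_mem s hs').mul_left _), ← Real.norm_eq_abs]
  have hsum := (hasSum_geometric_of_lt_one hθ.le hν.θ_lt).mul_left (H * √‖x‖)
  refine (tsum_of_norm_bounded hsum fun n => ?_).trans (le_of_eq (by ring))
  rw [Real.norm_eq_abs]
  have hs0 := Real.sqrt_nonneg ‖x‖
  cases n with
  | zero =>
    refine (norel_Y_diff_zero hs hx).trans ?_
    rw [pow_zero, mul_one]
    exact le_mul_of_one_le_left hs0 (le_add_of_nonneg_right (by positivity))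
  | succ n =>
    refine (norel_Y_diff_succ hν n hs hx).trans ?_
    have e : H * √‖x‖ * θ ^ (n + 1) = √‖x‖ * θ ^ (n + 1) +
        √‖x‖ * (A * ((1 + 2 * kernY A θ / θ) * θ ^ n)) * (4 * kernI) := by
      rw [hH]
      field_simp
      ring
    rw [e]
    exact le_add_of_nonneg_left (by positivity)

lemma norel_center (hν : Pot ν A θ) : ∃ B : ℝ, ∀ x ∈ Db, x ≠ 0 →
    -Real.log ‖x‖ / (2 * π) ≤ dl x * KK ν 0 x ∧
      dl x * KK ν 0 x ≤ -Real.log ‖x‖ / (2 * π) + B := by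
  obtain ⟨C, -, hKB⟩ := kern_KB hν
  refine ⟨C * (1 - θ)⁻¹, fun x hx hx0 => ?_⟩
  have h0 := kern0_zero_mem
  have e : dl x * K0 x 0 = -Real.log ‖x‖ / (2 * π) := by
    have h1 := dl_mul_dl_mul_K0 hx h0
    have h2 := norel_G0_zero hx hx0
    rw [G0_symm, ← h1, show dl 0 = 1 by simp [dl], mul_one] at h2
    rw [eq_div_iff (by positivity)]
    linarith
  rw [KK_symm hν h0 hx, ← e]
  refine ⟨mul_le_mul_of_nonneg_left (K0_le_KK hν hx h0) (dl_nonneg hx), ?_⟩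
  have hs := (hKB.summable x hx 0 h0).mul_left (dl x)
  unfold KK
  rw [← tsum_mul_left, hs.tsum_eq_zero_add]
  refine add_le_add le_rfl ?_
  rw [← tsum_geometric_of_lt_one hν.θ_pos.le hν.θ_lt, ← tsum_mul_left]
  exact ((summable_nat_add_iff 1).2 hs).tsum_le_tsum (fun n => hKB.Y_le n x hx 0 h0)
    ((summable_geometric_of_lt_one hν.θ_pos.le hν.θ_lt).mul_left C)

lemma norel_kappa (hν : Pot ν A θ) {s : Fin 3 → ℂ} (hs : ∀ i, s i ∈ S1) {γ : Fin 3 → ℝ} {κ : ℝ}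
    (h : ∀ t ∈ Db, t ≠ 0 → ∑ i, γ i * dd ν (s i) t = κ) : κ = 0 := by
  obtain ⟨H, hH, hhol⟩ := norel_holder hν
  obtain ⟨B, hB⟩ := norel_center hν
  have h0 := kern0_zero_mem
  have hpi := Real.pi_pos
  set g : ℝ → ℝ := fun t => dl t * KK ν 0 t with hg
  set f : Fin 3 → ℝ → ℝ := fun i t => dl t * KK ν t (s i) with hf
  set k : Fin 3 → ℝ := fun i => KK ν 0 (s i) with hk
  have hs' : ∀ i, s i ∈ Db := fun i => kern0_S1_sub (hs i)
  have hn : ∀ i, ‖s i‖ = 1 := fun i => by simpa using hs i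
  have hkpos : ∀ i, 0 < k i := fun i => kern_KK_pos hν h0 (hs' i) (by
    intro h1
    have := hn i
    rw [← h1] at this
    simp at this)
  have hev : ∀ᶠ t : ℝ in 𝓝[>] 0, t ∈ Ioc (0 : ℝ) (1 / 2) := Ioc_mem_nhdsGT (by norm_num)
  have hnorm : ∀ t : ℝ, 0 < t → ‖(t : ℂ)‖ = t := fun t ht => by
    rw [Complex.norm_real, Real.norm_eq_abs, abs_of_pos ht]
  have hmem : ∀ t ∈ Ioc (0 : ℝ) (1 / 2), (t : ℂ) ∈ D := fun t ht => by
    simp only [mem_ball, dist_zero_right]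
    rw [hnorm t ht.1]; linarith [ht.2]
  have hne : ∀ t ∈ Ioc (0 : ℝ) (1 / 2), (t : ℂ) ≠ 0 := fun t ht => by
    exact_mod_cast ht.1.ne'
  have hsqrt : Tendsto (fun t : ℝ => √t) (𝓝[>] 0) (𝓝 0) := by
    have := (Real.continuous_sqrt.tendsto 0).mono_left (nhdsWithin_le_nhds (s := Ioi 0))
    simpa using this
  have hdiff : ∀ i, ∀ t ∈ Ioc (0 : ℝ) (1 / 2), |f i t - k i| ≤ H * √t := fun i t ht => by
    have := hhol (s i) (hs i) t (by rw [hnorm t ht.1]; exact ht.2)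
    rwa [hnorm t ht.1] at this
  have hflim : ∀ i, Tendsto (f i) (𝓝[>] 0) (𝓝 (k i)) := fun i => by
    rw [tendsto_iff_norm_sub_tendsto_zero]
    refine squeeze_zero' (Eventually.of_forall fun _ => norm_nonneg _)
      (hev.mono fun t ht => hdiff i t ht) ?_
    simpa using hsqrt.const_mul H
  have hlog : ∀ t ∈ Ioc (0 : ℝ) (1 / 2), 0 ≤ -Real.log t / (2 * π) := fun t ht => by
    have := Real.log_nonpos ht.1.le (by linarith [ht.2])
    exact div_nonneg (by linarith) (by positivity)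
  have hgb : ∀ t ∈ Ioc (0 : ℝ) (1 / 2),
      -Real.log t / (2 * π) ≤ g t ∧ g t ≤ -Real.log t / (2 * π) + B := fun t ht => by
    have := hB t (kern0_D_sub (hmem t ht)) (hne t ht)
    rwa [hnorm t ht.1] at this
  have hglim : Tendsto g (𝓝[>] 0) atTop := by
    refine tendsto_atTop_mono' _ (hev.mono fun t ht => (hgb t ht).1) ?_
    exact (tendsto_neg_atBot_atTop.comp Real.tendsto_log_nhdsGT_zero).atTop_div_const
      (by positivity)
  have hprod : ∀ i, Tendsto (fun t => g t * (k i - f i t)) (𝓝[>] 0) (𝓝 0) := fun i => by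
    rw [tendsto_zero_iff_norm_tendsto_zero]
    refine squeeze_zero' (g := fun t => (-Real.log t / (2 * π) + B) * (H * √t))
      (Eventually.of_forall fun _ => norm_nonneg _) (hev.mono fun t ht => ?_) ?_
    · have h1 := hgb t ht
      have h2 := hlog t ht
      rw [Real.norm_eq_abs, abs_mul, abs_of_nonneg (h2.trans h1.1), abs_sub_comm]
      exact mul_le_mul h1.2 (hdiff i t ht) (abs_nonneg _) (h2.trans (h1.1.trans h1.2))
    · have h1 := tendsto_log_mul_rpow_nhdsGT_zero (show (0 : ℝ) < 1 / 2 by norm_num)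
      have h2 := (h1.const_mul (-H / (2 * π))).add (hsqrt.const_mul (B * H))
      simp only [mul_zero, add_zero] at h2
      refine h2.congr fun t => ?_
      rw [Real.sqrt_eq_rpow]
      ring
  have hmain : Tendsto (fun t => g t * ∑ i, γ i) (𝓝[>] 0) (𝓝 κ) := by
    have h1 : Tendsto (fun t => κ - ∑ i, γ i * (g t * (k i - f i t) / f i t)) (𝓝[>] 0)
        (𝓝 (κ - ∑ i, γ i * (0 / k i))) :=
      tendsto_const_nhds.sub (tendsto_finsetSum _ fun i _ =>
        ((hprod i).div (hflim i) (hkpos i).ne').const_mul _)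
    simp only [zero_div, mul_zero, Finset.sum_const_zero, sub_zero] at h1
    refine h1.congr' (hev.mono fun t ht => ?_)
    have htD := hmem t ht
    have htb := kern0_D_sub htD
    beta_reduce
    rw [← h t htb (hne t ht), Finset.mul_sum, ← Finset.sum_sub_distrib]
    refine Finset.sum_congr rfl fun i _ => ?_
    have hst : s i ≠ t := by
      intro h2
      have h3 := hn i
      rw [h2, hnorm t ht.1] at h3
      linarith [ht.2]
    have h4 := dl_pos htD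
    have h5 := kern_KK_pos hν htb (hs' i) hst.symm
    simp only [dd, if_neg hst, hg, hf, hk]
    rw [KK_symm hν (hs' i) htb]
    field_simp
    ring
  have hsum : ∑ i, γ i = 0 := by
    have h1 := hmain.mul hglim.inv_tendsto_atTop
    rw [mul_zero] at h1
    have h2 : Tendsto (fun _ : ℝ => ∑ i, γ i) (𝓝[>] 0) (𝓝 0) := by
      refine h1.congr' ((hglim.eventually_gt_atTop 0).mono fun t ht => ?_)
      simp only [Pi.inv_apply]
      field_simp
    exact tendsto_nhds_unique tendsto_const_nhds h2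
  rw [hsum] at hmain
  simp only [mul_zero] at hmain
  exact tendsto_nhds_unique hmain tendsto_const_nhds

/-- No nontrivial combination of `dd ν (s i)` for three boundary points is constant. -/
theorem no_relation (hν : Pot ν A θ) {s : Fin 3 → ℂ} (hs : ∀ i, s i ∈ S1)
    (hinj : Function.Injective s) {γ : Fin 3 → ℝ} {κ : ℝ}
    (h : ∀ t ∈ Db, t ≠ 0 → ∑ i, γ i * dd ν (s i) t = κ) : γ = 0 := by
  have hκ := norel_kappa hν hs h
  have h0 := kern0_zero_mem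
  have hs' : ∀ i, s i ∈ Db := fun i => kern0_S1_sub (hs i)
  have hne : ∀ i, s i ≠ 0 := fun i h1 => by
    have h2 : ‖s i‖ = 1 := by simpa using hs i
    rw [h1] at h2
    simp at h2
  have hpos : ∀ i j, i ≠ j → 0 < dd ν (s i) (s j) := fun i j hij => by
    have h1 : s i ≠ s j := fun h2 => hij (hinj h2)
    rw [dd, if_neg h1]
    exact div_pos (mul_pos (kern_KK_pos hν h0 (hs' i) (hne i).symm)
      (kern_KK_pos hν h0 (hs' j) (hne j).symm)) (kern_KK_pos hν (hs' i) (hs' j) h1)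
  have hdiag : ∀ i, dd ν (s i) (s i) = 0 := fun i => by rw [dd, if_pos rfl]
  have e0 := h (s 0) (hs' 0) (hne 0)
  have e1 := h (s 1) (hs' 1) (hne 1)
  have e2 := h (s 2) (hs' 2) (hne 2)
  rw [Fin.sum_univ_three, hκ, hdiag] at e0 e1 e2
  rw [dd_symm hν (hs' 1) (hs' 0), dd_symm hν (hs' 2) (hs' 0)] at e0
  rw [dd_symm hν (hs' 2) (hs' 1)] at e1
  have ha := hpos 0 1 (by decide)
  have hb := hpos 0 2 (by decide)
  have hc := hpos 1 2 (by decide)
  generalize dd ν (s 0) (s 1) = a at *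
  generalize dd ν (s 0) (s 2) = b at *
  generalize dd ν (s 1) (s 2) = c at *
  have g0 : γ 0 = 0 := by
    have : γ 0 * (2 * a * b) = 0 := by linear_combination b * e1 + a * e2 - c * e0
    exact (mul_eq_zero.1 this).resolve_right (by positivity)
  have g1 : γ 1 = 0 := by
    have : γ 1 * c = 0 := by rw [g0] at e2; linarith
    exact (mul_eq_zero.1 this).resolve_right hc.ne'
  have g2 : γ 2 = 0 := by
    have : γ 2 * c = 0 := by rw [g0] at e1; linarith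
    exact (mul_eq_zero.1 this).resolve_right hc.ne'
  funext i
  fin_cases i
  · exact g0
  · exact g1
  · exact g2

end Vale.Agent.P071
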