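import Vale.Agent.P071.Calc

/-!
# Green's formula on discs and basic singular integrals
-/

open Complex Metric Set Filter Topology MeasureTheory
open scoped ContDiff ComplexConjugate Real

namespace Vale.Agent.P071

/-- The unit disc. -/
abbrev D : Set ℂ := ball 0 1

lemma polar_symm_eq (c : ℂ) (p : ℝ × ℝ) : c + Complex.polarCoord.symm p = circleMap c p.1 p.2 := by
  rw [Complex.polarCoord_symm_apply, circleMap, exp_mul_I]; simp

lemma polar_indicator {E : Type*} [NormedAddCommGroup E] [NormedSpace ℝ E] (f : ℂ → E) (c : ℂ)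
    (R : ℝ) {p : ℝ × ℝ} (hp : p ∈ _root_.polarCoord.target) :
    p.1 • (ball c R).indicator f (c + Complex.polarCoord.symm p) =
      (Ioo 0 R ×ˢ Ioo (-π) π).indicator (fun p : ℝ × ℝ => p.1 • f (circleMap c p.1 p.2)) p := by
  rw [polar_symm_eq]
  have h1 : 0 < p.1 := hp.1
  have h2 : p.2 ∈ Ioo (-π) π := hp.2
  have : circleMap c p.1 p.2 ∈ ball c R ↔ p ∈ Ioo 0 R ×ˢ Ioo (-π) π := by
    rw [mem_ball, dist_eq_norm, circleMap_sub_center, norm_circleMap_zero, abs_of_pos h1]
    exact ⟨fun h => ⟨⟨h1, h⟩, h2⟩, fun h => h.1.2⟩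
  by_cases h : p ∈ Ioo 0 R ×ˢ Ioo (-π) π
  · rw [indicator_of_mem h, indicator_of_mem (this.2 h)]
  · rw [indicator_of_notMem h, indicator_of_notMem (fun h' => h (this.1 h')), smul_zero]

lemma polar_subset (R : ℝ) : Ioo 0 R ×ˢ Ioo (-π) π ⊆ _root_.polarCoord.target :=
  fun _ h => ⟨h.1.1, h.2⟩

/-- Integrability in polar coordinates. -/
theorem integrableOn_polar {E : Type*} [NormedAddCommGroup E] [NormedSpace ℝ E]
    {f : ℂ → E} {c : ℂ} {R : ℝ} (hf : IntegrableOn f (ball c R)) :
    IntegrableOn (fun p : ℝ × ℝ => p.1 • f (circleMap c p.1 p.2)) (Ioo 0 R ×ˢ Ioo (-π) π) := by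
  have h1 : Integrable (fun z => (ball c R).indicator f (c + z)) :=
    ((integrable_indicator_iff measurableSet_ball).2 hf).comp_add_left c
  have h2 : Integrable (fun q : ℝ × ℝ =>
      (ball c R).indicator f (c + measurableEquivRealProd.symm q)) :=
    ((Complex.volume_preserving_equiv_real_prod.symm).integrable_comp_emb
      measurableEquivRealProd.symm.measurableEmbedding).2 h1
  have h3 := (integrableOn_image_iff_integrableOn_abs_det_fderiv_smul volume
    _root_.polarCoord.open_target.measurableSet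
    (fun p _ => (hasFDerivAt_polarCoord_symm p).hasFDerivWithinAt) _root_.polarCoord.symm.injOn
    _).1 h2.integrableOn
  have h4 : IntegrableOn ((Ioo 0 R ×ˢ Ioo (-π) π).indicator
      (fun p : ℝ × ℝ => p.1 • f (circleMap c p.1 p.2))) _root_.polarCoord.target := by
    refine h3.congr_fun (fun p hp => ?_) _root_.polarCoord.open_target.measurableSet
    rw [← polar_indicator f c R hp]
    beta_reduce
    rw [det_fderivPolarCoordSymm, abs_of_pos hp.1]
    rfl
  have h5 := h4.mono_set (polar_subset R)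
  exact h5.congr_fun (fun p hp => indicator_of_mem hp _) (measurableSet_Ioo.prod measurableSet_Ioo)

theorem integral_ball_polar_prod {E : Type*} [NormedAddCommGroup E] [NormedSpace ℝ E]
    (f : ℂ → E) (c : ℂ) (R : ℝ) :
    ∫ z in ball c R, f z = ∫ p in Ioo 0 R ×ˢ Ioo (-π) π, p.1 • f (circleMap c p.1 p.2) := by
  rw [← integral_indicator measurableSet_ball, ← integral_add_left_eq_self _ c,
    ← Complex.integral_comp_polarCoord_symm,
    setIntegral_congr_fun _root_.polarCoord.open_target.measurableSet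
      (fun p hp => polar_indicator f c R hp),
    setIntegral_indicator (measurableSet_Ioo.prod measurableSet_Ioo),
    inter_eq_right.2 (polar_subset R)]

/-- Polar coordinates on a disc. -/
theorem integral_ball_polar {E : Type*} [NormedAddCommGroup E] [NormedSpace ℝ E]
    {f : ℂ → E} {c : ℂ} {R : ℝ} (hR : 0 ≤ R) (hf : IntegrableOn f (ball c R)) :
    ∫ z in ball c R, f z = ∫ r in (0 : ℝ)..R, ∫ θ in (-π)..π, r • f (circleMap c r θ) := by
  rw [integral_ball_polar_prod, Measure.volume_eq_prod, setIntegral_prod _ (integrableOn_polar hf),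
    intervalIntegral.integral_of_le hR, integral_Ioc_eq_integral_Ioo]
  refine integral_congr_ae (Eventually.of_forall fun r => ?_)
  simp only
  rw [intervalIntegral.integral_of_le (by linarith [Real.pi_pos]), integral_Ioc_eq_integral_Ioo]

lemma hasFDerivAt_circleMap_prod (c : ℂ) (p : ℝ × ℝ) :
    HasFDerivAt (fun p : ℝ × ℝ => circleMap c p.1 p.2)
      ((ContinuousLinearMap.fst ℝ ℝ ℝ).smulRight (circleMap 0 1 p.2) +
        (ContinuousLinearMap.snd ℝ ℝ ℝ).smulRight (circleMap 0 p.1 p.2 * I)) p := by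
  have h1 : HasFDerivAt (fun p : ℝ × ℝ => circleMap 0 1 p.2)
      ((ContinuousLinearMap.snd ℝ ℝ ℝ).smulRight (circleMap 0 1 p.2 * I)) p :=
    (hasDerivAt_circleMap 0 1 p.2).hasFDerivAt.comp p (ContinuousLinearMap.snd ℝ ℝ ℝ).hasFDerivAt
  have h2 := ((ContinuousLinearMap.fst ℝ ℝ ℝ).hasFDerivAt.smul h1).const_add c
  have e : (fun p : ℝ × ℝ => circleMap c p.1 p.2) = fun x => c +
      (⇑(ContinuousLinearMap.fst ℝ ℝ ℝ) • fun p : ℝ × ℝ => circleMap 0 1 p.2) x := by
    funext q; simp [circleMap]
  rw [e]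
  refine h2.congr_fderiv ?_
  ext <;> simp [circleMap, mul_assoc]

/-- Green's formula for `dB`, for fields continuous up to the boundary. -/
theorem green_dB_gen {W : ℂ → ℂ} {c : ℂ} {R : ℝ} (hR : 0 ≤ R) (hc : ContinuousOn W (closedBall c R))
    (hW : ∀ z ∈ ball c R, DifferentiableAt ℝ W z) (hint : IntegrableOn (dB W) (ball c R)) :
    ∫ z in ball c R, dB W z = ∫ θ in (-π)..π, W (circleMap c R θ) * circleMap 0 R θ := by
  have hpi : -π ≤ π := by linarith [Real.pi_pos]
  set P : ℝ × ℝ → ℂ := fun p => circleMap c p.1 p.2 with hP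
  set f : ℝ × ℝ → ℂ := fun p => W (P p) * circleMap 0 p.1 p.2 with hf
  set g : ℝ × ℝ → ℂ := fun p => W (P p) * (I * circleMap 0 1 p.2) with hg
  have hPc : Continuous P := by simp only [hP, circleMap]; fun_prop
  have hmaps : MapsTo P (uIcc 0 R ×ˢ uIcc (-π) π) (closedBall c R) := by
    intro p hp
    have h1 := hp.1
    rw [uIcc_of_le hR] at h1
    rw [mem_closedBall, dist_eq_norm, hP, circleMap_sub_center, norm_circleMap_zero,
      abs_of_nonneg h1.1]
    exact h1.2
  have hWP : ContinuousOn (fun p => W (P p)) (uIcc 0 R ×ˢ uIcc (-π) π) :=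
    hc.comp hPc.continuousOn hmaps
  have hmem : ∀ p ∈ Ioo 0 R ×ˢ Ioo (-π) π, P p ∈ ball c R := by
    intro p hp
    rw [mem_ball, dist_eq_norm, hP, circleMap_sub_center, norm_circleMap_zero, abs_of_pos hp.1.1]
    exact hp.1.2
  have hdf : ∀ p ∈ Ioo 0 R ×ˢ Ioo (-π) π, DifferentiableAt ℝ f p ∧ DifferentiableAt ℝ g p ∧
      fderiv ℝ f p (1, 0) + fderiv ℝ g p (0, 1) = p.1 • dB W (P p) := by
    intro p hp
    have h1 := (hW _ (hmem p hp)).hasFDerivAt.comp p (hasFDerivAt_circleMap_prod c p)
    have h2 := h1.mul (hasFDerivAt_circleMap_prod 0 p)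
    have h3 : HasFDerivAt (fun p : ℝ × ℝ => circleMap 0 1 p.2)
        ((ContinuousLinearMap.snd ℝ ℝ ℝ).smulRight (circleMap 0 1 p.2 * I)) p :=
      (hasDerivAt_circleMap 0 1 p.2).hasFDerivAt.comp p (ContinuousLinearMap.snd ℝ ℝ ℝ).hasFDerivAt
    have h4 := h1.mul (h3.const_mul I)
    refine ⟨h2.differentiableAt, h4.differentiableAt, ?_⟩
    have e2 : fderiv ℝ f p = _ := h2.fderiv
    have e4 : fderiv ℝ g p = _ := h4.fderiv
    rw [e2, e4]
    have hr : circleMap 0 p.1 p.2 = p.1 * circleMap 0 1 p.2 := by simp [circleMap]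
    have hu : circleMap 0 1 p.2 * conj (circleMap 0 1 p.2) = 1 := by
      rw [mul_conj, normSq_eq_norm_sq, norm_circleMap_zero]; simp
    simp only [add_apply, smul_apply,
      ContinuousLinearMap.comp_apply, ContinuousLinearMap.smulRight_apply,
      ContinuousLinearMap.coe_fst', ContinuousLinearMap.coe_snd', Function.comp_apply,
      one_smul, zero_smul, add_zero, zero_add, smul_eq_mul, fderiv_apply_eq_dD_dB, hr, map_mul,
      conj_ofReal, conj_I, real_smul, hP]
    linear_combination (p.1 * dB W (circleMap c p.1 p.2)) * hu +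
      (W (circleMap c p.1 p.2) * circleMap 0 1 p.2 + p.1 / 2 * circleMap 0 1 p.2 *
        (circleMap 0 1 p.2 * dD W (circleMap c p.1 p.2) -
          conj (circleMap 0 1 p.2) * dB W (circleMap c p.1 p.2))) * I_mul_I
  have hae : (uIcc 0 R ×ˢ uIcc (-π) π : Set (ℝ × ℝ)) =ᵐ[volume] Ioo 0 R ×ˢ Ioo (-π) π := by
    rw [uIcc_of_le hR, uIcc_of_le hpi, Measure.volume_eq_prod]
    exact Measure.set_prod_ae_eq Ioo_ae_eq_Icc.symm Ioo_ae_eq_Icc.symm
  have hI : IntegrableOn (fun p => fderiv ℝ f p (1, 0) + fderiv ℝ g p (0, 1))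
      (Ioo 0 R ×ˢ Ioo (-π) π) :=
    (integrableOn_polar hint).congr_fun (fun p hp => (hdf p hp).2.2.symm)
      (measurableSet_Ioo.prod measurableSet_Ioo)
  have key := integral2_divergence_prod_of_hasFDerivAt f g (fderiv ℝ f) (fderiv ℝ g) 0 (-π) R π
    (hWP.mul (by simp only [circleMap]; fun_prop)) (hWP.mul (by simp only [circleMap]; fun_prop))
    (fun p hp => by
      rw [min_eq_left hR, max_eq_right hR, min_eq_left hpi, max_eq_right hpi] at hp
      exact (hdf p hp).1.hasFDerivAt)
    (fun p hp => by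
      rw [min_eq_left hR, max_eq_right hR, min_eq_left hpi, max_eq_right hpi] at hp
      exact (hdf p hp).2.1.hasFDerivAt)
    (hI.congr_set_ae hae)
  have hper : ∀ (c : ℂ) (r : ℝ), circleMap c r π = circleMap c r (-π) := fun c r => by
    rw [← periodic_circleMap c r (-π)]; congr 1; ring
  have hg0 : ∀ x, g (x, π) = g (x, -π) := fun x => by simp only [hg, hP, hper]
  have hf0 : ∀ y, f (0, y) = 0 := fun y => by simp [hf]
  simp only [hg0, hf0, sub_self, zero_add, intervalIntegral.integral_zero, sub_zero] at key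
  rw [← key, integral_ball_polar_prod, ← setIntegral_congr_fun
    (measurableSet_Ioo.prod measurableSet_Ioo) (fun p hp => (hdf p hp).2.2),
    Measure.volume_eq_prod, setIntegral_prod _ hI, intervalIntegral.integral_of_le hR,
    integral_Ioc_eq_integral_Ioo]
  refine integral_congr_ae (Eventually.of_forall fun r => ?_)
  simp only
  rw [intervalIntegral.integral_of_le hpi, integral_Ioc_eq_integral_Ioo]

lemma integrableOn_ball_of_continuousAt {E : Type*} [NormedAddCommGroup E] {f : ℂ → E} {c : ℂ}
    {R : ℝ} (hf : ∀ z ∈ closedBall c R, ContinuousAt f z) : IntegrableOn f (ball c R) :=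
  ((continuousOn_of_forall_continuousAt hf).integrableOn_compact (isCompact_closedBall c R)).mono_set
    ball_subset_closedBall

/-- Green's formula for `dB`. -/
theorem green_dB {W : ℂ → ℂ} {c : ℂ} {R : ℝ} (hR : 0 ≤ R)
    (hW : ∀ z ∈ closedBall c R, ContDiffAt ℝ 1 W z) :
    ∫ z in ball c R, dB W z = ∫ θ in (-π)..π, W (circleMap c R θ) * circleMap 0 R θ :=
  green_dB_gen hR (continuousOn_of_forall_continuousAt fun z hz => (hW z hz).continuousAt)
    (fun z hz => (hW z (ball_subset_closedBall hz)).differentiableAt (by norm_num))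
    (integrableOn_ball_of_continuousAt fun z hz =>
      (contDiffAt_dB (m := 0) (hW z hz) (by norm_num)).continuousAt)

/-- Green's formula for `dD`. -/
theorem green_dD {W : ℂ → ℂ} {c : ℂ} {R : ℝ} (hR : 0 ≤ R)
    (hW : ∀ z ∈ closedBall c R, ContDiffAt ℝ 1 W z) :
    ∫ z in ball c R, dD W z = ∫ θ in (-π)..π, W (circleMap c R θ) * conj (circleMap 0 R θ) := by
  have h := green_dB hR (W := fun w => conj (W w)) fun z hz => contDiffAt_conj' (hW z hz)
  rw [setIntegral_congr_fun measurableSet_ball (g := fun z => conj (dD W z)) fun z hz =>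
    dB_conj ((hW z (ball_subset_closedBall hz)).differentiableAt (by norm_num)),
    integral_conj] at h
  have h2 := congrArg conj h
  rw [conj_conj, ← intervalIntegral.intervalIntegral_conj] at h2
  rw [h2]
  simp

/-- Green's first identity. -/
theorem green_first {F G : ℂ → ℂ} {c : ℂ} {R : ℝ} (hR : 0 ≤ R)
    (hF : ∀ z ∈ closedBall c R, ContDiffAt ℝ 2 F z)
    (hG : ∀ z ∈ closedBall c R, ContDiffAt ℝ 1 G z) :
    ∫ z in ball c R, (lap F z * G z + (dx F z * dx G z + dy F z * dy G z)) =
      ∫ θ in (-π)..π, fderiv ℝ F (circleMap c R θ) (circleMap 0 R θ) * G (circleMap c R θ) := by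
  have h1 : ∀ z ∈ closedBall c R, ContDiffAt ℝ 1 (fun w => dD F w * G w) z := fun z hz =>
    (contDiffAt_dD (hF z hz) (by norm_num)).mul (hG z hz)
  have h2 : ∀ z ∈ closedBall c R, ContDiffAt ℝ 1 (fun w => dB F w * G w) z := fun z hz =>
    (contDiffAt_dB (hF z hz) (by norm_num)).mul (hG z hz)
  have e1 := green_dB hR h1
  have e2 := green_dD hR h2
  have i1 : IntegrableOn (dB fun w => dD F w * G w) (ball c R) :=
    integrableOn_ball_of_continuousAt fun z hz =>
      (contDiffAt_dB (m := 0) (h1 z hz) (by norm_num)).continuousAt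
  have i2 : IntegrableOn (dD fun w => dB F w * G w) (ball c R) :=
    integrableOn_ball_of_continuousAt fun z hz =>
      (contDiffAt_dD (m := 0) (h2 z hz) (by norm_num)).continuousAt
  have hm : ∀ θ, circleMap c R θ ∈ closedBall c R := fun θ => circleMap_mem_closedBall c hR θ
  have c1 : Continuous fun θ => dD F (circleMap c R θ) * G (circleMap c R θ) * circleMap 0 R θ :=
    (continuous_iff_continuousAt.2 fun θ => (h1 _ (hm θ)).continuousAt.comp
      (continuous_circleMap c R).continuousAt).mul (continuous_circleMap 0 R)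
  have c2 : Continuous fun θ =>
      dB F (circleMap c R θ) * G (circleMap c R θ) * conj (circleMap 0 R θ) :=
    (continuous_iff_continuousAt.2 fun θ => (h2 _ (hm θ)).continuousAt.comp
      (continuous_circleMap c R).continuousAt).mul
        (continuous_conj.comp (continuous_circleMap 0 R))
  have e3 : ∫ z in ball c R, (lap F z * G z + (dx F z * dx G z + dy F z * dy G z)) =
      ∫ z in ball c R, (1 / 2 : ℂ) * ((dB fun w => dD F w * G w) z +
        (dD fun w => dB F w * G w) z) := by
    refine setIntegral_congr_fun measurableSet_ball fun z hz => ?_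
    have hz' := ball_subset_closedBall hz
    have a1 : DifferentiableAt ℝ (dD F) z :=
      (contDiffAt_dD (m := 1) (hF z hz') (by norm_num)).differentiableAt (by norm_num)
    have a2 : DifferentiableAt ℝ (dB F) z :=
      (contDiffAt_dB (m := 1) (hF z hz') (by norm_num)).differentiableAt (by norm_num)
    have a3 : DifferentiableAt ℝ G z := (hG z hz').differentiableAt (by norm_num)
    rw [dB_mul a1 a3, dD_mul a2 a3, dB_dD (hF z hz'), dD_dB (hF z hz'), dD, dB, dB, dD]
    linear_combination (dy F z * dy G z) * I_mul_I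
  rw [e3, integral_const_mul, integral_add i1 i2, e1, e2,
    ← intervalIntegral.integral_add (c1.intervalIntegrable _ _) (c2.intervalIntegrable _ _),
    ← intervalIntegral.integral_const_mul]
  refine intervalIntegral.integral_congr fun θ _ => ?_
  rw [fderiv_apply_eq_dD_dB]; ring

/-- Green's second identity. -/
theorem green_second {F G : ℂ → ℂ} {c : ℂ} {R : ℝ} (hR : 0 ≤ R)
    (hF : ∀ z ∈ closedBall c R, ContDiffAt ℝ 2 F z)
    (hG : ∀ z ∈ closedBall c R, ContDiffAt ℝ 2 G z) :
    ∫ z in ball c R, (lap F z * G z - F z * lap G z) =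
      ∫ θ in (-π)..π, (fderiv ℝ F (circleMap c R θ) (circleMap 0 R θ) * G (circleMap c R θ) -
        F (circleMap c R θ) * fderiv ℝ G (circleMap c R θ) (circleMap 0 R θ)) := by
  have hm : ∀ θ, circleMap c R θ ∈ closedBall c R := fun θ => circleMap_mem_closedBall c hR θ
  have aux : ∀ {F G : ℂ → ℂ}, (∀ z ∈ closedBall c R, ContDiffAt ℝ 2 F z) →
      (∀ z ∈ closedBall c R, ContDiffAt ℝ 2 G z) →
      IntegrableOn (fun z => lap F z * G z + (dx F z * dx G z + dy F z * dy G z)) (ball c R) ∧
      Continuous fun θ => fderiv ℝ F (circleMap c R θ) (circleMap 0 R θ) * G (circleMap c R θ) := by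
    intro F G hF hG
    refine ⟨integrableOn_ball_of_continuousAt fun z hz => ?_, ?_⟩
    · exact ((contDiffAt_lap (m := 0) (hF z hz) (by norm_num)).continuousAt.mul
        (hG z hz).continuousAt).add
        (((differentiableAt_dx (hF z hz)).continuousAt.mul
          (differentiableAt_dx (hG z hz)).continuousAt).add
        ((differentiableAt_dy (hF z hz)).continuousAt.mul
          (differentiableAt_dy (hG z hz)).continuousAt))
    · refine continuous_iff_continuousAt.2 fun θ => ContinuousAt.mul ?_ ?_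
      · refine ContinuousAt.clm_apply ?_ (continuous_circleMap 0 R).continuousAt
        exact ((hF _ (hm θ)).fderiv_right (m := 0) (by norm_num)).continuousAt.comp
          (continuous_circleMap c R).continuousAt
      · exact (hG _ (hm θ)).continuousAt.comp (continuous_circleMap c R).continuousAt
  have e1 := green_first hR hF fun z hz => (hG z hz).of_le (by norm_num)
  have e2 := green_first hR hG fun z hz => (hF z hz).of_le (by norm_num)
  have a1 := aux hF hG
  have a2 := aux hG hF
  have e3 := congrArg₂ (· - ·) e1 e2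
  rw [← integral_sub a1.1 a2.1,
    ← intervalIntegral.integral_sub (a1.2.intervalIntegrable _ _) (a2.2.intervalIntegrable _ _)]
    at e3
  refine Eq.trans (integral_congr_ae (Eventually.of_forall fun z => ?_))
    (e3.trans (intervalIntegral.integral_congr fun z _ => ?_))
  · ring
  · ring

/-- Green's formula up to the boundary for fields continuous on the closed disc. -/
theorem green_dB_closed {W : ℂ → ℂ} (hc : ContinuousOn W (closedBall 0 1))
    (hW : ContDiffOn ℝ 1 W D) (hint : IntegrableOn (dB W) D) :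
    ∫ z in D, dB W z = ∫ θ in (-π)..π, W (circleMap 0 1 θ) * circleMap 0 1 θ :=
  green_dB_gen zero_le_one hc
    (fun z hz => (hW.contDiffAt (isOpen_ball.mem_nhds hz)).differentiableAt (by norm_num)) hint

theorem tendsto_setIntegral_ball {E : Type*} [NormedAddCommGroup E] [NormedSpace ℝ E] {f : ℂ → E}
    (hf : IntegrableOn f D) :
    Tendsto (fun r : ℝ => ∫ z in ball 0 r, f z) (𝓝[<] 1) (𝓝 (∫ z in D, f z)) := by
  have h := tendsto_integral_filter_of_dominated_convergence (μ := volume.restrict D)
    (l := 𝓝[<] (1 : ℝ)) (F := fun r => (ball (0 : ℂ) r).indicator f) (f := f) (fun z => ‖f z‖)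
    (Eventually.of_forall fun r => hf.aestronglyMeasurable.indicator measurableSet_ball)
    (Eventually.of_forall fun r => Eventually.of_forall fun z => norm_indicator_le_norm_self _ _)
    hf.norm ?_
  · refine h.congr' ?_
    filter_upwards [self_mem_nhdsWithin] with r hr
    rw [setIntegral_indicator measurableSet_ball,
      inter_eq_right.2 (ball_subset_ball (le_of_lt hr))]
  · filter_upwards [ae_restrict_mem measurableSet_ball] with z hz
    refine tendsto_const_nhds.congr' ?_
    have : ‖z‖ < 1 := mem_ball_zero_iff.1 hz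
    filter_upwards [nhdsWithin_le_nhds (lt_mem_nhds this)] with r hr
    rw [indicator_of_mem (mem_ball_zero_iff.2 hr)]

/-- No flux through the unit circle when the normal component is `O(1 - |z|)` in mean. -/
theorem green_zero {W : ℂ → ℂ} (hW : ContDiffOn ℝ 1 W D)
    (hint : IntegrableOn (fun z => (dB W z).re) D) {g : ℂ → ℝ} (hg : IntegrableOn g D)
    (hb : ∀ z ∈ D, |(W z * z).re| ≤ (1 - ‖z‖) * g z) : ∫ z in D, (dB W z).re = 0 := by
  by_contra hne
  have hpi : -π ≤ π := by linarith [Real.pi_pos]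
  set J := ∫ z in D, (dB W z).re with hJ
  have hJ0 : 0 < |J| / 2 := by have := abs_pos.2 hne; positivity
  have h1 : ∀ᶠ r in 𝓝[<] (1 : ℝ), |J| / 2 < |∫ z in ball 0 r, (dB W z).re| :=
    (tendsto_setIntegral_ball hint).abs.eventually (lt_mem_nhds (by linarith))
  obtain ⟨r₀, hr₀, hsub⟩ := (mem_nhdsLT_iff_exists_Ioo_subset).1
    (h1.and (nhdsWithin_le_nhds (lt_mem_nhds (show (1 / 2 : ℝ) < 1 by norm_num))))
  have hr₀' : r₀ < 1 := hr₀
  have hP := integrableOn_polar hg
  rw [IntegrableOn, Measure.volume_eq_prod, ← Measure.prod_restrict] at hP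
  have hP1 := hP.integral_prod_left
  have hP2 := hP.prod_right_ae
  set s := max r₀ (1 / 2) with hs
  have hs1 : s < 1 := max_lt hr₀' (by norm_num)
  have hs0 : 1 / 2 ≤ s := le_max_right _ _
  have hsub' : Ioo s 1 ⊆ Ioo 0 1 := Ioo_subset_Ioo_left (by linarith)
  have : IntervalIntegrable (fun x : ℝ => (x - 1)⁻¹) volume s 1 := by
    rw [intervalIntegrable_iff_integrableOn_Ioo_of_le hs1.le]
    refine Integrable.mono' ((IntegrableOn.mono_set hP1 hsub').const_mul (4 / |J|))
      (by fun_prop : Measurable fun x : ℝ => (x - 1)⁻¹).aestronglyMeasurable ?_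
    filter_upwards [ae_restrict_mem measurableSet_Ioo,
      ae_restrict_of_ae_restrict_of_subset hsub' hP2] with r hr hr2
    have hr0 : 1 / 2 < r := lt_of_le_of_lt hs0 hr.1
    have hr1 : r < 1 := hr.2
    have hA := (hsub ⟨lt_of_le_of_lt (le_max_left _ _) hr.1, hr.2⟩).1
    have hcb : closedBall (0 : ℂ) r ⊆ D := closedBall_subset_ball hr1
    have hW' : ∀ z ∈ closedBall (0 : ℂ) r, ContDiffAt ℝ 1 W z := fun z hz =>
      hW.contDiffAt (isOpen_ball.mem_nhds (hcb hz))
    have hG := congrArg re (green_dB (by linarith) hW')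
    have hi : IntegrableOn (dB W) (ball 0 r) := integrableOn_ball_of_continuousAt fun z hz =>
      (contDiffAt_dB (m := 0) (hW' z hz) (by norm_num)).continuousAt
    have hm : ∀ θ, circleMap 0 r θ ∈ closedBall (0 : ℂ) r := fun θ =>
      circleMap_mem_closedBall 0 (by linarith) θ
    have hc : Continuous fun θ => W (circleMap 0 r θ) * circleMap 0 r θ :=
      (continuous_iff_continuousAt.2 fun θ => (hW' _ (hm θ)).continuousAt.comp
        (continuous_circleMap 0 r).continuousAt).mul (continuous_circleMap 0 r)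
    rw [intervalIntegral.integral_of_le hpi, integral_Ioc_eq_integral_Ioo] at hG
    have hi2 : IntegrableOn (fun θ => W (circleMap 0 r θ) * circleMap 0 r θ) (Ioo (-π) π) :=
      (hc.integrableOn_Icc).mono_set Ioo_subset_Icc_self
    have e1 : (∫ z in ball 0 r, dB W z).re = ∫ z in ball 0 r, (dB W z).re :=
      (integral_re hi).symm
    have e2 : (∫ θ in Ioo (-π) π, W (circleMap 0 r θ) * circleMap 0 r θ).re =
        ∫ θ in Ioo (-π) π, (W (circleMap 0 r θ) * circleMap 0 r θ).re := (integral_re hi2).symm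
    rw [e1, e2] at hG
    rw [hG] at hA
    have hB : |∫ θ in Ioo (-π) π, (W (circleMap 0 r θ) * circleMap 0 r θ).re| ≤
        ∫ θ in Ioo (-π) π, (1 - r) / r * (r • g (circleMap 0 r θ)) := by
      rw [← Real.norm_eq_abs]
      refine norm_integral_le_of_norm_le (hr2.const_mul _) (Eventually.of_forall fun θ => ?_)
      have := hb _ (hcb (hm θ))
      rw [norm_circleMap_zero, abs_of_pos (show 0 < r by linarith)] at this
      rw [Real.norm_eq_abs, smul_eq_mul]
      refine this.trans (le_of_eq ?_)
      field_simp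
    rw [integral_const_mul] at hB
    set γ := ∫ θ in Ioo (-π) π, r • g (circleMap 0 r θ) with hγ
    have hJ1 : 0 < |J| := by linarith
    have h3 : |J| / 2 < (1 - r) / r * γ := hA.trans_le hB
    have h4 : 0 < (1 - r) / r := div_pos (by linarith) (by linarith)
    have hγ0 : 0 < γ := by
      by_contra h
      have := mul_nonpos_of_nonneg_of_nonpos h4.le (not_lt.1 h)
      linarith
    have h5 : (1 - r) / r ≤ 2 * (1 - r) := by
      rw [div_le_iff₀ (by linarith)]; nlinarith
    have h6 : |J| / 2 < 2 * (1 - r) * γ := h3.trans_le (mul_le_mul_of_nonneg_right h5 hγ0.le)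
    rw [norm_inv, Real.norm_eq_abs, abs_of_neg (by linarith), inv_eq_one_div,
      div_le_iff₀ (by linarith), div_mul_eq_mul_div, div_mul_eq_mul_div, le_div_iff₀ hJ1]
    nlinarith
  rw [intervalIntegrable_sub_inv_iff] at this
  rcases this with h | h
  · exact hs1.ne h
  · exact h right_mem_uIcc

/-- The basic singular integral. -/
theorem exists_sing_bound : ∃ I₀ : ℝ, ∀ x : ℂ, ‖x‖ ≤ 1 →
    IntegrableOn (fun y : ℂ => ‖y - x‖ ^ (-(3 / 2) : ℝ)) D ∧
      ∫ y in D, ‖y - x‖ ^ (-(3 / 2) : ℝ) ≤ I₀ := by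
  have h0 : IntegrableOn (fun y : ℂ => ‖y‖ ^ (-(3 / 2) : ℝ)) (ball 0 2) := by
    refine integrableOn_ball_of_norm_le_rpow (C := 1) (α := 3 / 2) (by simp) (by simp; norm_num)
      (Eventually.of_forall fun y => ?_)
      (by fun_prop : Measurable fun y : ℂ => ‖y‖ ^ (-(3 / 2) : ℝ)).aestronglyMeasurable
    rw [one_mul, Real.norm_of_nonneg (by positivity)]
  refine ⟨∫ y in ball (0 : ℂ) 2, ‖y‖ ^ (-(3 / 2) : ℝ), fun x hx => ?_⟩
  have hI := (integrable_indicator_iff measurableSet_ball).2 h0
  have hI2 := hI.comp_sub_right x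
  have e : (fun y => (ball (0 : ℂ) 2).indicator (fun y : ℂ => ‖y‖ ^ (-(3 / 2) : ℝ)) (y - x)) =
      (ball x 2).indicator fun y : ℂ => ‖y - x‖ ^ (-(3 / 2) : ℝ) := by
    funext y
    have : y - x ∈ ball (0 : ℂ) 2 ↔ y ∈ ball x 2 := by simp [dist_eq_norm]
    by_cases h : y ∈ ball x 2
    · rw [indicator_of_mem h, indicator_of_mem (this.2 h)]
    · rw [indicator_of_notMem h, indicator_of_notMem fun h' => h (this.1 h')]
  have hsub : D ⊆ ball x 2 := fun y hy => by
    have := mem_ball_zero_iff.1 hy
    rw [mem_ball, dist_eq_norm]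
    linarith [norm_sub_le y x]
  rw [e] at hI2
  have h1 := (integrable_indicator_iff measurableSet_ball).1 hI2
  refine ⟨h1.mono_set hsub, ?_⟩
  rw [← integral_indicator (s := ball (0 : ℂ) 2) measurableSet_ball,
    ← integral_sub_right_eq_self ((ball (0 : ℂ) 2).indicator _) x, e,
    integral_indicator measurableSet_ball]
  exact setIntegral_mono_set h1 (Eventually.of_forall fun y => by positivity) hsub.eventuallyLE

lemma integral_peak : ∫ x : ℂ, 1 / (π * (‖x‖ ^ 2 + 1) ^ 2) = 1 := by
  rw [integral_fun_norm_addHaar volume fun t : ℝ => 1 / (π * (t ^ 2 + 1) ^ 2)]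
  have h : ∫ y in Ioi (0 : ℝ), y / (π * (y ^ 2 + 1) ^ 2) = 0 - -(1 / (2 * π * (0 ^ 2 + 1))) := by
    refine integral_Ioi_of_hasDerivAt_of_nonneg (g := fun y => -(1 / (2 * π * (y ^ 2 + 1))))
      (Continuous.continuousWithinAt ?_) (fun y _ => ?_) (fun y hy => ?_) ?_
    · refine (continuous_const.div (by fun_prop) fun y => ?_).neg
      have := Real.pi_pos; positivity
    · have hp := Real.pi_pos
      have h1 : HasDerivAt (fun y : ℝ => 2 * π * (y ^ 2 + 1)) (2 * π * (2 * y)) y := by
        simpa using ((hasDerivAt_pow 2 y).add_const 1).const_mul (2 * π)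
      have h2 := ((hasDerivAt_const y (1 : ℝ)).div h1 (by positivity)).neg
      refine h2.congr_deriv ?_
      field_simp; ring
    · have hp := Real.pi_pos
      have : 0 < y := hy
      positivity
    · rw [← neg_zero]
      refine Tendsto.neg (Tendsto.div_atTop tendsto_const_nhds ?_)
      refine Tendsto.const_mul_atTop (by have := Real.pi_pos; positivity) ?_
      exact tendsto_atTop_add_const_right _ _ (tendsto_pow_atTop two_ne_zero)
  have hp := Real.pi_pos
  simp only [finrank_real_complex, Nat.add_one_sub_one, pow_one, smul_eq_mul, mul_one_div, h,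
    Measure.real, Complex.volume_ball]
  simp

/-- An approximate identity. -/
theorem tendsto_peak {E : Type*} [NormedAddCommGroup E] [NormedSpace ℝ E] [CompleteSpace E]
    {F : ℂ → E} {x : ℂ} (hx : x ∈ D) (hF : IntegrableOn F D) (hc : ContinuousAt F x) :
    Tendsto (fun ε : ℝ => ∫ y in D, (ε / (π * (‖y - x‖ ^ 2 + ε) ^ 2)) • F y) (𝓝[>] 0)
      (𝓝 (F x)) := by
  have hp := Real.pi_pos
  have hlim : Tendsto (fun x : ℂ => ‖x‖ ^ Module.finrank ℝ ℂ * (1 / (π * (‖x‖ ^ 2 + 1) ^ 2)))
      (Bornology.cobounded ℂ) (𝓝 0) := by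
    have h1 : Tendsto (fun x : ℂ => 1 / (‖x‖ ^ 2 + 1)) (Bornology.cobounded ℂ) (𝓝 0) :=
      Tendsto.div_atTop tendsto_const_nhds (tendsto_atTop_add_const_right _ _
        ((tendsto_pow_atTop two_ne_zero).comp tendsto_norm_cobounded_atTop))
    refine squeeze_zero (fun x => by positivity) (fun x => ?_) h1
    rw [finrank_real_complex, mul_one_div, div_le_div_iff₀ (by positivity) (by positivity)]
    have := Real.pi_gt_three
    have h2 : 0 ≤ ‖x‖ ^ 2 := by positivity
    nlinarith [mul_nonneg h2 h2]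
  have hc' : ContinuousAt (D.indicator F) x :=
    hc.congr (by filter_upwards [isOpen_ball.mem_nhds hx] with y hy; rw [indicator_of_mem hy])
  have h := tendsto_integral_comp_smul_smul_of_integrable' (μ := volume)
    (φ := fun x : ℂ => 1 / (π * (‖x‖ ^ 2 + 1) ^ 2)) (fun x => by positivity) integral_peak hlim
    ((integrable_indicator_iff measurableSet_ball).2 hF) hc'
  rw [indicator_of_mem hx] at h
  have hs : Tendsto (fun ε : ℝ => Real.sqrt ε⁻¹) (𝓝[>] 0) atTop :=
    Real.tendsto_sqrt_atTop.comp tendsto_inv_nhdsGT_zero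
  refine (h.comp hs).congr' ?_
  filter_upwards [self_mem_nhdsWithin] with ε hε
  have hε' : 0 < ε := hε
  rw [Function.comp_apply, ← integral_indicator measurableSet_ball]
  refine integral_congr_ae (Eventually.of_forall fun y => ?_)
  simp only
  by_cases hy : y ∈ D
  · rw [indicator_of_mem hy, indicator_of_mem hy, finrank_real_complex, norm_smul, mul_pow,
      Real.norm_eq_abs, sq_abs, Real.sq_sqrt (by positivity), norm_sub_rev x y]
    congr 1
    field_simp
  · rw [indicator_of_notMem hy, indicator_of_notMem hy, smul_zero]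

end Vale.Agent.P071
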