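import Vale.Agent.P071.Defs
import Vale.Agent.P071.Green

/-!
# The Poincare inequality on the disc for weak `H¹` functions
-/

open Complex Metric Set Filter Topology MeasureTheory
open scoped ContDiff ComplexConjugate Real

namespace Vale.Agent.P071

lemma poin_mul {μ : Measure ℂ} {f g : ℂ → ℝ} (hf : MemLp f 2 μ) (hg : MemLp g 2 μ) :
    Integrable (fun x => f x * g x) μ := hf.integrable_mul hg

/-- Cauchy-Schwarz for real square integrable functions. -/
lemma poin_cs {μ : Measure ℂ} {f g : ℂ → ℝ} (hf : MemLp f 2 μ) (hg : MemLp g 2 μ) :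
    |∫ x, f x * g x ∂μ| ≤ Real.sqrt (∫ x, f x ^ 2 ∂μ) * Real.sqrt (∫ x, g x ^ 2 ∂μ) := by
  have e : ∀ {u v : ℂ → ℝ} (hu : MemLp u 2 μ) (hv : MemLp v 2 μ),
      inner ℝ (hu.toLp u) (hv.toLp v) = ∫ x, u x * v x ∂μ := by
    intro u v hu hv
    rw [L2.inner_def]
    refine integral_congr_ae ?_
    filter_upwards [hu.coeFn_toLp, hv.coeFn_toLp] with x h1 h2
    rw [h1, h2]; simp [mul_comm]
  have n : ∀ {u : ℂ → ℝ} (hu : MemLp u 2 μ), ‖hu.toLp u‖ = Real.sqrt (∫ x, u x ^ 2 ∂μ) := by
    intro u hu
    rw [← Real.sqrt_sq (norm_nonneg (hu.toLp u)), ← real_inner_self_eq_norm_sq, e hu hu]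
    simp only [sq]
  rw [← e hf hg, ← n hf, ← n hg]
  exact abs_real_inner_le_norm _ _

/-- The `L²` norm on an open set can be computed by testing with smooth functions. -/
lemma poin_dual {U : Set ℂ} (hU : IsOpen U) {f : ℂ → ℝ} (hf : MemLp f 2 (volume.restrict U))
    {M : ℝ} (hM : 0 ≤ M)
    (h : ∀ ζ : ℂ → ℝ, ContDiff ℝ ∞ ζ → HasCompactSupport ζ → tsupport ζ ⊆ U →
      |∫ x in U, f x * ζ x| ≤ M * Real.sqrt (∫ x in U, ζ x ^ 2)) :
    ∫ x in U, f x ^ 2 ≤ M ^ 2 := by
  set μ : Measure ℂ := volume.restrict U with hμ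
  let S : Submodule ℝ (Lp ℝ 2 μ) :=
    { carrier := {v | ∃ ζ : ℂ → ℝ, ContDiff ℝ ∞ ζ ∧ HasCompactSupport ζ ∧ tsupport ζ ⊆ U ∧
        (v : ℂ → ℝ) =ᵐ[μ] ζ}
      add_mem' := by
        rintro v w ⟨ζ, h1, h2, h3, h4⟩ ⟨ξ, k1, k2, k3, k4⟩
        refine ⟨ζ + ξ, h1.add k1, h2.add k2, (tsupport_add ζ ξ).trans (union_subset h3 k3), ?_⟩
        exact (Lp.coeFn_add v w).trans (h4.add k4)
      zero_mem' := ⟨0, contDiff_const, HasCompactSupport.zero, by simp, Lp.coeFn_zero _ _ _⟩
      smul_mem' := by
        rintro c v ⟨ζ, h1, h2, h3, h4⟩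
        refine ⟨c • ζ, h1.const_smul c, h2.smul_left (f := fun _ => c),
          (tsupport_smul_subset_right (fun _ => c) ζ).trans h3, ?_⟩
        exact (Lp.coeFn_smul c v).trans (h4.const_smul c) }
  have hin : ∀ v w : Lp ℝ 2 μ, inner ℝ v w = ∫ x, v x * w x ∂μ := by
    intro v w
    rw [L2.inner_def]
    refine integral_congr_ae (Eventually.of_forall fun x => ?_)
    simp [mul_comm]
  have hn : ∀ v : Lp ℝ 2 μ, ‖v‖ = Real.sqrt (∫ x, v x ^ 2 ∂μ) := by
    intro v
    rw [← Real.sqrt_sq (norm_nonneg v), ← real_inner_self_eq_norm_sq, hin]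
    simp only [sq]
  have hd : S.topologicalClosure = ⊤ := by
    rw [Submodule.topologicalClosure_eq_top_iff, Submodule.eq_bot_iff]
    intro v hv
    have hloc : LocallyIntegrableOn v U := by
      have h1 : LocallyIntegrable v μ := (Lp.memLp v).locallyIntegrable (by norm_num)
      intro x hx
      obtain ⟨s, hs, hi⟩ := h1 x
      refine ⟨s ∩ U, inter_mem (mem_nhdsWithin_of_mem_nhds hs) self_mem_nhdsWithin, ?_⟩
      have e : μ.restrict s = volume.restrict (s ∩ U) := Measure.restrict_restrict' hU.measurableSet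
      rw [IntegrableOn, e] at hi
      exact hi
    have h0 := hU.ae_eq_zero_of_integral_contDiff_smul_eq_zero (μ := volume) hloc (by
      intro g g1 g2 g3
      have hg : MemLp g 2 μ := g1.continuous.memLp_of_hasCompactSupport g2
      have := hv (hg.toLp g) ⟨g, g1, g2, g3, hg.coeFn_toLp⟩
      rw [hin] at this
      rw [← setIntegral_eq_integral_of_forall_compl_eq_zero (s := U), ← this]
      · refine integral_congr_ae ?_
        filter_upwards [hg.coeFn_toLp] with x hx
        rw [hx, smul_eq_mul]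
      · intro x hx
        rw [image_eq_zero_of_notMem_tsupport (fun h => hx (g3 h)), zero_smul])
    ext1
    refine EventuallyEq.trans ?_ (Lp.coeFn_zero _ _ _).symm
    exact (ae_restrict_iff' hU.measurableSet).2 h0
  have hcl : IsClosed {v : Lp ℝ 2 μ | |inner ℝ (hf.toLp f) v| ≤ M * ‖v‖} :=
    isClosed_le (by fun_prop) (by fun_prop)
  have hsub : (S : Set (Lp ℝ 2 μ)) ⊆ {v : Lp ℝ 2 μ | |inner ℝ (hf.toLp f) v| ≤ M * ‖v‖} := by
    rintro v ⟨ζ, h1, h2, h3, h4⟩
    have := h ζ h1 h2 h3
    show |inner ℝ (hf.toLp f) v| ≤ M * ‖v‖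
    rw [hin, hn]
    convert this using 2
    · refine integral_congr_ae ?_
      filter_upwards [hf.coeFn_toLp, h4] with x hx hy
      rw [hx, hy]
    · congr 1
      refine integral_congr_ae ?_
      filter_upwards [h4] with x hy
      rw [hy]
  have hmem : hf.toLp f ∈ closure (S : Set (Lp ℝ 2 μ)) := by
    rw [← Submodule.topologicalClosure_coe, hd]; trivial
  have key : |inner ℝ (hf.toLp f) (hf.toLp f)| ≤ M * ‖hf.toLp f‖ :=
    closure_minimal hsub hcl hmem
  rw [real_inner_self_eq_norm_sq, abs_of_nonneg (sq_nonneg _)] at key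
  have e : ∫ x, f x ^ 2 ∂μ = ‖hf.toLp f‖ ^ 2 := by
    rw [← real_inner_self_eq_norm_sq, hin]
    refine integral_congr_ae ?_
    filter_upwards [hf.coeFn_toLp] with x hx
    rw [hx, sq]
  rw [e]
  have h0 := norm_nonneg (hf.toLp f)
  have : ‖hf.toLp f‖ ≤ M := by
    by_contra hc
    push Not at hc
    nlinarith
  exact pow_le_pow_left₀ h0 this 2

instance poin_finite : IsFiniteMeasure (volume.restrict (D : Set ℂ)) :=
  isFiniteMeasure_restrict.2 measure_ball_lt_top.ne

/-- Testing the weak gradient in the direction `h`. -/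
lemma poin_dir {a : ℂ → ℝ} {G : ℂ → ℂ} (ha : IsH1 D a G) (h : ℂ) {ζ : ℂ → ℝ}
    (h1 : ContDiff ℝ ∞ ζ) (h2 : HasCompactSupport ζ) (h3 : tsupport ζ ⊆ D) :
    |∫ x in D, a x * fderiv ℝ ζ x h| ≤
      ‖h‖ * Real.sqrt (∫ x in D, ‖G x‖ ^ 2) * Real.sqrt (∫ x, ζ x ^ 2) := by
  obtain ⟨l1, l2, l3⟩ := ha
  obtain ⟨e1, e2⟩ := l3 ζ h1 h2 h3
  have hz : MemLp ζ 2 (volume.restrict D) := h1.continuous.memLp_of_hasCompactSupport h2
  have hd : ∀ v : ℂ, MemLp (fun x => fderiv ℝ ζ x v) 2 (volume.restrict D) := fun v =>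
    ((h1.continuous_fderiv (by simp)).clm_apply continuous_const).memLp_of_hasCompactSupport
      (h2.fderiv_apply ℝ v)
  have hre : MemLp (fun x => (G x).re) 2 (volume.restrict D) := l2.re
  have him : MemLp (fun x => (G x).im) 2 (volume.restrict D) := l2.im
  have hk : MemLp (fun x => h.re * (G x).re + h.im * (G x).im) 2 (volume.restrict D) :=
    (hre.const_mul _).add (him.const_mul _)
  have e : ∫ x in D, a x * fderiv ℝ ζ x h =
      -∫ x in D, (h.re * (G x).re + h.im * (G x).im) * ζ x := by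
    have : ∀ x, a x * fderiv ℝ ζ x h =
        h.re * (a x * fderiv ℝ ζ x 1) + h.im * (a x * fderiv ℝ ζ x I) := by
      intro x
      rw [fderiv_apply_eq ζ x h, dx, dy, smul_eq_mul, smul_eq_mul]; ring
    simp only [this]
    rw [integral_add ((poin_mul l1 (hd 1)).const_mul _)
      ((poin_mul l1 (hd I)).const_mul _), integral_const_mul, integral_const_mul, e1, e2]
    have : ∀ x, (h.re * (G x).re + h.im * (G x).im) * ζ x =
        h.re * ((G x).re * ζ x) + h.im * ((G x).im * ζ x) := fun x => by ring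
    simp only [this]
    rw [integral_add ((poin_mul hre hz).const_mul _)
      ((poin_mul him hz).const_mul _), integral_const_mul, integral_const_mul]
    ring
  rw [e, abs_neg]
  refine (poin_cs hk hz).trans ?_
  have hz' : Integrable (fun x => ζ x ^ 2) :=
    (h1.continuous.memLp_of_hasCompactSupport h2 : MemLp ζ 2 volume).integrable_sq
  refine mul_le_mul ?_ (Real.sqrt_le_sqrt ?_) (by positivity) (by positivity)
  · rw [← Real.sqrt_sq (norm_nonneg h), ← Real.sqrt_mul (sq_nonneg _), ← integral_const_mul]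
    refine Real.sqrt_le_sqrt (integral_mono hk.integrable_sq
      (l2.norm.integrable_sq.const_mul _) fun x => ?_)
    simp only [Complex.sq_norm, normSq_apply]
    nlinarith [sq_nonneg (h.re * (G x).im - h.im * (G x).re)]
  · exact setIntegral_le_integral hz' (Eventually.of_forall fun x => sq_nonneg _)

/-- Translation estimate, tested form. -/
lemma poin_shift {a : ℂ → ℝ} {G : ℂ → ℂ} (ha : IsH1 D a G) (h : ℂ) {ζ : ℂ → ℝ}
    (h1 : ContDiff ℝ ∞ ζ) (h2 : HasCompactSupport ζ) (h3 : tsupport ζ ⊆ D ∩ {x | x + h ∈ D}) :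
    |(∫ x in D, a x * ζ (x - h)) - ∫ x in D, a x * ζ x| ≤
      ‖h‖ * Real.sqrt (∫ x in D, ‖G x‖ ^ 2) * Real.sqrt (∫ x, ζ x ^ 2) := by
  have hai : Integrable a (volume.restrict D) := ha.1.integrable (by norm_num)
  obtain ⟨B, hB⟩ := h1.continuous.bounded_above_of_compact_support h2
  obtain ⟨B', hB'⟩ := (h1.continuous_fderiv (by simp)).bounded_above_of_compact_support
    (h2.fderiv ℝ)
  have hdiff := h1.differentiable (by simp)
  have hder : ∀ t : ℝ, HasDerivAt (fun s : ℝ => ∫ x in D, a x * ζ (x - s • h))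
      (∫ x in D, a x * -fderiv ℝ ζ (x - t • h) h) t := by
    intro t
    refine (hasDerivAt_integral_of_dominated_loc_of_deriv_le (μ := volume.restrict D)
      (F := fun (s : ℝ) x => a x * ζ (x - s • h))
      (F' := fun (s : ℝ) x => a x * -fderiv ℝ ζ (x - s • h) h) (bound := fun x => ‖a x‖ * (B' * ‖h‖))
      (s := univ) univ_mem ?_ ?_ ?_ ?_ ?_ ?_).2
    · refine Eventually.of_forall fun s => hai.1.mul ?_
      exact (h1.continuous.comp (continuous_id.sub continuous_const)).aestronglyMeasurable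
    · refine hai.mul_bdd (c := B) ?_ (Eventually.of_forall fun x => hB _)
      exact (h1.continuous.comp (continuous_id.sub continuous_const)).aestronglyMeasurable
    · refine hai.1.mul (Continuous.aestronglyMeasurable ?_)
      exact (((h1.continuous_fderiv (by simp)).comp
        (continuous_id.sub continuous_const)).clm_apply continuous_const).neg
    · refine Eventually.of_forall fun x s _ => ?_
      rw [norm_mul, norm_neg]
      gcongr
      exact ((fderiv ℝ ζ _).le_opNorm h).trans (by gcongr; exact hB' _)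
    · exact hai.norm.mul_const _
    · refine Eventually.of_forall fun x s _ => ?_
      have i1 : HasDerivAt (fun s : ℝ => x - s • h) (-h) s := by
        simpa using ((hasDerivAt_id s).smul_const h).const_sub x
      have i2 := (hdiff (x - s • h)).hasFDerivAt.comp_hasDerivAt s i1
      rw [map_neg] at i2
      exact i2.const_mul (a x)
  have := norm_image_sub_le_of_norm_deriv_le_segment_01' (f := fun s : ℝ =>
    ∫ x in D, a x * ζ (x - s • h)) (fun t _ => (hder t).hasDerivWithinAt)
    (C := ‖h‖ * Real.sqrt (∫ x in D, ‖G x‖ ^ 2) * Real.sqrt (∫ x, ζ x ^ 2)) (by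
      intro t ht
      have k1 : ContDiff ℝ ∞ fun x => ζ (x - t • h) := h1.comp (contDiff_id.sub contDiff_const)
      have k0 : tsupport (fun x => ζ (x - t • h)) = (fun x => x - t • h) ⁻¹' tsupport ζ :=
        tsupport_comp_eq_preimage ζ (Homeomorph.subRight (t • h))
      have k2 : HasCompactSupport fun x => ζ (x - t • h) :=
        h2.comp_homeomorph (Homeomorph.subRight (t • h))
      have k3 : tsupport (fun x => ζ (x - t • h)) ⊆ D := by
        rw [k0]
        intro x hx
        obtain ⟨m1, m2⟩ := h3 hx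
        have := (convex_ball (0 : ℂ) 1) m1 m2 (a := 1 - t) (b := t) (by linarith [ht.2]) ht.1
          (by ring)
        convert this using 1
        simp only [real_smul]
        push_cast
        ring
      have k4 := poin_dir ha h k1 k2 k3
      rw [integral_sub_right_eq_self (fun x => ζ x ^ 2) (t • h)] at k4
      have k5 : ∀ x, fderiv ℝ (fun x => ζ (x - t • h)) x = fderiv ℝ ζ (x - t • h) := fun x =>
        fderiv_comp_sub (t • h)
      simp only [k5] at k4
      simp only [mul_neg, integral_neg, norm_neg, Real.norm_eq_abs]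
      exact k4)
  simpa using this

/-- Translation estimate. -/
lemma poin_trans {a : ℂ → ℝ} {G : ℂ → ℂ} (ha : IsH1 D a G) (h : ℂ) :
    ∫ x in D ∩ {x | x + h ∈ D}, (a x - a (x + h)) ^ 2 ≤ ‖h‖ ^ 2 * ∫ x in D, ‖G x‖ ^ 2 := by
  set U : Set ℂ := D ∩ {x | x + h ∈ D} with hUdef
  have hU : IsOpen U := isOpen_ball.inter (isOpen_ball.preimage (continuous_add_const h))
  have m1 : MemLp a 2 (volume.restrict U) :=
    ha.1.mono_measure (Measure.restrict_mono inter_subset_left le_rfl)
  have mp : MeasurePreserving (fun x : ℂ => x + h) (volume.restrict ((fun x : ℂ => x + h) ⁻¹' D))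
      (volume.restrict D) :=
    (measurePreserving_add_right volume h).restrict_preimage measurableSet_ball
  have m2 : MemLp (fun x => a (x + h)) 2 (volume.restrict U) :=
    (ha.1.comp_measurePreserving mp).mono_measure (Measure.restrict_mono inter_subset_right le_rfl)
  have key := poin_dual hU (m1.sub m2) (M := ‖h‖ * Real.sqrt (∫ x in D, ‖G x‖ ^ 2))
    (by positivity) (by
      intro ζ h1 h2 h3
      have hz : MemLp ζ 2 (volume.restrict U) := h1.continuous.memLp_of_hasCompactSupport h2
      have z0 : ∀ x, x ∉ U → ζ x = 0 := fun x hx =>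
        image_eq_zero_of_notMem_tsupport fun h => hx (h3 h)
      have k := poin_shift ha h h1 h2 h3
      have e1 : ∫ x in U, ζ x ^ 2 = ∫ x, ζ x ^ 2 :=
        setIntegral_eq_integral_of_forall_compl_eq_zero fun x hx => by rw [z0 x hx]; simp
      have e2 : ∫ x in D, a x * ζ x = ∫ x in U, a x * ζ x := by
        rw [setIntegral_eq_integral_of_forall_compl_eq_zero fun x hx => by
          rw [z0 x fun h => hx h.1, mul_zero],
          setIntegral_eq_integral_of_forall_compl_eq_zero fun x hx => by rw [z0 x hx, mul_zero]]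
      have e3 : ∫ x in D, a x * ζ (x - h) = ∫ x in U, a (x + h) * ζ x := by
        rw [setIntegral_eq_integral_of_forall_compl_eq_zero fun x hx => by
          rw [z0 (x - h) fun k => hx (by simpa using k.2), mul_zero],
          setIntegral_eq_integral_of_forall_compl_eq_zero fun x hx => by rw [z0 x hx, mul_zero],
          ← integral_add_right_eq_self _ h]
        simp
      simp only [Pi.sub_apply, sub_mul]
      rw [integral_sub (poin_mul m1 hz) (poin_mul m2 hz), e1, ← e2, ← e3,
        abs_sub_comm]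
      exact k)
  rw [mul_pow, Real.sq_sqrt (integral_nonneg fun x => sq_nonneg _)] at key
  exact key

lemma poin_integrable {a : ℂ → ℝ} (ha : MemLp a 2 (volume.restrict D)) :
    Integrable (fun p : ℂ × ℂ => (a p.1 - a p.2) ^ 2)
      ((volume.restrict D).prod (volume.restrict D)) :=
  ((ha.comp_fst (volume.restrict D)).sub (ha.comp_snd (volume.restrict D))).integrable_sq

theorem poincare_disc : ∃ K : ℝ, 0 < K ∧ ∀ (a : ℂ → ℝ) (G : ℂ → ℂ), IsH1 D a G →
    ∫ x in D, ∫ y in D, (a x - a y) ^ 2 ≤ K * ∫ z in D, ‖G z‖ ^ 2 := by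
  have hv : 0 < volume.real (ball (0 : ℂ) 2) :=
    ENNReal.toReal_pos (measure_ball_pos _ _ two_pos).ne' measure_ball_lt_top.ne
  refine ⟨4 * volume.real (ball (0 : ℂ) 2), by positivity, fun a G ha => ?_⟩
  have hG : 0 ≤ ∫ z in D, ‖G z‖ ^ 2 := integral_nonneg fun x => sq_nonneg _
  let Φ : ℂ × ℂ → ℝ := (D ×ˢ D).indicator fun p => (a p.1 - a p.2) ^ 2
  have hDD : MeasurableSet ((D : Set ℂ) ×ˢ (D : Set ℂ)) := measurableSet_ball.prod measurableSet_ball
  have i1 : Integrable Φ (volume.prod volume) := by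
    rw [integrable_indicator_iff hDD, IntegrableOn, ← Measure.prod_restrict]
    exact poin_integrable ha.1
  have i2 : Integrable (fun p : ℂ × ℂ => Φ (p.1, p.1 + p.2)) (volume.prod volume) :=
    (measurePreserving_prod_add volume volume).integrable_comp_of_integrable i1
  have e1 : ∫ x in D, ∫ y in D, (a x - a y) ^ 2 = ∫ x, ∫ h, Φ (x, x + h) := by
    rw [← integral_indicator measurableSet_ball]
    refine integral_congr_ae (Eventually.of_forall fun x => ?_)
    simp only
    rw [integral_add_left_eq_self (fun y => Φ (x, y)) x]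
    by_cases hx : x ∈ D
    · rw [indicator_of_mem hx, ← integral_indicator measurableSet_ball]
      refine integral_congr_ae (Eventually.of_forall fun y => ?_)
      by_cases hy : y ∈ D
      · simp only [Φ]; rw [indicator_of_mem hy, indicator_of_mem (mk_mem_prod hx hy)]
      · simp only [Φ]; rw [indicator_of_notMem hy, indicator_of_notMem fun h => hy h.2]
    · rw [indicator_of_notMem hx]
      simp only [Φ]
      rw [integral_eq_zero_of_ae (Eventually.of_forall fun y => ?_)]
      exact indicator_of_notMem (fun h => hx h.1) _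
  rw [e1, integral_integral_swap i2]
  have e2 : 4 * volume.real (ball (0 : ℂ) 2) * ∫ z in D, ‖G z‖ ^ 2 =
      ∫ h, (ball (0 : ℂ) 2).indicator (fun _ => 4 * ∫ z in D, ‖G z‖ ^ 2) h := by
    rw [integral_indicator measurableSet_ball, setIntegral_const, smul_eq_mul]; ring
  rw [e2]
  refine integral_mono_of_nonneg (Eventually.of_forall fun h => integral_nonneg fun x => ?_)
    ((integrable_indicator_iff measurableSet_ball).2 (integrableOn_const measure_ball_lt_top.ne))
    (Eventually.of_forall fun h => ?_)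
  · exact indicator_nonneg (fun p _ => sq_nonneg _) _
  have hU : MeasurableSet (D ∩ {x | x + h ∈ D}) :=
    (isOpen_ball.inter (isOpen_ball.preimage (continuous_add_const h))).measurableSet
  have e3 : ∫ x, Φ (x, x + h) = ∫ x in D ∩ {x | x + h ∈ D}, (a x - a (x + h)) ^ 2 := by
    rw [← integral_indicator hU]
    refine integral_congr_ae (Eventually.of_forall fun x => ?_)
    simp only [Φ]
    by_cases hx : x ∈ D ∩ {x | x + h ∈ D}
    · rw [indicator_of_mem hx, indicator_of_mem (show (x, x + h) ∈ D ×ˢ D from ⟨hx.1, hx.2⟩)]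
    · rw [indicator_of_notMem hx, indicator_of_notMem fun k => hx ⟨k.1, k.2⟩]
  simp only
  rw [e3]
  by_cases hh : h ∈ ball (0 : ℂ) 2
  · rw [indicator_of_mem hh]
    refine (poin_trans ha h).trans ?_
    gcongr
    have := mem_ball_zero_iff.1 hh
    nlinarith [norm_nonneg h]
  · rw [indicator_of_notMem hh]
    have : D ∩ {x | x + h ∈ D} = ∅ := by
      refine eq_empty_of_forall_notMem fun x hx => hh ?_
      have h1 := mem_ball_zero_iff.1 hx.1
      have h2 := mem_ball_zero_iff.1 hx.2
      have h3 := norm_sub_le (x + h) x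
      rw [add_sub_cancel_left] at h3
      rw [mem_ball_zero_iff]; linarith
    rw [this]; simp

end Vale.Agent.P071
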