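import Vale.Agent.P071.Green

/-!
# The problem in disc coordinates: definitions
-/

open Complex Metric Set Filter Topology MeasureTheory
open scoped ContDiff ComplexConjugate

namespace Vale.Agent.P071

/-- The conformal factor. -/
noncomputable def rho (φ : ℂ → ℂ) (z : ℂ) : ℝ := ‖deriv φ z‖ ^ 2

/-- Bounded `C¹` functions on the open disc with bounded gradient. -/
structure Bdd1 (a : ℂ → ℝ) : Prop where
  cd : ContDiffOn ℝ 1 a D
  bdd : ∃ M : ℝ, ∀ z ∈ D, |a z| ≤ M ∧ ‖fderiv ℝ a z‖ ≤ M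

/-- The data of the Neumann problem in disc coordinates. -/
structure Setup (φ : ℂ → ℂ) (μ c C : ℝ) : Prop where
  diff : DifferentiableOn ℂ φ D
  c_pos : 0 < c
  lower : ∀ z ∈ D, c ≤ ‖deriv φ z‖
  upper : ∀ z ∈ D, ‖deriv φ z‖ ≤ C
  mu_pos : 0 < μ
  poincare : ∀ a : ℂ → ℝ, Bdd1 a → ∫ z in D, rho φ z * a z = 0 →
    μ * ∫ z in D, rho φ z * a z ^ 2 ≤ ∫ z in D, (dx a z ^ 2 + dy a z ^ 2)
  weyl : ∀ f : ℂ → ℝ, MemLp f 2 (volume.restrict D) →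
    (∀ U : ℂ → ℝ, ContDiff ℝ ∞ U → HasCompactSupport U → tsupport U ⊆ D →
      ∫ z in D, f z * (lap U z + μ * rho φ z * U z) = 0) →
    ∃ a : ℂ → ℝ, ContDiffOn ℝ ∞ a D ∧ (∀ᵐ z ∂(volume.restrict D), f z = a z) ∧
      ∀ z ∈ D, lap a z = -(μ * rho φ z * a z)

/-- A Neumann eigenfunction in disc coordinates. -/
structure DiscEigen (φ : ℂ → ℂ) (μ : ℝ) (a : ℂ → ℝ) : Prop where
  smooth : ContDiffOn ℝ ∞ a D
  eq : ∀ z ∈ D, lap a z = -(μ * rho φ z * a z)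
  l2 : MemLp a 2 (volume.restrict D)
  l2grad : MemLp (dD fun z => (a z : ℂ)) 2 (volume.restrict D)
  weak : ∀ b : ℂ → ℝ, Bdd1 b →
    ∫ z in D, (dx a z * dx b z + dy a z * dy b z) = μ * ∫ z in D, rho φ z * (a z * b z)

/-- Test functions: `C²` in the open disc, bounded with bounded gradient, real on the circle. -/
structure UC (U : ℂ → ℂ) : Prop where
  cd : ContDiffOn ℝ 2 U D
  bdd : ∃ M : ℝ, ∀ z ∈ D, ‖U z‖ ≤ M ∧ ‖fderiv ℝ U z‖ ≤ M ∧ |(U z).im| ≤ M * (1 - ‖z‖)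

/-- Admissible pairs: weakly `dB v = φ' Φ` in the disc and `z v` is imaginary on the circle. -/
structure Adm (φ : ℂ → ℂ) (v Φ : ℂ → ℂ) : Prop where
  l2v : MemLp v 2 (volume.restrict D)
  l2F : MemLp Φ 2 (volume.restrict D)
  eq : ∀ U : ℂ → ℂ, UC U →
    ∫ z in D, (v z * conj (dD U z) + deriv φ z * Φ z * conj (U z)).re = 0

/-- The energy form on pairs. -/
noncomputable def EB (μ : ℝ) (v Φ v' Φ' : ℂ → ℂ) : ℝ :=
  (∫ z in D, (Φ z * conj (Φ' z)).re) - μ * ∫ z in D, (v z * conj (v' z)).re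

/-- Zero modes of the energy form. -/
structure ZeroMode (φ : ℂ → ℂ) (μ : ℝ) (v Φ : ℂ → ℂ) : Prop where
  adm : Adm φ v Φ
  zero : ∀ v' Φ' : ℂ → ℂ, Adm φ v' Φ' → EB μ v Φ v' Φ' = 0

/-- The ground state inequality, with a gain on the imaginary part. -/
def Ground (φ : ℂ → ℂ) (μ θ : ℝ) : Prop :=
  ∀ v Φ : ℂ → ℂ, MemLp v 2 (volume.restrict D) → MemLp Φ 2 (volume.restrict D) →
    (∀ U : ℂ → ℂ, ContDiff ℝ ∞ U → (∀ z ∈ sphere (0 : ℂ) 1, (U z).im = 0) →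
      ∫ z in D, (v z * conj (dD U z) + deriv φ z * Φ z * conj (U z)).re = 0) →
    μ * ∫ z in D, ‖v z‖ ^ 2 ≤ (∫ z in D, (deriv φ z * Φ z).re ^ 2 / rho φ z) +
      θ * ∫ z in D, (deriv φ z * Φ z).im ^ 2 / rho φ z

open Classical in
/-- The potential `μ ρ` on the disc of radius `r`, rescaled to the unit disc. -/
noncomputable def nu (φ : ℂ → ℂ) (μ r : ℝ) (z : ℂ) : ℝ :=
  if z ∈ D then r ^ 2 * μ * rho φ (r * z) else 0

/-- The boundary functional: formally the integral of `K * im (z * v)` over the circle. -/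
noncomputable def ell (φ : ℂ → ℂ) (K : ℂ → ℝ) (v Φ : ℂ → ℂ) : ℝ :=
  ∫ z in D, (v z * conj (dD (fun w => I * (K w : ℂ)) z) +
    deriv φ z * Φ z * conj (I * (K z : ℂ))).re

/-- A zero mode described by a Neumann potential `a` with `V = 2 ∂ a`. -/
structure Mode (φ : ℂ → ℂ) (μ : ℝ) (v Φ : ℂ → ℂ) (a : ℂ → ℝ) (V : ℂ → ℂ) : Prop where
  smooth : ContDiffOn ℝ ∞ a D
  lip : ∃ K, LipschitzWith K a
  eq : ∀ z ∈ D, lap a z = -(μ * rho φ z * a z)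
  contV : ContinuousOn V (closedBall 0 1)
  dDa : ∀ z ∈ D, dD (fun w => (a w : ℂ)) z = V z
  holder : ∃ H : ℝ, ∀ z ∈ closedBall (0 : ℂ) 1, ∀ w ∈ closedBall (0 : ℂ) 1,
    ‖V z - V w‖ ≤ H * ‖z - w‖ ^ (1 / 2 : ℝ)
  tang : ∀ z ∈ sphere (0 : ℂ) 1, (z * V z).re = 0
  v_eq : ∀ᵐ z ∂(volume.restrict D), v z = V z
  F_eq : ∀ᵐ z ∂(volume.restrict D), deriv φ z * Φ z = -(μ * rho φ z * a z : ℝ)

end Vale.Agent.P071
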