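import Vale.Agent.P071.Defs
import Vale.Agent.P071.Calc

/-!
# Conformal changes of variables for weak gradients
-/

open Complex Metric Set Filter Topology MeasureTheory
open scoped ContDiff ComplexConjugate Real

namespace Vale.Agent.P071

/-- A biholomorphic map between open sets with two-sided derivative bounds. -/
structure CPair (U V : Set ℂ) (φ ψ : ℂ → ℂ) (c C : ℝ) : Prop where
  isOpen : IsOpen U
  isOpen' : IsOpen V
  c_pos : 0 < c
  C_pos : 0 < C
  diff : DifferentiableOn ℂ φ U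
  diff' : DifferentiableOn ℂ ψ V
  maps : MapsTo φ U V
  maps' : MapsTo ψ V U
  left : ∀ z ∈ U, ψ (φ z) = z
  right : ∀ x ∈ V, φ (ψ x) = x
  lower : ∀ z ∈ U, c ≤ ‖deriv φ z‖
  upper : ∀ z ∈ U, ‖deriv φ z‖ ≤ C

namespace CPair

variable {U V : Set ℂ} {φ ψ : ℂ → ℂ} {c C : ℝ}

lemma an (h : CPair U V φ ψ c C) {z : ℂ} (hz : z ∈ U) : AnalyticAt ℂ φ z :=
  h.diff.analyticAt (h.isOpen.mem_nhds hz)

lemma an' (h : CPair U V φ ψ c C) {z : ℂ} (hz : z ∈ V) : AnalyticAt ℂ ψ z :=
  h.diff'.analyticAt (h.isOpen'.mem_nhds hz)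

lemma deriv_mul (h : CPair U V φ ψ c C) {z : ℂ} (hz : z ∈ U) :
    deriv ψ (φ z) * deriv φ z = 1 := by
  have h1 := (h.an' (h.maps hz)).differentiableAt.hasDerivAt.comp z
    (h.an hz).differentiableAt.hasDerivAt
  have h2 : ψ ∘ φ =ᶠ[𝓝 z] id := by
    filter_upwards [h.isOpen.mem_nhds hz] with w hw using h.left w hw
  exact (h1.congr_of_eventuallyEq h2.symm).unique (hasDerivAt_id z)

lemma symm (h : CPair U V φ ψ c C) : CPair V U ψ φ C⁻¹ c⁻¹ := by
  have key : ∀ x ∈ V, ‖deriv ψ x‖ = ‖deriv φ (ψ x)‖⁻¹ := by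
    intro x hx
    have := congrArg norm (h.deriv_mul (h.maps' hx))
    rw [h.right x hx, norm_mul, norm_one] at this
    exact eq_inv_of_mul_eq_one_left this
  refine ⟨h.isOpen', h.isOpen, inv_pos.2 h.C_pos, inv_pos.2 h.c_pos, h.diff', h.diff, h.maps',
    h.maps, h.right, h.left, fun x hx => ?_, fun x hx => ?_⟩
  · rw [key x hx]
    exact inv_anti₀ (h.c_pos.trans_le (h.lower _ (h.maps' hx))) (h.upper _ (h.maps' hx))
  · rw [key x hx]
    exact inv_anti₀ h.c_pos (h.lower _ (h.maps' hx))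

lemma image (h : CPair U V φ ψ c C) : φ '' U = V :=
  h.maps.image_subset.antisymm fun x hx => ⟨ψ x, h.maps' hx, h.right x hx⟩

lemma injOn (h : CPair U V φ ψ c C) : InjOn φ U := fun z hz w hw e => by
  rw [← h.left z hz, e, h.left w hw]

lemma det_eq (a : ℂ) :
    |((ContinuousLinearMap.toSpanSingleton ℂ a).restrictScalars ℝ).det| = ‖a‖ ^ 2 := by
  simp [ContinuousLinearMap.det, LinearMap.det_restrictScalars, Algebra.norm_complex_eq,
    Complex.normSq_eq_norm_sq]

lemma hasFDeriv (h : CPair U V φ ψ c C) : ∀ z ∈ U, HasFDerivWithinAt φ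
    ((ContinuousLinearMap.toSpanSingleton ℂ (deriv φ z)).restrictScalars ℝ) U z := fun _ hz =>
  ((h.an hz).differentiableAt.hasDerivAt.hasFDerivAt.restrictScalars ℝ).hasFDerivWithinAt

theorem integral_comp (h : CPair U V φ ψ c C) {E : Type*} [NormedAddCommGroup E]
    [NormedSpace ℝ E] (f : ℂ → E) : ∫ x in V, f x = ∫ z in U, (‖deriv φ z‖ ^ 2) • f (φ z) := by
  have := integral_image_eq_integral_abs_det_fderiv_smul volume h.isOpen.measurableSet
    h.hasFDeriv h.injOn f
  rw [h.image] at this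
  simpa only [det_eq] using this

lemma map_eq (h : CPair U V φ ψ c C) :
    Measure.map φ ((volume.restrict U).withDensity fun z => ENNReal.ofReal (‖deriv φ z‖ ^ 2)) =
      volume.restrict V := by
  have := map_withDensity_abs_det_fderiv_eq_addHaar volume
    h.isOpen.measurableSet.nullMeasurableSet h.hasFDeriv h.injOn
  rw [h.image] at this
  simpa only [det_eq] using this

lemma le_smul (h : CPair U V φ ψ c C) : volume.restrict U ≤ ENNReal.ofReal (c ^ 2)⁻¹ •
    (volume.restrict U).withDensity fun z => ENNReal.ofReal (‖deriv φ z‖ ^ 2) := by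
  have hc := h.c_pos
  have h1 : (volume.restrict U).withDensity (fun _ => ENNReal.ofReal (c ^ 2)) ≤
      (volume.restrict U).withDensity fun z => ENNReal.ofReal (‖deriv φ z‖ ^ 2) := by
    refine withDensity_mono ?_
    filter_upwards [ae_restrict_mem h.isOpen.measurableSet] with z hz
    exact ENNReal.ofReal_le_ofReal (pow_le_pow_left₀ hc.le (h.lower z hz) 2)
  rw [withDensity_const] at h1
  calc volume.restrict U
      = ENNReal.ofReal (c ^ 2)⁻¹ • ENNReal.ofReal (c ^ 2) • volume.restrict U := by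
        rw [smul_smul, ← ENNReal.ofReal_mul (by positivity), inv_mul_cancel₀ (by positivity)]
        simp
    _ ≤ _ := by gcongr

lemma aemeas (h : CPair U V φ ψ c C) : AEMeasurable φ
    ((volume.restrict U).withDensity fun z => ENNReal.ofReal (‖deriv φ z‖ ^ 2)) :=
  (h.diff.continuousOn.aemeasurable h.isOpen.measurableSet).mono_ac
    (withDensity_absolutelyContinuous _ _)

theorem memLp_comp (h : CPair U V φ ψ c C) {E : Type*} [NormedAddCommGroup E]
    {f : ℂ → E} (hf : MemLp f 2 (volume.restrict V)) :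
    MemLp (fun z => f (φ z)) 2 (volume.restrict U) := by
  rw [← h.map_eq] at hf
  exact (hf.comp_of_map h.aemeas).of_measure_le_smul ENNReal.ofReal_ne_top h.le_smul

theorem ae_comp (h : CPair U V φ ψ c C) {P : ℂ → Prop} (hP : ∀ᵐ x ∂(volume.restrict V), P x) :
    ∀ᵐ z ∂(volume.restrict U), P (φ z) := by
  rw [← h.map_eq] at hP
  exact (Measure.absolutelyContinuous_of_le_smul h.le_smul).ae_le (ae_of_ae_map h.aemeas hP)

lemma contDiffAt (h : CPair U V φ ψ c C) {z : ℂ} (hz : z ∈ U) : ContDiffAt ℝ ∞ φ z :=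
  ((h.an hz).contDiffAt (n := ∞)).restrict_scalars ℝ

lemma contDiffAt_deriv (h : CPair U V φ ψ c C) {z : ℂ} (hz : z ∈ U) :
    ContDiffAt ℝ ∞ (deriv φ) z :=
  ((h.an hz).deriv.contDiffAt (n := ∞)).restrict_scalars ℝ

lemma memLp_mul (h : CPair U V φ ψ c C) {g : ℂ → ℂ} (hg : MemLp g 2 (volume.restrict U)) :
    MemLp (fun z => conj (deriv φ z) * g z) 2 (volume.restrict U) := by
  refine MemLp.of_le_mul (c := C) hg ?_ ?_
  · exact (continuous_conj.measurable.comp (measurable_deriv φ)).aestronglyMeasurable.mul hg.1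
  · filter_upwards [ae_restrict_mem h.isOpen.measurableSet] with z hz
    rw [norm_mul, norm_conj]
    gcongr
    exact h.upper z hz

/-- Pulling back a test function. -/
lemma test (h : CPair U V φ ψ c C) {E F : Type*} [NormedAddCommGroup E] [NormedSpace ℝ E]
    [NormedAddCommGroup F] [NormedSpace ℝ F] {ζ : ℂ → E} (h2 : HasCompactSupport ζ)
    (h3 : tsupport ζ ⊆ V) {η : ℂ → F} (hη : ∀ z ∈ U, ContDiffAt ℝ ∞ η z)
    (h0 : ∀ z ∈ U, ζ (φ z) = 0 → η z = 0) :
    ContDiff ℝ ∞ (U.indicator η) ∧ HasCompactSupport (U.indicator η) ∧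
      tsupport (U.indicator η) ⊆ U ∧ ∀ z ∈ U, U.indicator η =ᶠ[𝓝 z] η := by
  have hK : IsCompact (ψ '' tsupport ζ) := h2.isCompact.image_of_continuousOn
    (h.diff'.continuousOn.mono h3)
  have hKU : ψ '' tsupport ζ ⊆ U := by
    rintro _ ⟨x, hx, rfl⟩; exact h.maps' (h3 hx)
  have hz : ∀ z, z ∉ ψ '' tsupport ζ → U.indicator η z = 0 := by
    intro z hz
    by_cases hU : z ∈ U
    · rw [indicator_of_mem hU]
      refine h0 z hU (image_eq_zero_of_notMem_tsupport fun k => hz ⟨φ z, k, h.left z hU⟩)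
    · exact indicator_of_notMem hU _
  have hs : tsupport (U.indicator η) ⊆ ψ '' tsupport ζ :=
    closure_minimal (fun z hz' => by_contra fun k => hz' (hz z k)) hK.isClosed
  have he : ∀ z ∈ U, U.indicator η =ᶠ[𝓝 z] η := fun z hz => by
    filter_upwards [h.isOpen.mem_nhds hz] with w hw using indicator_of_mem hw _
  refine ⟨contDiff_iff_contDiffAt.2 fun z => ?_, HasCompactSupport.intro hK hz, hs.trans hKU, he⟩
  by_cases hU : z ∈ U
  · exact (hη z hU).congr_of_eventuallyEq (he z hU)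
  · refine (contDiffAt_const (c := (0 : F))).congr_of_eventuallyEq ?_
    filter_upwards [hK.isClosed.isOpen_compl.mem_nhds fun k => hU (hKU k)] with w hw using hz w hw

end CPair

lemma tr_mul {μ : Measure ℂ} {f g : ℂ → ℝ} (hf : MemLp f 2 μ) (hg : MemLp g 2 μ) :
    Integrable (fun x => f x * g x) μ := hf.integrable_mul hg

lemma tr_mulC {μ : Measure ℂ} {f g : ℂ → ℂ} (hf : MemLp f 2 μ) (hg : MemLp g 2 μ) :
    Integrable (fun x => f x * g x) μ := hf.integrable_mul hg

lemma tr_memLp_fderiv {E : Type*} [NormedAddCommGroup E] [NormedSpace ℝ E] {ζ : ℂ → E}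
    (h1 : ContDiff ℝ ∞ ζ) (h2 : HasCompactSupport ζ) (v : ℂ) (U : Set ℂ) :
    MemLp (fun x => fderiv ℝ ζ x v) 2 (volume.restrict U) :=
  ((h1.continuous_fderiv (by simp)).clm_apply continuous_const).memLp_of_hasCompactSupport
    (h2.fderiv_apply ℝ v)

lemma tr_memLp_dB {ζ : ℂ → ℂ} (h1 : ContDiff ℝ ∞ ζ) (h2 : HasCompactSupport ζ) (U : Set ℂ) :
    MemLp (dB ζ) 2 (volume.restrict U) :=
  (tr_memLp_fderiv h1 h2 1 U).add ((tr_memLp_fderiv h1 h2 I U).const_mul I)

/-- Complex form of the weak gradient identity. -/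
lemma IsH1.complex {U : Set ℂ} {v : ℂ → ℝ} {g : ℂ → ℂ} (hv : IsH1 U v g) {η : ℂ → ℂ}
    (h1 : ContDiff ℝ ∞ η) (h2 : HasCompactSupport η) (h3 : tsupport η ⊆ U) :
    ∫ z in U, v z * dB η z = -∫ z in U, g z * η z := by
  obtain ⟨l1, l2, l3⟩ := hv
  have r1 : ContDiff ℝ ∞ fun z => (η z).re := reCLM.contDiff.comp h1
  have i1 : ContDiff ℝ ∞ fun z => (η z).im := imCLM.contDiff.comp h1
  have r2 : HasCompactSupport fun z => (η z).re := h2.comp_left (g := re) rfl
  have i2 : HasCompactSupport fun z => (η z).im := h2.comp_left (g := im) rfl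
  have r3 : tsupport (fun z => (η z).re) ⊆ U := (tsupport_comp_subset (g := re) rfl η).trans h3
  have i3 : tsupport (fun z => (η z).im) ⊆ U := (tsupport_comp_subset (g := im) rfl η).trans h3
  obtain ⟨a1, a2⟩ := l3 _ r1 r2 r3
  obtain ⟨b1, b2⟩ := l3 _ i1 i2 i3
  have hd := h1.differentiable (by simp)
  have k1 : Integrable (fun z => (v z : ℂ) * dB η z) (volume.restrict U) :=
    tr_mulC l1.ofReal (tr_memLp_dB h1 h2 U)
  have m0 : MemLp η 2 (volume.restrict U) := h1.continuous.memLp_of_hasCompactSupport h2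
  have k2 : Integrable (fun z => g z * η z) (volume.restrict U) := tr_mulC l2 m0
  have gr : MemLp (fun z => (g z).re) 2 (volume.restrict U) := l2.re
  have gi : MemLp (fun z => (g z).im) 2 (volume.restrict U) := l2.im
  have er : MemLp (fun z => (η z).re) 2 (volume.restrict U) := m0.re
  have ei : MemLp (fun z => (η z).im) 2 (volume.restrict U) := m0.im
  apply Complex.ext
  · rw [neg_re, ← reCLM_apply, ← reCLM_apply, ← reCLM.integral_comp_comm k1,
      ← reCLM.integral_comp_comm k2]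
    have e1 : ∀ z, reCLM ((v z : ℂ) * dB η z) =
        v z * fderiv ℝ (fun z => (η z).re) z 1 - v z * fderiv ℝ (fun z => (η z).im) z I := by
      intro z
      have p := dx_re (hd z)
      have q := dy_im (hd z)
      rw [dx] at p; rw [dy] at q
      rw [p, q, dB]; simp; ring
    have e2 : ∀ z, reCLM (g z * η z) = (g z).re * (η z).re - (g z).im * (η z).im := fun z => by
      simp
    simp only [e1, e2]
    rw [integral_sub (tr_mul l1 (tr_memLp_fderiv r1 r2 1 U)) (tr_mul l1 (tr_memLp_fderiv i1 i2 I U)),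
      integral_sub (tr_mul gr er) (tr_mul gi ei), a1, b2]
    ring
  · rw [neg_im, ← imCLM_apply, ← imCLM_apply, ← imCLM.integral_comp_comm k1,
      ← imCLM.integral_comp_comm k2]
    have e1 : ∀ z, imCLM ((v z : ℂ) * dB η z) =
        v z * fderiv ℝ (fun z => (η z).im) z 1 + v z * fderiv ℝ (fun z => (η z).re) z I := by
      intro z
      have p := dx_im (hd z)
      have q := dy_re (hd z)
      rw [dx] at p; rw [dy] at q
      rw [p, q, dB]; simp; ring
    have e2 : ∀ z, imCLM (g z * η z) = (g z).re * (η z).im + (g z).im * (η z).re := fun z => by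
      simp
    simp only [e1, e2]
    rw [integral_add (tr_mul l1 (tr_memLp_fderiv i1 i2 1 U)) (tr_mul l1 (tr_memLp_fderiv r1 r2 I U)),
      integral_add (tr_mul gr ei) (tr_mul gi er), b1, a2]
    ring

lemma isH1_of_complex {U : Set ℂ} {v : ℂ → ℝ} {g : ℂ → ℂ} (l1 : MemLp v 2 (volume.restrict U))
    (l2 : MemLp g 2 (volume.restrict U))
    (h : ∀ ζ : ℂ → ℝ, ContDiff ℝ ∞ ζ → HasCompactSupport ζ → tsupport ζ ⊆ U →
      ∫ z in U, v z * dB (fun w => (ζ w : ℂ)) z = -∫ z in U, g z * ζ z) : IsH1 U v g := by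
  refine ⟨l1, l2, fun ζ h1 h2 h3 => ?_⟩
  have e := h ζ h1 h2 h3
  have c1 : ContDiff ℝ ∞ fun w => (ζ w : ℂ) := ofRealCLM.contDiff.comp h1
  have c2 : HasCompactSupport fun w => (ζ w : ℂ) := h2.comp_left (g := ofReal) rfl
  have k1 : Integrable (fun z => (v z : ℂ) * dB (fun w => (ζ w : ℂ)) z) (volume.restrict U) :=
    tr_mulC l1.ofReal (tr_memLp_dB c1 c2 U)
  have k2 : Integrable (fun z => g z * ζ z) (volume.restrict U) :=
    tr_mulC l2 (c1.continuous.memLp_of_hasCompactSupport c2)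
  have hd := h1.differentiable (by simp)
  constructor
  · have := congrArg re e
    rw [neg_re, ← reCLM_apply, ← reCLM_apply, ← reCLM.integral_comp_comm k1,
      ← reCLM.integral_comp_comm k2] at this
    convert this using 3 with z z
    · rw [dB_ofReal (hd z)]; simp [dx]
    · simp
  · have := congrArg im e
    rw [neg_im, ← imCLM_apply, ← imCLM_apply, ← imCLM.integral_comp_comm k1,
      ← imCLM.integral_comp_comm k2] at this
    convert this using 3 with z z
    · rw [dB_ofReal (hd z)]; simp [dy]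
    · simp

lemma IsH1.congr {U : Set ℂ} {v v' : ℂ → ℝ} {g g' : ℂ → ℂ} (h : IsH1 U v g)
    (hv : v =ᵐ[volume.restrict U] v') (hg : g =ᵐ[volume.restrict U] g') : IsH1 U v' g' := by
  refine ⟨h.1.ae_eq hv, h.2.1.ae_eq hg, fun ζ h1 h2 h3 => ?_⟩
  obtain ⟨e1, e2⟩ := h.2.2 ζ h1 h2 h3
  constructor
  · rw [← integral_congr_ae (f := fun z => v z * fderiv ℝ ζ z 1)
      (hv.mono fun z hz => by simp only [hz]),
      e1, integral_congr_ae (g := fun z => (g' z).re * ζ z) (hg.mono fun z hz => by simp only [hz])]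
  · rw [← integral_congr_ae (f := fun z => v z * fderiv ℝ ζ z I)
      (hv.mono fun z hz => by simp only [hz]),
      e2, integral_congr_ae (g := fun z => (g' z).im * ζ z) (hg.mono fun z hz => by simp only [hz])]

/-- Chain rule for weak gradients. -/
theorem CPair.isH1_comp {U V : Set ℂ} {φ ψ : ℂ → ℂ} {c C : ℝ} (h : CPair U V φ ψ c C)
    {v : ℂ → ℝ} {g : ℂ → ℂ} (hv : IsH1 V v g) :
    IsH1 U (fun z => v (φ z)) (fun z => conj (deriv φ z) * g (φ z)) := by
  refine isH1_of_complex (h.memLp_comp hv.1) (h.memLp_mul (h.memLp_comp hv.2.1))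
    fun ζ h1 h2 h3 => ?_
  have c1 : ContDiff ℝ ∞ fun w => (ζ w : ℂ) := ofRealCLM.contDiff.comp h1
  obtain ⟨t1, t2, t3, t4⟩ := h.symm.test h2 h3 (η := fun x => (ζ (ψ x) : ℂ) * deriv ψ x)
    (fun x hx => (c1.contDiffAt.comp x (h.symm.contDiffAt hx)).mul (h.symm.contDiffAt_deriv hx))
    (fun x _ k => by simp [k])
  have e := hv.complex t1 t2 t3
  rw [h.integral_comp, h.integral_comp] at e
  convert e using 1
  · refine setIntegral_congr_fun h.isOpen.measurableSet fun z hz => ?_
    have hx := h.maps hz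
    have d1 : DifferentiableAt ℝ (fun w => (ζ w : ℂ)) (ψ (φ z)) :=
      c1.differentiable (by simp) _
    have d2 := (h.an' hx).differentiableAt
    have d3 := (h.an' hx).deriv.differentiableAt
    rw [dB_congr (t4 _ hx), dB_mul (f := fun x => (ζ (ψ x) : ℂ))
      (d1.comp _ (d2.restrictScalars ℝ)) (d3.restrictScalars ℝ), dB_holo d3,
      dB_comp_holo (f := fun w => (ζ w : ℂ)) d1 d2, h.left z hz, real_smul]
    have k := h.deriv_mul hz
    have k' : conj (deriv ψ (φ z)) * conj (deriv φ z) = 1 := by rw [← map_mul, k, map_one]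
    rw [← normSq_eq_norm_sq, ← mul_conj]
    linear_combination (-(v (φ z) : ℂ) * dB (fun w => (ζ w : ℂ)) z) *
      (k * (conj (deriv ψ (φ z)) * conj (deriv φ z)) + k')
  · congr 1
    refine setIntegral_congr_fun h.isOpen.measurableSet fun z hz => ?_
    have hx := h.maps hz
    rw [indicator_of_mem hx, h.left z hz, real_smul, ← normSq_eq_norm_sq, ← mul_conj]
    have k := h.deriv_mul hz
    linear_combination (-(conj (deriv φ z) * g (φ z) * ζ z)) * k

/-- Integration by parts against a test function. -/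
lemma tr_ibp {U : Set ℂ} (hU : IsOpen U) {a ζ : ℂ → ℝ} (ha : ContDiffOn ℝ 1 a U)
    (h1 : ContDiff ℝ ∞ ζ) (h2 : HasCompactSupport ζ) (h3 : tsupport ζ ⊆ U) (v : ℂ) :
    ∫ z in U, a z * fderiv ℝ ζ z v = -∫ z in U, fderiv ℝ a z v * ζ z := by
  have hz : ∀ z, z ∉ U → ζ z = 0 := fun z hz => image_eq_zero_of_notMem_tsupport fun k => hz (h3 k)
  have hs : tsupport (fun z => fderiv ℝ ζ z v) ⊆ tsupport ζ := tsupport_fderiv_apply_subset ℝ v
  have hz' : ∀ z, z ∉ U → fderiv ℝ ζ z v = 0 := fun z hz =>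
    image_eq_zero_of_notMem_tsupport (f := fun z => fderiv ℝ ζ z v) fun k => hz (h3 (hs k))
  have hi : ∀ {f g : ℂ → ℝ}, ContinuousOn f U → Continuous g → HasCompactSupport g →
      tsupport g ⊆ U → Integrable fun z => f z * g z := by
    intro f g hf hg k1 k2
    refine Continuous.integrable_of_hasCompactSupport ?_ k1.mul_left
    exact (hf.mul hg.continuousOn).continuous_of_tsupport_subset hU
      ((tsupport_mul_subset_right).trans k2)
  have hc : ContinuousOn (fun z => fderiv ℝ a z v) U :=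
    (ha.continuousOn_fderiv_of_isOpen hU le_rfl).clm_apply continuousOn_const
  rw [setIntegral_eq_integral_of_forall_compl_eq_zero fun z k => by rw [hz' z k, mul_zero],
    setIntegral_eq_integral_of_forall_compl_eq_zero fun z k => by rw [hz z k, mul_zero]]
  refine integral_mul_fderiv_eq_neg_fderiv_mul_of_integrable (hi hc h1.continuous h2 h3)
    (hi ha.continuousOn ((h1.continuous_fderiv (by simp)).clm_apply continuous_const)
      (h2.fderiv_apply ℝ v) (hs.trans h3)) (hi ha.continuousOn h1.continuous h2 h3)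
    (fun z k => ?_) fun z _ => h1.differentiable (by simp) z
  exact (ha.contDiffAt (hU.mem_nhds (h3 k))).differentiableAt (by simp)

lemma tr_dB_re {a : ℂ → ℝ} {z : ℂ} (ha : DifferentiableAt ℝ a z) :
    (dB (fun w => (a w : ℂ)) z).re = dx a z := by rw [dB_ofReal ha]; simp

lemma tr_dB_im {a : ℂ → ℝ} {z : ℂ} (ha : DifferentiableAt ℝ a z) :
    (dB (fun w => (a w : ℂ)) z).im = dy a z := by rw [dB_ofReal ha]; simp

/-- A `C¹` function with square integrable gradient is in `H¹`. -/
lemma isH1_of_contDiffOn {U : Set ℂ} (hU : IsOpen U) {a : ℂ → ℝ} (ha : ContDiffOn ℝ 1 a U)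
    (l1 : MemLp a 2 (volume.restrict U))
    (l2 : MemLp (dB fun w => (a w : ℂ)) 2 (volume.restrict U)) :
    IsH1 U a (dB fun w => (a w : ℂ)) := by
  refine ⟨l1, l2, fun ζ h1 h2 h3 => ?_⟩
  have hd : ∀ z ∈ U, DifferentiableAt ℝ a z := fun z hz =>
    (ha.contDiffAt (hU.mem_nhds hz)).differentiableAt (by simp)
  rw [tr_ibp hU ha h1 h2 h3, tr_ibp hU ha h1 h2 h3]
  constructor
  · congr 1
    refine setIntegral_congr_fun hU.measurableSet fun z hz => ?_
    rw [tr_dB_re (hd z hz), dx]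
  · congr 1
    refine setIntegral_congr_fun hU.measurableSet fun z hz => ?_
    rw [tr_dB_im (hd z hz), dy]

lemma tr_locInt {U : Set ℂ} (hU : IsOpen U) {E : Type*} [NormedAddCommGroup E] {f : ℂ → E}
    (hf : MemLp f 2 (volume.restrict U)) : LocallyIntegrableOn f U := by
  have h1 : LocallyIntegrable f (volume.restrict U) := hf.locallyIntegrable (by norm_num)
  intro x hx
  obtain ⟨s, hs, hi⟩ := h1 x
  refine ⟨s ∩ U, inter_mem (mem_nhdsWithin_of_mem_nhds hs) self_mem_nhdsWithin, ?_⟩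
  rwa [IntegrableOn, Measure.restrict_restrict' hU.measurableSet] at hi

/-- The weak gradient of a `C¹` function is its gradient. -/
lemma IsH1.ae_eq_dB {U : Set ℂ} (hU : IsOpen U) {a : ℂ → ℝ} {g : ℂ → ℂ} (h : IsH1 U a g)
    (ha : ContDiffOn ℝ 1 a U) : g =ᵐ[volume.restrict U] dB fun w => (a w : ℂ) := by
  have hd : ∀ z ∈ U, DifferentiableAt ℝ a z := fun z hz =>
    (ha.contDiffAt (hU.mem_nhds hz)).differentiableAt (by simp)
  have key : ∀ (v : ℂ) (k : ℂ → ℝ), MemLp k 2 (volume.restrict U) →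
      (∀ ζ : ℂ → ℝ, ContDiff ℝ ∞ ζ → HasCompactSupport ζ → tsupport ζ ⊆ U →
        ∫ z in U, a z * fderiv ℝ ζ z v = -∫ z in U, k z * ζ z) →
      ∀ᵐ z, z ∈ U → k z - fderiv ℝ a z v = 0 := by
    intro v k hk he
    have hc : ContinuousOn (fun z => fderiv ℝ a z v) U :=
      (ha.continuousOn_fderiv_of_isOpen hU le_rfl).clm_apply continuousOn_const
    refine hU.ae_eq_zero_of_integral_contDiff_smul_eq_zero
      ((tr_locInt hU hk).sub (hc.locallyIntegrableOn hU.measurableSet)) fun ζ h1 h2 h3 => ?_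
    have e := he ζ h1 h2 h3
    rw [tr_ibp hU ha h1 h2 h3, neg_inj] at e
    have i2 : Integrable fun z => fderiv ℝ a z v * ζ z := by
      refine Continuous.integrable_of_hasCompactSupport ?_ h2.mul_left
      exact (hc.mul h1.continuous.continuousOn).continuous_of_tsupport_subset hU
        ((tsupport_mul_subset_right).trans h3)
    rw [← setIntegral_eq_integral_of_forall_compl_eq_zero (s := U) fun z k => by
      rw [image_eq_zero_of_notMem_tsupport fun k' => k (h3 k'), zero_smul]]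
    have : ∀ z, ζ z • (k z - fderiv ℝ a z v) = k z * ζ z - fderiv ℝ a z v * ζ z := fun z => by
      rw [smul_eq_mul]; ring
    simp only [this]
    rw [integral_sub (tr_mul hk (h1.continuous.memLp_of_hasCompactSupport h2))
      i2.integrableOn, e, sub_self]
  have k1 := key 1 (fun z => (g z).re) h.2.1.re fun ζ h1 h2 h3 => (h.2.2 ζ h1 h2 h3).1
  have k2 := key I (fun z => (g z).im) h.2.1.im fun ζ h1 h2 h3 => (h.2.2 ζ h1 h2 h3).2
  refine (ae_restrict_iff' hU.measurableSet).2 ?_
  filter_upwards [k1, k2] with z e1 e2 hz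
  apply Complex.ext
  · rw [tr_dB_re (hd z hz), dx]; exact sub_eq_zero.1 (e1 hz)
  · rw [tr_dB_im (hd z hz), dy]; exact sub_eq_zero.1 (e2 hz)

end Vale.Agent.P071
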