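import Vale.Agent.P071.Green

open Complex Metric Set Filter Topology MeasureTheory
open scoped ContDiff Real Convolution

namespace Vale.Agent.P071

lemma weyl_two_le : (2 : WithTop ℕ∞) ≤ ∞ := WithTop.coe_le_coe.2 (le_top : (2 : ℕ∞) ≤ ⊤)

lemma weyl_green {g : ℂ → ℝ} (hg : ContDiff ℝ 2 g) {R : ℝ} (hR : 0 ≤ R) :
    ∫ z in ball (0 : ℂ) R, lap g z =
      R * ∫ θ in (-π)..π, fderiv ℝ g (circleMap 0 R θ) (circleMap 0 1 θ) := by
  have h := green_first (F := fun z => (g z : ℂ)) (G := fun _ => 1) (c := 0) hR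
    (fun z _ => contDiffAt_ofReal' hg.contDiffAt) (fun z _ => contDiffAt_const)
  simp only [dx_const, dy_const, mul_zero, add_zero, mul_one, lap_ofReal hg.contDiffAt] at h
  have e : ∀ θ, fderiv ℝ (fun z => (g z : ℂ)) (circleMap 0 R θ) (circleMap 0 R θ) =
      ((R * fderiv ℝ g (circleMap 0 R θ) (circleMap 0 1 θ) : ℝ) : ℂ) := by
    intro θ
    have hd : DifferentiableAt ℝ g (circleMap 0 R θ) := hg.differentiable (by norm_num) _
    have h1 := (ofRealCLM.hasFDerivAt.comp _ hd.hasFDerivAt).fderiv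
    rw [show (fun z => (g z : ℂ)) = ofRealCLM ∘ g from rfl, h1]
    have h2 : circleMap 0 R θ = R • circleMap 0 1 θ := by simp [circleMap]
    simp only [ContinuousLinearMap.comp_apply, ofRealCLM_apply]
    nth_rewrite 2 [h2]
    rw [map_smul, smul_eq_mul]
  simp_rw [e] at h
  rw [integral_complex_ofReal, intervalIntegral.integral_ofReal, intervalIntegral.integral_const_mul] at h
  exact_mod_cast h

lemma weyl_hasDerivAt {g : ℂ → ℝ} (hg : ContDiff ℝ 2 g) (r : ℝ) :
    HasDerivAt (fun r : ℝ => ∫ θ in (-π)..π, g (circleMap 0 r θ))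
      (∫ θ in (-π)..π, fderiv ℝ g (circleMap 0 r θ) (circleMap 0 1 θ)) r := by
  have hc : Continuous fun p : ℝ × ℝ => fderiv ℝ g (circleMap 0 p.1 p.2) (circleMap 0 1 p.2) := by
    have h1 : Continuous (fderiv ℝ g) := hg.continuous_fderiv (by norm_num)
    have h2 : Continuous fun p : ℝ × ℝ => circleMap 0 p.1 p.2 := by
      unfold circleMap; fun_prop
    exact (h1.comp h2).clm_apply ((continuous_circleMap 0 1).comp continuous_snd)
  obtain ⟨C, hC⟩ := ((isCompact_closedBall r 1).prod (isCompact_uIcc (a := -π) (b := π))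
    ).exists_bound_of_continuousOn hc.continuousOn
  refine (intervalIntegral.hasDerivAt_integral_of_dominated_loc_of_deriv_le
    (F := fun r θ => g (circleMap 0 r θ))
    (F' := fun r θ => fderiv ℝ g (circleMap 0 r θ) (circleMap 0 1 θ)) (bound := fun _ => C)
    (closedBall_mem_nhds r one_pos)
    (Eventually.of_forall fun x =>
      (hg.continuous.comp (continuous_circleMap 0 x)).aestronglyMeasurable)
    ((hg.continuous.comp (continuous_circleMap 0 r)).intervalIntegrable _ _)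
    (hc.comp (Continuous.prodMk_right r)).aestronglyMeasurable
    (Eventually.of_forall fun θ hθ x hx => hC (x, θ) ⟨hx, uIoc_subset_uIcc hθ⟩)
    intervalIntegrable_const (Eventually.of_forall fun θ _ x _ => ?_)).2
  have h1 : HasDerivAt (fun r : ℝ => circleMap 0 r θ) (circleMap 0 1 θ) x := by
    simpa [circleMap] using (hasDerivAt_id x).ofReal_comp.mul_const (cexp (θ * I))
  exact (hg.differentiable (by norm_num) _).hasFDerivAt.comp_hasDerivAt x h1

lemma weyl_mean_zero {g : ℂ → ℝ} (hg : ContDiff ℝ 2 g) {μ δ : ℝ} (hμ : 0 ≤ μ) (hδ : 0 < δ)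
    (hμδ : μ * δ ^ 2 ≤ 1 / 2) (heq : ∀ z ∈ ball (0 : ℂ) δ, lap g z + μ * g z = 0) (h0 : g 0 = 0)
    {r : ℝ} (hr : r ∈ Icc 0 δ) : ∫ θ in (-π)..π, g (circleMap 0 r θ) = 0 := by
  set m : ℝ → ℝ := fun r => ∫ θ in (-π)..π, g (circleMap 0 r θ) with hm
  have hd := weyl_hasDerivAt hg
  have hmc : Continuous m := continuous_iff_continuousAt.2 fun r => (hd r).continuousAt
  obtain ⟨r0, hr0, hmax⟩ := isCompact_Icc.exists_isMaxOn (⟨r, hr⟩ : (Icc 0 δ).Nonempty)
    hmc.abs.continuousOn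
  have hm0 : m 0 = 0 := by simp [hm, h0]
  have hbound : ∀ s ∈ Ioo 0 δ,
      |∫ θ in (-π)..π, fderiv ℝ g (circleMap 0 s θ) (circleMap 0 1 θ)| ≤ μ * δ * |m r0| := by
    intro s hs
    have h1 := weyl_green hg hs.1.le
    have h2 : ∫ z in ball (0 : ℂ) s, lap g z = -μ * ∫ z in ball (0 : ℂ) s, g z := by
      rw [← integral_const_mul]
      refine setIntegral_congr_fun measurableSet_ball fun z hz => ?_
      have := heq z (ball_subset_ball hs.2.le hz)
      linarith
    have h3 := integral_ball_polar (f := g) (c := 0) hs.1.le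
      ((hg.continuous.continuousOn.integrableOn_compact (isCompact_closedBall 0 s)).mono_set
        ball_subset_closedBall)
    simp_rw [intervalIntegral.integral_smul] at h3
    have h4 : ‖∫ t in (0 : ℝ)..s, t • m t‖ ≤ δ * |m r0| * |s - 0| := by
      refine intervalIntegral.norm_integral_le_of_norm_le_const fun t ht => ?_
      rw [uIoc_of_le hs.1.le] at ht
      rw [norm_smul, Real.norm_eq_abs, Real.norm_eq_abs, abs_of_pos ht.1]
      exact mul_le_mul (ht.2.trans hs.2.le) (hmax ⟨ht.1.le, ht.2.trans hs.2.le⟩) (abs_nonneg _)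
        hδ.le
    rw [sub_zero, abs_of_pos hs.1, Real.norm_eq_abs] at h4
    rw [h2, h3] at h1
    have h5 := congrArg abs h1
    rw [abs_mul, abs_mul, abs_neg, abs_of_nonneg hμ, abs_of_pos hs.1] at h5
    refine le_of_mul_le_mul_left ?_ hs.1
    rw [← h5]
    calc μ * |∫ t in (0 : ℝ)..s, t • m t| ≤ μ * (δ * |m r0| * s) := by gcongr
      _ = s * (μ * δ * |m r0|) := by ring
  have hM : |m r0| ≤ 0 := by
    rcases hr0.1.eq_or_lt with h | h
    · rw [← h, hm0, abs_zero]
    obtain ⟨s, hs, hs'⟩ := exists_hasDerivAt_eq_slope m _ h hmc.continuousOn (fun x _ => hd x)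
    have h1 := hbound s ⟨hs.1, hs.2.trans_le hr0.2⟩
    rw [hs', hm0, sub_zero, sub_zero, abs_div, abs_of_pos h, div_le_iff₀ h] at h1
    have h2 : μ * δ * |m r0| * r0 ≤ μ * δ * |m r0| * δ := by gcongr; exact hr0.2
    have h3 : μ * δ ^ 2 * |m r0| ≤ 1 / 2 * |m r0| := by gcongr
    nlinarith [abs_nonneg (m r0)]
  exact abs_nonpos_iff.1 ((hmax hr).trans hM)

/-- A radial bump. -/
noncomputable def weylChi (δ : ℝ) (y : ℂ) : ℝ := expNegInvGlue (δ ^ 2 - ‖y‖ ^ 2)

lemma weyl_chi_contDiff (δ : ℝ) : ContDiff ℝ ∞ (weylChi δ) :=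
  expNegInvGlue.contDiff.comp (contDiff_const.sub (contDiff_norm_sq ℝ))

lemma weyl_chi_zero {δ : ℝ} (hδ : 0 < δ) {y : ℂ} (hy : y ∉ ball (0 : ℂ) δ) : weylChi δ y = 0 := by
  refine expNegInvGlue.zero_of_nonpos ?_
  have : δ ≤ ‖y‖ := by simpa using hy
  nlinarith

lemma weyl_chi_tsupport {δ : ℝ} (hδ : 0 < δ) : tsupport (weylChi δ) ⊆ closedBall 0 δ :=
  closure_minimal (fun y hy => ball_subset_closedBall (by
    by_contra h; exact hy (weyl_chi_zero hδ h))) isClosed_closedBall

lemma weyl_chi_compact {δ : ℝ} (hδ : 0 < δ) : HasCompactSupport (weylChi δ) :=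
  (isCompact_closedBall 0 δ).of_isClosed_subset (isClosed_tsupport _) (weyl_chi_tsupport hδ)

lemma weyl_chi_neg (δ : ℝ) (y : ℂ) : weylChi δ (-y) = weylChi δ y := by simp [weylChi]

lemma weyl_chi_int_zero {g : ℂ → ℝ} (hg : ContDiff ℝ 2 g) {μ δ : ℝ} (hμ : 0 ≤ μ) (hδ : 0 < δ)
    (hμδ : μ * δ ^ 2 ≤ 1 / 2) (heq : ∀ z ∈ ball (0 : ℂ) δ, lap g z + μ * g z = 0) (h0 : g 0 = 0) :
    ∫ y, weylChi δ y * g y = 0 := by
  rw [← setIntegral_eq_integral_of_forall_compl_eq_zero (s := ball 0 δ)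
    (fun y hy => by rw [weyl_chi_zero hδ hy, zero_mul]),
    integral_ball_polar (f := fun y => weylChi δ y * g y) hδ.le
    ((((weyl_chi_contDiff δ).continuous.mul hg.continuous).continuousOn.integrableOn_compact
      (isCompact_closedBall 0 δ)).mono_set ball_subset_closedBall)]
  rw [intervalIntegral.integral_congr (g := fun _ => 0), intervalIntegral.integral_zero]
  intro r hr
  rw [uIcc_of_le hδ.le] at hr
  simp only [weylChi, norm_circleMap_zero, intervalIntegral.integral_smul,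
    intervalIntegral.integral_const_mul, weyl_mean_zero hg hμ hδ hμδ heq h0 hr, mul_zero, smul_zero]

lemma weyl_dx_re {u : ℝ → ℝ} (hu : Differentiable ℝ u) :
    dx (fun z : ℂ => u z.re) = (fun z => deriv u z.re) ∧
      dy (fun z : ℂ => u z.re) = fun _ => 0 := by
  have h : ∀ z : ℂ, fderiv ℝ (fun z : ℂ => u z.re) z = (deriv u z.re) • reCLM := fun z =>
    ((hu z.re).hasDerivAt.comp_hasFDerivAt z reCLM.hasFDerivAt).fderiv
  constructor <;> ext z <;> simp [dx, dy, h]

/-- A plane wave. -/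
noncomputable def weylE (μ : ℝ) (z : ℂ) : ℝ := Real.cos (√μ * z.re)

lemma weyl_E_contDiff (μ : ℝ) : ContDiff ℝ 2 (weylE μ) :=
  Real.contDiff_cos.comp (contDiff_const.mul reCLM.contDiff)

lemma weyl_E_lap {μ : ℝ} (hμ : 0 ≤ μ) (z : ℂ) : lap (weylE μ) z + μ * weylE μ z = 0 := by
  have d1 : deriv (fun t : ℝ => Real.cos (√μ * t)) = fun t => -Real.sin (√μ * t) * √μ := by
    ext t
    simpa using ((hasDerivAt_id t).const_mul √μ).cos.deriv
  have d2 : deriv (fun t : ℝ => -Real.sin (√μ * t) * √μ) =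
      fun t => -(Real.cos (√μ * t) * √μ) * √μ := by
    ext t
    simpa using (((hasDerivAt_id t).const_mul √μ).sin.neg.mul_const √μ).deriv
  obtain ⟨h1, h2⟩ := weyl_dx_re (u := fun t => Real.cos (√μ * t)) (by fun_prop)
  obtain ⟨h3, -⟩ := weyl_dx_re (u := fun t => -Real.sin (√μ * t) * √μ) (by fun_prop)
  rw [d1] at h1
  rw [d2] at h3
  have e : weylE μ = fun z : ℂ => Real.cos (√μ * z.re) := rfl
  rw [lap, e, h1, h2, h3, dy_const]
  have := Real.mul_self_sqrt hμ
  simp only
  linear_combination (-Real.cos (√μ * z.re)) * this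

lemma weyl_c_pos {μ δ : ℝ} (hμ : 0 ≤ μ) (hδ : 0 < δ) (hμδ : μ * δ ^ 2 ≤ 1 / 2) :
    0 < ∫ y, weylChi δ y * weylE μ y := by
  refine Continuous.integral_pos_of_hasCompactSupport_nonneg_nonzero (x := 0)
    ((weyl_chi_contDiff δ).continuous.mul (weyl_E_contDiff μ).continuous)
    (weyl_chi_compact hδ).mul_right (fun y => ?_) ?_
  · by_cases hy : y ∈ ball (0 : ℂ) δ
    · refine mul_nonneg (expNegInvGlue.nonneg _) (Real.cos_nonneg_of_mem_Icc (abs_le.1 ?_))
      have h1 : |y.re| ≤ δ := (abs_re_le_norm y).trans (by simpa using hy : ‖y‖ < δ).le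
      have h2 : √μ * δ ≤ 1 := by
        have := Real.mul_self_sqrt hμ
        have := Real.sqrt_nonneg μ
        nlinarith
      rw [abs_mul, abs_of_nonneg (Real.sqrt_nonneg μ)]
      have h3 : √μ * |y.re| ≤ √μ * δ := by gcongr
      linarith [Real.pi_gt_three]
    · simp [weyl_chi_zero hδ hy]
  · simpa [weylChi, weylE] using (expNegInvGlue.pos_of_pos (by positivity : 0 < δ ^ 2)).ne'

lemma weyl_lap_const_mul {g : ℂ → ℝ} {z : ℂ} (hg : ContDiffAt ℝ 2 g z) (c : ℝ) :
    lap (fun w => c * g w) z = c * lap g z := by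
  rw [lap_mul contDiffAt_const hg]; simp

/-- The mean value property. -/
lemma weyl_mean {g : ℂ → ℝ} (hg : ContDiff ℝ 2 g) {μ δ : ℝ} (hμ : 0 ≤ μ) (hδ : 0 < δ)
    (hμδ : μ * δ ^ 2 ≤ 1 / 2) (heq : ∀ z ∈ ball (0 : ℂ) δ, lap g z + μ * g z = 0) :
    ∫ y, weylChi δ y * g y = (∫ y, weylChi δ y * weylE μ y) * g 0 := by
  have hE := weyl_E_contDiff μ
  have h := weyl_chi_int_zero (g := fun z => g z - g 0 * weylE μ z)
    (hg.sub (contDiff_const.mul hE)) hμ hδ hμδ (fun z hz => by
      rw [lap_sub hg.contDiffAt (contDiffAt_const.mul hE.contDiffAt),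
        weyl_lap_const_mul hE.contDiffAt]
      linear_combination heq z hz - g 0 * weyl_E_lap hμ z) (by simp [weylE])
  have hi : ∀ {u : ℂ → ℝ}, Continuous u → Integrable fun y => weylChi δ y * u y := fun hu =>
    ((weyl_chi_contDiff δ).continuous.mul hu).integrable_of_hasCompactSupport
      (weyl_chi_compact hδ).mul_right
  simp_rw [mul_sub] at h
  rw [integral_sub (hi hg.continuous) (hi (u := fun y => g 0 * weylE μ y)
    (continuous_const.mul hE.continuous))] at h
  rw [← integral_mul_const, sub_eq_zero.1 h]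
  congr 1
  ext y
  ring

/-- Convolution. -/
noncomputable def weylConv (F ψ : ℂ → ℝ) (x : ℂ) : ℝ := ∫ z, F z * ψ (x - z)

lemma weyl_conv_eq (F ψ : ℂ → ℝ) :
    weylConv F ψ = F ⋆[ContinuousLinearMap.mul ℝ ℝ, volume] ψ := rfl

lemma weyl_conv_contDiff {F ψ : ℂ → ℝ} (hF : Integrable F) (hψ : ContDiff ℝ ∞ ψ)
    (hc : HasCompactSupport ψ) : ContDiff ℝ ∞ (weylConv F ψ) :=
  hc.contDiff_convolution_right (n := ⊤) (ContinuousLinearMap.mul ℝ ℝ) hF.locallyIntegrable hψ

lemma weyl_conv_fderiv {F ψ : ℂ → ℝ} (hF : Integrable F) (hψ : ContDiff ℝ ∞ ψ)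
    (hc : HasCompactSupport ψ) (v : ℂ) :
    (fun x => fderiv ℝ (weylConv F ψ) x v) = weylConv F fun y => fderiv ℝ ψ y v := by
  ext x
  have h1 : ContDiff ℝ 1 ψ := hψ.of_le (by exact_mod_cast le_top)
  rw [weyl_conv_eq, (hc.hasFDerivAt_convolution_right _ hF.locallyIntegrable h1 x).fderiv,
    convolution_precompR_apply _ hF.locallyIntegrable (hc.fderiv ℝ)
      (h1.continuous_fderiv one_ne_zero), weyl_conv_eq]

lemma weyl_contDiff_dir {ψ : ℂ → ℝ} (hψ : ContDiff ℝ ∞ ψ) (v : ℂ) :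
    ContDiff ℝ ∞ fun y => fderiv ℝ ψ y v :=
  (hψ.fderiv_right (m := ∞) (by simp)).clm_apply contDiff_const

lemma weyl_conv_integrable {F ψ : ℂ → ℝ} (hF : Integrable F) (hψ : Continuous ψ)
    (hc : HasCompactSupport ψ) (x : ℂ) : Integrable fun z => F z * ψ (x - z) :=
  hc.convolutionExists_right (ContinuousLinearMap.mul ℝ ℝ) hF.locallyIntegrable hψ x

lemma weyl_conv_lap {F ψ : ℂ → ℝ} (hF : Integrable F) (hψ : ContDiff ℝ ∞ ψ)
    (hc : HasCompactSupport ψ) (μ : ℝ) (x : ℂ) :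
    lap (weylConv F ψ) x + μ * weylConv F ψ x =
      ∫ z, F z * (lap (fun w => ψ (x - w)) z + μ * ψ (x - z)) := by
  have h1 : dx (weylConv F ψ) = weylConv F (dx ψ) := weyl_conv_fderiv hF hψ hc 1
  have h2 : dy (weylConv F ψ) = weylConv F (dy ψ) := weyl_conv_fderiv hF hψ hc I
  have s1 : ContDiff ℝ ∞ (dx ψ) := weyl_contDiff_dir hψ 1
  have s2 : ContDiff ℝ ∞ (dy ψ) := weyl_contDiff_dir hψ I
  have c1 : HasCompactSupport (dx ψ) := hc.fderiv_apply ℝ 1
  have c2 : HasCompactSupport (dy ψ) := hc.fderiv_apply ℝ I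
  have h3 : dx (weylConv F (dx ψ)) = weylConv F (dx (dx ψ)) := weyl_conv_fderiv hF s1 c1 1
  have h4 : dy (weylConv F (dy ψ)) = weylConv F (dy (dy ψ)) := weyl_conv_fderiv hF s2 c2 I
  have i1 : Integrable fun z => F z * dx (dx ψ) (x - z) :=
    weyl_conv_integrable hF (weyl_contDiff_dir s1 1).continuous (c1.fderiv_apply ℝ 1) x
  have i2 : Integrable fun z => F z * dy (dy ψ) (x - z) :=
    weyl_conv_integrable hF (weyl_contDiff_dir s2 I).continuous (c2.fderiv_apply ℝ I) x
  have i3 := (weyl_conv_integrable hF hψ.continuous hc x).const_mul μ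
  have i4 : Integrable fun z => F z * dx (dx ψ) (x - z) + F z * dy (dy ψ) (x - z) := i1.add i2
  rw [lap, h1, h2, h3, h4, weylConv, weylConv, weylConv, ← integral_add i1 i2,
    ← integral_const_mul, ← integral_add i4 i3]
  congr 1
  ext z
  have h5 := lap_comp_holo_real (a := ψ) (φ := fun w => x - w) (z := z)
    (hψ.contDiffAt.of_le weyl_two_le) (by fun_prop)
  have h6 : deriv (fun w : ℂ => x - w) z = -1 := by
    simp
  rw [h5, h6, lap]
  simp only [norm_neg, norm_one]
  ring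

lemma weyl_fubini {F a b : ℂ → ℝ} (hF : Integrable F) (ha : Continuous a)
    (hac : HasCompactSupport a) (hb : Continuous b) (hbc : HasCompactSupport b) :
    ∫ w, a w * weylConv F b w = ∫ z, F z * ∫ w, a w * b (w - z) := by
  obtain ⟨C, hC⟩ := hac.exists_bound_of_continuous ha
  have h1 := hF.convolution_integrand (ContinuousLinearMap.mul ℝ ℝ)
    (hb.integrable_of_hasCompactSupport (μ := volume) hbc)
  have h2 := h1.bdd_mul (c := C) (f := fun p : ℂ × ℂ => a p.1)
    (ha.comp continuous_fst).aestronglyMeasurable (Eventually.of_forall fun p => hC p.1)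
  have h3 := integral_integral_swap (f := fun w z => a w * (F z * b (w - z))) h2
  simp only [weylConv, ← integral_const_mul]
  rw [h3]
  congr 1
  ext z
  congr 1
  ext w
  ring

lemma weyl_test {ψ : ℂ → ℝ} (hψ : ContDiff ℝ ∞ ψ) (hc : HasCompactSupport ψ) (x : ℂ) :
    ContDiff ℝ ∞ (fun w => ψ (x - w)) ∧ HasCompactSupport (fun w => ψ (x - w)) ∧
      ∀ w ∈ tsupport (fun w => ψ (x - w)), x - w ∈ tsupport ψ := by
  refine ⟨hψ.comp (contDiff_const.sub contDiff_id), hc.comp_homeomorph (Homeomorph.subLeft x),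
    fun w hw => ?_⟩
  exact tsupport_comp_subset_preimage ψ (f := fun w => x - w) (by fun_prop) hw

lemma weyl_local {U : Set ℂ} (hU : IsOpen U) {μ : ℝ} (hμ : 0 ≤ μ) {f : ℂ → ℝ}
    (hf : LocallyIntegrableOn f U)
    (h : ∀ φ : ℂ → ℝ, ContDiff ℝ ∞ φ → HasCompactSupport φ → tsupport φ ⊆ U →
      ∫ z in U, f z * (lap φ z + μ * φ z) = 0) {x : ℂ} (hx : x ∈ U) :
    ∃ δ > 0, ∃ G : ℂ → ℝ, ContDiff ℝ ∞ G ∧ (∀ᵐ z, z ∈ ball x δ → f z = G z) ∧
      ∀ z ∈ ball x δ, lap G z + μ * G z = 0 := by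
  obtain ⟨ε, hε, hεU⟩ := nhds_basis_closedBall.mem_iff.1 (hU.mem_nhds hx)
  obtain ⟨δ, hδ, hδε, hμδ⟩ : ∃ δ > 0, 2 * δ ≤ ε ∧ μ * δ ^ 2 ≤ 1 / 2 := by
    have h1 : ∀ᶠ δ : ℝ in 𝓝 0, 2 * δ < ε :=
      (by fun_prop : Continuous fun δ : ℝ => 2 * δ).continuousAt.eventually_lt
        continuousAt_const (by simpa using hε)
    have h2 : ∀ᶠ δ : ℝ in 𝓝 0, μ * δ ^ 2 < 1 / 2 :=
      (by fun_prop : Continuous fun δ : ℝ => μ * δ ^ 2).continuousAt.eventually_lt
        continuousAt_const (by simp)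
    obtain ⟨δ, ⟨a1, a2⟩, a3⟩ := (((h1.and h2).filter_mono (nhdsWithin_le_nhds (s := Ioi 0))).and
      self_mem_nhdsWithin).exists
    exact ⟨δ, a3, a1.le, a2.le⟩
  set K := closedBall x ε with hK
  set F := K.indicator f with hFdef
  have hF : Integrable F := (integrable_indicator_iff measurableSet_closedBall).2
    (hf.integrableOn_compact_subset hεU (isCompact_closedBall x ε))
  have hsol : ∀ ψ : ℂ → ℝ, ContDiff ℝ ∞ ψ → HasCompactSupport ψ → ∀ y,
      (∀ w, y - w ∈ tsupport ψ → w ∈ K) → lap (weylConv F ψ) y + μ * weylConv F ψ y = 0 := by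
    intro ψ hψ hc y hy
    obtain ⟨t1, t2, t3⟩ := weyl_test hψ hc y
    rw [weyl_conv_lap hF hψ hc, ← h _ t1 t2 (fun w hw => hεU (hy w (t3 w hw))),
      ← integral_indicator hU.measurableSet]
    congr 1
    ext z
    by_cases hz : z ∈ K
    · rw [hFdef, indicator_of_mem hz, indicator_of_mem (hεU hz)]
    · have h0 : (fun w => ψ (y - w)) =ᶠ[𝓝 z] fun _ => 0 :=
        notMem_tsupport_iff_eventuallyEq.1 fun hh => hz (hy z (t3 z hh))
      have h1 : lap (fun w => ψ (y - w)) z + μ * ψ (y - z) = 0 := by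
        rw [lap_congr h0, lap_const, h0.eq_of_nhds]; simp
      by_cases hzU : z ∈ U
      · rw [indicator_of_mem hzU, h1, mul_zero, mul_zero]
      · rw [indicator_of_notMem hzU, h1, mul_zero]
  set c := ∫ y, weylChi δ y * weylE μ y with hcdef
  have hc : 0 < c := weyl_c_pos hμ hδ hμδ
  have hχ := weyl_chi_contDiff δ
  have hχc := weyl_chi_compact hδ
  have hG := weyl_conv_contDiff hF hχ hχc
  have hsub : ball x δ ⊆ K := ball_subset_closedBall.trans (closedBall_subset_closedBall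
    (by linarith))
  refine ⟨δ, hδ, fun z => c⁻¹ * weylConv F (weylChi δ) z, contDiff_const.mul hG, ?_,
    fun z hz => ?_⟩
  · have key := isOpen_ball.ae_eq_zero_of_integral_contDiff_smul_eq_zero (μ := volume)
      (U := ball x δ) (f := fun z => c * F z - weylConv F (weylChi δ) z)
      (((hF.const_mul c).locallyIntegrable.sub hG.continuous.locallyIntegrable).locallyIntegrableOn
        _) (fun φ hφ hφc hφs => by
        obtain ⟨t1, t2, t3⟩ := weyl_test hφ hφc 0
        have m1 := weyl_mean ((weyl_conv_contDiff hF t1 t2).of_le weyl_two_le)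
          hμ hδ hμδ (fun y hy => hsol _ t1 t2 y fun w hw => by
            have a1 := hφs (t3 _ hw)
            rw [mem_ball_iff_norm] at a1 hy
            rw [hK, mem_closedBall_iff_norm]
            calc ‖w - x‖ = ‖(0 - (y - w) - x) + (y - 0)‖ := by congr 1; ring
              _ ≤ ‖0 - (y - w) - x‖ + ‖y - 0‖ := norm_add_le _ _
              _ ≤ ε := by linarith)
        rw [weyl_fubini hF hχ.continuous hχc t1.continuous t2] at m1
        have m2 := weyl_fubini hF hφ.continuous hφc hχ.continuous hχc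
        have m3 : ∀ z, ∫ w, φ w * weylChi δ (w - z) = ∫ w, weylChi δ w * φ (0 - (w - z)) := by
          intro z
          rw [← integral_sub_left_eq_self (fun w => φ w * weylChi δ (w - z)) volume z]
          congr 1
          ext w
          rw [show z - w - z = -w by ring, weyl_chi_neg, show 0 - (w - z) = z - w by ring, mul_comm]
        simp_rw [m3] at m2
        obtain ⟨C, hC⟩ := hφc.exists_bound_of_continuous hφ.continuous
        have i1 : Integrable fun z => φ z * (c * F z) := (hF.const_mul c).bdd_mul (c := C)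
          hφ.continuous.aestronglyMeasurable (Eventually.of_forall hC)
        have i2 : Integrable fun z => φ z * weylConv F (weylChi δ) z :=
          (hφ.continuous.mul hG.continuous).integrable_of_hasCompactSupport hφc.mul_right
        simp only [smul_eq_mul, mul_sub]
        rw [integral_sub i1 i2, m2, m1, weylConv, ← integral_const_mul, sub_eq_zero]
        congr 1
        ext z
        rw [show (0 : ℂ) - (0 - z) = z by ring]
        ring)
    filter_upwards [key] with z hz hzb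
    have := hz hzb
    rw [hFdef, indicator_of_mem (hsub hzb)] at this
    rw [← hFdef] at this
    rw [eq_inv_mul_iff_mul_eq₀ hc.ne']
    linarith
  · rw [weyl_lap_const_mul (hG.contDiffAt.of_le weyl_two_le)]
    have := hsol _ hχ hχc z fun w hw => by
      have a1 := weyl_chi_tsupport hδ hw
      rw [mem_closedBall_iff_norm] at a1
      rw [mem_ball_iff_norm] at hz
      rw [hK, mem_closedBall_iff_norm]
      calc ‖w - x‖ = ‖(z - x) - (z - w - 0)‖ := by congr 1; ring
        _ ≤ ‖z - x‖ + ‖z - w - 0‖ := norm_sub_le _ _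
        _ ≤ ε := by linarith
    linear_combination c⁻¹ * this

/-- Weyl's lemma for the Helmholtz operator in the plane. -/
theorem weyl {U : Set ℂ} (hU : IsOpen U) {μ : ℝ} (hμ : 0 ≤ μ) {f : ℂ → ℝ}
    (hf : LocallyIntegrableOn f U)
    (h : ∀ φ : ℂ → ℝ, ContDiff ℝ ∞ φ → HasCompactSupport φ → tsupport φ ⊆ U →
      ∫ z in U, f z * (lap φ z + μ * φ z) = 0) :
    ∃ g : ℂ → ℝ, ContDiffOn ℝ ∞ g U ∧ (∀ᵐ z ∂(volume.restrict U), f z = g z) ∧
      ∀ z ∈ U, lap g z + μ * g z = 0 := by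
  choose! δ hδ G hG1 hG2 hG3 using fun x (hx : x ∈ U) => weyl_local hU hμ hf h hx
  have key : ∀ x ∈ U, ∀ y ∈ U, y ∈ ball x (δ x) → G y y = G x y := by
    intro x hx y hy hyx
    refine Measure.eqOn_open_of_ae_eq (μ := volume) (U := ball x (δ x) ∩ ball y (δ y)) ?_
      (isOpen_ball.inter isOpen_ball) (hG1 y hy).continuous.continuousOn
      (hG1 x hx).continuous.continuousOn ⟨hyx, mem_ball_self (hδ y hy)⟩
    rw [EventuallyEq, ae_restrict_iff' (isOpen_ball.inter isOpen_ball).measurableSet]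
    filter_upwards [hG2 x hx, hG2 y hy] with z h1 h2 hz
    rw [← h1 hz.1, ← h2 hz.2]
  have hev : ∀ x ∈ U, (fun y => G y y) =ᶠ[𝓝 x] G x := fun x hx => by
    filter_upwards [hU.mem_nhds hx, ball_mem_nhds x (hδ x hx)] with y h1 h2
    exact key x hx y h1 h2
  refine ⟨fun y => G y y, fun x hx => ?_, ?_, fun x hx => ?_⟩
  · exact ((hG1 x hx).contDiffAt.congr_of_eventuallyEq (hev x hx)).contDiffWithinAt
  · rw [ae_restrict_iff' hU.measurableSet, ae_iff]
    refine measure_null_of_locally_null _ fun x hx => ?_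
    simp only [mem_ofPred_eq, Classical.not_imp] at hx
    refine ⟨_, inter_mem_nhdsWithin _ (ball_mem_nhds x (hδ x hx.1)), ?_⟩
    refine measure_mono_null (fun z hz => ?_) (ae_iff.1 (hG2 x hx.1))
    simp only [mem_inter_iff, mem_ofPred_eq, Classical.not_imp] at hz ⊢
    exact ⟨hz.2, by rw [← key x hx.1 z hz.1.1 hz.2]; exact hz.1.2⟩
  · rw [lap_congr (hev x hx)]
    exact hG3 x hx x (mem_ball_self (hδ x hx))

end Vale.Agent.P071
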