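import Vale.Agent.P071.Conf
import Vale.Agent.P071.Setup
import Vale.Agent.P071.Weyl
import Vale.Agent.P071.Poincare
import Vale.Agent.P071.TransferAux

/-!
# Transfer of the Neumann problem to the disc
-/

open Complex Metric Set Filter Topology MeasureTheory
open scoped ContDiff ComplexConjugate Real

namespace Vale.Agent.P071

variable {Ω : Set ℂ} {p : ℂ} {φ ψ : ℂ → ℂ} {c C : ℝ}

lemma ConfMap.cpair (h : ConfMap Ω p φ ψ c C) : CPair D Ω φ ψ c C :=
  ⟨isOpen_ball, h.isOpen, h.c_pos, h.c_pos.trans_le ((h.lower 0 (mem_ball_self one_pos)).trans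
    (h.upper 0 (mem_ball_self one_pos))), h.diff, h.diff', h.maps, h.maps', h.left, h.right,
    h.lower, h.upper⟩

/-- Change of variables. -/
theorem ConfMap.integral_comp (h : ConfMap Ω p φ ψ c C) {E : Type*} [NormedAddCommGroup E]
    [NormedSpace ℝ E] (f : ℂ → E) : ∫ x in Ω, f x = ∫ z in D, rho φ z • f (φ z) :=
  h.cpair.integral_comp f

theorem ConfMap.memLp_comp (h : ConfMap Ω p φ ψ c C) {E : Type*} [NormedAddCommGroup E]
    [NormedSpace ℝ E] {f : ℂ → E} (hf : MemLp f 2 (volume.restrict Ω)) :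
    MemLp (fun z => f (φ z)) 2 (volume.restrict D) :=
  h.cpair.memLp_comp hf

/-- Chain rule for weak gradients. -/
theorem ConfMap.isH1_comp (h : ConfMap Ω p φ ψ c C) {v : ℂ → ℝ} {g : ℂ → ℂ} (hv : IsH1 Ω v g) :
    IsH1 D (fun z => v (φ z)) (fun z => conj (deriv φ z) * g (φ z)) :=
  h.cpair.isH1_comp hv

lemma Bdd1.tr_diff {a : ℂ → ℝ} (ha : Bdd1 a) {z : ℂ} (hz : z ∈ D) : DifferentiableAt ℝ a z :=
  (ha.cd.contDiffAt (isOpen_ball.mem_nhds hz)).differentiableAt (by simp)

lemma Bdd1.tr_isH1 {a : ℂ → ℝ} (ha : Bdd1 a) : IsH1 D a (dB fun w => (a w : ℂ)) := by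
  obtain ⟨M, hM⟩ := ha.bdd
  refine isH1_of_contDiffOn isOpen_ball ha.cd ?_ ?_
  · refine MemLp.of_bound (ha.cd.continuousOn.aestronglyMeasurable measurableSet_ball) M ?_
    filter_upwards [ae_restrict_mem measurableSet_ball] with z hz using (hM z hz).1
  · have hc : ContinuousOn (dB fun w => (a w : ℂ)) D := fun z hz =>
      (contDiffAt_dB (m := 0) (contDiffAt_ofReal' (ha.cd.contDiffAt (isOpen_ball.mem_nhds hz)))
        (by simp)).continuousAt.continuousWithinAt
    refine MemLp.of_bound (hc.aestronglyMeasurable measurableSet_ball) (2 * M) ?_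
    filter_upwards [ae_restrict_mem measurableSet_ball] with z hz
    rw [dB_ofReal (ha.tr_diff hz)]
    refine (norm_add_le _ _).trans ?_
    rw [norm_mul, norm_I, one_mul, norm_real, norm_real]
    linarith [norm_dx_le a z, norm_dy_le a z, (hM z hz).2]

lemma ConfMap.tr_dB (h : ConfMap Ω p φ ψ c C) {a : ℂ → ℝ} (ha : Bdd1 a) {x : ℂ} (hx : x ∈ Ω) :
    dB (fun x => (a (ψ x) : ℂ)) x = conj (deriv ψ x) * dB (fun w => (a w : ℂ)) (ψ x) :=
  dB_comp_holo (f := fun w => (a w : ℂ)) (differentiableAt_ofReal' (ha.tr_diff (h.maps' hx)))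
    (h.cpair.an' hx).differentiableAt

/-- Bounded `C¹` functions on the disc give `H¹` functions on `Ω`. -/
theorem ConfMap.isH1_of_bdd1 (h : ConfMap Ω p φ ψ c C) {a : ℂ → ℝ} (ha : Bdd1 a) :
    IsH1 Ω (fun x => a (ψ x)) (dB fun x => (a (ψ x) : ℂ)) := by
  refine (h.cpair.symm.isH1_comp ha.tr_isH1).congr (EventuallyEq.refl _ _) ?_
  filter_upwards [ae_restrict_mem h.isOpen.measurableSet] with x hx using (h.tr_dB ha hx).symm

lemma ConfMap.tr_integral (h : ConfMap Ω p φ ψ c C) (f : ℂ → ℝ) :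
    ∫ x in Ω, f (ψ x) = ∫ z in D, rho φ z * f z := by
  rw [h.integral_comp]
  refine setIntegral_congr_fun measurableSet_ball fun z hz => ?_
  simp only [h.left z hz, smul_eq_mul]

lemma ConfMap.tr_energy (h : ConfMap Ω p φ ψ c C) {a : ℂ → ℝ} (ha : Bdd1 a) :
    ∫ x in Ω, ‖dB (fun x => (a (ψ x) : ℂ)) x‖ ^ 2 = ∫ z in D, (dx a z ^ 2 + dy a z ^ 2) := by
  rw [h.integral_comp]
  refine setIntegral_congr_fun measurableSet_ball fun z hz => ?_
  have k := congrArg norm (h.cpair.deriv_mul hz)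
  rw [norm_mul, norm_one] at k
  rw [h.tr_dB ha (h.maps hz), h.left z hz, dB_ofReal_eq_conj (ha.tr_diff hz), norm_mul, norm_conj,
    norm_conj, mul_pow, norm_dD_ofReal_sq (ha.tr_diff hz), smul_eq_mul, rho, ← mul_assoc,
    ← mul_pow, mul_comm ‖deriv φ z‖, k]
  ring

lemma tr_rho_meas (φ : ℂ → ℂ) : Measurable (rho φ) := (measurable_deriv φ).norm.pow_const 2

lemma ConfMap.tr_rho_int (h : ConfMap Ω p φ ψ c C) {f : ℂ → ℝ}
    (hf : Integrable f (volume.restrict D)) :
    Integrable (fun z => rho φ z * f z) (volume.restrict D) := by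
  refine hf.bdd_mul (c := C ^ 2) (tr_rho_meas φ).aestronglyMeasurable ?_
  filter_upwards [ae_restrict_mem measurableSet_ball] with z hz
  rw [rho, Real.norm_eq_abs, abs_of_nonneg (sq_nonneg _)]
  exact pow_le_pow_left₀ (norm_nonneg _) (h.upper z hz) 2

lemma ConfMap.tr_rho_pos (h : ConfMap Ω p φ ψ c C) {z : ℂ} (hz : z ∈ D) : 0 < rho φ z :=
  pow_pos (h.c_pos.trans_le (h.lower z hz)) 2

lemma tr_bddBelow (Ω : Set ℂ) : BddBelow {t : ℝ | ∃ (v : ℂ → ℝ) (g : ℂ → ℂ), IsH1 Ω v g ∧
    ∫ z in Ω, v z = 0 ∧ ∫ z in Ω, v z ^ 2 ≠ 0 ∧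
      t = (∫ z in Ω, ‖g z‖ ^ 2) / ∫ z in Ω, v z ^ 2} := by
  refine ⟨0, ?_⟩
  rintro t ⟨v, g, -, -, -, rfl⟩
  exact div_nonneg (integral_nonneg fun _ => sq_nonneg _) (integral_nonneg fun _ => sq_nonneg _)

lemma ConfMap.tr_pos (h : ConfMap Ω p φ ψ c C) {f : ℂ → ℝ} (hf : Continuous f)
    (hi : Integrable f (volume.restrict D)) (h0 : ∀ z, 0 ≤ f z) {w : ℂ} (hw : w ∈ D)
    (hw' : f w ≠ 0) : 0 < ∫ z in D, rho φ z * f z := by
  rw [setIntegral_pos_iff_support_of_nonneg_ae (f := fun z => rho φ z * f z)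
    (Eventually.of_forall fun z => mul_nonneg (sq_nonneg _) (h0 z)) (h.tr_rho_int hi)]
  have ho : IsOpen (D ∩ {z | f z ≠ 0}) := isOpen_ball.inter (isOpen_ne_fun hf continuous_const)
  refine (ho.measure_pos volume ⟨w, hw, hw'⟩).trans_le (measure_mono fun z hz => ⟨?_, hz.1⟩)
  exact mul_ne_zero (h.tr_rho_pos hz.1).ne' hz.2

/-- The first positive Neumann eigenvalue is positive. -/
theorem mu1_pos (h : ConfMap Ω p φ ψ c C) : 0 < mu1 Ω := by
  obtain ⟨K, hK, hP⟩ := poincare_disc
  have hC := h.cpair.C_pos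
  have hv : 0 < volume.real (D : Set ℂ) :=
    ENNReal.toReal_pos (measure_ball_pos _ _ one_pos).ne' measure_ball_lt_top.ne
  refine lt_of_lt_of_le (show 0 < volume.real (D : Set ℂ) / (C ^ 2 * K) by positivity)
    (le_csInf ?_ ?_)
  · have hone : Integrable (fun _ : ℂ => (1 : ℝ)) (volume.restrict D) := integrable_const _
    have hr : 0 < ∫ z in D, rho φ z * 1 :=
      h.tr_pos continuous_const hone (fun _ => zero_le_one) (mem_ball_self one_pos) one_ne_zero
    set m : ℝ := (∫ z in D, rho φ z * z.re) / ∫ z in D, rho φ z * 1 with hm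
    have hb : Bdd1 fun z => z.re - m := by
      refine ⟨(reCLM.contDiff.sub contDiff_const).contDiffOn, 1 + |m|, fun z hz => ⟨?_, ?_⟩⟩
      · refine (abs_sub _ _).trans ?_
        linarith [abs_re_le_norm z, mem_ball_zero_iff.1 hz]
      · rw [fderiv_sub_const, show re = reCLM from rfl, reCLM.fderiv, reCLM_norm]
        linarith [abs_nonneg m]
    have hre : Integrable (fun z : ℂ => z.re) (volume.restrict D) := by
      refine Integrable.of_bound continuous_re.aestronglyMeasurable 1 ?_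
      filter_upwards [ae_restrict_mem measurableSet_ball] with z hz
      exact (abs_re_le_norm z).trans (mem_ball_zero_iff.1 hz).le
    refine ⟨_, _, _, h.isH1_of_bdd1 hb, ?_, ?_, rfl⟩
    · rw [h.tr_integral fun z => z.re - m]
      have : ∀ z, rho φ z * (z.re - m) = rho φ z * z.re - m * (rho φ z * 1) := fun z => by ring
      simp only [this]
      rw [integral_sub (h.tr_rho_int hre) ((h.tr_rho_int hone).const_mul m), integral_const_mul, hm,
        div_mul_cancel₀ _ hr.ne', sub_self]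
    · rw [h.tr_integral fun z => (z.re - m) ^ 2]
      have hc : Continuous fun z : ℂ => (z.re - m) ^ 2 := by fun_prop
      by_cases hm0 : m = 0
      · refine (h.tr_pos hc hb.tr_isH1.1.integrable_sq (fun _ => sq_nonneg _)
          (w := (1 / 2 : ℝ)) ?_ ?_).ne'
        · rw [mem_ball_zero_iff, norm_real]; norm_num
        · rw [hm0, ofReal_re]; norm_num
      · refine (h.tr_pos hc hb.tr_isH1.1.integrable_sq (fun _ => sq_nonneg _)
          (w := 0) (mem_ball_self one_pos) ?_).ne'
        simpa using hm0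
  · rintro t ⟨v, g, h1, h2, h3, rfl⟩
    have k1 := h.isH1_comp h1
    have k2 := hP _ _ k1
    have e1 : ∫ z in D, ‖conj (deriv φ z) * g (φ z)‖ ^ 2 = ∫ x in Ω, ‖g x‖ ^ 2 := by
      rw [h.integral_comp]
      simp only [norm_mul, norm_conj, mul_pow, smul_eq_mul, rho]
    rw [e1] at k2
    rw [h.integral_comp] at h2
    have e2 : ∫ x in Ω, v x ^ 2 = ∫ z in D, rho φ z * v (φ z) ^ 2 := h.integral_comp _
    have hpos : 0 < ∫ x in Ω, v x ^ 2 :=
      lt_of_le_of_ne (integral_nonneg fun _ => sq_nonneg _) h3.symm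
    have i0 : Integrable (fun _ : ℂ => (1 : ℝ)) (volume.restrict D) := integrable_const _
    have i1 : Integrable (fun z => v (φ z)) (volume.restrict D) := k1.1.integrable (by norm_num)
    have i2 : Integrable (fun z => v (φ z) ^ 2) (volume.restrict D) := k1.1.integrable_sq
    have k3 : ∀ s : ℝ, ∫ x in Ω, v x ^ 2 ≤ C ^ 2 * ∫ y in D, (s - v (φ y)) ^ 2 := by
      intro s
      have i3 : Integrable (fun y => (s - v (φ y)) ^ 2) (volume.restrict D) :=
        ((memLp_const s).sub k1.1).integrable_sq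
      calc ∫ x in Ω, v x ^ 2 ≤ ∫ y in D, rho φ y * (s - v (φ y)) ^ 2 := by
            have : ∀ y, rho φ y * (s - v (φ y)) ^ 2 = rho φ y * v (φ y) ^ 2 +
                (s ^ 2 * (rho φ y * 1) - 2 * s * (rho φ y * v (φ y))) := fun y => by ring
            simp only [this]
            rw [integral_add (h.tr_rho_int i2) (((h.tr_rho_int i0).const_mul _).sub'
              ((h.tr_rho_int i1).const_mul _)), integral_sub ((h.tr_rho_int i0).const_mul _)
              ((h.tr_rho_int i1).const_mul _), integral_const_mul, integral_const_mul, e2]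
            simp only [smul_eq_mul] at h2
            rw [h2]
            have : 0 ≤ ∫ y in D, rho φ y * 1 :=
              integral_nonneg fun y => mul_nonneg (sq_nonneg _) zero_le_one
            nlinarith [sq_nonneg s]
        _ ≤ _ := by
            rw [← integral_const_mul]
            refine setIntegral_mono_on (h.tr_rho_int i3) (i3.const_mul _) measurableSet_ball
              fun z hz => ?_
            exact mul_le_mul_of_nonneg_right
              (pow_le_pow_left₀ (norm_nonneg _) (h.upper z hz) 2) (sq_nonneg _)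
    have k4 : ∫ _ in D, ∫ x in Ω, v x ^ 2 ≤
        ∫ x in D, C ^ 2 * ∫ y in D, (v (φ x) - v (φ y)) ^ 2 :=
      integral_mono (integrable_const _)
        ((poin_integrable k1.1).integral_prod_left.const_mul _) fun x => k3 _
    rw [setIntegral_const, integral_const_mul, smul_eq_mul] at k4
    rw [div_le_div_iff₀ (by positivity) hpos]
    nlinarith [mul_le_mul_of_nonneg_left k2 (sq_nonneg C)]

theorem setup_of_confMap (h : ConfMap Ω p φ ψ c C) : Setup φ (mu1 Ω) c C := by
  refine ⟨h.diff, h.c_pos, h.lower, h.upper, mu1_pos h, fun a ha h0 => ?_, fun f hf hU => ?_⟩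
  · have e1 := h.tr_integral fun z => a z ^ 2
    have h1 : 0 ≤ ∫ z in D, rho φ z * a z ^ 2 :=
      integral_nonneg fun z => mul_nonneg (sq_nonneg _) (sq_nonneg _)
    rcases h1.eq_or_lt with h2 | h2
    · rw [← h2, mul_zero]
      exact integral_nonneg fun z => by positivity
    · have := csInf_le (tr_bddBelow Ω) ⟨_, _, h.isH1_of_bdd1 ha, (h.tr_integral a).trans h0,
        (e1.trans_ne h2.ne'), rfl⟩
      rw [h.tr_energy ha, e1, le_div_iff₀ h2] at this
      exact this
  · have hF : MemLp (fun x => f (ψ x)) 2 (volume.restrict Ω) := h.cpair.symm.memLp_comp hf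
    obtain ⟨g, g1, g2, g3⟩ := weyl h.isOpen (mu1_pos h).le (tr_locInt h.isOpen hF) (by
      intro W h1 h2 h3
      obtain ⟨t1, t2, t3, t4⟩ := h.cpair.test h2 h3 (η := fun z => W (φ z))
        (fun z hz => h1.contDiffAt.comp z (h.cpair.contDiffAt hz)) (fun _ _ k => k)
      rw [h.integral_comp, ← hU _ t1 t2 t3]
      refine setIntegral_congr_fun measurableSet_ball fun z hz => ?_
      rw [lap_congr (t4 z hz), lap_comp_holo_real (h1.contDiffAt.of_le (by norm_cast))
        (h.cpair.an hz), indicator_of_mem hz, h.left z hz, smul_eq_mul, rho]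
      ring)
    refine ⟨fun z => g (φ z), fun z hz => ?_, ?_, fun z hz => ?_⟩
    · exact ((g1.contDiffAt (h.isOpen.mem_nhds (h.maps hz))).comp z
        (h.cpair.contDiffAt hz)).contDiffWithinAt
    · filter_upwards [h.cpair.ae_comp g2, ae_restrict_mem measurableSet_ball] with z e hz
      rwa [h.left z hz] at e
    · rw [lap_comp_holo_real ((g1.contDiffAt (h.isOpen.mem_nhds (h.maps hz))).of_le
        (by norm_cast)) (h.cpair.an hz), rho]
      linear_combination (‖deriv φ z‖ ^ 2) * g3 _ (h.maps hz)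

theorem discEigen_of_eigen (h : ConfMap Ω p φ ψ c C) {u : ℂ → ℝ}
    (hu : IsNeumannEigen Ω u) (hc : ContinuousOn u Ω) :
    ContDiffOn ℝ ∞ u Ω ∧ DiscEigen φ (mu1 Ω) (fun z => u (φ z)) := by
  obtain ⟨g, hg, hw⟩ := hu
  obtain ⟨u', g1, g2, g3⟩ := weyl h.isOpen (mu1_pos h).le (tr_locInt h.isOpen hg.1) (by
    intro W h1 h2 h3
    have c1 : ContDiff ℝ ∞ fun w => (W w : ℂ) := ofRealCLM.contDiff.comp h1
    have c2 : HasCompactSupport fun w => (W w : ℂ) := h2.comp_left (g := ofReal) rfl
    have mW : MemLp W 2 (volume.restrict Ω) := h1.continuous.memLp_of_hasCompactSupport h2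
    have hW : IsH1 Ω W (dB fun w => (W w : ℂ)) :=
      isH1_of_contDiffOn h.isOpen (h1.of_le (by norm_cast)).contDiffOn mW (tr_memLp_dB c1 c2 Ω)
    have e := hw _ _ hW
    have hd := h1.differentiable (by simp)
    simp only [tr_dB_re (hd _), tr_dB_im (hd _)] at e
    have s1 : ∀ v : ℂ, ContDiff ℝ ∞ fun z => fderiv ℝ W z v := fun v =>
      (h1.fderiv_right (m := ∞) (by norm_cast)).clm_apply contDiff_const
    have s2 : ∀ v : ℂ, HasCompactSupport fun z => fderiv ℝ W z v := fun v => h2.fderiv_apply ℝ v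
    have s3 : ∀ v : ℂ, tsupport (fun z => fderiv ℝ W z v) ⊆ Ω := fun v =>
      (tsupport_fderiv_apply_subset ℝ v).trans h3
    have e1 : ∫ z in Ω, u z * dx (dx W) z = -∫ z in Ω, (g z).re * dx W z :=
      (hg.2.2 _ (s1 1) (s2 1) (s3 1)).1
    have e2 : ∫ z in Ω, u z * dy (dy W) z = -∫ z in Ω, (g z).im * dy W z :=
      (hg.2.2 _ (s1 I) (s2 I) (s3 I)).2
    have m1 : MemLp (dx (dx W)) 2 (volume.restrict Ω) := tr_memLp_fderiv (s1 1) (s2 1) 1 Ω
    have m2 : MemLp (dy (dy W)) 2 (volume.restrict Ω) := tr_memLp_fderiv (s1 I) (s2 I) I Ω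
    have m3 : MemLp (dx W) 2 (volume.restrict Ω) := tr_memLp_fderiv h1 h2 1 Ω
    have m4 : MemLp (dy W) 2 (volume.restrict Ω) := tr_memLp_fderiv h1 h2 I Ω
    have gr : MemLp (fun z => (g z).re) 2 (volume.restrict Ω) := hg.2.1.re
    have gi : MemLp (fun z => (g z).im) 2 (volume.restrict Ω) := hg.2.1.im
    have : ∀ z, u z * (lap W z + mu1 Ω * W z) =
        u z * dx (dx W) z + u z * dy (dy W) z + mu1 Ω * (u z * W z) := fun z => by
      rw [lap]; ring
    simp only [this]
    rw [integral_add (tr_mul gr m3) (tr_mul gi m4)] at e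
    rw [integral_add ((tr_mul hg.1 m1).fun_add (tr_mul hg.1 m2)) ((tr_mul hg.1 mW).const_mul _),
      integral_add (tr_mul hg.1 m1) (tr_mul hg.1 m2), integral_const_mul, e1, e2, ← e]
    ring)
  have hE : EqOn u u' Ω := Measure.eqOn_open_of_ae_eq g2 h.isOpen hc g1.continuousOn
  have hs : ContDiffOn ℝ ∞ u Ω := g1.congr hE
  have hsa : ∀ z ∈ D, ContDiffAt ℝ ∞ u (φ z) := fun z hz =>
    hs.contDiffAt (h.isOpen.mem_nhds (h.maps hz))
  have hae := h.cpair.ae_comp (hg.ae_eq_dB h.isOpen (hs.of_le (by norm_cast)))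
  have hda : ∀ z ∈ D, DifferentiableAt ℝ (fun z => u (φ z)) z := fun z hz =>
    ((hsa z hz).comp z (h.cpair.contDiffAt hz)).differentiableAt (by simp)
  have hdB : ∀ z ∈ D, dB (fun z => (u (φ z) : ℂ)) z =
      conj (deriv φ z) * dB (fun w => (u w : ℂ)) (φ z) := fun z hz =>
    dB_comp_holo (f := fun w => (u w : ℂ))
      (differentiableAt_ofReal' ((hsa z hz).differentiableAt (by simp)))
      (h.cpair.an hz).differentiableAt
  refine ⟨hs, fun z hz => ((hsa z hz).comp z (h.cpair.contDiffAt hz)).contDiffWithinAt,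
    fun z hz => ?_, h.memLp_comp hg.1, ?_, fun b hb => ?_⟩
  · have e : u =ᶠ[𝓝 (φ z)] u' := by
      filter_upwards [h.isOpen.mem_nhds (h.maps hz)] with w hw using hE hw
    rw [lap_comp_holo_real ((hsa z hz).of_le (by norm_cast)) (h.cpair.an hz), rho, lap_congr e,
      hE (h.maps hz)]
    linear_combination (‖deriv φ z‖ ^ 2) * g3 _ (h.maps hz)
  · have m := conjCLE.toContinuousLinearMap.comp_memLp' (h.isH1_comp hg).2.1
    refine m.ae_eq ?_
    filter_upwards [hae, ae_restrict_mem measurableSet_ball] with z e hz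
    have k := dB_ofReal_eq_conj (hda z hz)
    rw [hdB z hz, ← e] at k
    simp only [Function.comp_apply]
    rw [k]
    simp
  · have e := hw _ _ (h.isH1_of_bdd1 hb)
    rw [h.integral_comp, h.integral_comp] at e
    convert e using 1
    · refine integral_congr_ae ?_
      filter_upwards [hae, ae_restrict_mem measurableSet_ball] with z e hz
      have k := h.cpair.deriv_mul hz
      have k1 := hdB z hz
      have k2 := h.tr_dB hb (h.maps hz)
      rw [h.left z hz] at k2
      rw [← tr_dB_re (hda z hz), ← tr_dB_im (hda z hz), ← tr_dB_re (hb.tr_diff hz),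
        ← tr_dB_im (hb.tr_diff hz), k1, k2, e, smul_eq_mul, rho]
      generalize dB (fun w => (u w : ℂ)) (φ z) = X
      generalize dB (fun w => (b w : ℂ)) z = Y
      have r := congrArg re k
      have i := congrArg im k
      simp only [mul_re, mul_im, one_re, one_im] at r i
      simp only [mul_re, mul_im, conj_re, conj_im, Complex.sq_norm, normSq_apply]
      generalize (deriv ψ (φ z)).re = s at *
      generalize (deriv ψ (φ z)).im = t at *
      generalize (deriv φ z).re = a at *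
      generalize (deriv φ z).im = b at *
      linear_combination (-(a * (X.re * Y.re + X.im * Y.im) + b * (X.im * Y.re - X.re * Y.im))) * r
        + (-(b * (X.re * Y.re + X.im * Y.im) - a * (X.im * Y.re - X.re * Y.im))) * i
    · congr 1
      refine setIntegral_congr_fun measurableSet_ball fun z hz => ?_
      simp only [h.left z hz, smul_eq_mul]

end Vale.Agent.P071
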