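import Vale.Agent.P071.Limit
import Vale.Agent.P071.ModeZero
import Vale.Agent.P071.NoRel
import Vale.Agent.P071.Ground
import Vale.Agent.P071.Transfer

/-!
# No interior critical points
-/

open Complex Metric Set Filter Topology MeasureTheory
open scoped ContDiff ComplexConjugate Real

namespace Vale.Agent.P071

lemma fin_ec_arg {s : ℂ} (hs : s ∈ S1) : ec (arg s) = s := by
  have h := norm_mul_exp_arg_mul_I s
  rw [mem_sphere_zero_iff_norm.1 hs] at h
  simpa [circleMap] using h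

lemma fin_comp {f : ℂ → ℝ} (hf : ContinuousOn f S1) : Continuous fun s : ℝ => f (ec s) :=
  hf.comp_continuous (continuous_circleMap 0 1) ec_mem

lemma fin_int {f : ℝ → ℝ} (hf : Continuous f) : Integrable f mc :=
  hf.integrableOn_Icc.mono_set Ioc_subset_Icc_self

/-- A continuous function on the circle orthogonal to all smooth functions vanishes. -/
lemma fin_zero {f : ℂ → ℝ} (hf : ContinuousOn f S1)
    (h : ∀ K : ℂ → ℝ, ContDiff ℝ ∞ K → ∫ s, f (ec s) * K (ec s) ∂mc = 0) : ∀ s ∈ S1, f s = 0 := by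
  have hc := fin_comp hf
  have i1 : Integrable (fun s => f (ec s) * f (ec s)) mc := fin_int (hc.mul hc)
  have h0 : 0 ≤ ∫ s, |f (ec s)| ∂mc := integral_nonneg fun s => abs_nonneg _
  have h1 : ∫ s, f (ec s) * f (ec s) ∂mc ≤ 0 := by
    refine le_of_forall_pos_le_add fun ε hε => ?_
    obtain ⟨K, hK, hK'⟩ := dense_circle hf (div_pos hε (show 0 < (∫ s, |f (ec s)| ∂mc) + 1 by linarith))
    have i2 : Integrable (fun s => f (ec s) * K (ec s)) mc :=
      fin_int (hc.mul (fin_comp hK.continuous.continuousOn))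
    have h2 := integral_sub i1 i2
    rw [h K hK, sub_zero] at h2
    have h3 : ∫ s, (f (ec s) * f (ec s) - f (ec s) * K (ec s)) ∂mc ≤
        ∫ s, ε / ((∫ s, |f (ec s)| ∂mc) + 1) * |f (ec s)| ∂mc := by
      refine integral_mono (i1.sub i2) ((fin_int hc.abs).const_mul _) fun s => ?_
      beta_reduce
      rw [← mul_sub, mul_comm (ε / _)]
      refine (le_abs_self _).trans ?_
      rw [abs_mul]
      exact mul_le_mul_of_nonneg_left (hK' _ (ec_mem s)) (abs_nonneg _)
    rw [integral_const_mul, h2, div_mul_eq_mul_div, le_div_iff₀ (by linarith)] at h3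
    rw [zero_add]
    by_contra hcon
    have := mul_lt_mul_of_pos_right (not_le.1 hcon) (show 0 < (∫ s, |f (ec s)| ∂mc) + 1 by linarith)
    nlinarith
  have h4 := (integral_eq_zero_iff_of_nonneg (fun s => mul_self_nonneg (f (ec s))) i1).1
    (le_antisymm h1 (integral_nonneg fun s => mul_self_nonneg _))
  have h5 := Measure.eqOn_Ioc_of_ae_eq volume h4 (hc.mul hc).continuousOn continuousOn_const
  intro s hs
  have h6 := h5 (arg_mem_Ioc s)
  simp only [fin_ec_arg hs, Pi.zero_apply] at h6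
  exact mul_self_eq_zero.1 h6

lemma fin_three {g : ℂ → ℝ} (hg : ContinuousOn g S1) {s₀ : ℂ} (hs₀ : s₀ ∈ S1) (h0 : g s₀ ≠ 0) :
    ∃ s : Fin 3 → ℂ, (∀ i, s i ∈ S1) ∧ Function.Injective s ∧ ∀ i, g (s i) ≠ 0 := by
  have h1 : ∀ᶠ t in 𝓝 (arg s₀), g (ec t) ≠ 0 :=
    (fin_comp hg).continuousAt.eventually_ne (by rwa [fin_ec_arg hs₀])
  obtain ⟨δ, hδ, h2⟩ := Metric.eventually_nhds_iff.1 h1
  have hη : 0 < min δ 1 := lt_min hδ one_pos
  have hη1 := min_le_left δ 1
  have hη2 := min_le_right δ 1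
  have hb : ∀ i : Fin 3, 0 ≤ ((i : ℕ) : ℝ) ∧ ((i : ℕ) : ℝ) ≤ 2 := fun i =>
    ⟨Nat.cast_nonneg _, by exact_mod_cast Nat.le_of_lt_succ i.2⟩
  refine ⟨fun i => ec (arg s₀ + (i : ℕ) * (min δ 1 / 3)), fun i => ec_mem _, fun i j hij => ?_,
    fun i => h2 ?_⟩
  · have h3 := eq_of_circleMap_eq one_ne_zero (by
      rw [abs_lt]
      constructor <;> nlinarith [hb i, hb j, Real.pi_gt_three]) hij
    have h4 : ((i : ℕ) : ℝ) = (j : ℕ) :=
      mul_right_cancel₀ (show min δ 1 / 3 ≠ 0 by positivity) (add_left_cancel h3)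
    exact Fin.ext (by exact_mod_cast h4)
  · rw [Real.dist_eq, add_sub_cancel_left, abs_of_nonneg (by nlinarith [hb i])]
    nlinarith [hb i]

lemma fin_linalg {T : Set ℂ} {w : ℂ → Fin 3 → ℝ}
    (h : ∀ t ∈ T, ∀ t' ∈ T, ∃ l : Fin 3 → ℝ, l ≠ 0 ∧ ∀ i, l 0 + l 1 * w t i + l 2 * w t' i = 0) :
    ∃ γ : Fin 3 → ℝ, γ ≠ 0 ∧ ∀ t ∈ T, ∑ i, γ i * w t i = 0 := by
  by_cases hc : ∀ t ∈ T, w t 0 = w t 1 ∧ w t 1 = w t 2
  · refine ⟨![1, -1, 0], fun h0 => ?_, fun t ht => ?_⟩
    · simpa using congrFun h0 0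
    · simp [Fin.sum_univ_three, (hc t ht).1]
  push Not at hc
  obtain ⟨t, ht, hne⟩ := hc
  refine ⟨![w t 2 - w t 1, w t 0 - w t 2, w t 1 - w t 0], fun h0 => ?_, fun t' ht' => ?_⟩
  · have a0 : w t 2 - w t 1 = 0 := congrFun h0 0
    have a2 : w t 1 - w t 0 = 0 := congrFun h0 2
    exact hne (by linarith) (by linarith)
  obtain ⟨l, hl, e⟩ := h t ht t' ht'
  have hl2 : l 2 ≠ 0 := by
    intro h2
    have e0 := e 0
    have e1 := e 1
    have e2 := e 2
    rw [h2] at e0 e1 e2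
    have h1 : l 1 = 0 := by
      by_contra h1
      exact hne (mul_left_cancel₀ h1 (by linarith)) (mul_left_cancel₀ h1 (by linarith))
    rw [h1] at e0
    refine hl (funext fun i => ?_)
    fin_cases i
    · simpa using e0
    · exact h1
    · exact h2
  refine mul_left_cancel₀ hl2 ?_
  simp only [Fin.sum_univ_three, Matrix.cons_val_zero, Matrix.cons_val_one, Matrix.cons_val]
  linear_combination (w t 2 - w t 1) * e 0 + (w t 0 - w t 2) * e 1 + (w t 1 - w t 0) * e 2

lemma fin_dd_cont {ν : ℂ → ℝ} {A θ : ℝ} (hν : Pot ν A θ) {t : ℂ} (ht : t ∈ Db) (ht0 : t ≠ 0) :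
    ContinuousOn (fun s => dd ν s t) S1 := by
  obtain ⟨H, _, _, β, hβ⟩ := (lorentz hν).exists_embedding
    (fun p hp q hq => dd_symm hν hp.1 hq.1) (fun p _ => by simp [dd])
  obtain ⟨L, hL, h⟩ := exists_circle_bound A θ
  have hm : ∀ s ∈ S1, s ∈ Db \ {0} := fun s hs => ⟨kern0_S1_sub hs, fun h0 => by
    rw [mem_singleton_iff.1 h0] at hs
    simp at hs⟩
  have h1 : LipschitzOnWith ⟨L, hL⟩ β S1 := LipschitzOnWith.of_dist_le_mul fun s hs s' hs' => by
    rw [dist_eq_norm, dist_eq_norm]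
    refine (pow_le_pow_iff_left₀ (norm_nonneg _) (mul_nonneg hL (norm_nonneg _)) two_ne_zero).1 ?_
    rw [hβ s (hm s hs) s' (hm s' hs'), mul_pow]
    exact (h ν hν s hs s' hs').2.2
  exact ((h1.continuousOn.sub continuousOn_const).norm.pow 2).congr fun s hs =>
    (hβ s (hm s hs) t ⟨ht, ht0⟩).symm

lemma fin_ell {φ : ℂ → ℂ} {μ c C : ℝ} (S : Setup φ μ c C) {v Φ : Fin 3 → ℂ → ℂ}
    (h : ∀ i, Adm φ (v i) (Φ i)) {l : Fin 3 → ℝ}
    (h1 : ∀ᵐ z ∂(volume.restrict D), ∑ i, (l i : ℂ) * v i z = 0)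
    (h2 : ∀ᵐ z ∂(volume.restrict D), ∑ i, (l i : ℂ) * Φ i z = 0) {K : ℂ → ℝ}
    (hK : ContDiff ℝ ∞ K) : ∑ i, l i * ell φ K (v i) (Φ i) = 0 := by
  have k1 : ContDiff ℝ 1 fun w => I * (K w : ℂ) := contDiff_const.mul
    (contDiff_iff_contDiffAt.2 fun z => contDiffAt_ofReal' (hK.of_le zm_one_le).contDiffAt)
  have hi : ∀ i, Integrable (fun z => l i * (v i z * conj (dD (fun w => I * (K w : ℂ)) z) +
      deriv φ z * Φ i z * conj (I * (K z : ℂ))).re) (volume.restrict D) := fun i =>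
    ((integrableOn_mul_conj_re (h i).l2v (BM.dD_of_contDiff k1).memLp).add
      (integrableOn_mul_conj_re (S.memLp_mul (h i).l2F)
        (BM.of_continuous k1.continuous).memLp)).const_mul (l i)
  simp only [ell, ← integral_const_mul]
  rw [← integral_finsetSum _ fun i _ => hi i]
  refine integral_eq_zero_of_ae ?_
  filter_upwards [h1, h2] with z e1 e2
  have e3 := congrArg re (show (∑ i, (l i : ℂ) * v i z) * conj (dD (fun w => I * (K w : ℂ)) z) +
    deriv φ z * (∑ i, (l i : ℂ) * Φ i z) * conj (I * (K z : ℂ)) = 0 by rw [e1, e2]; simp)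
  rw [Pi.zero_apply, ← zero_re, ← e3]
  simp only [← re_ofReal_mul, ← re_sum, Fin.sum_univ_three]
  congr 1
  ring

theorem disc_no_critical {φ : ℂ → ℂ} {μ c C : ℝ} (S : Setup φ μ c C) {a : ℂ → ℝ}
    (h : DiscEigen φ μ a) (hne : ∃ z ∈ D, a z ≠ 0) : dD (fun z => (a z : ℂ)) 0 ≠ 0 := by
  intro hcrit
  obtain ⟨θ, hθ, hP, hG⟩ := exists_ground S
  have h₀ := h.zeroMode S
  obtain ⟨a', V, hm⟩ := exists_mode S hθ hG h₀
  have hcD : ContinuousOn (dD fun z => (a z : ℂ)) D := fun z hz =>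
    (contDiffAt_dD (m := 0) (contDiffAt_ofReal' (sl_contDiffAt h.smooth hz))
      (by simp)).continuousAt.continuousWithinAt
  have hV : V 0 = 0 := by
    rw [← Measure.eqOn_open_of_ae_eq hm.v_eq isOpen_ball hcD
      (hm.contV.mono ball_subset_closedBall) (mem_ball_self one_pos), hcrit]
  have hne' : ∃ z ∈ D, a' z ≠ 0 := by
    have e : a =ᵐ[volume.restrict D] a' := by
      filter_upwards [sl_ae_mem, hm.F_eq] with z hz e
      have e1 : deriv φ z * -(μ * conj (deriv φ z) * a z) = -(μ * rho φ z * a z : ℝ) := by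
        push_cast; rw [rho_eq]; ring
      rw [e1, neg_inj, ofReal_inj] at e
      exact mul_left_cancel₀ (mul_pos S.mu_pos (S.rho_pos hz)).ne' e
    obtain ⟨z, hz, hz0⟩ := hne
    exact ⟨z, hz, by rwa [← Measure.eqOn_open_of_ae_eq e isOpen_ball h.smooth.continuousOn
      hm.smooth.continuousOn hz]⟩
  obtain ⟨s₀, hs₀, hg₀⟩ := hm.exists_im_ne_zero S hθ hG h₀ hne'
  have hg : ContinuousOn (fun s => (s * V s).im) S1 :=
    continuous_im.comp_continuousOn (continuousOn_id.mul (hm.contV.mono kern0_S1_sub))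
  obtain ⟨s, hs, hinj, hgs⟩ := fin_three hg hs₀ hg₀
  have hν := hP 1 one_pos le_rfl
  have hb : ∀ t ∈ Db \ {0}, ContinuousOn (fun s => dd (nu φ μ 1) s 1 - dd (nu φ μ 1) s t) S1 :=
    fun t ht => (fin_dd_cont hν (by simp) one_ne_zero).sub (fin_dd_cont hν ht.1 ht.2)
  obtain ⟨γ, hγ, hγ'⟩ := fin_linalg (T := Db \ {0})
    (w := fun t i => dd (nu φ μ 1) (s i) 1 - dd (nu φ μ 1) (s i) t) fun t ht t' ht' => by
      obtain ⟨v₁, Φ₁, z₁, e₁⟩ := exists_zeroMode_point S hθ hG h₀ hm hP hV ht.1 ht.2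
      obtain ⟨v₂, Φ₂, z₂, e₂⟩ := exists_zeroMode_point S hθ hG h₀ hm hP hV ht'.1 ht'.2
      have hz : ∀ i, ZeroMode φ μ (![dD fun z => (a z : ℂ), v₁, v₂] i)
          (![fun z => -(μ * conj (deriv φ z) * a z), Φ₁, Φ₂] i) := fun i => by
        fin_cases i
        · exact h₀
        · exact z₁
        · exact z₂
      obtain ⟨l, hl, h1, h2⟩ := three_dependent S hθ hG hz
      refine ⟨l, hl, fun i => ?_⟩
      have hf := fin_zero (f := fun s => (l 0 + l 1 * (dd (nu φ μ 1) s 1 - dd (nu φ μ 1) s t) +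
          l 2 * (dd (nu φ μ 1) s 1 - dd (nu φ μ 1) s t')) * (s * V s).im)
        (((continuousOn_const.add ((hb t ht).const_mul _)).add ((hb t' ht').const_mul _)).mul hg)
        (fun K hK => by
          have e := fin_ell S (fun i => (hz i).adm) h1 h2 hK
          have e₀ := hm.ell_mul S (m := fun _ => 1) contDiff_const hK
          simp only [ofReal_one, one_mul, dB_const, zero_mul, zero_div, add_zero] at e₀
          simp only [Fin.sum_univ_three, Matrix.cons_val_zero, Matrix.cons_val_one,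
            Matrix.cons_val] at e
          have cK := fin_comp hK.continuous.continuousOn
          have cg := fin_comp hg
          have i0 := (fin_int (cK.mul cg)).const_mul (l 0)
          have i1 := (fin_int (((fin_comp (hb t ht)).mul cK).mul cg)).const_mul (l 1)
          have i2 := (fin_int (((fin_comp (hb t' ht')).mul cK).mul cg)).const_mul (l 2)
          have i3 := integral_add i0 i1
          have i4 := integral_add (i0.add i1) i2
          simp only [Pi.add_apply, Pi.mul_apply] at i3 i4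
          rw [i3] at i4
          simp only [integral_const_mul] at i4
          rw [← e₀, ← e₁ K hK, ← e₂ K hK, e] at i4
          rw [← i4]
          refine integral_congr_ae (Eventually.of_forall fun s => ?_)
          beta_reduce
          ring) (s i) (hs i)
      exact (mul_eq_zero.1 hf).resolve_right (hgs i)
  refine hγ (no_relation hν hs hinj (κ := ∑ i, γ i * dd (nu φ μ 1) (s i) 1) fun t ht ht0 => ?_)
  have e := hγ' t ⟨ht, ht0⟩
  simp only [mul_sub, Finset.sum_sub_distrib] at e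
  linarith

theorem no_critical_point {Ω : Set ℂ} (hopen : IsOpen Ω) (hbdd : Bornology.IsBounded Ω)
    (hsc : IsSimplyConnected Ω) (hC2 : HasC2Boundary Ω) {u : ℂ → ℝ} (hu : IsNeumannEigen Ω u)
    (hc : ContinuousOn u Ω) (hne : ∃ x ∈ Ω, u x ≠ 0) : ∀ x ∈ Ω, fderiv ℝ u x ≠ 0 := by
  intro x hx h0
  obtain ⟨φ, ψ, c, C, h⟩ := exists_confMap hopen hbdd hsc hC2 hx
  obtain ⟨hu', hD⟩ := discEigen_of_eigen h hu hc
  obtain ⟨y, hy, hy0⟩ := hne
  refine disc_no_critical (setup_of_confMap h) hD ⟨ψ y, h.maps' hy, by rwa [h.right y hy]⟩ ?_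
  have d1 : DifferentiableAt ℝ u (φ 0) := by
    rw [h.zero]
    exact (hu'.contDiffAt (hopen.mem_nhds hx)).differentiableAt (by simp)
  rw [dD_comp_holo (f := fun w => (u w : ℂ)) (differentiableAt_ofReal' d1)
    (h.diff.differentiableAt (ball_mem_nhds 0 one_pos)), dD_ofReal d1, h.zero, dx, dy, h0]
  simp

end Vale.Agent.P071
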