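import Vale.Agent.P071.Kernel0
import Vale.Agent.P071.Dense

/-!
# Green representation formula
-/

open Complex Metric Set Filter Topology MeasureTheory
open scoped ContDiff ComplexConjugate Real

namespace Vale.Agent.P071

/-- The regularised logarithm. -/
noncomputable def repL (ε : ℝ) (y : ℂ) : ℂ := (Real.log (‖y‖ ^ 2 + ε) : ℝ)

variable {ε : ℝ}

lemma rep_contDiff_real (hε : 0 < ε) : ContDiff ℝ ∞ fun y : ℂ => Real.log (‖y‖ ^ 2 + ε) :=
  ((contDiff_norm_sq ℝ).add contDiff_const).log fun y => by positivity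

lemma rep_contDiff (hε : 0 < ε) : ContDiff ℝ ∞ (repL ε) :=
  ofRealCLM.contDiff.comp (rep_contDiff_real hε)

lemma rep_fderiv (hε : 0 < ε) (y w : ℂ) :
    fderiv ℝ (fun y : ℂ => Real.log (‖y‖ ^ 2 + ε)) y w =
      2 * (y.re * w.re + y.im * w.im) / (‖y‖ ^ 2 + ε) := by
  have h1 : HasFDerivAt (fun y : ℂ => ‖y‖ ^ 2 + ε) (2 • innerSL ℝ y) y :=
    (hasStrictFDerivAt_norm_sq y).hasFDerivAt.add_const ε
  have h2 := h1.log (by positivity)
  rw [h2.fderiv]
  simp [Complex.inner]
  field_simp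

lemma rep_dD (hε : 0 < ε) (y : ℂ) : dD (repL ε) y = 2 * conj y / ((‖y‖ ^ 2 + ε : ℝ) : ℂ) := by
  have h := dD_ofReal (z := y) ((rep_contDiff_real hε).differentiable (by simp) y)
  have h0 : ((‖y‖ ^ 2 + ε : ℝ) : ℂ) ≠ 0 := ofReal_ne_zero.mpr (by positivity)
  unfold repL
  rw [h, dx, dy, rep_fderiv hε, rep_fderiv hε, ofReal_div, ofReal_div]
  field_simp
  apply Complex.ext <;> simp

lemma rep_dB (hε : 0 < ε) (y : ℂ) : dB (repL ε) y = 2 * y / ((‖y‖ ^ 2 + ε : ℝ) : ℂ) := by
  have h := dB_ofReal_eq_conj (z := y) ((rep_contDiff_real hε).differentiable (by simp) y)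
  have h' := rep_dD hε y
  unfold repL at h' ⊢
  rw [h, h', map_div₀, conj_ofReal, map_mul, conj_conj, map_ofNat]

lemma rep_lap (hε : 0 < ε) (y : ℂ) :
    lap (repL ε) y = ((4 * ε / (‖y‖ ^ 2 + ε) ^ 2 : ℝ) : ℂ) := by
  have hc : ContDiffAt ℝ 2 (repL ε) y := ((rep_contDiff hε).of_le dense_two_le).contDiffAt
  have d1 : DifferentiableAt ℝ (dD (repL ε)) y :=
    (contDiffAt_dD (m := 1) hc (by norm_num)).differentiableAt (by norm_num)
  have hN : ∀ w : ℂ, ((‖w‖ ^ 2 + ε : ℝ) : ℂ) = w * conj w + ε := fun w => by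
    rw [mul_conj, normSq_eq_norm_sq]; push_cast; ring
  have h0 : ∀ w : ℂ, w * conj w + ε ≠ 0 := fun w => by
    rw [← hN]; exact ofReal_ne_zero.mpr (by positivity)
  have di : DifferentiableAt ℝ (fun w : ℂ => w) y := differentiableAt_id
  have dc : DifferentiableAt ℝ (fun w : ℂ => conj w) y := differentiableAt_conj' di
  have d2 : DifferentiableAt ℝ (fun w : ℂ => w * conj w + ε) y := (di.fun_mul dc).add_const _
  have e1 : (fun w => dD (repL ε) w * (w * conj w + ε)) = fun w => 2 * conj w := by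
    funext w
    rw [rep_dD hε, hN, div_mul_cancel₀ _ (h0 w)]
  have b1 : dB (fun w : ℂ => w) y = 0 := dB_holo differentiableAt_id
  have b2 : dB (fun w : ℂ => conj w) y = 2 := by
    rw [dB_conj di, dD_holo (f := fun w : ℂ => w) differentiableAt_id]
    simp [map_ofNat]
  have e2 := dB_mul d1 d2
  rw [e1, dB_const_mul 2 dc, dB_add (di.fun_mul dc) (differentiableAt_const _), dB_mul di dc, b1,
    b2, dB_const, dB_dD hc, rep_dD hε, hN] at e2
  have e3 : ((4 * ε / (‖y‖ ^ 2 + ε) ^ 2 : ℝ) : ℂ) = 4 * ε / (y * conj y + ε) ^ 2 := by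
    rw [← hN]; push_cast; ring
  rw [e3]
  have h1 := h0 y
  field_simp at e2 ⊢
  linear_combination -e2

lemma rep_norm_sq (x y : ℂ) : ‖1 - conj x * y‖ ^ 2 = ‖y - x‖ ^ 2 + dl x * dl y := by
  simp only [dl, Complex.sq_norm, normSq_apply, sub_re, sub_im, mul_re, mul_im, one_re, one_im,
    conj_re, conj_im]
  ring

/-- The regularised Green function. -/
noncomputable def repG (ε : ℝ) (x y : ℂ) : ℂ :=
  (1 / (4 * π) : ℝ) * (repL ε (1 - conj x * y) - repL ε (y - x))

lemma rep_an1 (x y : ℂ) : AnalyticAt ℂ (fun w => 1 - conj x * w) y := by fun_prop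

lemma rep_an2 (x y : ℂ) : AnalyticAt ℂ (fun w => w - x) y := by fun_prop

lemma rep_deriv1 (x y : ℂ) : deriv (fun w => 1 - conj x * w) y = -conj x := by
  simp

lemma rep_deriv2 (x y : ℂ) : deriv (fun w => w - x) y = 1 := by simp

lemma rep_cd1 (hε : 0 < ε) (x : ℂ) : ContDiff ℝ 2 fun w => repL ε (1 - conj x * w) :=
  ((rep_contDiff hε).of_le dense_two_le).comp (contDiff_const.sub (contDiff_const.mul contDiff_id))

lemma rep_cd2 (hε : 0 < ε) (x : ℂ) : ContDiff ℝ 2 fun w => repL ε (w - x) :=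
  ((rep_contDiff hε).of_le dense_two_le).comp (contDiff_id.sub contDiff_const)

lemma repG_contDiff (hε : 0 < ε) (x : ℂ) : ContDiff ℝ 2 (repG ε x) :=
  contDiff_const.mul ((rep_cd1 hε x).sub (rep_cd2 hε x))

lemma repG_eq (hε : 0 < ε) {x y : ℂ} (hx : x ∈ Db) (hy : y ∈ Db) :
    repG ε x y = ((Real.log (1 + dl x * dl y / (‖y - x‖ ^ 2 + ε)) / (4 * π) : ℝ) : ℂ) := by
  have h1 := mul_nonneg (dl_nonneg hx) (dl_nonneg hy)
  have h2 : 1 + dl x * dl y / (‖y - x‖ ^ 2 + ε) =
      (‖y - x‖ ^ 2 + dl x * dl y + ε) / (‖y - x‖ ^ 2 + ε) := by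
    field_simp
    ring
  rw [h2, Real.log_div (by positivity) (by positivity), repG, repL, repL, rep_norm_sq]
  push_cast
  ring

lemma repG_lap (hε : 0 < ε) (x y : ℂ) :
    lap (repG ε x) y = ((‖x‖ ^ 2 * ε / (π * (‖1 - conj x * y‖ ^ 2 + ε) ^ 2) -
      ε / (π * (‖y - x‖ ^ 2 + ε) ^ 2) : ℝ) : ℂ) := by
  have hc : ∀ w, ContDiffAt ℝ 2 (repL ε) w := fun w =>
    ((rep_contDiff hε).of_le dense_two_le).contDiffAt
  unfold repG
  rw [lap_mul contDiffAt_const ((rep_cd1 hε x).sub (rep_cd2 hε x)).contDiffAt,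
    lap_sub (rep_cd1 hε x).contDiffAt (rep_cd2 hε x).contDiffAt,
    lap_comp_holo (φ := fun w => 1 - conj x * w) (hc _) (rep_an1 x y),
    lap_comp_holo (φ := fun w => w - x) (hc _) (rep_an2 x y), rep_lap hε, rep_lap hε,
    rep_deriv1, rep_deriv2, lap_const, dx_const, dy_const, norm_neg, norm_conj, norm_one]
  simp only [zero_mul, add_zero, mul_zero, zero_add, one_pow]
  norm_cast
  have := Real.pi_pos
  field_simp

lemma repG_normal (hε : 0 < ε) (x : ℂ) {s : ℂ} (hs : s ∈ S1) :
    fderiv ℝ (repG ε x) s s = -((dl x / (2 * π * (‖s - x‖ ^ 2 + ε)) : ℝ) : ℂ) := by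
  have hd : ∀ w, DifferentiableAt ℝ (repL ε) w := fun w =>
    (rep_contDiff hε).differentiable (by simp) w
  have d1 := (rep_cd1 hε x).differentiable (by norm_num) s
  have d2 := (rep_cd2 hε x).differentiable (by norm_num) s
  have h1 : s * conj s = 1 := by
    rw [mul_conj, normSq_eq_norm_sq, mem_sphere_zero_iff_norm.mp hs]; simp
  have h2 : ((dl x : ℝ) : ℂ) = 1 - x * conj x := by
    rw [mul_conj, normSq_eq_norm_sq, dl]; push_cast; ring
  have h0 : ((‖s - x‖ ^ 2 + ε : ℝ) : ℂ) ≠ 0 := ofReal_ne_zero.mpr (by positivity)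
  have hπ : (π : ℂ) ≠ 0 := ofReal_ne_zero.mpr Real.pi_pos.ne'
  rw [fderiv_apply_eq_dD_dB]
  unfold repG
  rw [dD_const_mul _ (d1.fun_sub d2), dB_const_mul _ (d1.fun_sub d2), dD_sub d1 d2, dB_sub d1 d2,
    dD_comp_holo (φ := fun w => 1 - conj x * w) (hd _) (rep_an1 x s).differentiableAt,
    dD_comp_holo (φ := fun w => w - x) (hd _) (rep_an2 x s).differentiableAt,
    dB_comp_holo (φ := fun w => 1 - conj x * w) (hd _) (rep_an1 x s).differentiableAt,
    dB_comp_holo (φ := fun w => w - x) (hd _) (rep_an2 x s).differentiableAt,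
    rep_dD hε, rep_dD hε, rep_dB hε, rep_dB hε, rep_deriv1, rep_deriv2, rep_norm_sq,
    dl_eq_zero hs, mul_zero, add_zero, ofReal_div (dl x), ofReal_mul, h2]
  generalize ((‖s - x‖ ^ 2 + ε : ℝ) : ℂ) = B at h0 ⊢
  simp only [map_sub, map_neg, map_mul, map_one, conj_conj]
  push_cast
  field_simp
  linear_combination (4 * (x * conj x) - 4) * h1

lemma rep_G0_sq_le {x y : ℂ} (hx : x ∈ Db) (hy : y ∈ Db) :
    G0 x y ^ 2 ≤ 2 * ‖y - x‖ ^ (-(3 / 2) : ℝ) := by
  refine le_trans ?_ (inv_le_two_mul_rpow hx hy)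
  rw [norm_sub_rev, kern0_inv_eq (norm_nonneg _), ← kern0_rpow_half (norm_nonneg _)]
  exact pow_le_pow_left₀ (G0_nonneg hx hy) (G0_le hx hy) 2

lemma rep_measurable_G0 (x : ℂ) : Measurable (G0 x) := measurable_G0.of_uncurry_left

lemma rep_memLp_G0 {x : ℂ} (hx : x ∈ Db) : MemLp (G0 x) 2 (volume.restrict D) := by
  obtain ⟨I₀, hI⟩ := exists_sing_bound
  have hm := (rep_measurable_G0 x).aestronglyMeasurable (μ := volume.restrict D)
  rw [memLp_two_iff_integrable_sq hm]
  refine ((hI x (kern0_norm_le hx)).1.const_mul 2).mono' (hm.pow 2)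
    (sl_ae_mem.mono fun y hy => ?_)
  rw [Real.norm_of_nonneg (sq_nonneg _)]
  exact rep_G0_sq_le hx (kern0_D_sub hy)

lemma rep_one_sub_le {x y : ℂ} (hy : y ∈ Db) : 1 - ‖x‖ ≤ ‖1 - conj x * y‖ := by
  have h1 := norm_sub_norm_le (1 : ℂ) (conj x * y)
  rw [norm_one, norm_mul, norm_conj] at h1
  nlinarith [kern0_norm_le hy, norm_nonneg x]

theorem green_rep {F : ℂ → ℂ} (hF : ∀ z ∈ Db, ContDiffAt ℝ 2 F z) {x : ℂ} (hx : x ∈ D) :
    F x = Gop (fun y => -lap F y) x + ∫ θ, P0 x (ec θ) • F (ec θ) ∂mc := by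
  have hxb := kern0_D_sub hx
  have hx1 : 0 < 1 - ‖x‖ := by linarith [sl_norm_lt hx]
  have hπ := Real.pi_pos
  have cF : ContinuousOn F Db := fun z hz => (hF z hz).continuousAt.continuousWithinAt
  have cL : ContinuousOn (lap F) Db := fun z hz =>
    (contDiffAt_lap (m := 0) (hF z hz) (by norm_num)).continuousAt.continuousWithinAt
  obtain ⟨M, hM⟩ := (isCompact_closedBall (0 : ℂ) 1).exists_bound_of_continuousOn cF
  obtain ⟨M', hM'⟩ := (isCompact_closedBall (0 : ℂ) 1).exists_bound_of_continuousOn cL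
  have hM0 : 0 ≤ M := (norm_nonneg _).trans (hM x hxb)
  have mF := sl_aesm (cF.mono kern0_D_sub)
  have mL := sl_aesm (cL.mono kern0_D_sub)
  have iF : IntegrableOn F D := (cF.integrableOn_compact (isCompact_closedBall _ _)).mono_set
    kern0_D_sub
  set g : ℝ → ℂ → ℝ := fun ε y => Real.log (1 + dl x * dl y / (‖y - x‖ ^ 2 + ε)) / (4 * π)
    with hg
  set k : ℝ → ℂ → ℝ := fun ε y => ‖x‖ ^ 2 * ε / (π * (‖1 - conj x * y‖ ^ 2 + ε) ^ 2) with hk
  set p : ℝ → ℂ → ℝ := fun ε y => ε / (π * (‖y - x‖ ^ 2 + ε) ^ 2) with hp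
  set q : ℝ → ℝ → ℝ := fun ε θ => dl x / (2 * π * (‖ec θ - x‖ ^ 2 + ε)) with hq
  have cdl := kern0_continuous_dl
  have cint : ∀ (u : ℂ → ℝ) (H : ℂ → ℂ), ContinuousOn u Db → ContinuousOn H Db →
      IntegrableOn (fun y => u y • H y) D := fun u H hu hH =>
    ((hu.smul hH).integrableOn_compact (isCompact_closedBall _ _)).mono_set kern0_D_sub
  have cg : ∀ ε, 0 < ε → ContinuousOn (g ε) Db := by
    intro ε hε
    refine ContinuousOn.div_const (ContinuousOn.log ?_ fun y hy => ?_) _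
    · refine Continuous.continuousOn (continuous_const.add (Continuous.div ?_ ?_ fun y => ?_))
      · fun_prop
      · fun_prop
      · positivity
    · have := mul_nonneg (dl_nonneg hxb) (dl_nonneg hy)
      positivity
  have ck : ∀ ε, 0 < ε → Continuous (k ε) := by
    intro ε hε
    refine Continuous.div ?_ ?_ fun y => ?_
    · fun_prop
    · fun_prop
    · positivity
  have cp : ∀ ε, 0 < ε → Continuous (p ε) := by
    intro ε hε
    refine Continuous.div ?_ ?_ fun y => ?_
    · fun_prop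
    · fun_prop
    · positivity
  have key : ∀ ε, 0 < ε → ∫ y in D, p ε y • F y =
      (∫ y in D, g ε y • (-lap F y)) + (∫ y in D, k ε y • F y) + ∫ θ, q ε θ • F (ec θ) ∂mc := by
    intro ε hε
    have h1 := green_second (c := 0) zero_le_one hF
      (fun z _ => (repG_contDiff hε x).contDiffAt)
    have h2 : ∀ y ∈ D, lap F y * repG ε x y - F y * lap (repG ε x) y =
        p ε y • F y - (g ε y • (-lap F y) + k ε y • F y) := by
      intro y hy
      rw [repG_eq hε hxb (kern0_D_sub hy), repG_lap hε]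
      simp only [real_smul, hg, hk, hp, ofReal_sub]
      ring
    have h3 : ∀ θ, fderiv ℝ F (ec θ) (ec θ) * repG ε x (ec θ) -
        F (ec θ) * fderiv ℝ (repG ε x) (ec θ) (ec θ) = q ε θ • F (ec θ) := by
      intro θ
      rw [repG_eq hε hxb (kern0_S1_sub (ec_mem θ)), repG_normal hε x (ec_mem θ),
        dl_eq_zero (ec_mem θ)]
      simp only [real_smul, hq, mul_zero, zero_div, add_zero, Real.log_one, ofReal_zero]
      ring
    have i1 := cint _ _ (cp ε hε).continuousOn cF
    have i2 : IntegrableOn (fun y => g ε y • (-lap F y)) D := cint _ _ (cg ε hε) cL.neg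
    have i3 := cint _ _ (ck ε hε).continuousOn cF
    have i4 : IntegrableOn (fun y => g ε y • (-lap F y) + k ε y • F y) D := i2.add i3
    simp only [h3] at h1
    rw [setIntegral_congr_fun measurableSet_ball h2, integral_sub i1 i4, integral_add i2 i3,
      intervalIntegral.integral_of_le (by linarith)] at h1
    rw [← h1]
    abel
  have hpos : ∀ᶠ ε : ℝ in 𝓝[>] 0, 0 < ε := self_mem_nhdsWithin
  have t1 : Tendsto (fun ε => ∫ y in D, p ε y • F y) (𝓝[>] 0) (𝓝 (F x)) :=
    tendsto_peak hx iF (hF x hxb).continuousAt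
  have hne : ∀ᵐ y ∂(volume.restrict D), y ≠ x :=
    ae_restrict_of_ae (by rw [ae_iff]; simp)
  have t2 : Tendsto (fun ε => ∫ y in D, g ε y • (-lap F y)) (𝓝[>] 0)
      (𝓝 (Gop (fun y => -lap F y) x)) := by
    refine tendsto_integral_filter_of_dominated_convergence (fun y => G0 x y * M') ?_ ?_
      (((rep_memLp_G0 hxb).integrable (by norm_num)).mul_const M') ?_
    · filter_upwards [hpos] with ε hε
      exact (sl_aesm ((cg ε hε).mono kern0_D_sub)).smul mL.neg
    · filter_upwards [hpos] with ε hε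
      filter_upwards [sl_ae_mem, hne] with y hy hyx
      have hyb := kern0_D_sub hy
      have h1 := mul_nonneg (dl_nonneg hxb) (dl_nonneg hyb)
      have h2 : 0 < ‖y - x‖ := norm_pos_iff.mpr (sub_ne_zero.mpr hyx)
      have h3 : 0 ≤ g ε y := by
        refine div_nonneg (Real.log_nonneg ?_) (by positivity)
        have : 0 ≤ dl x * dl y / (‖y - x‖ ^ 2 + ε) := by positivity
        linarith
      have h4 : g ε y ≤ G0 x y := by
        rw [G0, norm_sub_rev]
        refine div_le_div_of_nonneg_right (Real.log_le_log (by positivity) ?_) (by positivity)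
        gcongr
        linarith
      rw [norm_smul, norm_neg, Real.norm_of_nonneg h3]
      exact mul_le_mul h4 (hM' y hyb) (norm_nonneg _) (G0_nonneg hxb hyb)
    · filter_upwards [sl_ae_mem, hne] with y hy hyx
      have hyb := kern0_D_sub hy
      have h1 := mul_nonneg (dl_nonneg hxb) (dl_nonneg hyb)
      have h2 : 0 < ‖y - x‖ := norm_pos_iff.mpr (sub_ne_zero.mpr hyx)
      have h3 : ContinuousAt (fun ε => g ε y) 0 := by
        refine ContinuousAt.div_const (ContinuousAt.log ?_ (by positivity)) _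
        exact continuousAt_const.add (ContinuousAt.div (by fun_prop) (by fun_prop) (by positivity))
      have h4 : g 0 y = G0 x y := by simp only [hg, G0, add_zero, norm_sub_rev]
      rw [← h4]
      exact (h3.tendsto.mono_left nhdsWithin_le_nhds).smul_const _
  have t3 : Tendsto (fun ε => ∫ y in D, k ε y • F y) (𝓝[>] 0) (𝓝 0) := by
    have h0 : (0 : ℂ) = ∫ y in D, (0 : ℂ) := by simp
    rw [h0]
    refine tendsto_integral_filter_of_dominated_convergence
      (fun _ => 1 / (π * ((1 - ‖x‖) ^ 2) ^ 2) * M) ?_ ?_ (integrable_const _) ?_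
    · filter_upwards [hpos] with ε hε
      exact (sl_aesm (ck ε hε).continuousOn).smul mF
    · filter_upwards [Ioo_mem_nhdsGT (zero_lt_one' ℝ)] with ε hε
      filter_upwards [sl_ae_mem] with y hy
      have hyb := kern0_D_sub hy
      have h1 := hε.1
      have h2 := pow_le_pow_left₀ hx1.le (rep_one_sub_le (x := x) hyb) 2
      have h3 : ‖x‖ ^ 2 * ε ≤ 1 :=
        mul_le_one₀ (pow_le_one₀ (norm_nonneg _) (kern0_norm_le hxb)) h1.le hε.2.le
      rw [norm_smul, Real.norm_of_nonneg (by positivity)]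
      refine mul_le_mul ?_ (hM y hyb) (norm_nonneg _) (by positivity)
      simp only [hk]
      gcongr
      linarith
    · filter_upwards [sl_ae_mem] with y hy
      have h2 := hx1.trans_le (rep_one_sub_le (x := x) (kern0_D_sub hy))
      have h3 : ContinuousAt (fun ε => k ε y) 0 :=
        ContinuousAt.div (by fun_prop) (by fun_prop) (by positivity)
      have h4 := (h3.tendsto.mono_left (nhdsWithin_le_nhds (s := Ioi 0))).smul_const (F y)
      simpa [hk] using h4
  have t4 : Tendsto (fun ε => ∫ θ, q ε θ • F (ec θ) ∂mc) (𝓝[>] 0)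
      (𝓝 (∫ θ, P0 x (ec θ) • F (ec θ) ∂mc)) := by
    have hlow : ∀ θ, 1 - ‖x‖ ≤ ‖ec θ - x‖ := fun θ => by
      have := norm_sub_norm_le (ec θ) x
      rwa [mem_sphere_zero_iff_norm.mp (ec_mem θ)] at this
    have cec : Continuous ec := continuous_circleMap 0 1
    have cFe : Continuous fun θ => F (ec θ) :=
      cF.comp_continuous cec fun θ => kern0_S1_sub (ec_mem θ)
    have hdl := dl_nonneg hxb
    refine tendsto_integral_filter_of_dominated_convergence
      (fun _ => dl x / (2 * π * (1 - ‖x‖) ^ 2) * M) ?_ ?_ (integrable_const _) ?_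
    · filter_upwards [hpos] with ε hε
      have cq : Continuous (q ε) := by
        refine Continuous.div ?_ ?_ fun θ => ?_
        · fun_prop
        · fun_prop
        · positivity
      exact (cq.smul cFe).aestronglyMeasurable
    · filter_upwards [hpos] with ε hε
      refine Eventually.of_forall fun θ => ?_
      have h2 := pow_le_pow_left₀ hx1.le (hlow θ) 2
      rw [norm_smul, Real.norm_of_nonneg (by positivity)]
      refine mul_le_mul ?_ (hM _ (kern0_S1_sub (ec_mem θ))) (norm_nonneg _) (by positivity)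
      simp only [hq]
      gcongr
      linarith
    · refine Eventually.of_forall fun θ => ?_
      have h2 := hx1.trans_le (hlow θ)
      have h3 : ContinuousAt (fun ε => q ε θ) 0 :=
        ContinuousAt.div (by fun_prop) (by fun_prop) (by positivity)
      have h4 : q 0 θ = P0 x (ec θ) := by simp only [hq, P0, add_zero, norm_sub_rev]
      rw [← h4]
      exact (h3.tendsto.mono_left nhdsWithin_le_nhds).smul_const _
  have t5 := (t2.add t3).add t4
  rw [add_zero] at t5
  exact tendsto_nhds_unique (t1.congr' (hpos.mono key)) t5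

end Vale.Agent.P071
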