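import Vale.Agent.P071.Kernel0
import Vale.Agent.P071.Dense
import Vale.Agent.P071.RepAux

/-!
# Green representation and the Green operator
-/

open Complex Metric Set Filter Topology MeasureTheory
open scoped ContDiff ComplexConjugate Real

namespace Vale.Agent.P071

/-- The Cauchy-Schwarz inequality in discriminant form. -/
lemma rep_cs {α : Type*} [MeasurableSpace α] {m : Measure α} {p q r : α → ℝ}
    (hp : Integrable p m) (hq : Integrable q m) (hr : Integrable r m)
    (h : ∀ t : ℝ, ∀ᵐ x ∂m, 0 ≤ p x * (t * t) + 2 * q x * t + r x) :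
    (∫ x, q x ∂m) ^ 2 ≤ (∫ x, p x ∂m) * ∫ x, r x ∂m := by
  have h1 : ∀ t : ℝ, 0 ≤ (∫ x, p x ∂m) * (t * t) + 2 * (∫ x, q x ∂m) * t + ∫ x, r x ∂m := by
    intro t
    have h2 := integral_nonneg_of_ae (h t)
    have i1 := hp.mul_const (t * t)
    have i2 := (hq.const_mul 2).mul_const t
    have i3 : Integrable (fun x => p x * (t * t) + 2 * q x * t) m := i1.add i2
    rwa [integral_add i3 hr, integral_add i1 i2, integral_mul_const, integral_mul_const,
      integral_const_mul] at h2
  have h3 := discrim_le_zero h1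
  rw [discrim] at h3
  nlinarith

lemma rep_cs_L2 {α : Type*} [MeasurableSpace α] {m : Measure α} {a b : α → ℝ}
    (ha : MemLp a 2 m) (hb : MemLp b 2 m) :
    (∫ x, a x * b x ∂m) ^ 2 ≤ (∫ x, a x ^ 2 ∂m) * ∫ x, b x ^ 2 ∂m :=
  rep_cs ha.integrable_sq (ha.integrable_mul hb) hb.integrable_sq fun t =>
    Eventually.of_forall fun x => by nlinarith [sq_nonneg (a x * t + b x)]

lemma rep_integral_re {α : Type*} [MeasurableSpace α] {m : Measure α} {f : α → ℂ}
    (hf : Integrable f m) : ∫ x, (f x).re ∂m = (∫ x, f x ∂m).re :=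
  reCLM.integral_comp_comm hf

lemma integrableOn_G0_smul {f : ℂ → ℂ} (hf : MemLp f 2 (volume.restrict D)) {x : ℂ}
    (hx : x ∈ Db) : IntegrableOn (fun y => G0 x y • f y) D :=
  memLp_one_iff_integrable.mp (hf.smul (rep_memLp_G0 hx))

lemma aestronglyMeasurable_Gop {f : ℂ → ℂ} (hf : MemLp f 2 (volume.restrict D)) :
    AEStronglyMeasurable (Gop f) (volume.restrict D) := by
  have h : AEStronglyMeasurable (fun z : ℂ × ℂ => G0 z.1 z.2 • f z.2)
      ((volume.restrict D).prod (volume.restrict D)) :=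
    measurable_G0.aestronglyMeasurable.smul hf.1.comp_snd
  exact h.integral_prod_right'

lemma measurable_Gop {f : ℂ → ℂ} (hf : Measurable f) : Measurable (Gop f) := by
  have h : StronglyMeasurable (fun z : ℂ × ℂ => G0 z.1 z.2 • f z.2) :=
    (measurable_G0.smul (hf.comp measurable_snd)).stronglyMeasurable
  exact (h.integral_prod_right' (ν := volume.restrict D)).measurable

lemma rep_exists_G0_sq : ∃ C : ℝ, 0 ≤ C ∧ ∀ x ∈ Db, ∫ y in D, G0 x y ^ 2 ≤ C := by
  obtain ⟨I₀, hI⟩ := exists_sing_bound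
  refine ⟨max (2 * I₀) 0, le_max_right _ _, fun x hx => le_trans ?_ (le_max_left _ _)⟩
  obtain ⟨h1, h2⟩ := hI x (kern0_norm_le hx)
  have h3 := integral_mono_ae (rep_memLp_G0 hx).integrable_sq (h1.const_mul 2)
    (sl_ae_mem.mono fun y hy => rep_G0_sq_le hx (kern0_D_sub hy))
  rw [integral_const_mul] at h3
  linarith

lemma rep_norm_Gop_le (f : ℂ → ℂ) {x : ℂ} (hx : x ∈ Db) :
    ‖Gop f x‖ ≤ ∫ y in D, G0 x y * ‖f y‖ := by
  refine (norm_integral_le_integral_norm _).trans (le_of_eq ?_)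
  refine setIntegral_congr_fun measurableSet_ball fun y hy => ?_
  rw [norm_smul, Real.norm_of_nonneg (G0_nonneg hx (kern0_D_sub hy))]

lemma rep_sq_le {f : ℂ → ℂ} (hf : MemLp f 2 (volume.restrict D)) {C : ℝ}
    (hC : ∀ x ∈ Db, ∫ y in D, G0 x y ^ 2 ≤ C) {x : ℂ} (hx : x ∈ Db) :
    (∫ y in D, G0 x y * ‖f y‖) ^ 2 ≤ C * ∫ y in D, ‖f y‖ ^ 2 :=
  (rep_cs_L2 (rep_memLp_G0 hx) hf.norm).trans
    (mul_le_mul_of_nonneg_right (hC x hx) (integral_nonneg fun _ => sq_nonneg _))

lemma memLp_Gop {f : ℂ → ℂ} (hf : MemLp f 2 (volume.restrict D)) :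
    MemLp (Gop f) 2 (volume.restrict D) := by
  obtain ⟨C, _, hC⟩ := rep_exists_G0_sq
  refine MemLp.of_bound (aestronglyMeasurable_Gop hf) (√(C * ∫ y in D, ‖f y‖ ^ 2))
    (sl_ae_mem.mono fun x hx => ?_)
  exact (rep_norm_Gop_le f (kern0_D_sub hx)).trans
    (Real.le_sqrt_of_sq_le (rep_sq_le hf hC (kern0_D_sub hx)))

/-- The Green operator maps `L²` to `L^∞` and `L¹` to `L²`. -/
theorem exists_Gop_bound : ∃ C : ℝ, 0 ≤ C ∧ ∀ f : ℂ → ℂ, MemLp f 2 (volume.restrict D) →
    (∀ x ∈ Db, ‖Gop f x‖ ^ 2 ≤ C * ∫ y in D, ‖f y‖ ^ 2) ∧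
      ∫ x in D, ‖Gop f x‖ ^ 2 ≤ C * (∫ y in D, ‖f y‖) ^ 2 := by
  obtain ⟨C, hC0, hC⟩ := rep_exists_G0_sq
  refine ⟨C, hC0, fun f hf => ⟨fun x hx => ?_, ?_⟩⟩
  · exact (pow_le_pow_left₀ (norm_nonneg _) (rep_norm_Gop_le f hx) 2).trans (rep_sq_le hf hC hx)
  have hf1 : Integrable (fun y => ‖f y‖) (volume.restrict D) := (hf.integrable (by norm_num)).norm
  have hm : AEStronglyMeasurable (fun z : ℂ × ℂ => G0 z.1 z.2 ^ 2 * ‖f z.2‖)
      ((volume.restrict D).prod (volume.restrict D)) :=
    (measurable_G0.pow_const 2).aestronglyMeasurable.mul hf.1.norm.comp_snd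
  have hin : ∀ y ∈ D, ∫ x in D, G0 x y ^ 2 * ‖f y‖ ≤ C * ‖f y‖ := by
    intro y hy
    rw [integral_mul_const]
    simp only [G0_symm _ y]
    exact mul_le_mul_of_nonneg_right (hC y (kern0_D_sub hy)) (norm_nonneg _)
  have hi : Integrable (fun z : ℂ × ℂ => G0 z.1 z.2 ^ 2 * ‖f z.2‖)
      ((volume.restrict D).prod (volume.restrict D)) := by
    rw [integrable_prod_iff' hm]
    constructor
    · filter_upwards [sl_ae_mem] with y hy
      simp only [G0_symm _ y]
      exact (rep_memLp_G0 (kern0_D_sub hy)).integrable_sq.mul_const _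
    · refine (hf1.const_mul C).mono' hm.norm.prod_swap.integral_prod_right' ?_
      filter_upwards [sl_ae_mem] with y hy
      rw [Real.norm_of_nonneg (integral_nonneg fun _ => norm_nonneg _)]
      refine le_trans (le_of_eq ?_) (hin y hy)
      congr 1
      funext x
      exact Real.norm_of_nonneg (by positivity)
  have h1 : ∀ᵐ x ∂(volume.restrict D),
      ‖Gop f x‖ ^ 2 ≤ (∫ y in D, G0 x y ^ 2 * ‖f y‖) * ∫ y in D, ‖f y‖ := by
    filter_upwards [sl_ae_mem, hi.prod_right_ae] with x hx hx'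
    have hxb := kern0_D_sub hx
    refine (pow_le_pow_left₀ (norm_nonneg _) (rep_norm_Gop_le f hxb) 2).trans ?_
    refine rep_cs hx' ((rep_memLp_G0 hxb).integrable_mul hf.norm) hf1 fun t =>
      Eventually.of_forall fun y => ?_
    nlinarith [mul_nonneg (sq_nonneg (G0 x y * t + 1)) (norm_nonneg (f y))]
  have h2 := integral_mono_ae (sl_integrable_norm_sq (memLp_Gop hf))
    (hi.integral_prod_left.mul_const _) h1
  rw [integral_mul_const, integral_integral_swap hi] at h2
  have h3 := integral_mono_ae hi.integral_prod_right (hf1.const_mul C) (sl_ae_mem.mono hin)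
  rw [integral_const_mul] at h3
  have h4 : 0 ≤ ∫ y in D, ‖f y‖ := integral_nonneg fun _ => norm_nonneg _
  have h5 := mul_le_mul_of_nonneg_right h3 h4
  calc _ ≤ _ := h2
    _ ≤ _ := h5
    _ = _ := by ring

theorem Gop_symm {f g : ℂ → ℂ} (hf : MemLp f 2 (volume.restrict D))
    (hg : MemLp g 2 (volume.restrict D)) :
    ∫ x in D, Gop f x * g x = ∫ x in D, f x * Gop g x := by
  obtain ⟨C, _, hC⟩ := rep_exists_G0_sq
  have hm : AEStronglyMeasurable (fun z : ℂ × ℂ => G0 z.1 z.2 • f z.2 * g z.1)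
      ((volume.restrict D).prod (volume.restrict D)) :=
    (measurable_G0.aestronglyMeasurable.smul hf.1.comp_snd).mul hg.1.comp_fst
  have hi : Integrable (fun z : ℂ × ℂ => G0 z.1 z.2 • f z.2 * g z.1)
      ((volume.restrict D).prod (volume.restrict D)) := by
    rw [integrable_prod_iff hm]
    constructor
    · filter_upwards [sl_ae_mem] with x hx
      exact (integrableOn_G0_smul hf (kern0_D_sub hx)).mul_const _
    · refine ((hg.integrable (by norm_num)).norm.const_mul (√(C * ∫ y in D, ‖f y‖ ^ 2))).mono'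
        hm.norm.integral_prod_right' ?_
      filter_upwards [sl_ae_mem] with x hx
      have hxb := kern0_D_sub hx
      rw [Real.norm_of_nonneg (integral_nonneg fun _ => norm_nonneg _)]
      have h1 : ∫ y in D, ‖G0 x y • f y * g x‖ = (∫ y in D, G0 x y * ‖f y‖) * ‖g x‖ := by
        rw [← integral_mul_const]
        refine setIntegral_congr_fun measurableSet_ball fun y hy => ?_
        rw [norm_mul, norm_smul, Real.norm_of_nonneg (G0_nonneg hxb (kern0_D_sub hy))]
      rw [h1]
      exact mul_le_mul_of_nonneg_right (Real.le_sqrt_of_sq_le (rep_sq_le hf hC hxb))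
        (norm_nonneg _)
  have h1 := integral_integral_swap (f := fun x y => G0 x y • f y * g x) hi
  simp only [integral_mul_const] at h1
  unfold Gop
  rw [h1]
  congr 1
  funext y
  rw [← integral_const_mul]
  congr 1
  funext x
  rw [G0_symm x y, real_smul, real_smul]
  ring

lemma Gop_conj (f : ℂ → ℂ) (x : ℂ) : Gop (fun y => conj (f y)) x = conj (Gop f x) := by
  unfold Gop
  rw [← integral_conj]
  congr 1
  funext y
  simp

lemma rep_Gop_sub {f g : ℂ → ℂ} (hf : MemLp f 2 (volume.restrict D))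
    (hg : MemLp g 2 (volume.restrict D)) {x : ℂ} (hx : x ∈ Db) :
    Gop (fun y => f y - g y) x = Gop f x - Gop g x := by
  unfold Gop
  rw [← integral_sub (integrableOn_G0_smul hf hx) (integrableOn_G0_smul hg hx)]
  simp only [smul_sub]

lemma rep_re_sq_le {a b : ℂ → ℂ} (ha : MemLp a 2 (volume.restrict D))
    (hb : MemLp b 2 (volume.restrict D)) :
    (∫ x in D, (a x * conj (b x)).re) ^ 2 ≤ (∫ x in D, ‖a x‖ ^ 2) * ∫ x in D, ‖b x‖ ^ 2 := by
  refine rep_cs (sl_integrable_norm_sq ha) (sl_integrable_re_mul_conj ha hb)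
    (sl_integrable_norm_sq hb) fun t => Eventually.of_forall fun x => ?_
  simp only [Complex.sq_norm, normSq_apply, mul_re, conj_re, conj_im]
  nlinarith [sq_nonneg ((a x).re * t + (b x).re), sq_nonneg ((a x).im * t + (b x).im)]

lemma rep_exists_form_bound : ∃ K : ℝ, 0 ≤ K ∧ ∀ a b : ℂ → ℂ, MemLp a 2 (volume.restrict D) →
    MemLp b 2 (volume.restrict D) → (∫ x in D, (a x * conj (Gop b x)).re) ^ 2 ≤
      K * ((∫ x in D, ‖a x‖ ^ 2) * ∫ x in D, ‖b x‖ ^ 2) := by
  obtain ⟨C, hC0, hC⟩ := exists_Gop_bound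
  refine ⟨(volume.restrict D).real univ * C, mul_nonneg measureReal_nonneg hC0,
    fun a b ha hb => ?_⟩
  have h1 := rep_re_sq_le ha (memLp_Gop hb)
  have h2 := integral_mono_ae (sl_integrable_norm_sq (memLp_Gop hb)) (integrable_const _)
    (sl_ae_mem.mono fun x hx => (hC b hb).1 x (kern0_D_sub hx))
  rw [integral_const, smul_eq_mul] at h2
  have h3 : 0 ≤ ∫ x in D, ‖a x‖ ^ 2 := integral_nonneg fun _ => sq_nonneg _
  calc _ ≤ _ := h1
    _ ≤ _ := mul_le_mul_of_nonneg_left h2 h3
    _ = _ := by ring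

lemma rep_psd_smooth {η : ℂ → ℂ} (hη : ContDiff ℝ ∞ η) (h0 : ∀ z ∈ S1, η z = 0) :
    0 ≤ ∫ x in D, (-lap η x * conj (Gop (fun y => -lap η y) x)).re := by
  have h2 : ∀ z, ContDiffAt ℝ 2 η z := fun z => (hη.of_le dense_two_le).contDiffAt
  have hd : ∀ z, DifferentiableAt ℝ η z := fun z => (h2 z).differentiableAt (by norm_num)
  have h1 : ∀ x ∈ D, Gop (fun y => -lap η y) x = η x := by
    intro x hx
    rw [green_rep (fun z _ => h2 z) hx]
    simp [h0 _ (ec_mem _)]
  have h3 := green_first (c := 0) zero_le_one (F := η) (G := fun z => conj (η z))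
    (fun z _ => h2 z) (fun z _ => contDiffAt_conj' ((h2 z).of_le (by norm_num)))
  simp only [h0 _ (ec_mem _), map_zero, mul_zero, intervalIntegral.integral_zero,
    dx_conj (hd _), dy_conj (hd _)] at h3
  have cl : Continuous (lap η) := continuous_iff_continuousAt.mpr fun z =>
    (contDiffAt_lap (m := 0) (h2 z) (by norm_num)).continuousAt
  have cx : Continuous (dx η) := continuous_iff_continuousAt.mpr fun z =>
    (differentiableAt_dx (h2 z)).continuousAt
  have cy : Continuous (dy η) := continuous_iff_continuousAt.mpr fun z =>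
    (differentiableAt_dy (h2 z)).continuousAt
  have i1 := sl_integrable_mul_conj (sl_memLp_of_continuous cl 2)
    (sl_memLp_of_continuous hη.continuous 2)
  have i2 : Integrable (fun z => dx η z * conj (dx η z) + dy η z * conj (dy η z))
      (volume.restrict D) :=
    (sl_integrable_mul_conj (sl_memLp_of_continuous cx 2) (sl_memLp_of_continuous cx 2)).add
      (sl_integrable_mul_conj (sl_memLp_of_continuous cy 2) (sl_memLp_of_continuous cy 2))
  rw [integral_add i1 i2] at h3
  have h4 : ∫ x in D, (-lap η x * conj (Gop (fun y => -lap η y) x)).re =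
      -(∫ x in D, lap η x * conj (η x)).re := by
    rw [← rep_integral_re i1, ← integral_neg]
    refine setIntegral_congr_fun measurableSet_ball fun x hx => ?_
    rw [h1 x hx, neg_mul, neg_re]
  have h5 : 0 ≤ (∫ z in D, (dx η z * conj (dx η z) + dy η z * conj (dy η z))).re := by
    rw [← rep_integral_re i2]
    refine integral_nonneg fun z => ?_
    simp only [add_re, sl_re_mul_conj_self]
    positivity
  have h6 := congrArg re h3
  rw [add_re, zero_re] at h6
  linarith

theorem Gop_psd {f : ℂ → ℂ} (hf : MemLp f 2 (volume.restrict D)) :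
    0 ≤ ∫ x in D, (f x * conj (Gop f x)).re := by
  obtain ⟨K, hK0, hK⟩ := rep_exists_form_bound
  refine le_of_forall_pos_le_add fun δ hδ => ?_
  set N := ∫ x in D, ‖f x‖ ^ 2 with hN
  have hN0 : 0 ≤ N := integral_nonneg fun _ => sq_nonneg _
  set ε : ℝ := min 1 ((δ / 3) ^ 2 / (K * (N + 1) + 1)) with hε
  have hε0 : 0 < ε := by positivity
  have hε1 : ε ≤ 1 := min_le_left _ _
  have hε2 : (K * (N + 1) + 1) * ε ≤ (δ / 3) ^ 2 := by
    have : ε ≤ (δ / 3) ^ 2 / (K * (N + 1) + 1) := min_le_right _ _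
    rwa [le_div_iff₀ (by positivity), mul_comm] at this
  obtain ⟨η, hη, h0, hr⟩ := dense_lap hf hε0
  have cl : Continuous (lap η) := continuous_iff_continuousAt.mpr fun z =>
    (contDiffAt_lap (m := 0) (hη.of_le dense_two_le).contDiffAt (by norm_num)).continuousAt
  set r : ℂ → ℂ := fun z => f z + lap η z with hrdef
  have hr2 : MemLp r 2 (volume.restrict D) := hf.add (sl_memLp_of_continuous cl 2)
  set R := ∫ x in D, ‖r x‖ ^ 2 with hR
  have hR0 : 0 ≤ R := integral_nonneg fun _ => sq_nonneg _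
  have h1 := rep_psd_smooth hη h0
  have e1 : ∀ y, -lap η y = f y - r y := fun y => by simp [hrdef]
  simp only [e1] at h1
  have i1 := sl_integrable_re_mul_conj hf (memLp_Gop hf)
  have i2 := sl_integrable_re_mul_conj hf (memLp_Gop hr2)
  have i3 := sl_integrable_re_mul_conj hr2 (memLp_Gop hf)
  have i4 := sl_integrable_re_mul_conj hr2 (memLp_Gop hr2)
  have i5 : Integrable (fun z => (f z * conj (Gop f z)).re - (f z * conj (Gop r z)).re)
      (volume.restrict D) := i1.sub i2
  have i6 : Integrable (fun z => (r z * conj (Gop f z)).re - (r z * conj (Gop r z)).re)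
      (volume.restrict D) := i3.sub i4
  have e2 : ∀ x ∈ D, ((f x - r x) * conj (Gop (fun y => f y - r y) x)).re =
      ((f x * conj (Gop f x)).re - (f x * conj (Gop r x)).re) -
        ((r x * conj (Gop f x)).re - (r x * conj (Gop r x)).re) := by
    intro x hx
    rw [rep_Gop_sub hf hr2 (kern0_D_sub hx), ← sub_re, ← sub_re, ← sub_re, map_sub]
    congr 1
    ring
  rw [setIntegral_congr_fun measurableSet_ball e2, integral_sub i5 i6, integral_sub i1 i2,
    integral_sub i3 i4] at h1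
  have b1 : K * (N * R) ≤ (δ / 3) ^ 2 := by
    have : K * (N * R) ≤ K * (N * ε) := by gcongr
    nlinarith [mul_nonneg hK0 hε0.le]
  have b2 : K * (R * R) ≤ (δ / 3) ^ 2 := by
    have : K * (R * R) ≤ K * (1 * ε) := by
      gcongr
      exact hr.trans hε1
    nlinarith [mul_nonneg (mul_nonneg hK0 hN0) hε0.le]
  have a1 := abs_le_of_sq_le_sq' ((hK f r hf hr2).trans b1) (by positivity)
  have a2 := abs_le_of_sq_le_sq' ((hK r f hr2 hf).trans (by rw [mul_comm R]; exact b1))
    (by positivity)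
  have a3 := abs_le_of_sq_le_sq' ((hK r r hr2 hr2).trans b2) (by positivity)
  linarith [a1.1, a2.1, a3.2]

end Vale.Agent.P071
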