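import Vale.Agent.P071.BM
import Vale.Agent.P071.SetupLemmas
import Vale.Agent.P071.Rep

/-!
# The Green operator on real functions
-/

open Complex Metric Set Filter Topology MeasureTheory
open scoped ContDiff ComplexConjugate Real

namespace Vale.Agent.P071

lemma green_zero_mul {V : ℂ → ℂ} {ψ : ℂ → ℝ} {M : ℝ} (hV : ContDiffOn ℝ 1 V D)
    (hVi : IntegrableOn V D) (hVd : IntegrableOn (fun z => (dB V z).re) D) (hψ : Bdd1 ψ)
    (hM : ∀ z ∈ D, |ψ z| ≤ M * (1 - ‖z‖)) :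
    ∫ z in D, (dx ψ z * (V z).re - dy ψ z * (V z).im + ψ z * (dB V z).re) = 0 := by
  have e : ∀ z ∈ D, (dB (fun w => (ψ w : ℂ) * V w) z).re =
      dx ψ z * (V z).re - dy ψ z * (V z).im + ψ z * (dB V z).re := by
    intro z hz
    have h1 := hψ.differentiableAt hz
    rw [dB_mul (differentiableAt_ofReal' h1)
      ((hV.contDiffAt (isOpen_ball.mem_nhds hz)).differentiableAt (by norm_num)), dB_ofReal h1]
    simp
  have hi : IntegrableOn
      (fun z => dx ψ z * (V z).re - dy ψ z * (V z).im + ψ z * (dB V z).re) D :=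
    ((hψ.bm.2.1.mul_integrableOn hVi.re).sub (hψ.bm.2.2.mul_integrableOn hVi.im)).add
      (hψ.bm.1.mul_integrableOn hVd)
  rw [← setIntegral_congr_fun measurableSet_ball e]
  refine green_zero (g := fun z => M * ‖V z‖) ?_
    (hi.congr_fun (fun z hz => (e z hz).symm) measurableSet_ball) (hVi.norm.const_mul M) ?_
  · exact (ofRealCLM.contDiff.comp_contDiffOn hψ.cd).mul hV
  · intro z hz
    refine (abs_re_le_norm _).trans ?_
    rw [norm_mul, norm_mul, norm_real, Real.norm_eq_abs]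
    have h1 := (mem_ball_zero_iff.1 hz).le
    calc |ψ z| * ‖V z‖ * ‖z‖ ≤ (M * (1 - ‖z‖)) * ‖V z‖ * 1 := by
          gcongr
          · exact mul_nonneg ((abs_nonneg _).trans (hM z hz)) (norm_nonneg _)
          · exact hM z hz
      _ = _ := by ring

lemma exists_vanish_bound {ψ : ℂ → ℝ} (hψ : ContDiff ℝ 2 ψ) (h0 : ∀ z ∈ S1, ψ z = 0) :
    ∃ M : ℝ, ∀ z ∈ D, |ψ z| ≤ M * (1 - ‖z‖) := by
  obtain ⟨M, hM⟩ := (UC.of_contDiff (U := fun z => I * ψ z)
    (contDiff_const.mul (ofRealCLM.contDiff.comp hψ)) fun z hz => by simp [h0 z hz]).bdd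
  exact ⟨M, fun z hz => by simpa using (hM z hz).2.2⟩

lemma dirichlet_orth {ψ a : ℂ → ℝ} (hψ : ContDiff ℝ 2 ψ) (h0 : ∀ z ∈ S1, ψ z = 0)
    (ha : ContDiffOn ℝ 2 a D) (h1 : BM (dx a)) (h2 : BM (dy a)) (h3 : BM (lap a)) :
    ∫ z in D, (dx ψ z * dx a z + dy ψ z * dy a z + ψ z * lap a z) = 0 := by
  obtain ⟨M, hM⟩ := exists_vanish_bound hψ h0
  have ha' : ∀ z ∈ D, ContDiffAt ℝ 2 a z := fun z hz => ha.contDiffAt (isOpen_ball.mem_nhds hz)
  have e1 : ∀ z ∈ D, dD (fun w => (a w : ℂ)) z = (dx a z : ℝ) - I * (dy a z : ℝ) := fun z hz =>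
    dD_ofReal ((ha' z hz).differentiableAt (by norm_num))
  have e2 : ∀ z ∈ D, (dB (dD fun w => (a w : ℂ)) z).re = lap a z := fun z hz => by
    rw [dB_dD (contDiffAt_ofReal' (ha' z hz)), lap_ofReal (ha' z hz), ofReal_re]
  have h := green_zero_mul (V := dD fun w => (a w : ℂ)) (ψ := ψ)
    (fun z hz => (contDiffAt_dD (contDiffAt_ofReal' (ha' z hz)) (by norm_num)).contDiffWithinAt)
    ((h1.ofReal.sub (h2.ofReal.const_mul I)).congr fun z hz => (e1 z hz).symm).integrableOn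
    (h3.congr fun z hz => (e2 z hz).symm).integrableOn
    (Bdd1.of_contDiff (hψ.of_le (by norm_num))) hM
  rw [← h]
  refine setIntegral_congr_fun measurableSet_ball fun z hz => ?_
  simp only [e1 z hz, e2 z hz]
  simp

/-- The Green operator on real functions. -/
noncomputable def GR (k : ℂ → ℝ) (x : ℂ) : ℝ := ∫ y in D, G0 x y * k y

lemma Gop_ofReal (k : ℂ → ℝ) (x : ℂ) : Gop (fun y => (k y : ℂ)) x = (GR k x : ℝ) := by
  rw [Gop, GR, ← integral_complex_ofReal]
  simp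

variable {f g k : ℂ → ℝ}

lemma integrableOn_G0_mul (hk : MemLp k 2 (volume.restrict D)) {x : ℂ} (hx : x ∈ Db) :
    IntegrableOn (fun y => G0 x y * k y) D := by
  simpa [IntegrableOn] using (integrableOn_G0_smul (memLp_ofReal hk) hx).re

theorem exists_GR_bound : ∃ C : ℝ, 0 < C ∧ ∀ k : ℂ → ℝ, MemLp k 2 (volume.restrict D) →
    (∀ x ∈ Db, GR k x ^ 2 ≤ C * ∫ y in D, k y ^ 2) ∧
      ∫ x in D, GR k x ^ 2 ≤ C * (∫ y in D, |k y|) ^ 2 := by
  obtain ⟨C, hC0, hC⟩ := exists_Gop_bound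
  refine ⟨C + 1, by linarith, fun k hk => ?_⟩
  have h := hC _ (memLp_ofReal hk)
  simp only [Gop_ofReal, norm_real, Real.norm_eq_abs, sq_abs] at h
  have h1 : 0 ≤ ∫ y in D, k y ^ 2 := integral_nonneg fun _ => sq_nonneg _
  refine ⟨fun x hx => (h.1 x hx).trans (by nlinarith), h.2.trans ?_⟩
  nlinarith [sq_nonneg (∫ y in D, |k y|)]

lemma bm_GR (hk : MemLp k 2 (volume.restrict D)) : BM (GR k) := by
  obtain ⟨C, -, hC⟩ := exists_GR_bound
  refine ⟨?_, Real.sqrt (C * ∫ y in D, k y ^ 2), fun z hz => ?_⟩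
  · have := continuous_re.comp_aestronglyMeasurable (aestronglyMeasurable_Gop (memLp_ofReal hk))
    simpa [Gop_ofReal] using this
  · exact Real.abs_le_sqrt ((hC k hk).1 z (ball_subset_closedBall hz))

lemma measurable_GR (hk : Measurable k) : Measurable (GR k) := by
  have := measurable_re.comp (measurable_Gop (measurable_ofReal.comp hk))
  convert this using 1
  funext x
  exact (congrArg re (Gop_ofReal k x)).symm

lemma GR_symm (hf : MemLp f 2 (volume.restrict D)) (hg : MemLp g 2 (volume.restrict D)) :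
    ∫ x in D, GR f x * g x = ∫ x in D, f x * GR g x := by
  have h := Gop_symm (memLp_ofReal hf) (memLp_ofReal hg)
  simp only [Gop_ofReal, ← ofReal_mul, integral_complex_ofReal] at h
  exact_mod_cast h

lemma GR_psd (hf : MemLp f 2 (volume.restrict D)) : 0 ≤ ∫ x in D, f x * GR f x := by
  simpa [Gop_ofReal] using Gop_psd (memLp_ofReal hf)

lemma GR_sub_mul (hf : MemLp f 2 (volume.restrict D)) (hg : MemLp g 2 (volume.restrict D))
    (t : ℝ) {x : ℂ} (hx : x ∈ Db) : GR (fun y => f y - t * g y) x = GR f x - t * GR g x := by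
  rw [GR, GR, GR, ← integral_const_mul,
    ← integral_sub (integrableOn_G0_mul hf hx) ((integrableOn_G0_mul hg hx).const_mul t)]
  exact integral_congr_ae (Eventually.of_forall fun y => by simp only; ring)

lemma GR_nonneg (hk : ∀ y ∈ D, 0 ≤ k y) {x : ℂ} (hx : x ∈ Db) : 0 ≤ GR k x :=
  setIntegral_nonneg measurableSet_ball fun y hy =>
    mul_nonneg (G0_nonneg hx (ball_subset_closedBall hy)) (hk y hy)

lemma abs_GR_le (k : ℂ → ℝ) {x : ℂ} (hx : x ∈ Db) : |GR k x| ≤ GR (fun y => |k y|) x := by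
  refine (abs_integral_le_integral_abs).trans (le_of_eq ?_)
  refine setIntegral_congr_fun measurableSet_ball fun y hy => ?_
  simp only
  rw [abs_mul, abs_of_nonneg (G0_nonneg hx (ball_subset_closedBall hy))]

lemma GR_congr (e : ∀ y ∈ D, f y = g y) (x : ℂ) : GR f x = GR g x :=
  setIntegral_congr_fun measurableSet_ball fun y hy => by simp only [e y hy]

lemma GR_rep {ψ : ℂ → ℝ} (hψ : ContDiff ℝ 2 ψ) (h0 : ∀ z ∈ S1, ψ z = 0) {x : ℂ} (hx : x ∈ D) :
    ψ x = GR (fun y => -lap ψ y) x := by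
  have h := green_rep (F := fun z => (ψ z : ℂ)) (fun z _ => contDiffAt_ofReal' hψ.contDiffAt) hx
  simp only [h0 _ (ec_mem _), ofReal_zero, smul_zero, integral_zero, add_zero,
    lap_ofReal hψ.contDiffAt, ← ofReal_neg, Gop_ofReal] at h
  exact_mod_cast h

lemma dirichlet_energy {ψ : ℂ → ℝ} (hψ : ContDiff ℝ 2 ψ) (h0 : ∀ z ∈ S1, ψ z = 0) :
    ∫ z in D, (dx ψ z ^ 2 + dy ψ z ^ 2) = ∫ z in D, -lap ψ z * ψ z := by
  have h1 : ContDiff ℝ 1 ψ := hψ.of_le (by norm_num)
  have h := dirichlet_orth hψ h0 hψ.contDiffOn (.dx_of_contDiff h1) (.dy_of_contDiff h1)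
    (.lap_of_contDiff hψ)
  have i1 : IntegrableOn (fun z => dx ψ z ^ 2 + dy ψ z ^ 2) D :=
    ((BM.dx_of_contDiff h1).sq.add (BM.dy_of_contDiff h1).sq).integrableOn
  have i2 : IntegrableOn (fun z => -lap ψ z * ψ z) D :=
    ((BM.lap_of_contDiff hψ).neg.mul (.of_continuous hψ.continuous)).integrableOn
  rw [← sub_eq_zero, ← integral_sub i1 i2, ← h]
  exact integral_congr_ae (Eventually.of_forall fun y => by simp only; ring)

/-- Real version of the density of Laplacians. -/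
lemma dense_lap_real (hk : MemLp k 2 (volume.restrict D)) {ε : ℝ} (hε : 0 < ε) :
    ∃ ψ : ℂ → ℝ, ContDiff ℝ ∞ ψ ∧ (∀ z ∈ S1, ψ z = 0) ∧ ∫ z in D, (k z + lap ψ z) ^ 2 ≤ ε := by
  obtain ⟨η, h1, h2, h3⟩ := dense_lap (memLp_ofReal hk) hε
  have h4 : ContDiff ℝ 2 η := h1.of_le (by norm_cast)
  refine ⟨fun z => (η z).re, reCLM.contDiff.comp h1, fun z hz => by simp [h2 z hz], ?_⟩
  refine le_trans (integral_mono_of_nonneg (Eventually.of_forall fun _ => sq_nonneg _)
    (integrableOn_norm_sq ((memLp_ofReal hk).add (BM.lap_of_contDiff h4).memLp))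
    (Eventually.of_forall fun z => ?_)) h3
  simp only [lap_re h4.contDiffAt, Pi.add_apply]
  have := abs_re_le_norm ((k z : ℂ) + lap η z)
  rw [← sq_abs]
  exact pow_le_pow_left₀ (abs_nonneg _) (by simpa using this) 2

end Vale.Agent.P071
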