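import Vale.Agent.P071.InnerAuxA

/-!
# The Douglas formula on the unit disc
-/

open Complex Metric Set Filter Topology MeasureTheory
open scoped ContDiff ComplexConjugate Real

namespace Vale.Agent.P071

/-- `z ↦ re z / (2 π)`. -/
noncomputable def innL : ℂ →L[ℝ] ℂ := ((2 * π)⁻¹ : ℝ) • (ofRealCLM.comp reCLM)

lemma innL_apply (z : ℂ) : innL z = ((z.re / (2 * π) : ℝ) : ℂ) := by
  simp only [innL, smul_apply, ContinuousLinearMap.comp_apply, reCLM_apply,
    ofRealCLM_apply, real_smul]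
  push_cast
  ring

/-- The normal derivative of the dilated Poisson kernel. -/
noncomputable def nk (τ : ℝ) (s q : ℂ) : ℝ := (τ * s * q / (q - τ * s) ^ 2).re / π

lemma inn_P0_eq {q : ℂ} (hq : ‖q‖ = 1) (z : ℂ) : innL ((q + z) / (q - z)) = (P0 z q : ℝ) := by
  rw [innL_apply, P0, dl, norm_sub_rev, Complex.sq_norm, Complex.sq_norm, div_re]
  have h : q.re * q.re + q.im * q.im = 1 := by
    rw [← normSq_apply, ← Complex.sq_norm, hq]; norm_num
  congr 1
  rw [← add_div, div_div, mul_comm (normSq _)]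
  congr 1
  simp only [add_re, sub_re, add_im, sub_im, normSq_apply]
  linear_combination h

lemma inn_sub_ge {τ : ℝ} {q z : ℂ} (hq : ‖q‖ = 1) (hz : ‖z‖ ≤ τ) : 1 - τ ≤ ‖q - z‖ := by
  have := norm_sub_norm_le q z
  linarith

lemma inn_norm_mul {τ : ℝ} (h0 : 0 < τ) {x : ℂ} (hx : x ∈ Db) : ‖(τ : ℂ) * x‖ ≤ τ := by
  rw [norm_mul, norm_real, Real.norm_of_nonneg h0.le]
  exact mul_le_of_le_one_right h0.le (regT_norm_le hx)

lemma inn_mul_mem {τ : ℝ} (h0 : 0 < τ) (h1 : τ < 1) {x : ℂ} (hx : x ∈ Db) : (τ : ℂ) * x ∈ D :=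
  mem_ball_zero_iff.2 ((inn_norm_mul h0 hx).trans_lt h1)

lemma inn_P0_le {τ : ℝ} (h1 : τ < 1) {q z : ℂ} (hq : ‖q‖ = 1) (hz : ‖z‖ ≤ τ) :
    ‖P0 z q‖ ≤ 1 / (2 * π * (1 - τ) ^ 2) := by
  have hz' : z ∈ Db := mem_closedBall_zero_iff.2 (hz.trans h1.le)
  have h2 := inn_sub_ge hq hz
  have h3 : 0 < 1 - τ := by linarith
  have := Real.pi_pos
  rw [Real.norm_of_nonneg (P0_nonneg hz' q), P0, norm_sub_rev]
  exact div_le_div₀ zero_le_one (dl_le_one z) (by positivity) (by gcongr)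

lemma inn_lap_holo {φ : ℂ → ℂ} {z : ℂ} (h : AnalyticAt ℂ φ z) : lap φ z = 0 := by
  rw [← dD_dB (h.contDiffAt.restrict_scalars ℝ)]
  have : dB φ =ᶠ[𝓝 z] fun _ => 0 :=
    h.eventually_analyticAt.mono fun w hw => dB_holo hw.differentiableAt
  rw [dD_congr this]
  simp [dD]

lemma inn_green_P {F : ℂ → ℂ} (hF : ∀ z ∈ Db, ContDiffAt ℝ 2 F z) {τ : ℝ} (h0 : 0 < τ)
    (h1 : τ < 1) {q : ℂ} (hq : ‖q‖ = 1) :
    ∫ s, nk τ (ec s) q • F (ec s) ∂mc =
      ∫ s, P0 (τ * ec s) q • fderiv ℝ F (ec s) (ec s) ∂mc +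
        ∫ x, P0 (τ * x) q • (-lap F x) ∂mD := by
  set φ : ℂ → ℂ := fun x => (q + τ * x) / (q - τ * x) with hφ
  have hne : ∀ x ∈ Db, q - τ * x ≠ 0 := fun x hx => by
    have := inn_sub_ge hq (inn_norm_mul h0 hx)
    exact norm_pos_iff.1 (by linarith)
  have han : ∀ x ∈ Db, AnalyticAt ℂ φ x := fun x hx =>
    AnalyticAt.div (by fun_prop) (by fun_prop) (hne x hx)
  have hc : ∀ x ∈ Db, ContDiffAt ℝ 2 φ x := fun x hx => (han x hx).contDiffAt.restrict_scalars ℝ
  have hG : ∀ x ∈ Db, ContDiffAt ℝ 2 (fun w => innL (φ w)) x := fun x hx =>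
    innL.contDiff.contDiffAt.comp x (hc x hx)
  have hd : ∀ x ∈ Db, fderiv ℝ (fun w => innL (φ w)) x x = (nk τ x q : ℝ) := fun x hx => by
    have d1 : HasDerivAt φ (2 * τ * q / (q - τ * x) ^ 2) x := by
      have a1 : HasDerivAt (fun w : ℂ => q + τ * w) τ x := by
        simpa using ((hasDerivAt_id x).const_mul (τ : ℂ)).const_add q
      have a2 : HasDerivAt (fun w : ℂ => q - τ * w) (-τ) x := by
        simpa using ((hasDerivAt_id x).const_mul (τ : ℂ)).const_sub q
      refine (a1.fun_div a2 (hne x hx)).congr_deriv ?_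
      ring
    have d2 := (innL.hasFDerivAt.comp x (d1.hasFDerivAt.restrictScalars ℝ)).fderiv
    rw [Function.comp_def] at d2
    rw [d2]
    simp only [ContinuousLinearMap.comp_apply, ContinuousLinearMap.coe_restrictScalars',
      ContinuousLinearMap.toSpanSingleton_apply, smul_eq_mul, innL_apply, nk]
    have e : x * (2 * τ * q / (q - τ * x) ^ 2) = (2 : ℝ) * (τ * x * q / (q - τ * x) ^ 2) := by
      push_cast; ring
    rw [e, re_ofReal_mul]
    congr 1
    have := Real.pi_pos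
    field_simp
  have hg := green_second zero_le_one hF hG
  have hP : ∀ x, innL (φ x) = (P0 (τ * x) q : ℝ) := fun x => inn_P0_eq hq _
  have e1 : ∫ x, P0 (τ * x) q • (-lap F x) ∂mD =
      -∫ z in ball 0 1, (lap F z * innL (φ z) - F z * lap (fun w => innL (φ w)) z) := by
    rw [← integral_neg]
    refine integral_congr_ae (regT_ae_mem.mono fun x hx => ?_)
    simp only
    rw [lap_clm innL (hc x (regT_D_sub hx)), inn_lap_holo (han x (regT_D_sub hx)), map_zero, hP,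
      real_smul]
    ring
  have c1 : Continuous fun s => fderiv ℝ F (ec s) (ec s) := by
    refine (inn_circle (F := fun z => fderiv ℝ F z z) fun z hz => ?_).1
    exact (((hF z hz).fderiv_right (m := 0) (by norm_num)).continuousAt).clm_apply continuousAt_id
  have c2 : Continuous fun s => fderiv ℝ (fun w => innL (φ w)) (ec s) (ec s) := by
    refine (inn_circle (F := fun z => fderiv ℝ (fun w => innL (φ w)) z z) fun z hz => ?_).1
    exact (((hG z hz).fderiv_right (m := 0) (by norm_num)).continuousAt).clm_apply continuousAt_id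
  have c3 := (inn_circle fun z hz => (hF z hz).continuousAt).1
  have c4 := (inn_circle fun z hz => (hG z hz).continuousAt).1
  have i1 : Integrable (fun s => fderiv ℝ F (ec s) (ec s) * innL (φ (ec s))) mc :=
    (c1.mul c4).integrableOn_Ioc
  have i2 : Integrable (fun s => F (ec s) * fderiv ℝ (fun w => innL (φ w)) (ec s) (ec s)) mc :=
    (c3.mul c2).integrableOn_Ioc
  rw [e1, hg, inn_interval, integral_sub i1 i2]
  have e2 : ∫ s, nk τ (ec s) q • F (ec s) ∂mc =
      ∫ s, F (ec s) * fderiv ℝ (fun w => innL (φ w)) (ec s) (ec s) ∂mc :=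
    integral_congr_ae (Eventually.of_forall fun s => by
      simp only
      rw [hd _ (inn_ec_Db s), real_smul, mul_comm])
  have e3 : ∫ s, P0 (τ * ec s) q • fderiv ℝ F (ec s) (ec s) ∂mc =
      ∫ s, fderiv ℝ F (ec s) (ec s) * innL (φ (ec s)) ∂mc :=
    integral_congr_ae (Eventually.of_forall fun s => by
      simp only
      rw [hP, real_smul, mul_comm])
  rw [e2, e3]
  ring

lemma inn_fubini_P {α : Type*} [MeasurableSpace α] {μ : Measure α} [IsFiniteMeasure μ]
    {φ : α → ℂ} (hφ : Measurable φ) {τ : ℝ} (h1 : τ < 1) (hτ : ∀ᵐ a ∂μ, ‖φ a‖ ≤ τ) {u : α → ℂ}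
    (hu : Integrable u μ) {f : ℝ → ℂ} {M : ℝ} (hf : Continuous f) (hM : ∀ t, ‖f t‖ ≤ M) :
    Integrable (fun t => (∫ a, P0 (φ a) (ec t) • u a ∂μ) * conj (f t)) mc ∧
      ∫ t, (∫ a, P0 (φ a) (ec t) • u a ∂μ) * conj (f t) ∂mc =
        ∫ a, u a * conj (Hp f (φ a)) ∂μ := by
  have m1 : Measurable fun p : ℝ × α => (φ p.2, p.1) :=
    (hφ.comp measurable_snd).prodMk measurable_fst
  have m2 := inn_meas_P0.comp m1
  rw [Function.comp_def] at m2
  have hi : Integrable (fun p : ℝ × α => P0 (φ p.2) (ec p.1) • u p.2 * conj (f p.1))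
      (mc.prod μ) := by
    refine ((integrable_const (1 / (2 * π * (1 - τ) ^ 2) * M)).mul_prod hu.norm).mono'
      ((m2.aestronglyMeasurable.smul hu.1.comp_snd).mul
        ((continuous_conj.comp hf).aestronglyMeasurable.comp_fst)) ?_
    filter_upwards [Measure.quasiMeasurePreserving_snd.ae hτ] with p hp
    rw [norm_mul, norm_smul, Complex.norm_conj]
    have k1 := inn_P0_le h1 (inn_norm_ec p.1) hp
    have k2 := hM p.1
    calc ‖P0 (φ p.2) (ec p.1)‖ * ‖u p.2‖ * ‖f p.1‖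
        ≤ 1 / (2 * π * (1 - τ) ^ 2) * ‖u p.2‖ * M := by
          have := Real.pi_pos
          gcongr
      _ = _ := by ring
  have e : ∀ t, (∫ a, P0 (φ a) (ec t) • u a ∂μ) * conj (f t) =
      ∫ a, P0 (φ a) (ec t) • u a * conj (f t) ∂μ := fun t => (integral_mul_const _ _).symm
  simp only [e]
  refine ⟨hi.integral_prod_left, (integral_integral_swap hi).trans ?_⟩
  refine integral_congr_ae (Eventually.of_forall fun a => ?_)
  simp only
  rw [Hp, ← integral_conj, ← integral_const_mul]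
  refine integral_congr_ae (Eventually.of_forall fun t => ?_)
  simp only [real_smul, map_mul, conj_ofReal]
  ring

lemma inn_nk_cont {τ : ℝ} (h0 : 0 < τ) (h1 : τ < 1) :
    Continuous fun p : ℝ × ℝ => nk τ (ec p.1) (ec p.2) := by
  have c1 := inn_cont_ec.comp (continuous_fst (X := ℝ) (Y := ℝ))
  have c2 := inn_cont_ec.comp (continuous_snd (X := ℝ) (Y := ℝ))
  refine (continuous_re.comp (((continuous_const.mul c1).mul c2).div
    ((c2.sub (continuous_const.mul c1)).pow 2) fun p => pow_ne_zero 2 ?_)).div_const π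
  have := inn_sub_ge (inn_norm_ec p.2) (inn_norm_mul h0 (inn_ec_Db p.1))
  exact norm_pos_iff.1 (lt_of_lt_of_le (by linarith) this)

lemma inn_int_cont {E : Type*} [NormedAddCommGroup E] {k : ℝ × ℝ → E} (hk : Continuous k) :
    Integrable k (mc.prod mc) := by
  rw [Measure.prod_restrict]
  exact ((hk.continuousOn.integrableOn_compact (isCompact_Icc.prod isCompact_Icc)).mono_set
    (prod_mono Ioc_subset_Icc_self Ioc_subset_Icc_self))

lemma inn_douglas_tau {F : ℂ → ℂ} (hF : ∀ z ∈ Db, ContDiffAt ℝ 2 F z) {τ : ℝ} (h0 : 0 < τ)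
    (h1 : τ < 1) {f : ℝ → ℂ} {M : ℝ} (hf : Continuous f) (hM : ∀ t, ‖f t‖ ≤ M) :
    ∫ p, nk τ (ec p.1) (ec p.2) * (F (ec p.1) * conj (f p.2)).re ∂(mc.prod mc) =
      (∫ s, fderiv ℝ F (ec s) (ec s) * conj (Hp f (τ * ec s)) ∂mc +
        ∫ x, -lap F x * conj (Hp f (τ * x)) ∂mD).re := by
  have c1 : Continuous fun s => fderiv ℝ F (ec s) (ec s) := by
    refine (inn_circle (F := fun z => fderiv ℝ F z z) fun z hz => ?_).1
    exact (((hF z hz).fderiv_right (m := 0) (by norm_num)).continuousAt).clm_apply continuousAt_id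
  have c3 := (inn_circle fun z hz => (hF z hz).continuousAt).1
  obtain ⟨i1, e1⟩ := inn_fubini_P (μ := mc) (φ := fun s => τ * ec s)
    (continuous_const.mul inn_cont_ec).measurable h1
    (Eventually.of_forall fun s => inn_norm_mul h0 (inn_ec_Db s)) c1.integrableOn_Ioc hf hM
  obtain ⟨i2, e2⟩ := inn_fubini_P (μ := mD) (φ := fun x => τ * x) (by fun_prop) h1
    (regT_ae_mem.mono fun x hx => inn_norm_mul h0 (regT_D_sub hx)) (inn_bm_lap hF).neg.int hf hM
  have hi : Integrable (fun p : ℝ × ℝ => nk τ (ec p.1) (ec p.2) • (F (ec p.1) * conj (f p.2)))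
      (mc.prod mc) := inn_int_cont ((inn_nk_cont h0 h1).smul ((c3.comp continuous_fst).mul
        (continuous_conj.comp (hf.comp continuous_snd))))
  rw [← e1, ← e2, ← integral_add i1 i2]
  have e3 : ∫ p, nk τ (ec p.1) (ec p.2) * (F (ec p.1) * conj (f p.2)).re ∂(mc.prod mc) =
      (∫ p, nk τ (ec p.1) (ec p.2) • (F (ec p.1) * conj (f p.2)) ∂(mc.prod mc)).re := by
    rw [← rep_integral_re hi]
    simp only [smul_re, smul_eq_mul]
  rw [e3, integral_prod_symm _ hi]
  congr 1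
  refine integral_congr_ae (Eventually.of_forall fun t => ?_)
  simp only
  rw [← add_mul, ← inn_green_P hF h0 h1 (inn_norm_ec t), ← integral_mul_const]
  simp only [smul_mul_assoc]

lemma inn_ev : ∀ᶠ τ : ℝ in 𝓝[<] 1, 0 < τ ∧ τ < 1 :=
  Ioo_mem_nhdsLT zero_lt_one

lemma inn_tendsto_mul (x : ℂ) : Tendsto (fun τ : ℝ => (τ : ℂ) * x) (𝓝[<] 1) (𝓝 x) := by
  have : Continuous fun τ : ℝ => (τ : ℂ) * x := by fun_prop
  simpa using (this.tendsto 1).mono_left nhdsWithin_le_nhds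

lemma inn_Hp_in {f : ℝ → ℂ} {M : ℝ} (hf : Continuous f) (hM : ∀ t, ‖f t‖ ≤ M) {x : ℂ}
    (hx : x ∈ D) : Tendsto (fun τ : ℝ => Hp f (τ * x)) (𝓝[<] 1) (𝓝 (Hp f x)) := by
  have hx1 := regT_norm_lt hx
  refine tendsto_integral_filter_of_dominated_convergence
    (fun _ => 1 / (2 * π * (1 - ‖x‖) ^ 2) * M) (inn_ev.mono fun τ hτ => ?_)
    (inn_ev.mono fun τ hτ => Eventually.of_forall fun t => ?_) (integrable_const _)
    (Eventually.of_forall fun t => ?_)
  · exact ((inn_P0_cont (inn_mul_mem hτ.1 hτ.2 (regT_D_sub hx))).smul hf).aestronglyMeasurable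
  · rw [norm_smul]
    refine mul_le_mul (inn_P0_le hx1 (inn_norm_ec t) ?_) (hM t) (norm_nonneg _)
      (by have := Real.pi_pos; positivity)
    rw [norm_mul, norm_real, Real.norm_of_nonneg hτ.1.le]
    exact mul_le_of_le_one_left (norm_nonneg _) hτ.2.le
  · have : ContinuousAt (fun z => P0 z (ec t)) x := by
      unfold P0
      refine kern0_continuous_dl.continuousAt.div (by fun_prop) ?_
      have := norm_pos_iff.2 (sub_ne_zero.2 (inn_ne_ec hx t))
      have := Real.pi_pos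
      positivity
    exact (this.tendsto.comp (inn_tendsto_mul x)).smul_const _

lemma inn_Gop_le {h : ℂ → ℂ} (hh : BM h) : ∃ K, ∀ x ∈ Db, ‖Gop h x‖ ≤ K * dl x := by
  obtain ⟨K, hK0, hK⟩ := hh.bdd'
  obtain ⟨I₀, -, hI⟩ := regT_sing
  refine ⟨K * (2 * I₀), fun x hx => (norm_integral_le_of_norm_le
    ((hI x hx).2.1.const_mul (K * dl x)) (regT_ae_mem.mono fun y hy => ?_)).trans ?_⟩
  · have hy' := regT_D_sub hy
    rw [norm_smul, Real.norm_of_nonneg (G0_nonneg hx hy'), ← dl_mul_dl_mul_K0 hx hy', K0_symm,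
      mul_assoc (dl x)]
    have k1 := dl_mul_K0_le hy' hx
    have k2 := dl_nonneg hx
    calc dl x * (dl y * K0 y x) * ‖h y‖ ≤ dl x * ‖y - x‖⁻¹ * K := by
          have := hK y hy
          gcongr
      _ = _ := by ring
  · rw [integral_const_mul]
    calc K * dl x * ∫ y, ‖y - x‖⁻¹ ∂mD ≤ K * dl x * (2 * I₀) :=
          mul_le_mul_of_nonneg_left (hI x hx).2.2 (mul_nonneg hK0 (dl_nonneg hx))
      _ = _ := by ring

lemma inn_Hp_bd {G : ℂ → ℂ} (hG : ∀ z ∈ Db, ContDiffAt ℝ 2 G z) (s : ℝ) :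
    Tendsto (fun τ : ℝ => Hp (fun t => G (ec t)) (τ * ec s)) (𝓝[<] 1) (𝓝 (G (ec s))) := by
  obtain ⟨K, hK⟩ := inn_Gop_le (inn_bm_lap hG).neg
  have t1 := (hG _ (inn_ec_Db s)).continuousAt.tendsto.comp (inn_tendsto_mul (ec s))
  have t2 : Tendsto (fun τ : ℝ => Gop (fun y => -lap G y) (τ * ec s)) (𝓝[<] 1) (𝓝 0) := by
    have t3 := ((kern0_continuous_dl.tendsto _).comp (inn_tendsto_mul (ec s))).const_mul K
    rw [dl_eq_zero (ec_mem s), mul_zero] at t3
    exact squeeze_zero_norm' (inn_ev.mono fun τ hτ =>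
      hK _ (regT_D_sub (inn_mul_mem hτ.1 hτ.2 (inn_ec_Db s)))) t3
  have t4 := t1.sub t2
  rw [sub_zero] at t4
  refine t4.congr' (inn_ev.mono fun τ hτ => ?_)
  have := green_rep hG (inn_mul_mem hτ.1 hτ.2 (inn_ec_Db s))
  simp only [Function.comp, Hp]
  linear_combination this

lemma inn_douglas_lim {F G : ℂ → ℂ} (hF : ∀ z ∈ Db, ContDiffAt ℝ 2 F z)
    (hG : ∀ z ∈ Db, ContDiffAt ℝ 2 G z) :
    Tendsto (fun τ : ℝ => ∫ p, nk τ (ec p.1) (ec p.2) * (F (ec p.1) * conj (G (ec p.2))).re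
      ∂(mc.prod mc)) (𝓝[<] 1) (𝓝 (∫ s, fderiv ℝ F (ec s) (ec s) * conj (G (ec s)) ∂mc +
        ∫ x, -lap F x * conj (Hp (fun t => G (ec t)) x) ∂mD).re) := by
  obtain ⟨hf, M, hM⟩ := inn_circle fun z hz => (hG z hz).continuousAt
  obtain ⟨c1, K, hK⟩ := inn_circle (F := fun z => fderiv ℝ F z z) fun z hz =>
    (((hF z hz).fderiv_right (m := 0) (by norm_num)).continuousAt).clm_apply continuousAt_id
  obtain ⟨K', hK'⟩ := (inn_bm_lap hF).neg.bdd
  have hm := inn_meas_Hp hf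
  refine Tendsto.congr' (inn_ev.mono fun τ hτ => (inn_douglas_tau hF hτ.1 hτ.2 hf hM).symm)
    ((continuous_re.tendsto _).comp (Tendsto.add ?_ ?_))
  · refine tendsto_integral_filter_of_dominated_convergence (fun _ => K * M)
      (Eventually.of_forall fun τ => ?_) (inn_ev.mono fun τ hτ => Eventually.of_forall fun t => ?_)
      (integrable_const _) (Eventually.of_forall fun t => ?_)
    · exact c1.aestronglyMeasurable.mul (continuous_conj.measurable.comp (hm.comp
        (continuous_const.mul inn_cont_ec).measurable)).aestronglyMeasurable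
    · rw [norm_mul, Complex.norm_conj]
      exact mul_le_mul (hK t) (inn_Hp_le hf hM (inn_mul_mem hτ.1 hτ.2 (inn_ec_Db t)))
        (norm_nonneg _) ((norm_nonneg _).trans (hK t))
    · exact ((continuous_conj.tendsto _).comp (inn_Hp_bd hG t)).const_mul _
  · refine tendsto_integral_filter_of_dominated_convergence (fun _ => K' * M)
      (Eventually.of_forall fun τ => ?_) (inn_ev.mono fun τ hτ => regT_ae_mem.mono fun x hx => ?_)
      (integrable_const _) (regT_ae_mem.mono fun x hx => ?_)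
    · exact (inn_bm_lap hF).neg.meas.mul (continuous_conj.measurable.comp (hm.comp
        (measurable_const_mul _))).aestronglyMeasurable
    · rw [norm_mul, Complex.norm_conj]
      exact mul_le_mul (hK' x hx) (inn_Hp_le hf hM (inn_mul_mem hτ.1 hτ.2 (regT_D_sub hx)))
        (norm_nonneg _) ((norm_nonneg _).trans (hK' x hx))
    · exact ((continuous_conj.tendsto _).comp (inn_Hp_in hf hM hx)).const_mul _

lemma inn_nk_symm (τ : ℝ) {s q : ℂ} (hs : ‖s‖ = 1) (hq : ‖q‖ = 1) : nk τ s q = nk τ q s := by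
  have hs0 : s ≠ 0 := norm_pos_iff.1 (by rw [hs]; norm_num)
  have hq0 : q ≠ 0 := norm_pos_iff.1 (by rw [hq]; norm_num)
  have e : conj (τ * s * q / (q - τ * s) ^ 2) = τ * q * s / (s - τ * q) ^ 2 := by
    simp only [map_div₀, map_mul, map_pow, map_sub, conj_ofReal, ← inv_eq_conj hs,
      ← inv_eq_conj hq]
    rw [show q⁻¹ - τ * s⁻¹ = (s - τ * q) / (s * q) by field_simp, div_pow, div_div_eq_mul_div]
    congr 1
    field_simp
  rw [nk, nk, ← e, conj_re]

lemma inn_nk_le {τ : ℝ} (h0 : 0 < τ) (h1 : τ < 1) {s q : ℂ} (hs : ‖s‖ = 1) (hq : ‖q‖ = 1) :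
    |nk τ s q| * ‖s - q‖ ^ 2 ≤ 1 / π := by
  have hs' : s.re * s.re + s.im * s.im = 1 := by
    rw [← normSq_apply, ← Complex.sq_norm, hs]; norm_num
  have hq' : q.re * q.re + q.im * q.im = 1 := by
    rw [← normSq_apply, ← Complex.sq_norm, hq]; norm_num
  have k1 : τ * ‖s - q‖ ^ 2 + (1 - τ) ^ 2 = ‖q - τ * s‖ ^ 2 := by
    simp only [Complex.sq_norm, normSq_apply, sub_re, sub_im, re_ofReal_mul, im_ofReal_mul]
    linear_combination (τ - τ ^ 2) * hs' + (τ - 1) * hq'
  have k2 : 0 < (1 - τ) ^ 2 := by have : 0 < 1 - τ := by linarith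
                                  positivity
  have k3 : 0 < ‖q - τ * s‖ ^ 2 := by rw [← k1]; positivity
  have k4 : |(τ * s * q / (q - τ * s) ^ 2).re| ≤ τ / ‖q - τ * s‖ ^ 2 := by
    refine (abs_re_le_norm _).trans (le_of_eq ?_)
    rw [norm_div, norm_mul, norm_mul, norm_pow, hs, hq, norm_real, Real.norm_of_nonneg h0.le,
      mul_one, mul_one]
  have := Real.pi_pos
  rw [nk, abs_div, abs_of_pos this, div_mul_eq_mul_div]
  refine div_le_div_of_nonneg_right ((mul_le_mul_of_nonneg_right k4 (sq_nonneg _)).trans ?_) this.le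
  rw [div_mul_eq_mul_div, div_le_one k3]
  linarith

lemma inn_nk_lim {s q : ℂ} (hs : ‖s‖ = 1) (hq : ‖q‖ = 1) (hne : s ≠ q) :
    Tendsto (fun τ : ℝ => nk τ s q) (𝓝[<] 1) (𝓝 (-(4 * K0 s q))) := by
  have hs0 : s ≠ 0 := norm_pos_iff.1 (by rw [hs]; norm_num)
  have hq0 : q ≠ 0 := norm_pos_iff.1 (by rw [hq]; norm_num)
  have h1 : q - s ≠ 0 := sub_ne_zero.2 hne.symm
  have h2 : s - q ≠ 0 := sub_ne_zero.2 hne
  have t1 := inn_tendsto_mul s
  have t2 := ((continuous_re.tendsto _).comp ((t1.mul_const q).div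
    ((t1.const_sub q).pow 2) (pow_ne_zero 2 h1))).div_const π
  have e : s * q / (q - s) ^ 2 = ((-(1 / ‖s - q‖ ^ 2) : ℝ) : ℂ) := by
    push_cast
    rw [← mul_conj', map_sub, ← inv_eq_conj hs, ← inv_eq_conj hq,
      show s⁻¹ - q⁻¹ = (q - s) / (s * q) by field_simp]
    field_simp
    ring
  rw [e, ofReal_re] at t2
  have e2 : -(4 * K0 s q) = -(1 / ‖s - q‖ ^ 2) / π := by
    rw [K0_boundary (mem_sphere_zero_iff_norm.2 hs)]
    have := Real.pi_pos
    have := norm_pos_iff.2 h2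
    field_simp
  rw [e2]
  exact t2

lemma inn_symmetrise {k : ℝ × ℝ → ℝ} (hk : Integrable k (mc.prod mc)) (hs : ∀ p, k p.swap = k p)
    {a : ℝ → ℝ} (ha : Continuous a) {K : ℝ} (hK : ∀ t, ‖a t‖ ≤ K) :
    Integrable (fun p : ℝ × ℝ => k p * (a p.1 - a p.2) ^ 2) (mc.prod mc) ∧
      ∫ p, k p * (a p.1 * a p.2) ∂(mc.prod mc) - ∫ p, k p * (a p.2 * a p.2) ∂(mc.prod mc) =
        -(1 / 2) * ∫ p, k p * (a p.1 - a p.2) ^ 2 ∂(mc.prod mc) := by
  have hi : ∀ u v : ℝ × ℝ → ℝ, Continuous u → Continuous v →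
      Integrable (fun p => k p * (a (u p) * a (v p))) (mc.prod mc) := fun u v hu hv =>
    hk.mul_bdd (c := K * K) ((ha.comp hu).mul (ha.comp hv)).aestronglyMeasurable
      (Eventually.of_forall fun p => by
        rw [norm_mul]
        exact mul_le_mul (hK _) (hK _) (norm_nonneg _) ((norm_nonneg _).trans (hK 0)))
  have i11 := hi _ _ continuous_fst continuous_fst
  have i12 := hi _ _ continuous_fst continuous_snd
  have i22 := hi _ _ continuous_snd continuous_snd
  have e : ∫ p, k p * (a p.1 * a p.1) ∂(mc.prod mc) = ∫ p, k p * (a p.2 * a p.2) ∂(mc.prod mc) := by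
    rw [← integral_prod_swap]
    simp only [hs, Prod.fst_swap]
  have e2 : ∀ p : ℝ × ℝ, k p * (a p.1 - a p.2) ^ 2 =
      k p * (a p.1 * a p.1) + k p * (a p.2 * a p.2) - 2 * (k p * (a p.1 * a p.2)) := fun p => by
    ring
  have i3 : Integrable (fun p : ℝ × ℝ => k p * (a p.1 * a p.1) + k p * (a p.2 * a p.2))
      (mc.prod mc) := i11.add i22
  simp only [e2]
  refine ⟨i3.sub (i12.const_mul 2), ?_⟩
  rw [integral_sub i3 (i12.const_mul 2), integral_add i11 i22, integral_const_mul, e]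
  ring

/-- `re (om s * conj (om t))`. -/
noncomputable def innRho (om : ℂ → ℂ) (p : ℝ × ℝ) : ℝ := (om (ec p.1) * conj (om (ec p.2))).re

lemma inn_rho_symm (om : ℂ → ℂ) (p : ℝ × ℝ) : innRho om p.swap = innRho om p := by
  simp only [innRho, Prod.fst_swap, Prod.snd_swap, mul_re, conj_re, conj_im]
  ring

lemma inn_rho_cont {om : ℂ → ℂ} (hom : ∀ z ∈ Db, ContDiffAt ℝ 2 om z) :
    Continuous (innRho om) ∧ ∃ R, ∀ p, ‖innRho om p‖ ≤ R := by
  obtain ⟨hc, M, hM⟩ := inn_circle fun z hz => (hom z hz).continuousAt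
  refine ⟨continuous_re.comp ((hc.comp continuous_fst).mul
    (continuous_conj.comp (hc.comp continuous_snd))), M * M, fun p => (abs_re_le_norm _).trans ?_⟩
  rw [norm_mul, Complex.norm_conj]
  exact mul_le_mul (hM _) (hM _) (norm_nonneg _) ((norm_nonneg _).trans (hM 0))

lemma inn_circle_real {m : ℂ → ℝ} (hm : ∀ z ∈ Db, ContDiffAt ℝ 2 m z) :
    Continuous (fun t => m (ec t)) ∧ ∃ K, ∀ t, ‖m (ec t)‖ ≤ K := by
  have h : ContinuousOn m Db := fun z hz => (hm z hz).continuousAt.continuousWithinAt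
  obtain ⟨K, hK⟩ := (isCompact_closedBall (0 : ℂ) 1).exists_bound_of_continuousOn h
  exact ⟨h.comp_continuous inn_cont_ec inn_ec_Db, K, fun t => hK _ (inn_ec_Db t)⟩

lemma inn_c2_mul {om : ℂ → ℂ} {m : ℂ → ℝ} (hom : ∀ z ∈ Db, ContDiffAt ℝ 2 om z)
    (hm : ∀ z ∈ Db, ContDiffAt ℝ 2 m z) : ∀ z ∈ Db, ContDiffAt ℝ 2 (fun w => m w * om w) z :=
  fun z hz => (contDiffAt_ofReal' (hm z hz)).mul (hom z hz)

/-- The Douglas formula for multipliers. -/
lemma inn_douglas {om : ℂ → ℂ} {m : ℂ → ℝ} (hom : ∀ z ∈ Db, ContDiffAt ℝ 2 om z)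
    (hm : ∀ z ∈ Db, ContDiffAt ℝ 2 m z) :
    Integrable (fun p : ℝ × ℝ => K0 (ec p.1) (ec p.2) * innRho om p *
      (m (ec p.1) - m (ec p.2)) ^ 2) (mc.prod mc) ∧
    (∫ s, fderiv ℝ (fun w => m w * om w) (ec s) (ec s) * conj (m (ec s) * om (ec s)) ∂mc +
        ∫ x, -lap (fun w => m w * om w) x * conj (Hp (fun t => m (ec t) * om (ec t)) x) ∂mD).re -
      (∫ s, fderiv ℝ om (ec s) (ec s) * conj (m (ec s) * (m (ec s) * om (ec s))) ∂mc +
        ∫ x, -lap om x * conj (Hp (fun t => m (ec t) * (m (ec t) * om (ec t))) x) ∂mD).re =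
      2 * ∫ p, K0 (ec p.1) (ec p.2) * innRho om p * (m (ec p.1) - m (ec p.2)) ^ 2
        ∂(mc.prod mc) := by
  have hg := inn_c2_mul hom hm
  obtain ⟨hρ, R, hR⟩ := inn_rho_cont hom
  obtain ⟨ha, K, hK⟩ := inn_circle_real hm
  have hm' : ContDiffOn ℝ 2 m Db := fun z hz => (hm z hz).contDiffWithinAt
  obtain ⟨L, hL⟩ := hm'.exists_lipschitzOnWith two_ne_zero (convex_closedBall _ _)
    (isCompact_closedBall _ _)
  have hR0 : 0 ≤ R := (norm_nonneg _).trans (hR 0)
  have hLp : ∀ p : ℝ × ℝ, (m (ec p.1) - m (ec p.2)) ^ 2 ≤ L ^ 2 * ‖ec p.1 - ec p.2‖ ^ 2 := by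
    intro p
    have := hL.norm_sub_le (inn_ec_Db p.1) (inn_ec_Db p.2)
    rw [← mul_pow, ← sq_abs]
    exact pow_le_pow_left₀ (abs_nonneg _) this 2
  have hb : ∀ (c : ℝ) (p : ℝ × ℝ), |c| * ‖ec p.1 - ec p.2‖ ^ 2 ≤ 1 / π →
      ‖c * innRho om p * (m (ec p.1) - m (ec p.2)) ^ 2‖ ≤ 1 / π * R * L ^ 2 := by
    intro c p hc
    rw [norm_mul, norm_mul, Real.norm_of_nonneg (sq_nonneg _), Real.norm_eq_abs c]
    calc |c| * ‖innRho om p‖ * (m (ec p.1) - m (ec p.2)) ^ 2
        ≤ |c| * R * (L ^ 2 * ‖ec p.1 - ec p.2‖ ^ 2) := by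
          have := hR p
          have := hLp p
          gcongr
      _ = |c| * ‖ec p.1 - ec p.2‖ ^ 2 * R * L ^ 2 := by ring
      _ ≤ _ := by gcongr
  have hca : Continuous fun p : ℝ × ℝ => (m (ec p.1) - m (ec p.2)) ^ 2 :=
    ((ha.comp continuous_fst).sub (ha.comp continuous_snd)).pow 2
  have t1 := (inn_douglas_lim hg hg).sub (inn_douglas_lim hom (inn_c2_mul hg hm))
  have t2 : Tendsto (fun τ : ℝ => ∫ p, nk τ (ec p.1) (ec p.2) * innRho om p *
      (m (ec p.1) - m (ec p.2)) ^ 2 ∂(mc.prod mc)) (𝓝[<] 1)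
      (𝓝 (∫ p, -(4 * K0 (ec p.1) (ec p.2)) * innRho om p * (m (ec p.1) - m (ec p.2)) ^ 2
        ∂(mc.prod mc))) := by
    refine tendsto_integral_filter_of_dominated_convergence (fun _ => 1 / π * R * L ^ 2)
      (inn_ev.mono fun τ hτ => ?_) (inn_ev.mono fun τ hτ => Eventually.of_forall fun p => ?_)
      (integrable_const _) (inn_ae_ne.mono fun p hp => ?_)
    · exact (((inn_nk_cont hτ.1 hτ.2).mul hρ).mul hca).aestronglyMeasurable
    · exact hb _ p (inn_nk_le hτ.1 hτ.2 (inn_norm_ec _) (inn_norm_ec _))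
    · exact ((inn_nk_lim (inn_norm_ec _) (inn_norm_ec _) hp).mul_const _).mul_const _
  constructor
  · have m1 : Measurable fun p : ℝ × ℝ => (ec p.1, ec p.2) :=
      ((inn_cont_ec.comp continuous_fst).prodMk (inn_cont_ec.comp continuous_snd)).measurable
    have m2 := measurable_K0.comp m1
    rw [Function.comp_def] at m2
    refine Integrable.of_bound ((m2.mul hρ.measurable).mul hca.measurable).aestronglyMeasurable
      (1 / π * R * L ^ 2) (inn_ae_ne.mono fun p hp => hb _ p ?_)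
    rw [abs_of_nonneg (K0_nonneg (inn_ec_Db _) (inn_ec_Db _)), K0_boundary (ec_mem _)]
    have := Real.pi_pos
    have := norm_pos_iff.2 (sub_ne_zero.2 hp)
    rw [div_mul_eq_mul_div, div_le_div_iff₀ (by positivity) (by positivity)]
    have : 0 < π * ‖ec p.1 - ec p.2‖ ^ 2 := by positivity
    nlinarith
  · have t3 := t2.const_mul (-(1 / 2))
    have e : -(1 / 2) * ∫ p, -(4 * K0 (ec p.1) (ec p.2)) * innRho om p *
        (m (ec p.1) - m (ec p.2)) ^ 2 ∂(mc.prod mc) =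
        2 * ∫ p, K0 (ec p.1) (ec p.2) * innRho om p * (m (ec p.1) - m (ec p.2)) ^ 2
          ∂(mc.prod mc) := by
      rw [← integral_const_mul, ← integral_const_mul]
      exact integral_congr_ae (Eventually.of_forall fun p => by ring)
    rw [e] at t3
    refine tendsto_nhds_unique t1 (t3.congr' (inn_ev.mono fun τ hτ => ?_))
    simp only
    rw [← (inn_symmetrise (k := fun p => nk τ (ec p.1) (ec p.2) * innRho om p)
      (inn_int_cont ((inn_nk_cont hτ.1 hτ.2).mul hρ)) (fun p => by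
        rw [inn_rho_symm, Prod.fst_swap, Prod.snd_swap,
          inn_nk_symm τ (inn_norm_ec _) (inn_norm_ec _)]) ha hK).2]
    congr 1 <;> refine integral_congr_ae (Eventually.of_forall fun p => ?_) <;>
      simp only [innRho, mul_re, mul_im, conj_re, conj_im, ofReal_re, ofReal_im] <;> ring

end Vale.Agent.P071
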