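import Vale.Agent.P071.Kernel
import Vale.Agent.P071.Rep
import Vale.Agent.P071.InnerAuxB

/-!
# The Helmholtz extension of boundary multipliers
-/

open Complex Metric Set Filter Topology MeasureTheory
open scoped ContDiff ComplexConjugate Real

namespace Vale.Agent.P071

/-- Poisson representation at the centre for solutions of `Δ om + ν om = 0`. -/
theorem rep_zero {ν : ℂ → ℝ} {A θ : ℝ} (hν : Pot ν A θ) {om : ℂ → ℂ}
    (hom : ∀ z ∈ Db, ContDiffAt ℝ 2 om z) (heq : ∀ z ∈ D, lap om z = -(ν z * om z)) :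
    om 0 = ∫ s, (2 * KK ν 0 (ec s)) • om (ec s) ∂mc := by
  obtain ⟨C, -, hK⟩ := kern_KB hν
  rw [inn_rep hν hK hom heq 0 (mem_ball_self one_pos), Wk]
  simp [dl]

lemma inn_energy {ν : ℂ → ℝ} (hν : BM fun z => (ν z : ℂ)) {om : ℂ → ℂ} {m : ℂ → ℝ}
    (hom : ∀ z ∈ Db, ContDiffAt ℝ 2 om z) (heq : ∀ z ∈ D, lap om z = -(ν z * om z))
    (hm : ∀ z ∈ Db, ContDiffAt ℝ 2 m z) :
    ∫ z in D, (dx m z ^ 2 + dy m z ^ 2) * ‖om z‖ ^ 2 =
      (∫ s, fderiv ℝ (fun w => m w * om w) (ec s) (ec s) * conj (m (ec s) * om (ec s)) ∂mc).re -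
      (∫ s, fderiv ℝ om (ec s) (ec s) * conj (m (ec s) * (m (ec s) * om (ec s))) ∂mc).re +
      ∫ z in D, ((-lap (fun w => m w * om w) z - ν z * (m z * om z)) * conj (m z * om z)).re := by
  have hg := inn_c2_mul hom hm
  have hM : ∀ z ∈ Db, ContDiffAt ℝ 2 (fun w => (m w : ℂ)) z := fun z hz =>
    contDiffAt_ofReal' (hm z hz)
  have hG : ∀ z ∈ Db, ContDiffAt ℝ 2 (fun w => (m w : ℂ) * (om w * conj (om w))) z := fun z hz =>
    (hM z hz).mul ((hom z hz).mul (contDiffAt_conj' (hom z hz)))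
  have h1 := green_first zero_le_one hM fun z hz => (hG z hz).of_le (by norm_num)
  have cf : ∀ {F : ℂ → ℂ}, (∀ z ∈ Db, ContDiffAt ℝ 2 F z) →
      Continuous fun s => fderiv ℝ F (ec s) (ec s) := fun {F} hF =>
    (inn_circle (F := fun z => fderiv ℝ F z z) fun z hz =>
      (((hF z hz).fderiv_right (m := 0) (by norm_num)).continuousAt).clm_apply continuousAt_id).1
  have i1 : Integrable (fun s => fderiv ℝ (fun w => m w * om w) (ec s) (ec s) *
      conj (m (ec s) * om (ec s))) mc := ((cf hg).mul (continuous_conj.comp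
        (inn_circle fun z hz => (hg z hz).continuousAt).1)).integrableOn_Ioc
  have i2 : Integrable (fun s => fderiv ℝ om (ec s) (ec s) *
      conj (m (ec s) * (m (ec s) * om (ec s)))) mc := ((cf hom).mul (continuous_conj.comp
        (inn_circle fun z hz => (inn_c2_mul hg hm z hz).continuousAt).1)).integrableOn_Ioc
  have e1 : ∫ s, fderiv ℝ (fun w => (m w : ℂ)) (ec s) (ec s) *
      (m (ec s) * (om (ec s) * conj (om (ec s)))) ∂mc =
      ∫ s, fderiv ℝ (fun w => m w * om w) (ec s) (ec s) * conj (m (ec s) * om (ec s)) ∂mc -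
        ∫ s, fderiv ℝ om (ec s) (ec s) * conj (m (ec s) * (m (ec s) * om (ec s))) ∂mc := by
    rw [← integral_sub i1 i2]
    refine integral_congr_ae (Eventually.of_forall fun s => ?_)
    simp only
    rw [fderiv_fun_mul ((hM _ (inn_ec_Db s)).differentiableAt two_ne_zero)
      ((hom _ (inn_ec_Db s)).differentiableAt two_ne_zero)]
    simp only [add_apply, smul_apply, smul_eq_mul, map_mul, conj_ofReal]
    ring
  have bd : ∀ {F : ℂ → ℂ}, (∀ z ∈ Db, ContDiffAt ℝ 2 F z) → BM (dx F) ∧ BM (dy F) := fun hF =>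
    ⟨inn_bm_c0 fun z hz => contDiffAt_dx (hF z hz) (by norm_num),
      inn_bm_c0 fun z hz => contDiffAt_dy (hF z hz) (by norm_num)⟩
  have b1 := ((inn_bm_lap hM).mul (inn_bm_c2 hG)).add
    (((bd hM).1.mul (bd hG).1).add ((bd hM).2.mul (bd hG).2))
  have b2 := (((inn_bm_lap hg).neg.sub (hν.mul (inn_bm_c2 hg))).mul (inn_bm_c2 hg).conj).re
  rw [inn_interval, e1] at h1
  rw [← sub_re, ← h1, ← rep_integral_re b1.int, ← integral_add b1.re.int b2.int]
  refine integral_congr_ae (regT_ae_mem.mono fun z hz => ?_)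
  have hz' := regT_D_sub hz
  have d1 := (hM z hz').differentiableAt two_ne_zero
  have d2 := (hom z hz').differentiableAt two_ne_zero
  have d3 := differentiableAt_conj' d2
  have d4 := (hm z hz').differentiableAt two_ne_zero
  simp only
  rw [lap_mul (hM z hz') (hom z hz'), dx_mul d1 (d2.fun_mul d3), dy_mul d1 (d2.fun_mul d3),
    dx_mul d2 d3, dy_mul d2 d3, dx_conj d2, dy_conj d2, dx_ofReal d4, dy_ofReal d4,
    lap_ofReal (hm z hz'), heq z hz, Complex.sq_norm, normSq_apply]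
  simp only [add_re, add_im, sub_re, sub_im, neg_re, neg_im, mul_re, mul_im, conj_re, conj_im,
    ofReal_re, ofReal_im, re_ofNat, im_ofNat]
  ring

lemma inn_main {ν : ℂ → ℝ} {A θ C : ℝ} (hν : Pot ν A θ) (hK : KB ν C θ) {om : ℂ → ℂ} {m : ℂ → ℝ}
    (hom : ∀ z ∈ Db, ContDiffAt ℝ 2 om z) (heq : ∀ z ∈ D, lap om z = -(ν z * om z))
    (hm : ∀ z ∈ Db, ContDiffAt ℝ 2 m z) :
    (∫ z in D, (dx m z ^ 2 + dy m z ^ 2) * ‖om z‖ ^ 2) +
      ∫ z in D, ((-lap (fun w => m w * om w) z - ν z * (m z * om z)) *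
        conj (Wk ν (fun t => m (ec t) * om (ec t)) z - m z * om z)).re =
      ∫ p : ℝ × ℝ, 2 * KK ν (ec p.1) (ec p.2) * (om (ec p.1) * conj (om (ec p.2))).re *
        (m (ec p.1) - m (ec p.2)) ^ 2 ∂(mc.prod mc) := by
  have hg := inn_c2_mul hom hm
  have hg2 := inn_c2_mul hg hm
  obtain ⟨c0, M0, hM0⟩ := inn_circle fun z hz => (hom z hz).continuousAt
  obtain ⟨c1, M1, hM1⟩ := inn_circle fun z hz => (hg z hz).continuousAt
  obtain ⟨c2, M2, hM2⟩ := inn_circle fun z hz => (hg2 z hz).continuousAt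
  obtain ⟨hρ, R, hR⟩ := inn_rho_cont hom
  obtain ⟨ha, K, hKa⟩ := inn_circle_real hm
  obtain ⟨iK1, hp⟩ := inn_pair hν hK
  obtain ⟨iK0, hd⟩ := inn_douglas hom hm
  obtain ⟨iK2, hs⟩ := inn_symmetrise (k := fun p => K1 ν p * innRho om p)
    (iK1.mul_bdd hρ.aestronglyMeasurable (Eventually.of_forall hR))
    (fun p => by rw [inn_K1_symm hν, inn_rho_symm]) ha hKa
  have p1 := hp _ _ _ _ c1 c1 hM1 hM1
  have p2 := hp _ _ _ _ c0 c2 hM0 hM2
  have q1 : ∫ p, 4 * K1 ν p * (m (ec p.1) * om (ec p.1) * conj (m (ec p.2) * om (ec p.2))).re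
      ∂(mc.prod mc) = 4 * ∫ p, K1 ν p * innRho om p * (m (ec p.1) * m (ec p.2)) ∂(mc.prod mc) := by
    rw [← integral_const_mul]
    refine integral_congr_ae (Eventually.of_forall fun p => ?_)
    simp only [innRho, mul_re, mul_im, conj_re, conj_im, ofReal_re, ofReal_im]
    ring
  have q2 : ∫ p, 4 * K1 ν p * (om (ec p.1) * conj (m (ec p.2) * (m (ec p.2) * om (ec p.2)))).re
      ∂(mc.prod mc) = 4 * ∫ p, K1 ν p * innRho om p * (m (ec p.2) * m (ec p.2)) ∂(mc.prod mc) := by
    rw [← integral_const_mul]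
    refine integral_congr_ae (Eventually.of_forall fun p => ?_)
    simp only [innRho, mul_re, mul_im, conj_re, conj_im, ofReal_re, ofReal_im]
    ring
  have q3 : ∫ p : ℝ × ℝ, 2 * KK ν (ec p.1) (ec p.2) * (om (ec p.1) * conj (om (ec p.2))).re *
      (m (ec p.1) - m (ec p.2)) ^ 2 ∂(mc.prod mc) =
      2 * (∫ p, K0 (ec p.1) (ec p.2) * innRho om p * (m (ec p.1) - m (ec p.2)) ^ 2 ∂(mc.prod mc) +
        ∫ p, K1 ν p * innRho om p * (m (ec p.1) - m (ec p.2)) ^ 2 ∂(mc.prod mc)) := by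
    rw [← integral_add iK0 iK2, ← integral_const_mul]
    refine integral_congr_ae (Eventually.of_forall fun p => ?_)
    simp only [innRho, K1]
    ring
  have bg := inn_bm_c2 hg
  have bh := (inn_bm_lap hg).neg
  have bW := inn_bm_Wk hν hK c1 hM1
  have bH := inn_bm_Hp c1 hM1
  have bH2 := inn_bm_Hp c2 hM2
  have bν := hν.innBM
  have r1 : ∫ x, -lap om x * conj (Hp (fun t => m (ec t) * (m (ec t) * om (ec t))) x) ∂mD =
      ∫ x, ν x * Wk ν (fun t => om (ec t)) x *
        conj (Hp (fun t => m (ec t) * (m (ec t) * om (ec t))) x) ∂mD :=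
    integral_congr_ae (regT_ae_mem.mono fun x hx => by
      simp only
      rw [heq x hx, neg_neg, ← inn_rep hν hK hom heq x hx])
  rw [r1, add_re, add_re, ← rep_integral_re ((bν.mul (inn_bm_Wk hν hK c0 hM0)).mul bH2.conj).int,
    p2, q2, ← rep_integral_re (bh.mul bH.conj).int] at hd
  rw [q1] at p1
  set g : ℂ → ℂ := fun w => m w * om w with hgdef
  set W := Wk ν (fun t => m (ec t) * om (ec t)) with hW
  set H := Hp (fun t => m (ec t) * om (ec t)) with hH
  have s1 : ∫ x, -lap g x * conj (Gop (fun y => ν y * W y) x) ∂mD =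
      ∫ x, (g x - H x) * conj (ν x * W x) ∂mD := by
    simp only [← Gop_conj]
    rw [← Gop_symm bh.memLp (bν.mul bW).conj.memLp]
    refine integral_congr_ae (regT_ae_mem.mono fun x hx => ?_)
    have := green_rep hg hx
    have e : H x = ∫ θ, P0 x (ec θ) • g (ec θ) ∂mc := rfl
    simp only
    rw [e, this, add_sub_cancel_right]
  have j1 := (bh.mul (bν.mul bW).gop.conj)
  have j2 := ((bg.sub bH).mul (bν.mul bW).conj)
  have j3 := ((bh.sub (bν.mul bg)).mul bg.conj).re.int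
  have j4 := ((bh.sub (bν.mul bg)).mul (bW.sub bg).conj).re.int
  have j5 := (bh.mul bH.conj).re.int
  have j6 := ((bν.mul bW).mul bH.conj).re.int
  have s2 := congrArg re s1
  rw [← rep_integral_re j1.int, ← rep_integral_re j2.int] at s2
  have j7 : Integrable (fun x => (-lap g x * conj (H x)).re - (ν x * W x * conj (H x)).re) mD :=
    j5.sub j6
  have j8 : Integrable (fun x => (-lap g x * conj (Gop (fun y => ν y * W y) x)).re -
      ((g x - H x) * conj (ν x * W x)).re) mD := j1.re.int.sub j2.re.int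
  have s3 : ∫ z, ((-lap g z - ν z * g z) * conj (g z)).re ∂mD +
      ∫ z, ((-lap g z - ν z * g z) * conj (W z - g z)).re ∂mD =
      (∫ x, (-lap g x * conj (H x)).re ∂mD - ∫ x, (ν x * W x * conj (H x)).re ∂mD) +
        (∫ x, (-lap g x * conj (Gop (fun y => ν y * W y) x)).re ∂mD -
          ∫ x, ((g x - H x) * conj (ν x * W x)).re ∂mD) := by
    rw [← integral_add j3 j4, ← integral_sub j5 j6, ← integral_sub j1.re.int j2.re.int,
      ← integral_add j7 j8]
    refine integral_congr_ae (regT_ae_mem.mono fun x hx => ?_)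
    have := inn_Wk_eq hν hK c1 hM1 hx
    have e : Gop (fun y => ν y * W y) x = W x - H x := by linear_combination -this
    simp only
    rw [e]
    simp only [sub_re, sub_im, neg_re, neg_im, mul_re, mul_im, conj_re, conj_im,
      ofReal_re, ofReal_im]
    ring
  rw [inn_energy bν hom heq hm, q3]
  linear_combination s3 + s2 + hd - p1 - 4 * hs

/-- The energy of a nearly optimal extension of the boundary values `m om`. -/
theorem inner_ineq (A θ : ℝ) : ∃ C : ℝ, 0 ≤ C ∧ ∀ ν : ℂ → ℝ, Pot ν A θ →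
    ∀ (om : ℂ → ℂ) (m : ℂ → ℝ) (M : ℝ), (∀ z ∈ Db, ContDiffAt ℝ 2 om z) →
      (∀ z ∈ D, lap om z = -(ν z * om z)) → (∀ z ∈ Db, ContDiffAt ℝ 2 m z) →
      (∀ z ∈ S1, ‖m z * om z‖ ≤ M) → ∀ ε : ℝ, 0 < ε →
      ∃ η : ℂ → ℂ, ContDiff ℝ ∞ η ∧ (∀ z ∈ S1, η z = 0) ∧
        (∫ z in D, (dx m z ^ 2 + dy m z ^ 2) * ‖om z‖ ^ 2) +
          2 * (∫ z in D, ((-lap (fun w => m w * om w) z - ν z * (m z * om z)) * conj (η z)).re) +
          (∫ z in D, ((-lap η z - ν z * η z) * conj (η z)).re) ≤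
          (∫ p : ℝ × ℝ, 2 * KK ν (ec p.1) (ec p.2) * (om (ec p.1) * conj (om (ec p.2))).re *
            (m (ec p.1) - m (ec p.2)) ^ 2 ∂(mc.prod mc)) + ε ∧
        ∫ z in D, ‖m z * om z + η z‖ ^ 2 ≤ C * M ^ 2 + ε := by
  obtain ⟨C, -, hC⟩ := exists_KB A θ
  obtain ⟨CG, hCG0, hCG⟩ := exists_Gop_bound
  set B : ℝ := 1 + 4 * π * (C / (1 - θ)) with hB
  set V : ℝ := mD.real univ with hV
  have hV0 : 0 < V := regT_vol_pos
  refine ⟨V * (2 * B ^ 2), by positivity, fun ν hν om m M hom heq hm hM ε hε => ?_⟩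
  have hK := hC ν hν
  have hA := hν.A_nonneg
  have hg := inn_c2_mul hom hm
  have c1 := (inn_circle fun z hz => (hg z hz).continuousAt).1
  have hM1 : ∀ t, ‖m (ec t) * om (ec t)‖ ≤ M := fun t => hM _ (ec_mem t)
  have key := inn_main hν hK hom heq hm
  have bg := inn_bm_c2 hg
  have bh := (inn_bm_lap hg).neg
  have bW := inn_bm_Wk hν hK c1 hM1
  have bν := hν.innBM
  have hWle := fun x hx => inn_Wk_le hν hK c1 hM1 (x := x) hx
  have hWeq := fun x hx => inn_Wk_eq hν hK c1 hM1 (x := x) hx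
  set g : ℂ → ℂ := fun w => m w * om w with hgdef
  set W := Wk ν (fun t => m (ec t) * om (ec t)) with hW
  have bu := bh.sub (bν.mul bg)
  have bk := bh.sub (bν.mul bW)
  obtain ⟨Ku, hKu0, hKu⟩ := bu.bdd'
  obtain ⟨Ke, hKe0, hKe⟩ := (bW.sub bg).bdd'
  set s : ℝ := √CG with hs
  have hs0 : 0 ≤ s := Real.sqrt_nonneg _
  set c : ℝ := s * (Ku + A * (Ke + 1)) * V + (Ke + 1) * ((1 + V) / 2) with hc
  have hc0 : 0 ≤ c := by positivity
  obtain ⟨γ, hγ0, hγ⟩ := exists_pos_mul_lt (lt_min hε one_pos) (c + V * (2 * s) + s)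
  have hγ1 : c * γ ≤ ε := by
    have := (lt_min_iff.1 hγ).1
    have : 0 ≤ (V * (2 * s) + s) * γ := by positivity
    linarith
  have hγ2 : V * (2 * s) * γ ≤ ε := by
    have := (lt_min_iff.1 hγ).1
    have : 0 ≤ (c + s) * γ := by positivity
    linarith
  have hγ3 : s * γ ≤ 1 := by
    have := (lt_min_iff.1 hγ).2
    have : 0 ≤ (c + V * (2 * s)) * γ := by positivity
    linarith
  obtain ⟨η, hη, hη0, hηe⟩ := dense_lap bk.neg.memLp (pow_pos hγ0 2)
  have hη2 : ∀ z ∈ Db, ContDiffAt ℝ 2 η z := fun z _ => (hη.of_le dense_two_le).contDiffAt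
  have bη := inn_bm_c2 hη2
  have be := bk.neg.add (inn_bm_lap hη2)
  set e : ℂ → ℂ := fun z => -(-lap g z - ν z * W z) + lap η z with he
  have hb : ∀ x ∈ D, ‖Gop e x‖ ≤ s * γ := fun x hx => by
    have := ((hCG e be.memLp).1 x (regT_D_sub hx)).trans (mul_le_mul_of_nonneg_left hηe hCG0)
    refine (Real.le_sqrt_of_sq_le this).trans (le_of_eq ?_)
    rw [Real.sqrt_mul hCG0, Real.sqrt_sq hγ0.le]
  have hrep : ∀ x ∈ D, η x = W x - g x - Gop e x := fun x hx => by
    have k1 := green_rep hη2 hx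
    have k2 := green_rep hg hx
    have k3 := hWeq x hx
    have k4 : Hp (fun t => m (ec t) * om (ec t)) x = ∫ θ, P0 x (ec θ) • g (ec θ) ∂mc := rfl
    simp only [hη0 _ (ec_mem _), smul_zero, integral_zero, add_zero] at k1
    rw [inn_Gop_congr (g := fun y => (ν y * W y - -lap g y) - e y) (fun z _ => by
      simp only [he]; ring), inn_Gop_sub ((bν.mul bW).sub bh).memLp be.memLp hx,
      inn_Gop_sub (bν.mul bW).memLp bh.memLp hx] at k1
    linear_combination k1 + k2 - k3 - k4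
  refine ⟨η, hη, hη0, ?_, ?_⟩
  · have j1 := (bu.mul bη.conj).re.int
    have j2 := (((inn_bm_lap hη2).neg.sub (bν.mul bη)).mul bη.conj).re.int
    have j3 := (bu.mul (bW.sub bg).conj).re.int
    have j4 := be.norm.sq.int
    have j5 : Integrable (fun z => ((-lap g z - ν z * g z) * conj (W z - g z)).re +
        (Ke + 1) / (2 * γ) * ‖e z‖ ^ 2) mD := j3.add (j4.const_mul _)
    have k1 : ∫ z, (2 * ((-lap g z - ν z * g z) * conj (η z)).re +
        ((-lap η z - ν z * η z) * conj (η z)).re) ∂mD ≤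
        ∫ z, (((-lap g z - ν z * g z) * conj (W z - g z)).re + (Ke + 1) / (2 * γ) * ‖e z‖ ^ 2 +
          (s * γ * (Ku + A * (Ke + 1)) + (Ke + 1) * (γ / 2))) ∂mD := by
      refine integral_mono_ae ((j1.const_mul 2).add j2) (j5.add (integrable_const _))
        (regT_ae_mem.mono fun z hz => ?_)
      have a1 := hb z hz
      have a2 := hKu z hz
      have a3 : ‖η z‖ ≤ Ke + 1 := by
        rw [hrep z hz]
        exact (norm_sub_le _ _).trans (add_le_add (hKe z hz) (a1.trans hγ3))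
      have a4 : -lap η z - ν z * η z = -(-lap g z - ν z * g z) + (ν z * Gop e z - e z) := by
        rw [hrep z hz]
        simp only [he]
        ring
      have a5 : -((-lap g z - ν z * g z) * conj (Gop e z)).re ≤ Ku * (s * γ) := by
        refine (neg_le_abs _).trans ((abs_re_le_norm _).trans ?_)
        rw [norm_mul, Complex.norm_conj]
        exact mul_le_mul a2 a1 (norm_nonneg _) hKu0
      have a6 : ((ν z * Gop e z - e z) * conj (η z)).re ≤ (A * (s * γ) + ‖e z‖) * (Ke + 1) := by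
        refine (le_abs_self _).trans ((abs_re_le_norm _).trans ?_)
        rw [norm_mul, Complex.norm_conj]
        refine mul_le_mul ((norm_sub_le _ _).trans (add_le_add ?_ le_rfl)) a3 (norm_nonneg _)
          (by positivity)
        rw [norm_mul, norm_real, Real.norm_of_nonneg (hν.nonneg z)]
        exact mul_le_mul (hν.le z) a1 (norm_nonneg _) hA
      have a7 : ‖e z‖ ≤ ‖e z‖ ^ 2 / (2 * γ) + γ / 2 := by
        rw [div_add' _ _ _ (by positivity), le_div_iff₀ (by positivity)]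
        nlinarith [sq_nonneg (‖e z‖ - γ)]
      have a8 := mul_le_mul_of_nonneg_left a7 (by positivity : 0 ≤ Ke + 1)
      have a9 : ((-lap g z - ν z * g z) * conj (η z)).re =
          ((-lap g z - ν z * g z) * conj (W z - g z)).re -
            ((-lap g z - ν z * g z) * conj (Gop e z)).re := by
        rw [hrep z hz, map_sub _ (W z - g z), mul_sub, sub_re]
      simp only
      rw [a4, add_mul, add_re, neg_mul, neg_re]
      have a10 : (Ke + 1) / (2 * γ) * ‖e z‖ ^ 2 = (Ke + 1) * (‖e z‖ ^ 2 / (2 * γ)) := by ring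
      linear_combination a9 + a5 + a6 + a8 - a10
    rw [integral_add (j1.const_mul 2) j2, integral_add j5 (integrable_const _),
      integral_add j3 (j4.const_mul _), integral_const_mul, integral_const_mul, integral_const,
      smul_eq_mul, ← hV] at k1
    have k2 : (Ke + 1) / (2 * γ) * ∫ z, ‖e z‖ ^ 2 ∂mD ≤ (Ke + 1) * (γ / 2) := by
      refine (mul_le_mul_of_nonneg_left hηe (by positivity)).trans (le_of_eq ?_)
      field_simp
    have k3 : c * γ = (Ke + 1) * (γ / 2) +
        V * (s * γ * (Ku + A * (Ke + 1)) + (Ke + 1) * (γ / 2)) := by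
      rw [hc]; ring
    rw [← key]
    linarith
  · have k1 : ∫ z, ‖g z + η z‖ ^ 2 ∂mD ≤ ∫ _, (2 * (B * M) ^ 2 + 2 * (s * γ)) ∂mD := by
      refine integral_mono_ae (bg.add bη).norm.sq.int (integrable_const _)
        (regT_ae_mem.mono fun z hz => ?_)
      have a1 := hb z hz
      have a2 := hWle z hz
      have a3 : ‖g z + η z‖ ≤ B * M + s * γ := by
        rw [hrep z hz, show g z + (W z - g z - Gop e z) = W z - Gop e z by ring]
        exact (norm_sub_le _ _).trans (add_le_add a2 a1)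
      have a4 := pow_le_pow_left₀ (norm_nonneg _) a3 2
      have a5 : 0 ≤ s * γ := by positivity
      simp only
      have a6 : s * γ * (s * γ) ≤ s * γ := mul_le_of_le_one_left a5 hγ3
      linear_combination a4 + 2 * a6 + sq_nonneg (B * M - s * γ)
    rw [integral_const, smul_eq_mul, ← hV] at k1
    refine k1.trans ?_
    rw [show V * (2 * (B * M) ^ 2 + 2 * (s * γ)) = V * (2 * B ^ 2) * M ^ 2 + V * (2 * s) * γ by
      ring]
    exact add_le_add le_rfl hγ2

end Vale.Agent.P071
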