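import Vale.Agent.P071.Kernel0

/-!
# Measure theoretic helpers on the unit disc
-/

open Complex Metric Set Filter Topology MeasureTheory
open scoped ContDiff ComplexConjugate Real

namespace Vale.Agent.P071

/-- Lebesgue measure on the disc. -/
noncomputable abbrev mD : Measure ℂ := volume.restrict D

instance regT_finite : IsFiniteMeasure mD :=
  isFiniteMeasure_restrict.2 measure_ball_lt_top.ne

lemma regT_ae_mem : ∀ᵐ z ∂mD, z ∈ D := ae_restrict_mem measurableSet_ball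

lemma regT_D_sub {z : ℂ} (hz : z ∈ D) : z ∈ Db := ball_subset_closedBall hz

lemma regT_norm_lt {z : ℂ} (hz : z ∈ D) : ‖z‖ < 1 := by simpa using hz

lemma regT_norm_le {z : ℂ} (hz : z ∈ Db) : ‖z‖ ≤ 1 := by simpa using hz

lemma regT_vol_pos : 0 < mD.real univ := by
  rw [measureReal_restrict_apply_univ]
  exact ENNReal.toReal_pos (measure_ball_pos volume _ one_pos).ne' measure_ball_lt_top.ne

/-- Integrability on a product from iterated bounds. -/
lemma regT_prod_int {α β E : Type*} [MeasurableSpace α] [MeasurableSpace β] {μ : Measure α}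
    {ν : Measure β} [SFinite μ] [SFinite ν] [NormedAddCommGroup E] {h : α × β → E}
    (hm : AEStronglyMeasurable h (μ.prod ν)) {g : β → ℝ} (hg : Integrable g ν)
    (h1 : ∀ᵐ y ∂ν, Integrable (fun x => h (x, y)) μ ∧ ∫ x, ‖h (x, y)‖ ∂μ ≤ g y) :
    Integrable h (μ.prod ν) := by
  refine (integrable_prod_iff' hm).2 ⟨h1.mono fun y hy => hy.1, ?_⟩
  refine hg.mono' hm.norm.prod_swap.integral_prod_right' (h1.mono fun y hy => ?_)
  rw [Real.norm_of_nonneg (integral_nonneg fun _ => norm_nonneg _)]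
  exact hy.2

/-- Weighted Cauchy-Schwarz inequality. -/
lemma regT_cs {α : Type*} [MeasurableSpace α] {μ : Measure α} {w a b : α → ℝ}
    (hw : ∀ᵐ x ∂μ, 0 ≤ w x) (h1 : Integrable (fun x => w x * a x ^ 2) μ)
    (h2 : Integrable (fun x => w x * b x ^ 2) μ) (h3 : Integrable (fun x => w x * (a x * b x)) μ) :
    (∫ x, w x * (a x * b x) ∂μ) ^ 2 ≤ (∫ x, w x * a x ^ 2 ∂μ) * ∫ x, w x * b x ^ 2 ∂μ := by
  have key : ∀ t : ℝ, 0 ≤ (∫ x, w x * a x ^ 2 ∂μ) * (t * t) +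
      (2 * ∫ x, w x * (a x * b x) ∂μ) * t + ∫ x, w x * b x ^ 2 ∂μ := by
    intro t
    have e : ∫ x, w x * (t * a x + b x) ^ 2 ∂μ = (∫ x, w x * a x ^ 2 ∂μ) * (t * t) +
        (2 * ∫ x, w x * (a x * b x) ∂μ) * t + ∫ x, w x * b x ^ 2 ∂μ := by
      have h4 : Integrable (fun x => w x * a x ^ 2 * (t * t) + 2 * (w x * (a x * b x)) * t) μ :=
        (h1.mul_const _).add ((h3.const_mul _).mul_const _)
      rw [← integral_mul_const, ← integral_const_mul, ← integral_mul_const,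
        ← integral_add (h1.mul_const _) ((h3.const_mul _).mul_const _), ← integral_add h4 h2]
      refine integral_congr_ae (Eventually.of_forall fun x => ?_)
      simp only
      ring
    rw [← e]
    exact integral_nonneg_of_ae (hw.mono fun x hx => mul_nonneg hx (sq_nonneg _))
  have := discrim_le_zero key
  rw [discrim] at this
  nlinarith

lemma regT_meas_inv : Measurable (fun p : ℂ × ℂ => ‖p.1 - p.2‖⁻¹) := by fun_prop

/-- The integrals of the simple pole and of the pole of order `3/2`. -/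
lemma regT_sing : ∃ I₀ : ℝ, 0 ≤ I₀ ∧ ∀ x ∈ Db,
    (Integrable (fun y : ℂ => ‖y - x‖ ^ (-(3 / 2) : ℝ)) mD ∧
      ∫ y, ‖y - x‖ ^ (-(3 / 2) : ℝ) ∂mD ≤ I₀) ∧
    (Integrable (fun y : ℂ => ‖y - x‖⁻¹) mD ∧ ∫ y, ‖y - x‖⁻¹ ∂mD ≤ 2 * I₀) := by
  obtain ⟨I₀, h⟩ := exists_sing_bound
  refine ⟨I₀, ?_, fun x hx => ?_⟩
  · exact le_trans (integral_nonneg fun y => by positivity) (h 0 (by simp)).2
  · obtain ⟨h1, h2⟩ := h x (regT_norm_le hx)
    have hle : ∀ᵐ y ∂mD, ‖y - x‖⁻¹ ≤ 2 * ‖y - x‖ ^ (-(3 / 2) : ℝ) :=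
      regT_ae_mem.mono fun y hy => inv_le_two_mul_rpow hx (regT_D_sub hy)
    have h3 : Integrable (fun y : ℂ => ‖y - x‖⁻¹) mD := by
      refine (Integrable.const_mul h1 2).mono' (by fun_prop : Measurable _).aestronglyMeasurable
        (hle.mono fun y hy => ?_)
      rwa [Real.norm_of_nonneg (by positivity)]
    refine ⟨⟨h1, h2⟩, h3, ?_⟩
    calc ∫ y, ‖y - x‖⁻¹ ∂mD ≤ ∫ y, 2 * ‖y - x‖ ^ (-(3 / 2) : ℝ) ∂mD :=
          integral_mono_ae h3 (Integrable.const_mul h1 2) hle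
      _ = 2 * ∫ y, ‖y - x‖ ^ (-(3 / 2) : ℝ) ∂mD := integral_const_mul _ _
      _ ≤ 2 * I₀ := by linarith

lemma regT_ae_ne : ∀ᵐ p ∂(mD.prod mD), p.1 ∈ D ∧ p.2 ∈ D ∧ p.1 ≠ p.2 := by
  have hm : MeasurableSet {p : ℂ × ℂ | p.1 ∈ D ∧ p.2 ∈ D ∧ p.1 ≠ p.2} :=
    (measurable_fst measurableSet_ball).inter ((measurable_snd measurableSet_ball).inter
      (measurableSet_eq_fun measurable_fst measurable_snd).compl)
  refine (Measure.ae_prod_iff_ae_ae hm).2 (regT_ae_mem.mono fun z hz => ?_)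
  filter_upwards [regT_ae_mem, mD.ae_ne z] with y h1 h2
  exact ⟨hz, h1, h2.symm⟩

/-- The simple pole against an integrable function on the product. -/
lemma regT_int_prod {g : ℂ → ℝ} (hg : Integrable g mD) :
    Integrable (fun p : ℂ × ℂ => ‖p.1 - p.2‖⁻¹ * g p.2) (mD.prod mD) := by
  obtain ⟨I₀, -, hI⟩ := regT_sing
  refine regT_prod_int (regT_meas_inv.aestronglyMeasurable.mul hg.1.comp_snd)
    (hg.norm.const_mul (2 * I₀)) (regT_ae_mem.mono fun y hy => ?_)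
  obtain ⟨-, h1, h2⟩ := hI y (regT_D_sub hy)
  refine ⟨h1.mul_const (g y), ?_⟩
  simp only [norm_mul, norm_inv, norm_norm]
  rw [integral_mul_const]
  exact mul_le_mul_of_nonneg_right h2 (norm_nonneg _)

lemma regT_one_sub_sq (z y : ℂ) : ‖1 - z * conj y‖ ^ 2 = ‖z - y‖ ^ 2 + dl z * dl y := by
  simp only [dl, Complex.sq_norm, normSq_apply, sub_re, one_re, mul_re, conj_re, conj_im, sub_im,
    one_im, mul_im]
  ring

lemma regT_norm_sub_le {z y : ℂ} (hz : z ∈ Db) (hy : y ∈ Db) : ‖z - y‖ ≤ ‖1 - z * conj y‖ := by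
  refine (sq_le_sq₀ (norm_nonneg _) (norm_nonneg _)).1 ?_
  rw [regT_one_sub_sq]
  have := mul_nonneg (dl_nonneg hz) (dl_nonneg hy)
  linarith

lemma regT_one_sub_ge {z y : ℂ} (hz : z ∈ Db) : 1 - ‖y‖ ≤ ‖1 - z * conj y‖ := by
  have h1 : ‖z * conj y‖ ≤ ‖y‖ := by
    rw [norm_mul, Complex.norm_conj]
    exact mul_le_of_le_one_left (norm_nonneg _) (regT_norm_le hz)
  have h2 := norm_sub_norm_le (1 : ℂ) (z * conj y)
  rw [norm_one] at h2
  linarith

lemma regT_one_sub_ne {z y : ℂ} (hz : z ∈ Db) (hy : y ∈ D) : 1 - z * conj y ≠ 0 := by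
  have := regT_one_sub_ge (y := y) hz
  have := regT_norm_lt hy
  exact norm_pos_iff.1 (by linarith)

end Vale.Agent.P071
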