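import Vale.Agent.P071.SetupLemmas
import Vale.Agent.P071.RegTAux

/-!
# The reproducing identity behind the solution operator
-/

open Complex Metric Set Filter Topology MeasureTheory
open scoped ContDiff ComplexConjugate Real

namespace Vale.Agent.P071

lemma regT_int_of_bdd {E : Type*} [NormedAddCommGroup E] [SecondCountableTopology E] {g : ℂ → E}
    {K : ℝ} (hc : ContinuousOn g D) (hb : ∀ z ∈ D, ‖g z‖ ≤ K) : Integrable g mD :=
  (integrable_const K).mono' (hc.aestronglyMeasurable measurableSet_ball) (regT_ae_mem.mono hb)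

lemma regT_dB_inv {g : ℂ → ℂ} {z : ℂ} (hg : DifferentiableAt ℝ g z) (h0 : g z ≠ 0) :
    dB (fun w => (g w)⁻¹) z = -dB g z / g z ^ 2 := by
  have h1 : (fun w => g w * (g w)⁻¹) =ᶠ[𝓝 z] fun _ => 1 :=
    (hg.continuousAt.eventually_ne h0).mono fun w hw => mul_inv_cancel₀ hw
  have h2 := dB_congr h1
  rw [dB_mul hg (hg.fun_inv h0), dB_const] at h2
  field_simp at h2 ⊢
  linear_combination h2

lemma regT_re_formula (f : ℂ) {z y : ℂ} (h1 : z ≠ y) (h2 : 1 - z * conj y ≠ 0) :
    (z * (f / (z - y) - conj y * conj f / (1 - z * conj y))).re =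
      f.re + dl z * (f * y / ((z - y) * (1 - conj z * y))).re := by
  have h3 : 1 - conj z * y ≠ 0 := by
    intro h
    apply h2
    have := congrArg conj h
    simpa using this
  have h4 : z - y ≠ 0 := sub_ne_zero.2 h1
  have e1 : (z * (conj y * conj f / (1 - z * conj y))).re =
      (conj z * (y * f / (1 - conj z * y))).re := by
    rw [← conj_re]
    simp
  have e2 : ((dl z : ℝ) : ℂ) = 1 - z * conj z := by
    rw [mul_conj, normSq_eq_norm_sq, dl]
    push_cast
    ring
  have e3 : z * (f / (z - y)) - conj z * (y * f / (1 - conj z * y)) =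
      f + (dl z : ℝ) * (f * y / ((z - y) * (1 - conj z * y))) := by
    rw [e2]
    generalize conj z = w at h3
    have h5 : 1 - y * w ≠ 0 := by rwa [mul_comm]
    field_simp
    ring
  rw [mul_sub, sub_re, e1, ← sub_re, e3, add_re, re_ofReal_mul]

/-- The regular part of the kernel. -/
noncomputable def regR (f y z : ℂ) : ℂ := conj y * conj f / (1 - z * conj y) + f.re * conj z

lemma regR_le (f : ℂ) {y z : ℂ} (hy : y ∈ D) (hz : z ∈ Db) :
    ‖regR f y z‖ ≤ ‖f‖ / (1 - ‖y‖) + ‖f‖ := by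
  have h1 := regT_norm_lt hy
  have h2 := regT_norm_le hz
  refine (norm_add_le _ _).trans (add_le_add ?_ ?_)
  · rw [norm_div, norm_mul, Complex.norm_conj, Complex.norm_conj]
    exact div_le_div₀ (norm_nonneg _) (mul_le_of_le_one_left (norm_nonneg _) h1.le) (by linarith)
      (regT_one_sub_ge hz)
  · rw [norm_mul, Complex.norm_conj, norm_real, Real.norm_eq_abs]
    exact (mul_le_of_le_one_right (abs_nonneg _) h2).trans (abs_re_le_norm f)

lemma regR_holo (f : ℂ) {y z : ℂ} (hy : y ∈ D) (hz : z ∈ Db) :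
    AnalyticAt ℂ (fun w => conj y * conj f / (1 - w * conj y)) z :=
  analyticAt_const.fun_div (analyticAt_const.fun_sub (analyticAt_id.fun_mul analyticAt_const))
    (regT_one_sub_ne hz hy)

lemma regR_contDiffAt (f : ℂ) {y z : ℂ} (hy : y ∈ D) (hz : z ∈ Db) :
    ContDiffAt ℝ 1 (regR f y) z :=
  ((regR_holo f hy hz).contDiffAt.restrict_scalars ℝ).add
    (contDiffAt_const.mul (contDiffAt_conj' contDiffAt_id))

lemma regT_dB_conj_sub (y z : ℂ) : dB (fun w => conj (w - y)) z = 2 := by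
  rw [dB_conj (by fun_prop), dD_holo (by fun_prop)]
  simp [map_ofNat]

lemma regR_dB (f : ℂ) {y z : ℂ} (hy : y ∈ D) (hz : z ∈ Db) : dB (regR f y) z = 2 * f.re := by
  have h1 := (regR_holo f hy hz).differentiableAt
  have h2 : DifferentiableAt ℝ (fun w : ℂ => conj w) z := differentiableAt_conj' differentiableAt_id
  have h3 := regT_dB_conj_sub 0 z
  simp only [sub_zero] at h3
  unfold regR
  rw [dB_add (h1.restrictScalars ℝ) (h2.const_mul _), dB_holo h1, dB_const_mul _ h2, h3]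
  ring

/-- The smoothed denominator. -/
noncomputable def regN (y : ℂ) (ε : ℝ) (z : ℂ) : ℂ := (z - y) * conj (z - y) + ε

lemma regN_eq (y : ℂ) (ε : ℝ) (z : ℂ) : regN y ε z = ((‖z - y‖ ^ 2 + ε : ℝ) : ℂ) := by
  rw [regN, mul_conj, normSq_eq_norm_sq]
  push_cast
  ring

lemma regN_ne (y : ℂ) {ε : ℝ} (hε : 0 < ε) (z : ℂ) : regN y ε z ≠ 0 := by
  rw [regN_eq]
  exact ofReal_ne_zero.2 (by positivity)

lemma regN_contDiffAt (y : ℂ) (ε : ℝ) (z : ℂ) : ContDiffAt ℝ 1 (regN y ε) z :=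
  ((contDiffAt_id.sub contDiffAt_const).mul
    (contDiffAt_conj' (contDiffAt_id.sub contDiffAt_const))).add contDiffAt_const

lemma regN_dB (y : ℂ) (ε : ℝ) (z : ℂ) : dB (regN y ε) z = 2 * (z - y) := by
  have h1 : DifferentiableAt ℝ (fun w : ℂ => w - y) z := by fun_prop
  have h2 := differentiableAt_conj' h1
  unfold regN
  rw [dB_add (h1.fun_mul h2) (differentiableAt_const _), dB_mul h1 h2, regT_dB_conj_sub,
    dB_holo (by fun_prop), dB_const]
  ring

/-- The smoothed kernel. -/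
noncomputable def regB (f y : ℂ) (ε : ℝ) (z : ℂ) : ℂ :=
  f * (conj (z - y) * (regN y ε z)⁻¹) - (1 - ε * (regN y ε z)⁻¹) * regR f y z

lemma regB_contDiffAt (f : ℂ) {y z : ℂ} (hy : y ∈ D) (hz : z ∈ Db) {ε : ℝ} (hε : 0 < ε) :
    ContDiffAt ℝ 1 (regB f y ε) z := by
  have h1 := (regN_contDiffAt y ε z).inv (regN_ne y hε z)
  exact (contDiffAt_const.mul ((contDiffAt_conj' (contDiffAt_id.sub contDiffAt_const)).mul h1)).sub
    ((contDiffAt_const.sub (contDiffAt_const.mul h1)).mul (regR_contDiffAt f hy hz))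

lemma regB_eq (f : ℂ) {y z : ℂ} (hne : z ≠ y) {ε : ℝ} (hε : 0 < ε) :
    regB f y ε z = ((‖z - y‖ ^ 2 / (‖z - y‖ ^ 2 + ε) : ℝ) : ℂ) * (f / (z - y) - regR f y z) := by
  have h0 := regN_ne y hε z
  have h1 : z - y ≠ 0 := sub_ne_zero.2 hne
  have e : ((‖z - y‖ ^ 2 / (‖z - y‖ ^ 2 + ε) : ℝ) : ℂ) =
      (z - y) * conj (z - y) / regN y ε z := by
    rw [regN_eq, mul_conj, normSq_eq_norm_sq]
    push_cast
    rfl
  have e2 : 1 - ε * (regN y ε z)⁻¹ = (z - y) * conj (z - y) / regN y ε z := by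
    field_simp
    rw [regN]
    ring
  rw [e, regB, e2]
  field_simp

lemma regB_self (f y : ℂ) {ε : ℝ} (hε : 0 < ε) : regB f y ε y = 0 := by
  have : (ε : ℂ) ≠ 0 := ofReal_ne_zero.2 hε.ne'
  simp [regB, regN, this]

lemma regB_dB (f : ℂ) {y z : ℂ} (hy : y ∈ D) (hz : z ∈ Db) {ε : ℝ} (hε : 0 < ε) :
    dB (regB f y ε) z =
      ((ε / (π * (‖z - y‖ ^ 2 + ε) ^ 2) : ℝ) : ℂ) * (2 * π * (f - (z - y) * regR f y z)) -
        ((‖z - y‖ ^ 2 / (‖z - y‖ ^ 2 + ε) : ℝ) : ℂ) * (2 * f.re) := by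
  have h0 := regN_ne y hε z
  have hN := (regN_contDiffAt y ε z).differentiableAt one_ne_zero
  have h1 : DifferentiableAt ℝ (fun w => (regN y ε w)⁻¹) z := hN.fun_inv h0
  have h2 : DifferentiableAt ℝ (fun w : ℂ => conj (w - y)) z :=
    differentiableAt_conj' (by fun_prop)
  have h3 := (regR_contDiffAt f hy hz).differentiableAt one_ne_zero
  have h4 : DifferentiableAt ℝ (fun w => 1 - ε * (regN y ε w)⁻¹) z :=
    (differentiableAt_const _).fun_sub (h1.const_mul _)
  have e : ((‖z - y‖ ^ 2 / (‖z - y‖ ^ 2 + ε) : ℝ) : ℂ) =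
      (z - y) * conj (z - y) / regN y ε z := by
    rw [regN_eq, mul_conj, normSq_eq_norm_sq]
    push_cast
    rfl
  have e' : ((ε / (π * (‖z - y‖ ^ 2 + ε) ^ 2) : ℝ) : ℂ) = ε / (π * regN y ε z ^ 2) := by
    rw [regN_eq]
    push_cast
    rfl
  have hπ : (π : ℂ) ≠ 0 := ofReal_ne_zero.2 Real.pi_ne_zero
  have e3 : (ε : ℂ) = regN y ε z - (z - y) * conj (z - y) := by rw [regN]; ring
  unfold regB
  rw [dB_sub ((h2.fun_mul h1).const_mul _) (h4.fun_mul h3), dB_const_mul _ (h2.fun_mul h1),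
    dB_mul h2 h1, dB_mul h4 h3, dB_sub (differentiableAt_const _) (h1.const_mul _),
    dB_const_mul _ h1, regT_dB_inv hN h0, regN_dB, regT_dB_conj_sub, regR_dB f hy hz, dB_const,
    e, e']
  generalize regN y ε z = N at h0 e3
  rw [e3]
  field_simp
  ring

lemma regB_le (f : ℂ) {y z : ℂ} (hy : y ∈ D) (hz : z ∈ Db) {ε : ℝ} (hε : 0 < ε) :
    ‖regB f y ε z * z‖ ≤ ‖f‖ * (2 / ε) + (‖f‖ / (1 - ‖y‖) + ‖f‖) ∧
      |(regB f y ε z * z).re| ≤ (1 - ‖z‖) * (2 * (‖f‖ + ‖f‖ * (2 / ε) / (1 - ‖y‖))) := by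
  have hy1 := regT_norm_lt hy
  have hz1 := regT_norm_le hz
  have hy2 : 0 < 1 - ‖y‖ := by linarith
  have hz2 : 0 ≤ 1 - ‖z‖ := by linarith
  by_cases hne : z = y
  · subst hne
    rw [regB_self f z hε]
    simp only [zero_mul, norm_zero, zero_re, abs_zero]
    constructor <;> positivity
  have hd : 0 < ‖z - y‖ := norm_pos_iff.2 (sub_ne_zero.2 hne)
  have hd2 : ‖z - y‖ ≤ 2 := (norm_sub_le _ _).trans (by linarith)
  set χ : ℝ := ‖z - y‖ ^ 2 / (‖z - y‖ ^ 2 + ε) with hχ
  have hχ0 : 0 ≤ χ := by positivity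
  have hχ1 : χ ≤ 1 := div_le_one_of_le₀ (by linarith) (by positivity)
  have hχ2 : χ / ‖z - y‖ ≤ 2 / ε := by
    have : χ / ‖z - y‖ = ‖z - y‖ / (‖z - y‖ ^ 2 + ε) := by
      rw [hχ]; field_simp
    rw [this]
    exact div_le_div₀ (by norm_num) hd2 hε (by nlinarith)
  rw [regB_eq f hne hε, ← hχ]
  constructor
  · rw [norm_mul, norm_mul, norm_real, Real.norm_of_nonneg hχ0]
    refine (mul_le_of_le_one_right (by positivity) hz1).trans ?_
    refine (mul_le_mul_of_nonneg_left (norm_sub_le _ _) hχ0).trans ?_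
    rw [mul_add, norm_div]
    refine add_le_add ?_ ((mul_le_of_le_one_left (norm_nonneg _) hχ1).trans (regR_le f hy hz))
    calc χ * (‖f‖ / ‖z - y‖) = ‖f‖ * (χ / ‖z - y‖) := by ring
      _ ≤ ‖f‖ * (2 / ε) := mul_le_mul_of_nonneg_left hχ2 (norm_nonneg _)
  · have e1 : (f / (z - y) - regR f y z) * z =
        z * (f / (z - y) - conj y * conj f / (1 - z * conj y)) - ((f.re * ‖z‖ ^ 2 : ℝ) : ℂ) := by
      rw [regR, ← normSq_eq_norm_sq, ofReal_mul, ← mul_conj]
      ring
    set q : ℂ := f * y / ((z - y) * (1 - conj z * y)) with hq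
    have e2 : ((χ : ℂ) * (f / (z - y) - regR f y z) * z).re = dl z * (χ * f.re + χ * q.re) := by
      rw [mul_assoc, re_ofReal_mul, e1, sub_re, regT_re_formula f hne (regT_one_sub_ne hz hy),
        ofReal_re, ← hq, dl]
      ring
    have hq1 : ‖q‖ ≤ ‖f‖ / ‖z - y‖ / (1 - ‖y‖) := by
      have h5 : ‖1 - conj z * y‖ = ‖1 - z * conj y‖ := by
        rw [← Complex.norm_conj]; simp
      rw [hq, norm_div, norm_mul, norm_mul, h5, div_div]
      refine div_le_div₀ (norm_nonneg _) (mul_le_of_le_one_right (norm_nonneg _) hy1.le)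
        (by positivity) (mul_le_mul_of_nonneg_left (regT_one_sub_ge hz) hd.le)
    have h6 : |χ * f.re + χ * q.re| ≤ ‖f‖ + ‖f‖ * (2 / ε) / (1 - ‖y‖) := by
      refine (abs_add_le _ _).trans (add_le_add ?_ ?_)
      · rw [abs_mul, abs_of_nonneg hχ0]
        exact (mul_le_of_le_one_left (abs_nonneg _) hχ1).trans (abs_re_le_norm f)
      · rw [abs_mul, abs_of_nonneg hχ0]
        calc χ * |q.re| ≤ χ * (‖f‖ / ‖z - y‖ / (1 - ‖y‖)) :=
              mul_le_mul_of_nonneg_left ((abs_re_le_norm q).trans hq1) hχ0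
          _ = ‖f‖ * (χ / ‖z - y‖) / (1 - ‖y‖) := by ring
          _ ≤ ‖f‖ * (2 / ε) / (1 - ‖y‖) := by gcongr
    have h7 : dl z ≤ (1 - ‖z‖) * 2 := by rw [dl]; nlinarith
    rw [e2, abs_mul, abs_of_nonneg (dl_nonneg hz), ← mul_assoc]
    exact mul_le_mul h7 h6 (abs_nonneg _) (by positivity)

/-- The reproducing identity for one source point. -/
theorem regT_repro {U : ℂ → ℂ} (hU : UC U) (f : ℂ) {y : ℂ} (hy : y ∈ D) :
    ∫ z, ((f / (z - y) - regR f y z) * conj (dD U z) - 2 * f.re * conj (U z)).re ∂mD =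
      -(2 * π * (f * conj (U y)).re) := by
  obtain ⟨M, hM⟩ := hU.bdd
  obtain ⟨I₀, -, hI⟩ := regT_sing
  have hM0 : 0 ≤ M := (norm_nonneg _).trans (hM y hy).1
  have hU2 : ∀ z ∈ D, ContDiffAt ℝ 2 U z := fun z hz => hU.cd.contDiffAt (isOpen_ball.mem_nhds hz)
  have hUc : ContinuousOn (fun z => conj (U z)) D :=
    continuous_conj.comp_continuousOn hU.cd.continuousOn
  have hDc : ContinuousOn (fun z => conj (dD U z)) D :=
    continuous_conj.comp_continuousOn fun z hz =>
      (contDiffAt_dD (m := 0) (hU2 z hz) (by norm_num)).continuousAt.continuousWithinAt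
  have hRc : ContinuousOn (regR f y) D := fun z hz =>
    (regR_contDiffAt f hy (regT_D_sub hz)).continuousAt.continuousWithinAt
  set KR : ℝ := ‖f‖ / (1 - ‖y‖) + ‖f‖ with hKR
  set G : ℂ → ℝ := fun z => (2 * π * (f - (z - y) * regR f y z) * conj (U z)).re with hG
  set H : ℂ → ℝ := fun z =>
    ((f / (z - y) - regR f y z) * conj (dD U z) - 2 * f.re * conj (U z)).re with hH
  have hGc : ContinuousOn G D := continuous_re.comp_continuousOn
    ((continuousOn_const.mul (continuousOn_const.sub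
      ((continuousOn_id.sub continuousOn_const).mul hRc))).mul hUc)
  have hGb : ∀ z ∈ D, ‖G z‖ ≤ 2 * π * (‖f‖ + 2 * KR) * M := by
    intro z hz
    refine (abs_re_le_norm _).trans ?_
    rw [norm_mul, norm_mul, Complex.norm_conj]
    have h1 : ‖(2 * π : ℂ)‖ = 2 * π := by simp [Real.pi_pos.le]
    have h2 : ‖z - y‖ ≤ 2 := (norm_sub_le _ _).trans
      (by linarith [regT_norm_lt hz, regT_norm_lt hy])
    have h3 : ‖f - (z - y) * regR f y z‖ ≤ ‖f‖ + 2 * KR := by
      refine (norm_sub_le _ _).trans (add_le_add le_rfl ?_)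
      rw [norm_mul]
      exact mul_le_mul h2 (regR_le f hy (regT_D_sub hz)) (norm_nonneg _) (by norm_num)
    rw [h1]
    exact mul_le_mul (mul_le_mul_of_nonneg_left h3 (by positivity)) (hM z hz).1 (norm_nonneg _)
      (mul_nonneg (by positivity) ((norm_nonneg _).trans h3))
  have hGi : Integrable G mD := regT_int_of_bdd hGc hGb
  have hHi : Integrable H mD := by
    have hm : AEStronglyMeasurable H mD := by
      refine continuous_re.comp_aestronglyMeasurable (AEStronglyMeasurable.sub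
        (AEStronglyMeasurable.mul (AEStronglyMeasurable.sub ?_
          (hRc.aestronglyMeasurable measurableSet_ball))
          (hDc.aestronglyMeasurable measurableSet_ball))
        (aestronglyMeasurable_const.mul (hUc.aestronglyMeasurable measurableSet_ball)))
      exact (by fun_prop : Measurable fun z : ℂ => f / (z - y)).aestronglyMeasurable
    refine ((((hI y (regT_D_sub hy)).2.1.const_mul ‖f‖).add (integrable_const KR)).mul_const
      (2 * M) |>.add (integrable_const (2 * ‖f‖ * M))).mono' hm (regT_ae_mem.mono fun z hz => ?_)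
    refine (abs_re_le_norm _).trans ((norm_sub_le _ _).trans (add_le_add ?_ ?_))
    · rw [norm_mul, Complex.norm_conj]
      have h1 : ‖f / (z - y) - regR f y z‖ ≤ ‖f‖ * ‖z - y‖⁻¹ + KR := by
        refine (norm_sub_le _ _).trans (add_le_add ?_ (regR_le f hy (regT_D_sub hz)))
        rw [norm_div, div_eq_mul_inv]
      exact mul_le_mul h1 ((norm_dD_le U z).trans (by linarith [(hM z hz).2.1])) (norm_nonneg _)
        ((norm_nonneg _).trans h1)
    · rw [norm_mul, norm_mul, Complex.norm_conj, norm_real, Complex.norm_ofNat]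
      exact mul_le_mul (mul_le_mul_of_nonneg_left (abs_re_le_norm f) (by norm_num)) (hM z hz).1
        (norm_nonneg _) (by positivity)
  have hχm : ∀ ε : ℝ, AEStronglyMeasurable (fun z : ℂ => ‖z - y‖ ^ 2 / (‖z - y‖ ^ 2 + ε)) mD :=
    fun ε => (by fun_prop : Measurable _).aestronglyMeasurable
  have hχb : ∀ ε : ℝ, 0 < ε → ∀ z : ℂ, ‖‖z - y‖ ^ 2 / (‖z - y‖ ^ 2 + ε)‖ ≤ 1 := by
    intro ε hε z
    rw [Real.norm_of_nonneg (by positivity)]
    exact div_le_one_of_le₀ (by linarith) (by positivity)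
  have key : ∀ ε : ℝ, 0 < ε → (∫ z, (ε / (π * (‖z - y‖ ^ 2 + ε) ^ 2)) • G z ∂mD) +
      ∫ z, ‖z - y‖ ^ 2 / (‖z - y‖ ^ 2 + ε) * H z ∂mD = 0 := by
    intro ε hε
    have i1 : Integrable (fun z => (ε / (π * (‖z - y‖ ^ 2 + ε) ^ 2)) • G z) mD := by
      refine hGi.bdd_mul (c := ε / (π * ε ^ 2))
        (by fun_prop : Measurable _).aestronglyMeasurable (Eventually.of_forall fun z => ?_)
      rw [Real.norm_of_nonneg (by positivity)]
      gcongr
      exact le_add_of_nonneg_left (by positivity)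
    have i2 : Integrable (fun z => ‖z - y‖ ^ 2 / (‖z - y‖ ^ 2 + ε) * H z) mD :=
      hHi.bdd_mul (hχm ε) (Eventually.of_forall (hχb ε hε))
    have hae : (fun z => (dB (fun w => regB f y ε w * conj (U w)) z).re) =ᵐ[mD] fun z =>
        (ε / (π * (‖z - y‖ ^ 2 + ε) ^ 2)) • G z + ‖z - y‖ ^ 2 / (‖z - y‖ ^ 2 + ε) * H z := by
      filter_upwards [regT_ae_mem, mD.ae_ne y] with z hz hne
      have d1 := (regB_contDiffAt f hy (regT_D_sub hz) hε).differentiableAt one_ne_zero
      have d2 := (hU2 z hz).differentiableAt two_ne_zero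
      rw [dB_mul d1 (differentiableAt_conj' d2), dB_conj d2, regB_dB f hy (regT_D_sub hz) hε,
        regB_eq f hne hε, smul_eq_mul, hG, hH]
      simp only
      rw [← re_ofReal_mul, ← re_ofReal_mul, ← add_re]
      congr 1
      ring
    rw [← integral_add i1 i2, ← integral_congr_ae hae]
    refine green_zero (g := fun _ => 2 * (‖f‖ + ‖f‖ * (2 / ε) / (1 - ‖y‖)) * M +
      (‖f‖ * (2 / ε) + KR) * M) (fun z hz => ((regB_contDiffAt f hy (regT_D_sub hz) hε).mul
        (contDiffAt_conj' ((hU2 z hz).of_le one_le_two))).contDiffWithinAt)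
      ((i1.add i2).congr hae.symm) (integrable_const _) fun z hz => ?_
    obtain ⟨b1, b2⟩ := regB_le f hy (regT_D_sub hz) hε
    have e : (regB f y ε z * conj (U z) * z).re =
        (regB f y ε z * z).re * (U z).re + (regB f y ε z * z).im * (U z).im := by
      rw [mul_right_comm, mul_re, conj_re, conj_im]
      ring
    rw [e, mul_add]
    refine (abs_add_le _ _).trans (add_le_add ?_ ?_)
    · rw [abs_mul, ← mul_assoc]
      exact mul_le_mul b2 ((abs_re_le_norm _).trans (hM z hz).1) (abs_nonneg _)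
        ((abs_nonneg _).trans b2)
    · rw [abs_mul]
      calc _ ≤ (‖f‖ * (2 / ε) + KR) * (M * (1 - ‖z‖)) :=
            mul_le_mul ((abs_im_le_norm _).trans b1) (hM z hz).2.2 (abs_nonneg _)
              ((norm_nonneg _).trans b1)
        _ = _ := by ring
  have l1 := tendsto_peak hy hGi (hGc.continuousAt (isOpen_ball.mem_nhds hy))
  have l2 : Tendsto (fun ε : ℝ => ∫ z, ‖z - y‖ ^ 2 / (‖z - y‖ ^ 2 + ε) * H z ∂mD) (𝓝[>] 0)
      (𝓝 (∫ z, H z ∂mD)) := by
    refine tendsto_integral_filter_of_dominated_convergence (fun z => ‖H z‖)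
      (Eventually.of_forall fun ε => (hχm ε).mul hHi.1) ?_ hHi.norm ?_
    · filter_upwards [self_mem_nhdsWithin] with ε hε
      refine Eventually.of_forall fun z => ?_
      rw [norm_mul]
      exact mul_le_of_le_one_left (norm_nonneg _) (hχb ε hε z)
    · filter_upwards [mD.ae_ne y] with z hne
      have hd : ‖z - y‖ ^ 2 ≠ 0 := pow_ne_zero 2 (norm_ne_zero_iff.2 (sub_ne_zero.2 hne))
      have : ContinuousAt (fun ε : ℝ => ‖z - y‖ ^ 2 / (‖z - y‖ ^ 2 + ε) * H z) 0 :=
        (continuousAt_const.div (by fun_prop) (by simpa using hd)).mul continuousAt_const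
      have h2 := this.tendsto.mono_left (nhdsWithin_le_nhds (s := Ioi 0))
      rwa [add_zero, div_self hd, one_mul] at h2
  have l3 := tendsto_nhds_unique (l1.add l2) (tendsto_const_nhds.congr' (by
    filter_upwards [self_mem_nhdsWithin] with ε hε
    exact (key ε hε).symm))
  have e : G y = 2 * π * (f * conj (U y)).re := by
    simp only [hG, sub_self, zero_mul, sub_zero]
    rw [mul_assoc, show (2 * π : ℂ) = ((2 * π : ℝ) : ℂ) by push_cast; rfl, re_ofReal_mul]
  linarith

end Vale.Agent.P071
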