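import Vale.Agent.P071.Kernel
import Vale.Agent.P071.Rep
import Vale.Agent.P071.RegTAuxB
import Vale.Agent.P071.BM

/-!
# Poisson and Helmholtz extensions of boundary data
-/

open Complex Metric Set Filter Topology MeasureTheory
open scoped ContDiff ComplexConjugate Real

namespace Vale.Agent.P071

section BMx

variable {f : ℂ → ℂ}

lemma BM.int {E : Type*} [NormedAddCommGroup E] {f : ℂ → E} (h : BM f) : Integrable f mD :=
  h.integrableOn

lemma inn_bm_c0 {E : Type*} [NormedAddCommGroup E] [NormedSpace ℝ E] {f : ℂ → E}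
    (h : ∀ z ∈ Db, ContDiffAt ℝ 0 f z) : BM f :=
  .of_continuousAt fun z hz => (h z hz).continuousAt

lemma inn_bm_c2 {E : Type*} [NormedAddCommGroup E] [NormedSpace ℝ E] {f : ℂ → E}
    (h : ∀ z ∈ Db, ContDiffAt ℝ 2 f z) : BM f :=
  .of_continuousAt fun z hz => (h z hz).continuousAt

lemma inn_bm_lap {E : Type*} [NormedAddCommGroup E] [NormedSpace ℝ E] {f : ℂ → E}
    (h : ∀ z ∈ Db, ContDiffAt ℝ 2 f z) : BM (lap f) :=
  inn_bm_c0 fun z hz => contDiffAt_lap (h z hz) (by norm_num)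

lemma BM.gop (h : BM f) : BM (Gop f) := by
  obtain ⟨C, -, hC⟩ := exists_Gop_bound
  exact ⟨aestronglyMeasurable_Gop h.memLp, Real.sqrt (C * ∫ y in D, ‖f y‖ ^ 2), fun z hz =>
    Real.le_sqrt_of_sq_le ((hC f h.memLp).1 z (regT_D_sub hz))⟩

end BMx

lemma Pot.innBM {ν : ℂ → ℝ} {A θ : ℝ} (h : Pot ν A θ) : BM fun z => (ν z : ℂ) :=
  ⟨(measurable_ofReal.comp h.meas).aestronglyMeasurable, A, fun z _ => by
    rw [norm_real, Real.norm_of_nonneg (h.nonneg z)]; exact h.le z⟩

lemma inn_Gop_congr {f g : ℂ → ℂ} (h : ∀ z ∈ D, f z = g z) (x : ℂ) : Gop f x = Gop g x :=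
  integral_congr_ae (regT_ae_mem.mono fun z hz => by simp only [h z hz])

lemma inn_Gop_sub {f g : ℂ → ℂ} (hf : MemLp f 2 mD) (hg : MemLp g 2 mD) {x : ℂ} (hx : x ∈ D) :
    Gop (fun z => f z - g z) x = Gop f x - Gop g x := by
  simp only [Gop, smul_sub]
  exact integral_sub (integrableOn_G0_smul hf (regT_D_sub hx))
    (integrableOn_G0_smul hg (regT_D_sub hx))

lemma inn_G0_int {x : ℂ} (hx : x ∈ Db) : Integrable (G0 x) mD := by
  have := (integrableOn_G0_smul (f := fun _ => 1) (memLp_const 1) hx).re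
  simpa using this

instance inn_mc_finite : IsFiniteMeasure mc :=
  isFiniteMeasure_restrict.2 measure_Ioc_lt_top.ne

lemma inn_mc_univ : mc.real univ = 2 * π := by
  rw [measureReal_restrict_apply_univ, Real.volume_real_Ioc_of_le (by linarith [Real.pi_pos])]
  ring

lemma inn_cont_ec : Continuous ec := continuous_circleMap 0 1

lemma inn_ec_Db (t : ℝ) : ec t ∈ Db := sphere_subset_closedBall (ec_mem t)

lemma inn_norm_ec (t : ℝ) : ‖ec t‖ = 1 := by simp

lemma inn_ne_ec {x : ℂ} (hx : x ∈ D) (t : ℝ) : x ≠ ec t := by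
  rintro rfl
  have := regT_norm_lt hx
  rw [inn_norm_ec] at this
  exact lt_irrefl _ this

lemma inn_ae_ne : ∀ᵐ p ∂(mc.prod mc), ec p.1 ≠ ec p.2 := by
  have hm : MeasurableSet {p : ℝ × ℝ | ec p.1 ≠ ec p.2} :=
    (measurableSet_eq_fun (inn_cont_ec.measurable.comp measurable_fst)
      (inn_cont_ec.measurable.comp measurable_snd)).compl
  refine (Measure.ae_prod_iff_ae_ae hm).2 (Eventually.of_forall fun s => ?_)
  have := ((countable_singleton (ec s)).preimage_circleMap 0 one_ne_zero).ae_notMem mc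
  filter_upwards [this] with t ht
  exact fun h => ht h.symm

lemma inn_interval {E : Type*} [NormedAddCommGroup E] [NormedSpace ℝ E] (f : ℝ → E) :
    ∫ t in (-π)..π, f t = ∫ t, f t ∂mc :=
  intervalIntegral.integral_of_le (by linarith [Real.pi_pos])

lemma inn_P0_cont {x : ℂ} (hx : x ∈ D) : Continuous fun t => P0 x (ec t) := by
  unfold P0
  refine continuous_const.div (continuous_const.mul
    ((continuous_const.sub inn_cont_ec).norm.pow 2)) fun t => ?_
  have := norm_pos_iff.2 (sub_ne_zero.2 (inn_ne_ec hx t))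
  have := Real.pi_pos
  positivity

lemma inn_P0_int {x : ℂ} (hx : x ∈ D) : Integrable (fun t => P0 x (ec t)) mc :=
  (inn_P0_cont hx).integrableOn_Ioc

lemma inn_P0_one {x : ℂ} (hx : x ∈ D) : ∫ t, P0 x (ec t) ∂mc = 1 := by
  have := green_rep (F := fun _ => 1) (fun _ _ => contDiffAt_const) hx
  have h0 : ∀ y, lap (fun _ : ℂ => (1 : ℂ)) y = 0 := fun y => by
    have e1 : dx (fun _ : ℂ => (1 : ℂ)) = fun _ => 0 := by funext z; simp [dx]
    have e2 : dy (fun _ : ℂ => (1 : ℂ)) = fun _ => 0 := by funext z; simp [dy]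
    simp [lap, e1, e2, dx, dy]
  rw [integral_smul_const] at this
  simp only [h0, neg_zero, Gop, smul_zero, integral_zero, zero_add, real_smul, mul_one] at this
  exact_mod_cast this.symm

/-- The Poisson extension. -/
noncomputable def Hp (f : ℝ → ℂ) (x : ℂ) : ℂ := ∫ t, P0 x (ec t) • f t ∂mc

/-- The Helmholtz extension. -/
noncomputable def Wk (ν : ℂ → ℝ) (f : ℝ → ℂ) (x : ℂ) : ℂ :=
  ∫ t, (2 * dl x * KK ν x (ec t)) • f t ∂mc

lemma inn_meas_dl : Measurable dl := by unfold dl; fun_prop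

lemma inn_meas_P0 : Measurable fun p : ℂ × ℝ => P0 p.1 (ec p.2) := by
  have h : Measurable fun p : ℂ × ℝ => (p.1, ec p.2) :=
    measurable_fst.prodMk (inn_cont_ec.measurable.comp measurable_snd)
  have := measurable_P0.comp h
  rwa [Function.comp_def] at this

lemma inn_ker_le {α : Type*} [MeasurableSpace α] {μ : Measure α} {k : α → ℝ} {f : α → ℂ}
    {M B : ℝ} (hk : Integrable k μ) (hk0 : ∀ t, 0 ≤ k t) (hB : ∫ t, k t ∂μ ≤ B)
    (hf : AEStronglyMeasurable f μ) (hM : ∀ t, ‖f t‖ ≤ M) (hM0 : 0 ≤ M) :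
    Integrable (fun t => k t • f t) μ ∧ ∫ t, ‖k t • f t‖ ∂μ ≤ B * M := by
  have h1 : ∀ t, ‖k t • f t‖ ≤ k t * M := fun t => by
    rw [norm_smul, Real.norm_of_nonneg (hk0 t)]
    exact mul_le_mul_of_nonneg_left (hM t) (hk0 t)
  have h2 : Integrable (fun t => k t • f t) μ :=
    (hk.mul_const M).mono' (hk.1.smul hf) (Eventually.of_forall h1)
  refine ⟨h2, (integral_mono h2.norm (hk.mul_const M) h1).trans ?_⟩
  rw [integral_mul_const]
  exact mul_le_mul_of_nonneg_right hB hM0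

lemma inn_Hp_le {f : ℝ → ℂ} {M : ℝ} (hf : Continuous f) (hM : ∀ t, ‖f t‖ ≤ M) {x : ℂ}
    (hx : x ∈ D) : ‖Hp f x‖ ≤ M := by
  have := (inn_ker_le (inn_P0_int hx) (fun t => P0_nonneg (regT_D_sub hx) _) (inn_P0_one hx).le
    hf.aestronglyMeasurable hM ((norm_nonneg _).trans (hM 0))).2
  rw [one_mul] at this
  exact (norm_integral_le_integral_norm _).trans this

lemma inn_meas_Hp {f : ℝ → ℂ} (hf : Continuous f) : Measurable (Hp f) :=
  ((inn_meas_P0.smul (hf.measurable.comp measurable_snd)).stronglyMeasurable.integral_prod_right'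
    (ν := mc)).measurable

lemma inn_bm_Hp {f : ℝ → ℂ} {M : ℝ} (hf : Continuous f) (hM : ∀ t, ‖f t‖ ≤ M) : BM (Hp f) :=
  ⟨(inn_meas_Hp hf).aestronglyMeasurable, M, fun _ hx => inn_Hp_le hf hM hx⟩

lemma inn_circle {F : ℂ → ℂ} (hF : ∀ z ∈ Db, ContinuousAt F z) :
    Continuous (fun t => F (ec t)) ∧ ∃ M, ∀ t, ‖F (ec t)‖ ≤ M := by
  have h : ContinuousOn F Db := fun z hz => (hF z hz).continuousWithinAt
  obtain ⟨K, hK⟩ := (isCompact_closedBall (0 : ℂ) 1).exists_bound_of_continuousOn h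
  exact ⟨h.comp_continuous inn_cont_ec inn_ec_Db, K, fun t => hK _ (inn_ec_Db t)⟩

section Pot

variable {ν : ℂ → ℝ} {A θ C : ℝ}

lemma inn_KK_nonneg (hν : Pot ν A θ) {p q : ℂ} (hp : p ∈ Db) (hq : q ∈ Db) : 0 ≤ KK ν p q :=
  (K0_nonneg hp hq).trans (K0_le_KK hν hp hq)

lemma inn_KK_eq (hK : KB ν C θ) {p q : ℂ} (hp : p ∈ Db) (hq : q ∈ Db) :
    KK ν p q = K0 p q + ∑' n, TK K0 ν (n + 1) p q :=
  (hK.summable p hp q hq).tsum_eq_zero_add

lemma inn_dl_KK_le (hν : Pot ν A θ) (hK : KB ν C θ) {x q : ℂ} (hx : x ∈ Db) (hq : q ∈ Db) :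
    dl x * KK ν x q ≤ dl x * K0 x q + C / (1 - θ) := by
  have h1 : HasSum (fun n => C * θ ^ n) (C * (1 - θ)⁻¹) :=
    (hasSum_geometric_of_lt_one hν.θ_pos.le hν.θ_lt).mul_left C
  have h2 := ((summable_nat_add_iff 1).2 (hK.summable x hx q hq)).hasSum.mul_left (dl x)
  rw [inn_KK_eq hK hx hq, mul_add, div_eq_mul_inv]
  exact add_le_add le_rfl (hasSum_le (fun n => hK.Y_le n x hx q hq) h2 h1)

lemma inn_resolvent (hν : Pot ν A θ) (hK : KB ν C θ) {p q : ℂ} (hp : p ∈ Db) (hq : q ∈ Db)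
    (hpq : p ≠ q) :
    ∫ x, K0 p x * KK ν x q * (dl x ^ 2 * ν x) ∂mD = KK ν p q - K0 p q := by
  have h1 : ∀ n, ∫ x, ‖K0 p x * TK K0 ν n x q * (dl x ^ 2 * ν x)‖ ∂mD = TK K0 ν (n + 1) p q := by
    intro n
    refine integral_congr_ae (regT_ae_mem.mono fun x hx => Real.norm_of_nonneg ?_)
    exact mul_nonneg (mul_nonneg (K0_nonneg hp (regT_D_sub hx))
      (hK.nonneg n x (regT_D_sub hx) q hq)) (mul_nonneg (sq_nonneg _) (hν.nonneg x))
  have h2 := integral_tsum_of_summable_integral_norm (μ := mD)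
    (F := fun n x => K0 p x * TK K0 ν n x q * (dl x ^ 2 * ν x))
    (fun n => hK.integrable n p hp q hq (Or.inr hpq))
    (by simpa only [h1] using (summable_nat_add_iff 1).2 (hK.summable p hp q hq))
  simp only [tsum_mul_right, tsum_mul_left] at h2
  rw [inn_KK_eq hK hp hq, add_sub_cancel_left]
  exact h2.symm

lemma inn_meas_kW (hν : Pot ν A θ) :
    Measurable fun p : ℂ × ℝ => 2 * dl p.1 * KK ν p.1 (ec p.2) :=
  ((inn_meas_dl.comp measurable_fst).const_mul 2).mul ((measurable_KK hν).comp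
    (measurable_fst.prodMk (inn_cont_ec.measurable.comp measurable_snd)))

lemma inn_kW_nonneg (hν : Pot ν A θ) {x : ℂ} (hx : x ∈ D) (t : ℝ) :
    0 ≤ 2 * dl x * KK ν x (ec t) :=
  mul_nonneg (mul_nonneg zero_le_two (dl_pos hx).le)
    (inn_KK_nonneg hν (regT_D_sub hx) (inn_ec_Db t))

lemma inn_kW_int (hν : Pot ν A θ) (hK : KB ν C θ) {x : ℂ} (hx : x ∈ D) :
    Integrable (fun t => 2 * dl x * KK ν x (ec t)) mc ∧
      ∫ t, 2 * dl x * KK ν x (ec t) ∂mc ≤ 1 + 4 * π * (C / (1 - θ)) := by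
  have h1 : ∀ t, 2 * dl x * KK ν x (ec t) ≤ P0 x (ec t) + 2 * (C / (1 - θ)) := fun t => by
    have := inn_dl_KK_le hν hK (regT_D_sub hx) (inn_ec_Db t)
    rw [← two_mul_dl_mul_K0 x (ec_mem t)]
    linarith
  have h2 : Integrable (fun t => P0 x (ec t) + 2 * (C / (1 - θ))) mc :=
    (inn_P0_int hx).add (integrable_const _)
  have h3 : Integrable (fun t => 2 * dl x * KK ν x (ec t)) mc :=
    h2.mono' ((inn_meas_kW hν).comp measurable_prodMk_left).aestronglyMeasurable
      (Eventually.of_forall fun t => by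
        rw [Real.norm_of_nonneg (inn_kW_nonneg hν hx t)]; exact h1 t)
  refine ⟨h3, (integral_mono h3 h2 h1).trans (le_of_eq ?_)⟩
  rw [integral_add (inn_P0_int hx) (integrable_const _), inn_P0_one hx, integral_const,
    inn_mc_univ, smul_eq_mul]
  ring

lemma inn_Wk_le (hν : Pot ν A θ) (hK : KB ν C θ) {f : ℝ → ℂ} {M : ℝ} (hf : Continuous f)
    (hM : ∀ t, ‖f t‖ ≤ M) {x : ℂ} (hx : x ∈ D) :
    ‖Wk ν f x‖ ≤ (1 + 4 * π * (C / (1 - θ))) * M :=
  (norm_integral_le_integral_norm _).trans (inn_ker_le (inn_kW_int hν hK hx).1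
    (inn_kW_nonneg hν hx) (inn_kW_int hν hK hx).2 hf.aestronglyMeasurable hM
    ((norm_nonneg _).trans (hM 0))).2

lemma inn_meas_Wk (hν : Pot ν A θ) {f : ℝ → ℂ} (hf : Continuous f) : Measurable (Wk ν f) :=
  (((inn_meas_kW hν).smul
    (hf.measurable.comp measurable_snd)).stronglyMeasurable.integral_prod_right'
    (ν := mc)).measurable

lemma inn_bm_Wk (hν : Pot ν A θ) (hK : KB ν C θ) {f : ℝ → ℂ} {M : ℝ} (hf : Continuous f)
    (hM : ∀ t, ‖f t‖ ≤ M) : BM (Wk ν f) :=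
  ⟨(inn_meas_Wk hν hf).aestronglyMeasurable, _, fun _ hx => inn_Wk_le hν hK hf hM hx⟩

/-- The integral equation of the Helmholtz extension. -/
lemma inn_Wk_eq (hν : Pot ν A θ) (hK : KB ν C θ) {f : ℝ → ℂ} {M : ℝ} (hf : Continuous f)
    (hM : ∀ t, ‖f t‖ ≤ M) {x : ℂ} (hx : x ∈ D) :
    Wk ν f x = Hp f x + Gop (fun y => ν y * Wk ν f y) x := by
  have hM0 : 0 ≤ M := (norm_nonneg _).trans (hM 0)
  have hx' := regT_D_sub hx
  set B : ℝ := 1 + 4 * π * (C / (1 - θ)) with hB
  have hmG : Measurable fun y => G0 x y * ν y :=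
    (measurable_G0.comp measurable_prodMk_left).mul hν.meas
  have hP : Integrable (fun p : ℝ × ℂ => (G0 x p.2 * ν p.2) •
      ((2 * dl p.2 * KK ν p.2 (ec p.1)) • f p.1)) (mc.prod mD) := by
    refine regT_prod_int ((hmG.comp measurable_snd).smul
      (((inn_meas_kW hν).comp measurable_swap).smul
        (hf.measurable.comp measurable_fst))).aestronglyMeasurable
      ((inn_G0_int hx').mul_const (A * (B * M))) (regT_ae_mem.mono fun y hy => ?_)
    obtain ⟨k1, k2⟩ := inn_ker_le (inn_kW_int hν hK hy).1 (inn_kW_nonneg hν hy)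
      (inn_kW_int hν hK hy).2 hf.aestronglyMeasurable hM hM0
    have k3 := G0_nonneg hx' (regT_D_sub hy)
    refine ⟨k1.smul (G0 x y * ν y), ?_⟩
    simp only [norm_smul (G0 x y * ν y)]
    rw [integral_const_mul, Real.norm_of_nonneg (mul_nonneg k3 (hν.nonneg y)), mul_assoc]
    refine mul_le_mul_of_nonneg_left (mul_le_mul (hν.le y) k2 (integral_nonneg fun _ =>
      norm_nonneg _) ((hν.nonneg y).trans (hν.le y))) k3
  have e1 : Gop (fun y => ν y * Wk ν f y) x = ∫ y, ∫ t, (G0 x y * ν y) •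
      ((2 * dl y * KK ν y (ec t)) • f t) ∂mc ∂mD := by
    refine integral_congr_ae (Eventually.of_forall fun y => ?_)
    simp only
    rw [integral_smul, mul_smul, real_smul (x := ν y)]
    rfl
  have e2 : ∀ t, ∫ y, (G0 x y * ν y) • ((2 * dl y * KK ν y (ec t)) • f t) ∂mD =
      (2 * dl x * KK ν x (ec t)) • f t - P0 x (ec t) • f t := by
    intro t
    simp only [smul_smul]
    rw [integral_smul_const, ← sub_smul, ← two_mul_dl_mul_K0 x (ec_mem t), ← mul_sub,
      ← inn_resolvent hν hK hx' (inn_ec_Db t) (inn_ne_ec hx t), ← integral_const_mul]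
    congr 1
    refine integral_congr_ae (regT_ae_mem.mono fun y hy => ?_)
    simp only
    rw [← dl_mul_dl_mul_K0 hx' (regT_D_sub hy)]
    ring
  rw [e1, ← integral_integral_swap hP]
  simp only [e2]
  rw [integral_sub (inn_ker_le (inn_kW_int hν hK hx).1 (inn_kW_nonneg hν hx)
      (inn_kW_int hν hK hx).2 hf.aestronglyMeasurable hM hM0).1
    (inn_ker_le (inn_P0_int hx) (fun t => P0_nonneg hx' _) (inn_P0_one hx).le
      hf.aestronglyMeasurable hM hM0).1]
  simp only [Wk, Hp]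
  ring

/-- Uniqueness for the homogeneous integral equation. -/
lemma inn_unique (hν : Pot ν A θ) {R : ℂ → ℂ} (hm : Measurable R) (hb : ∃ K, ∀ z, ‖R z‖ ≤ K)
    (h : ∀ x ∈ D, R x = Gop (fun y => ν y * R y) x) : ∀ x ∈ D, R x = 0 := by
  obtain ⟨K, hK⟩ := hb
  have h1 := hν.contr (fun z => ‖R z‖) hm.norm (fun _ => norm_nonneg _) ⟨K, hK⟩
  have hA : 0 ≤ A := (hν.nonneg 0).trans (hν.le 0)
  have hK0 : 0 ≤ K := (norm_nonneg _).trans (hK 0)
  have hνγ : ∀ y, ‖ν y * ‖R y‖‖ ≤ A * K := fun y => by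
    rw [norm_mul, norm_norm, Real.norm_of_nonneg (hν.nonneg y)]
    exact mul_le_mul (hν.le y) (hK y) (norm_nonneg _) hA
  set T : ℂ → ℝ := fun x => ∫ y in D, G0 x y * (ν y * ‖R y‖) with hT
  have hTm : Measurable T :=
    ((measurable_G0.mul ((hν.meas.mul hm.norm).comp
      measurable_snd)).stronglyMeasurable.integral_prod_right' (ν := mD)).measurable
  have h2 : ∀ x ∈ D, ‖R x‖ ≤ T x := by
    intro x hx
    rw [h x hx]
    refine (norm_integral_le_integral_norm _).trans (le_of_eq ?_)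
    refine integral_congr_ae (regT_ae_mem.mono fun y hy => ?_)
    simp only
    rw [norm_smul, norm_mul, norm_real, Real.norm_of_nonneg (hν.nonneg y),
      Real.norm_of_nonneg (G0_nonneg (regT_D_sub hx) (regT_D_sub hy))]
  have hbm : BM fun y => ((ν y * ‖R y‖ : ℝ) : ℂ) :=
    ⟨(measurable_ofReal.comp (hν.meas.mul hm.norm)).aestronglyMeasurable, A * K, fun y _ => by
      rw [norm_real]; exact hνγ y⟩
  obtain ⟨K', hK'⟩ := hbm.gop.bdd
  have hTb : ∀ x ∈ D, ‖T x‖ ≤ K' := by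
    intro x hx
    have : Gop (fun y => ((ν y * ‖R y‖ : ℝ) : ℂ)) x = (T x : ℂ) := by
      rw [Gop, show T x = ∫ y in D, G0 x y * (ν y * ‖R y‖) from rfl, ← integral_complex_ofReal]
      refine integral_congr_ae (Eventually.of_forall fun y => ?_)
      simp
    rw [← norm_real, ← this]
    exact hK' x hx
  have i1 : Integrable (fun x => ν x * ‖R x‖ ^ 2) mD := by
    refine Integrable.of_bound (hν.meas.mul (hm.norm.pow_const 2)).aestronglyMeasurable
      (A * K ^ 2) (Eventually.of_forall fun x => ?_)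
    rw [norm_mul, norm_pow, norm_norm, Real.norm_of_nonneg (hν.nonneg x)]
    exact mul_le_mul (hν.le x) (pow_le_pow_left₀ (norm_nonneg _) (hK x) 2) (by positivity) hA
  have i2 : Integrable (fun x => ν x * T x ^ 2) mD := by
    refine Integrable.of_bound (hν.meas.mul (hTm.pow_const 2)).aestronglyMeasurable
      (A * K' ^ 2) (regT_ae_mem.mono fun x hx => ?_)
    rw [norm_mul, norm_pow, Real.norm_of_nonneg (hν.nonneg x)]
    exact mul_le_mul (hν.le x) (pow_le_pow_left₀ (norm_nonneg _) (hTb x hx) 2) (by positivity) hA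
  have h3 : ∫ x, ν x * ‖R x‖ ^ 2 ∂mD ≤ ∫ x, ν x * T x ^ 2 ∂mD :=
    integral_mono_ae i1 i2 (regT_ae_mem.mono fun x hx =>
      mul_le_mul_of_nonneg_left (pow_le_pow_left₀ (norm_nonneg _) (h2 x hx) 2) (hν.nonneg x))
  have n1 : ∀ x, 0 ≤ ν x * ‖R x‖ ^ 2 := fun x => mul_nonneg (hν.nonneg x) (sq_nonneg _)
  have h4 : 0 ≤ ∫ x, ν x * ‖R x‖ ^ 2 ∂mD := integral_nonneg n1
  have h5 : θ ^ 2 < 1 := pow_lt_one₀ hν.θ_pos.le hν.θ_lt two_ne_zero
  have h6 : ∫ x, ν x * ‖R x‖ ^ 2 ∂mD = 0 := by nlinarith [h3.trans h1]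
  rw [integral_eq_zero_iff_of_nonneg n1 i1] at h6
  intro x hx
  rw [h x hx]
  refine integral_eq_zero_of_ae ?_
  filter_upwards [h6] with y hy
  have k1 : ν y * ‖R y‖ ^ 2 = 0 := hy
  rcases mul_eq_zero.1 k1 with k2 | k2
  · simp [k2]
  · simp [norm_eq_zero.1 (pow_eq_zero_iff two_ne_zero |>.1 k2)]

/-- Solutions of the Helmholtz equation are the extensions of their boundary values. -/
lemma inn_rep (hν : Pot ν A θ) (hK : KB ν C θ) {om : ℂ → ℂ}
    (hom : ∀ z ∈ Db, ContDiffAt ℝ 2 om z) (heq : ∀ z ∈ D, lap om z = -(ν z * om z)) :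
    ∀ x ∈ D, om x = Wk ν (fun t => om (ec t)) x := by
  classical
  obtain ⟨hc, M, hM⟩ := inn_circle fun z hz => (hom z hz).continuousAt
  have b1 := inn_bm_c2 hom
  have b2 := inn_bm_Wk hν hK hc hM
  obtain ⟨K, hK'⟩ := (b1.sub b2).bdd
  have hoc : ContinuousOn om D := fun z hz =>
    (hom z (regT_D_sub hz)).continuousAt.continuousWithinAt
  set R : ℂ → ℂ := fun z => D.piecewise om 0 z - D.indicator (Wk ν fun t => om (ec t)) z with hR
  have hRD : ∀ z ∈ D, R z = om z - Wk ν (fun t => om (ec t)) z := fun z hz => by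
    simp only [hR, piecewise_eq_of_mem _ _ _ hz, indicator_of_mem hz]
  have h0 := inn_unique hν (R := R) ((hoc.measurable_piecewise continuousOn_const
    measurableSet_ball).sub ((inn_meas_Wk hν hc).indicator measurableSet_ball))
    ⟨max K 0, fun z => by
      by_cases hz : z ∈ D
      · rw [hRD z hz]; exact (hK' z hz).trans (le_max_left _ _)
      · simp [hR, hz]⟩
    fun x hx => by
      have e1 := green_rep hom hx
      have e2 := inn_Wk_eq hν hK hc hM hx
      rw [inn_Gop_congr (g := fun y => ν y * om y) (fun z hz => by rw [heq z hz, neg_neg])] at e1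
      rw [inn_Gop_congr (g := fun y => ν y * om y - ν y * Wk ν (fun t => om (ec t)) y)
        (fun z hz => by rw [hRD z hz, mul_sub]),
        inn_Gop_sub (hν.innBM.mul b1).memLp (hν.innBM.mul b2).memLp hx, hRD x hx]
      have e3 : Hp (fun t => om (ec t)) x = ∫ θ, P0 x (ec θ) • om (ec θ) ∂mc := rfl
      linear_combination e1 - e2 - e3
  intro x hx
  have := h0 x hx
  rwa [hRD x hx, sub_eq_zero] at this

/-- The regular part of the boundary kernel. -/
noncomputable def K1 (ν : ℂ → ℝ) (p : ℝ × ℝ) : ℝ :=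
  KK ν (ec p.1) (ec p.2) - K0 (ec p.1) (ec p.2)

lemma inn_K1_symm (hν : Pot ν A θ) (p : ℝ × ℝ) : K1 ν p.swap = K1 ν p := by
  simp only [K1, Prod.fst_swap, Prod.snd_swap]
  rw [KK_symm hν (inn_ec_Db _) (inn_ec_Db _), K0_symm]

lemma inn_pair (hν : Pot ν A θ) (hK : KB ν C θ) :
    Integrable (K1 ν) (mc.prod mc) ∧ ∀ (f g : ℝ → ℂ) (M M' : ℝ), Continuous f → Continuous g →
      (∀ t, ‖f t‖ ≤ M) → (∀ t, ‖g t‖ ≤ M') →
      ∫ x, (ν x * Wk ν f x * conj (Hp g x)).re ∂mD =
        ∫ p, 4 * K1 ν p * (f p.1 * conj (g p.2)).re ∂(mc.prod mc) := by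
  set B : ℝ := 1 + 4 * π * (C / (1 - θ)) with hB
  set Ψ : (ℝ × ℝ) × ℂ → ℝ := fun q =>
    ν q.2 * ((2 * dl q.2 * KK ν q.2 (ec q.1.1)) * P0 q.2 (ec q.1.2)) with hΨ
  have hΨm : Measurable Ψ := by
    have m1 : Measurable fun q : (ℝ × ℝ) × ℂ => (q.2, q.1.1) :=
      measurable_snd.prodMk measurable_fst.fst
    have m2 : Measurable fun q : (ℝ × ℝ) × ℂ => (q.2, q.1.2) :=
      measurable_snd.prodMk measurable_fst.snd
    have m3 := (inn_meas_kW hν).comp m1
    have m4 := inn_meas_P0.comp m2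
    rw [Function.comp_def] at m3 m4
    exact (hν.meas.comp measurable_snd).mul (m3.mul m4)
  have hΨi : Integrable Ψ ((mc.prod mc).prod mD) := by
    refine regT_prod_int hΨm.aestronglyMeasurable (integrable_const (A * B))
      (regT_ae_mem.mono fun x hx => ?_)
    obtain ⟨k1, k2⟩ := inn_kW_int hν hK hx
    refine ⟨(k1.mul_prod (inn_P0_int hx)).const_mul (ν x), ?_⟩
    have e : ∀ p : ℝ × ℝ, ‖Ψ (p, x)‖ =
        ν x * ((2 * dl x * KK ν x (ec p.1)) * P0 x (ec p.2)) := fun p =>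
      Real.norm_of_nonneg (mul_nonneg (hν.nonneg x) (mul_nonneg (inn_kW_nonneg hν hx _)
        (P0_nonneg (regT_D_sub hx) _)))
    simp only [e]
    rw [integral_const_mul, integral_prod_mul (fun t => 2 * dl x * KK ν x (ec t))
      (fun t => P0 x (ec t)), inn_P0_one hx, mul_one]
    exact mul_le_mul (hν.le x) k2 (integral_nonneg (inn_kW_nonneg hν hx))
      ((hν.nonneg x).trans (hν.le x))
  have hae : ∀ᵐ p ∂(mc.prod mc), ∫ x, Ψ (p, x) ∂mD = 4 * K1 ν p := by
    filter_upwards [inn_ae_ne] with p hp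
    rw [← inn_K1_symm hν, K1, Prod.fst_swap, Prod.snd_swap,
      ← inn_resolvent hν hK (inn_ec_Db _) (inn_ec_Db _) hp.symm, ← integral_const_mul]
    refine integral_congr_ae (Eventually.of_forall fun x => ?_)
    simp only [hΨ]
    rw [← two_mul_dl_mul_K0 x (ec_mem p.2), K0_symm x]
    ring
  refine ⟨?_, fun f g M M' hf hg hM hM' => ?_⟩
  · have := (hΨi.integral_prod_left.congr hae).const_mul (1 / 4)
    refine this.congr (Eventually.of_forall fun p => ?_)
    simp only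
    ring
  · have hc : Continuous fun p : ℝ × ℝ => f p.1 * conj (g p.2) :=
      (hf.comp continuous_fst).mul (continuous_conj.comp (hg.comp continuous_snd))
    have hb : ∀ p : ℝ × ℝ, ‖f p.1 * conj (g p.2)‖ ≤ M * M' := fun p => by
      rw [norm_mul, Complex.norm_conj]
      exact mul_le_mul (hM _) (hM' _) (norm_nonneg _) ((norm_nonneg _).trans (hM 0))
    have hi : Integrable (fun q : (ℝ × ℝ) × ℂ => Ψ q * (f q.1.1 * conj (g q.1.2)).re)
        ((mc.prod mc).prod mD) :=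
      hΨi.mul_bdd (c := M * M') ((continuous_re.comp hc).comp continuous_fst).aestronglyMeasurable
        (Eventually.of_forall fun q => (abs_re_le_norm _).trans (hb q.1))
    have e1 : ∀ x ∈ D, (ν x * Wk ν f x * conj (Hp g x)).re =
        ∫ p, Ψ (p, x) * (f p.1 * conj (g p.2)).re ∂(mc.prod mc) := by
      intro x hx
      have k1 : Integrable (fun p : ℝ × ℝ => Ψ (p, x) • (f p.1 * conj (g p.2))) (mc.prod mc) :=
        ((((inn_kW_int hν hK hx).1.mul_prod (inn_P0_int hx)).const_mul (ν x)).smul_of_top_left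
          (memLp_top_of_bound hc.aestronglyMeasurable _ (Eventually.of_forall hb)))
      have k2 : ν x * Wk ν f x * conj (Hp g x) =
          ∫ p, Ψ (p, x) • (f p.1 * conj (g p.2)) ∂(mc.prod mc) := by
        rw [Wk, Hp, ← integral_conj, mul_assoc, ← integral_prod_mul, ← integral_const_mul]
        refine integral_congr_ae (Eventually.of_forall fun p => ?_)
        simp only [hΨ, real_smul, map_mul, conj_ofReal]
        push_cast
        ring
      rw [k2]
      refine (reCLM.integral_comp_comm k1).symm.trans ?_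
      simp only [reCLM_apply, smul_re, smul_eq_mul]
    rw [integral_congr_ae (regT_ae_mem.mono e1), ← integral_integral_swap hi]
    refine integral_congr_ae ?_
    filter_upwards [hae] with p hp
    rw [← hp, ← integral_mul_const]

end Pot

end Vale.Agent.P071
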