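import Vale.Agent.P071.KernelAux

/-!
# Bounds, continuity in the potential, and rigidity for the iterated kernels
-/

open Complex Metric Set Filter Topology MeasureTheory
open scoped ContDiff ComplexConjugate Real

namespace Vale.Agent.P071

theorem exists_KB (A θ : ℝ) : ∃ C : ℝ, 0 ≤ C ∧ ∀ ν : ℂ → ℝ, Pot ν A θ → KB ν C θ := by
  refine ⟨|kernY A θ + 4 * A * kernI + 2 * A * kernI * kernY A θ|, abs_nonneg _, fun ν hν => ?_⟩
  have hA := hν.A_nonneg
  have hθ := hν.θ_pos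
  have hI := kernI_nonneg
  have hY := kernY_nonneg hν
  have h1 : 0 ≤ 4 * A * kernI := by positivity
  have h2 : 0 ≤ 2 * A * kernI * kernY A θ := by positivity
  rw [abs_of_nonneg (by linarith)]
  have hT2 : ∀ n, ∀ p ∈ Db, ∀ q ∈ Db, TK K0 ν (n + 2) p q ≤
      (kernY A θ + 4 * A * kernI + 2 * A * kernI * kernY A θ) * θ ^ n := by
    intro n p hp q hq
    refine (kern_T_two hν n hp hq).2.trans ?_
    have ht : 0 < θ ^ n := pow_pos hθ n
    nlinarith [mul_nonneg hY ht.le, mul_nonneg h1 ht.le]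
  refine ⟨kern_meas hν.meas, kern_nonneg hν.nonneg,
    fun n p hp q hq h => kern_integrable hν n hp hq h, fun p hp q hq hpq => ?_, hT2,
    fun n x hx q hq => ?_, fun n => (kern_symm hν n).1, fun p hp q hq => ?_⟩
  · refine (kern_T_one hν hp hq hpq).2.trans ?_
    have ht : 0 ≤ ‖p - q‖ ^ (-(1 / 2) : ℝ) := by positivity
    nlinarith [mul_nonneg hY ht, mul_nonneg h2 ht]
  · refine (kern_Y_le hν n hx hq).trans ?_
    have ht : 0 < θ ^ n := pow_pos hθ n
    nlinarith [mul_nonneg h2 ht.le, mul_nonneg h1 ht.le]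
  · refine (summable_nat_add_iff 2).1 (Summable.of_nonneg_of_le
      (fun n => kern_nonneg hν.nonneg _ p hp q hq) (fun n => hT2 n p hp q hq) ?_)
    exact (summable_geometric_of_lt_one hθ.le hν.θ_lt).mul_left _

variable {ν : ℂ → ℝ} {A θ : ℝ}

lemma kern_KB (hν : Pot ν A θ) : ∃ C, 0 ≤ C ∧ KB ν C θ := by
  obtain ⟨C, hC, h⟩ := exists_KB A θ
  exact ⟨C, hC, h ν hν⟩

lemma measurable_KK (hν : Pot ν A θ) : Measurable (Function.uncurry (KK ν)) :=
  Measurable.tsum (f := fun n => Function.uncurry (TK K0 ν n)) (kern_meas hν.meas)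

lemma K0_le_KK (hν : Pot ν A θ) {p q : ℂ} (hp : p ∈ Db) (hq : q ∈ Db) : K0 p q ≤ KK ν p q := by
  obtain ⟨C, -, h⟩ := kern_KB hν
  exact (h.summable p hp q hq).le_tsum 0 fun n _ => h.nonneg n p hp q hq

lemma KK_symm (hν : Pot ν A θ) {p q : ℂ} (hp : p ∈ Db) (hq : q ∈ Db) : KK ν p q = KK ν q p :=
  tsum_congr fun n => (kern_symm hν n).1 p hp q hq

lemma dd_symm (hν : Pot ν A θ) {p q : ℂ} (hp : p ∈ Db) (hq : q ∈ Db) : dd ν p q = dd ν q p := by
  unfold dd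
  rcases eq_or_ne p q with rfl | h
  · rfl
  · rw [if_neg h, if_neg h.symm, KK_symm hν hp hq, mul_comm]

lemma kern_KK_nonneg (hν : Pot ν A θ) {p q : ℂ} (hp : p ∈ Db) (hq : q ∈ Db) : 0 ≤ KK ν p q :=
  (K0_nonneg hp hq).trans (K0_le_KK hν hp hq)

lemma kern_KK_pos (hν : Pot ν A θ) {p q : ℂ} (hp : p ∈ Db) (hq : q ∈ Db) (hpq : p ≠ q) :
    0 < KK ν p q :=
  lt_of_lt_of_le (by positivity) ((K0_lower hp hq hpq).trans (K0_le_KK hν hp hq))

lemma kern_KK_le (hν : Pot ν A θ) {C : ℝ} (h : KB ν C θ) {p q : ℂ} (hp : p ∈ Db) (hq : q ∈ Db)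
    (hpq : p ≠ q) : KK ν p q ≤ K0 p q + C * ‖p - q‖ ^ (-(1 / 2) : ℝ) + C * (1 - θ)⁻¹ := by
  have hs := h.summable p hp q hq
  have hg := summable_geometric_of_lt_one hν.θ_pos.le hν.θ_lt
  have h1 : ∑' n, TK K0 ν (n + 2) p q ≤ C * (1 - θ)⁻¹ := by
    rw [← tsum_geometric_of_lt_one hν.θ_pos.le hν.θ_lt, ← tsum_mul_left]
    exact ((summable_nat_add_iff 2).2 hs).tsum_le_tsum (fun n => h.T2_le n p hp q hq)
      (hg.mul_left C)
  have h2 := h.T1_le p hp q hq hpq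
  unfold KK
  rw [← hs.sum_add_tsum_nat_add 2, Finset.sum_range_succ, Finset.sum_range_one]
  change K0 p q + _ + _ ≤ _
  linarith

/-- Uniform bounds on the circle. -/
theorem exists_circle_bound (A θ : ℝ) : ∃ L : ℝ, 0 ≤ L ∧ ∀ ν : ℂ → ℝ, Pot ν A θ →
    ∀ s ∈ S1, ∀ t ∈ S1, (0 ≤ KK ν 0 s ∧ KK ν 0 s ≤ L) ∧
      (0 ≤ KK ν s t ∧ KK ν s t * ‖s - t‖ ^ 2 ≤ L) ∧ dd ν s t ≤ L ^ 2 * ‖s - t‖ ^ 2 := by
  obtain ⟨C, hC, hKB⟩ := exists_KB A θ
  refine ⟨4 * (1 + 4 * C + 4 * |C * (1 - θ)⁻¹|), by positivity, fun ν hν => ?_⟩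
  have h := hKB ν hν
  have hθ : 0 < 1 - θ := sub_pos.2 hν.θ_lt
  have hD : 0 ≤ C * (1 - θ)⁻¹ := by positivity
  rw [abs_of_nonneg hD]
  set B := 1 + 4 * C + 4 * (C * (1 - θ)⁻¹) with hB
  have hpi := Real.pi_gt_three
  have hpi4 := Real.pi_le_four
  have h4pi : 1 / (4 * π) ≤ 1 := by
    rw [div_le_one (by positivity)]; linarith
  have key0 : ∀ s ∈ S1, KK ν 0 s ≤ B := by
    intro s hs
    have hn : ‖s‖ = 1 := by simpa using hs
    have h0 : (0 : ℂ) ≠ s := by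
      rintro rfl
      simp at hn
    have h1 := kern_KK_le hν h kern0_zero_mem (kern0_S1_sub hs) h0
    rw [K0_symm, K0_boundary hs] at h1
    simp only [sub_zero, zero_sub, norm_neg, hn, one_pow, mul_one, Real.one_rpow] at h1
    linarith
  have hB0 : 0 ≤ B := by positivity
  intro s hs t ht
  have hs' := kern0_S1_sub hs
  have ht' := kern0_S1_sub ht
  refine ⟨⟨kern_KK_nonneg hν kern0_zero_mem hs', by linarith [key0 s hs]⟩,
    ⟨kern_KK_nonneg hν hs' ht', ?_⟩, ?_⟩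
  · rcases eq_or_ne s t with rfl | hst
    · simp only [sub_self, norm_zero]
      norm_num
      exact hB0
    have hr : 0 < ‖s - t‖ := norm_pos_iff.2 (sub_ne_zero.2 hst)
    have hr2 := kern0_norm_sub_le hs' ht'
    have h1 := kern_KK_le hν h hs' ht' hst
    rw [K0_boundary hs, kern0_rpow_half hr.le] at h1
    have hsq : 0 < √‖s - t‖ := Real.sqrt_pos.2 hr
    have h2 : (√‖s - t‖)⁻¹ * ‖s - t‖ ^ 2 ≤ 4 := by
      rw [inv_mul_le_iff₀ hsq]
      have h3 : √‖s - t‖ ^ 2 = ‖s - t‖ := Real.sq_sqrt hr.le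
      have h4 : √‖s - t‖ ≤ 2 := by
        rw [Real.sqrt_le_iff]; constructor <;> linarith
      nlinarith
    have h3 : 1 / (4 * π * ‖s - t‖ ^ 2) * ‖s - t‖ ^ 2 = 1 / (4 * π) := by field_simp
    have h4 : ‖s - t‖ ^ 2 ≤ 4 := by nlinarith
    have h5 := mul_le_mul_of_nonneg_right h1 (sq_nonneg ‖s - t‖)
    rw [add_mul, add_mul, h3, mul_assoc C] at h5
    have h6 := mul_le_mul_of_nonneg_left h2 hC
    have h7 := mul_le_mul_of_nonneg_left h4 hD
    linarith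
  · unfold dd
    split_ifs with hst
    · positivity
    have hr : 0 < ‖s - t‖ := norm_pos_iff.2 (sub_ne_zero.2 hst)
    have h1 := K0_le_KK hν hs' ht'
    rw [K0_boundary hs] at h1
    have h2 : KK ν 0 s * KK ν 0 t ≤ B * B :=
      mul_le_mul (key0 s hs) (key0 t ht) (kern_KK_nonneg hν kern0_zero_mem ht') hB0
    calc KK ν 0 s * KK ν 0 t / KK ν s t ≤ B * B / (1 / (4 * π * ‖s - t‖ ^ 2)) :=
          div_le_div₀ (by positivity) h2 (by positivity) h1
      _ = B * B * ‖s - t‖ ^ 2 * (4 * π) := by field_simp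
      _ ≤ B * B * ‖s - t‖ ^ 2 * (4 * 4) := by gcongr
      _ = _ := by ring

lemma kern_TK_tendsto {νs : ℕ → ℂ → ℝ} (hνs : ∀ j, Pot (νs j) A θ)
    (hlim : ∀ z ∈ D, Tendsto (fun j => νs j z) atTop (𝓝 (ν z))) (n : ℕ) :
    ∀ p ∈ Db, ∀ q ∈ Db, p ≠ q →
      Tendsto (fun j => TK K0 (νs j) n p q) atTop (𝓝 (TK K0 ν n p q)) := by
  induction n with
  | zero => exact fun p _ q _ _ => tendsto_const_nhds
  | succ n ih =>
    intro p hp q hq hpq
    have hlim' : ∀ᵐ x ∂(volume.restrict D), Tendsto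
        (fun j => K0 p x * TK K0 (νs j) n x q * (dl x ^ 2 * νs j x)) atTop
        (𝓝 (K0 p x * TK K0 ν n x q * (dl x ^ 2 * ν x))) := by
      filter_upwards [kern_ae_mem, kern_ae_ne q] with x hx hxq
      exact ((ih x (kern0_D_sub hx) q hq hxq).const_mul _).mul ((hlim x hx).const_mul _)
    have hm : ∀ j, AEStronglyMeasurable
        (fun x => K0 p x * TK K0 (νs j) n x q * (dl x ^ 2 * νs j x)) (volume.restrict D) :=
      fun j => (kern_meas_integrand (hνs j).meas n p q).aestronglyMeasurable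
    cases n with
    | zero =>
      refine tendsto_integral_of_dominated_convergence _ hm
        (((kern_sing hp).1.add (kern_sing hq).1).const_mul
          (A * (2 * ‖p - q‖ ^ (-(1 / 2) : ℝ)))) (fun j => kern_ae_mem.mono fun x hx => ?_) hlim'
      rw [Real.norm_eq_abs,
        abs_of_nonneg (kern_integrand_nonneg (hνs j).nonneg _ hp hq (kern0_D_sub hx))]
      exact kern_integrand_zero_le (hνs j) hp hq (kern0_D_sub hx) hpq
    | succ n =>
      refine tendsto_integral_of_dominated_convergence _ hm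
        (((kern_sing hp).1.add (kern_sing hp).1).const_mul
          (A * (kernY A θ * θ ^ n))) (fun j => kern_ae_mem.mono fun x hx => ?_) hlim'
      rw [Real.norm_eq_abs,
        abs_of_nonneg (kern_integrand_nonneg (hνs j).nonneg _ hp hq (kern0_D_sub hx))]
      exact kern_integrand_succ_le (hνs j) n hp hq (kern0_D_sub hx)

theorem KK_tendsto {νs : ℕ → ℂ → ℝ} (hνs : ∀ j, Pot (νs j) A θ) (hν : Pot ν A θ)
    (hlim : ∀ z ∈ D, Tendsto (fun j => νs j z) atTop (𝓝 (ν z))) {p q : ℂ} (hp : p ∈ Db)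
    (hq : q ∈ Db) (hpq : p ≠ q) : Tendsto (fun j => KK (νs j) p q) atTop (𝓝 (KK ν p q)) := by
  obtain ⟨C, -, hKB⟩ := exists_KB A θ
  have key : ∀ μ : ℂ → ℝ, Pot μ A θ → KK μ p q =
      ∑ n ∈ Finset.range 2, TK K0 μ n p q + ∑' n, TK K0 μ (n + 2) p q := fun μ hμ =>
    (((hKB μ hμ).summable p hp q hq).sum_add_tsum_nat_add 2).symm
  rw [key ν hν]
  refine Tendsto.congr (fun j => (key _ (hνs j)).symm) ?_
  refine (tendsto_finsetSum _ fun n _ => kern_TK_tendsto hνs hlim n p hp q hq hpq).add ?_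
  refine tendsto_tsum_of_dominated_convergence (bound := fun n => C * θ ^ n)
    ((summable_geometric_of_lt_one hν.θ_pos.le hν.θ_lt).mul_left C)
    (fun n => kern_TK_tendsto hνs hlim (n + 2) p hp q hq hpq)
    (Eventually.of_forall fun j n => ?_)
  rw [Real.norm_eq_abs, abs_of_nonneg ((hKB _ (hνs j)).nonneg _ p hp q hq)]
  exact (hKB _ (hνs j)).T2_le n p hp q hq

theorem dd_tendsto {νs : ℕ → ℂ → ℝ} (hνs : ∀ j, Pot (νs j) A θ) (hν : Pot ν A θ)
    (hlim : ∀ z ∈ D, Tendsto (fun j => νs j z) atTop (𝓝 (ν z))) {p q : ℂ} (hp : p ∈ Db)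
    (hq : q ∈ Db) (hp0 : p ≠ 0) (hq0 : q ≠ 0) :
    Tendsto (fun j => dd (νs j) p q) atTop (𝓝 (dd ν p q)) := by
  unfold dd
  split_ifs with hpq
  · exact tendsto_const_nhds
  · exact ((KK_tendsto hνs hν hlim kern0_zero_mem hp hp0.symm).mul
      (KK_tendsto hνs hν hlim kern0_zero_mem hq hq0.symm)).div
      (KK_tendsto hνs hν hlim hp hq hpq) (kern_KK_pos hν hp hq hpq).ne'

end Vale.Agent.P071
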