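import Vale.Agent.P071.Kernel0

/-!
# Bounds for the iterated kernels: preliminaries
-/

open Complex Metric Set Filter Topology MeasureTheory
open scoped ContDiff ComplexConjugate Real

namespace Vale.Agent.P071

/-- The constant of the basic singular integral. -/
noncomputable def kernI : ℝ := Classical.choose exists_sing_bound

lemma kern_sing {x : ℂ} (hx : x ∈ Db) :
    IntegrableOn (fun y : ℂ => ‖y - x‖ ^ (-(3 / 2) : ℝ)) D ∧
      ∫ y in D, ‖y - x‖ ^ (-(3 / 2) : ℝ) ≤ kernI :=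
  Classical.choose_spec exists_sing_bound x (kern0_norm_le hx)

lemma kernI_nonneg : 0 ≤ kernI :=
  (integral_nonneg fun y => by positivity).trans (kern_sing kern0_zero_mem).2

lemma kern_ae_mem : ∀ᵐ y ∂(volume.restrict D), y ∈ D := ae_restrict_mem measurableSet_ball

lemma kern_ae_ne (a : ℂ) : ∀ᵐ y ∂(volume.restrict D), y ≠ a := by
  refine ae_restrict_of_ae ?_
  simp [ae_iff]

lemma kern_vol_lt : volume D < ⊤ := measure_ball_lt_top

lemma kern_dom {f : ℂ → ℝ} (hf : Measurable f) {a b : ℂ} (ha : a ∈ Db) (hb : b ∈ Db) {c : ℝ}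
    (hc : 0 ≤ c) (h : ∀ᵐ y ∂(volume.restrict D),
      |f y| ≤ c * (‖y - a‖ ^ (-(3 / 2) : ℝ) + ‖y - b‖ ^ (-(3 / 2) : ℝ))) :
    IntegrableOn f D ∧ |∫ y in D, f y| ≤ c * (2 * kernI) := by
  have hg : IntegrableOn
      (fun y : ℂ => c * (‖y - a‖ ^ (-(3 / 2) : ℝ) + ‖y - b‖ ^ (-(3 / 2) : ℝ))) D :=
    ((kern_sing ha).1.add (kern_sing hb).1).const_mul c
  refine ⟨hg.mono' hf.aestronglyMeasurable h, ?_⟩
  refine (norm_integral_le_of_norm_le (f := f) hg h).trans ?_
  rw [integral_const_mul, integral_add (kern_sing ha).1 (kern_sing hb).1]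
  have h1 := (kern_sing ha).2
  have h2 := (kern_sing hb).2
  exact mul_le_mul_of_nonneg_left (by linarith) hc

lemma kern_dom' {f : ℂ → ℝ} (hf : Measurable f) {a b : ℂ} (ha : a ∈ Db) (hb : b ∈ Db) {c : ℝ}
    (hc : 0 ≤ c) (h0 : ∀ y ∈ D, 0 ≤ f y) (h : ∀ y ∈ D,
      f y ≤ c * (‖y - a‖ ^ (-(3 / 2) : ℝ) + ‖y - b‖ ^ (-(3 / 2) : ℝ))) :
    IntegrableOn f D ∧ ∫ y in D, f y ≤ c * (2 * kernI) := by
  have := kern_dom hf ha hb hc (kern_ae_mem.mono fun y hy => by
    rw [abs_of_nonneg (h0 y hy)]; exact h y hy)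
  exact ⟨this.1, (le_abs_self _).trans this.2⟩

lemma kern_inv_le {a y : ℂ} (ha : a ∈ Db) (hy : y ∈ Db) :
    ‖y - a‖⁻¹ ≤ ‖y - a‖ ^ (-(3 / 2) : ℝ) + ‖y - a‖ ^ (-(3 / 2) : ℝ) := by
  have := inv_le_two_mul_rpow ha hy
  linarith

variable {ν : ℂ → ℝ} {A θ : ℝ}

lemma kern_meas (hν : Measurable ν) (n : ℕ) : Measurable (Function.uncurry (TK K0 ν n)) := by
  induction n with
  | zero => exact measurable_K0
  | succ n ih =>
    have hd := kern0_measurable_dl
    have : Measurable fun z : (ℂ × ℂ) × ℂ =>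
        K0 z.1.1 z.2 * TK K0 ν n z.2 z.1.2 * (dl z.2 ^ 2 * ν z.2) :=
      ((measurable_K0.comp (f := fun z : (ℂ × ℂ) × ℂ => (z.1.1, z.2)) (by fun_prop)).mul
        (ih.comp (f := fun z : (ℂ × ℂ) × ℂ => (z.2, z.1.2)) (by fun_prop))).mul (by fun_prop)
    exact (this.stronglyMeasurable.integral_prod_right' (ν := volume.restrict D)).measurable

lemma kern_meas_left (hν : Measurable ν) (n : ℕ) (q : ℂ) : Measurable fun x => TK K0 ν n x q :=
  (kern_meas hν n).comp (measurable_id.prodMk measurable_const)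

lemma kern_meas_K0 (p : ℂ) : Measurable fun x => K0 p x :=
  measurable_K0.comp (measurable_const.prodMk measurable_id)

lemma kern_meas_G0 (p : ℂ) : Measurable fun x => G0 p x :=
  measurable_G0.of_uncurry_left

lemma kern_meas_Y (hν : Measurable ν) (n : ℕ) (q : ℂ) :
    Measurable fun x => dl x * TK K0 ν n x q :=
  kern0_measurable_dl.mul (kern_meas_left hν n q)

lemma kern_meas_integrand (hν : Measurable ν) (n : ℕ) (p q : ℂ) :
    Measurable fun x => K0 p x * TK K0 ν n x q * (dl x ^ 2 * ν x) :=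
  ((kern_meas_K0 p).mul (kern_meas_left hν n q)).mul ((kern0_measurable_dl.pow_const 2).mul hν)

lemma kern_nonneg (hν : ∀ z, 0 ≤ ν z) (n : ℕ) : ∀ p ∈ Db, ∀ q ∈ Db, 0 ≤ TK K0 ν n p q := by
  induction n with
  | zero => exact fun p hp q hq => K0_nonneg hp hq
  | succ n ih =>
    intro p hp q hq
    refine setIntegral_nonneg measurableSet_ball fun x hx => ?_
    exact mul_nonneg (mul_nonneg (K0_nonneg hp (kern0_D_sub hx)) (ih x (kern0_D_sub hx) q hq))
      (mul_nonneg (sq_nonneg _) (hν x))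

lemma kern_Y_nonneg (hν : ∀ z, 0 ≤ ν z) (n : ℕ) {x q : ℂ} (hx : x ∈ Db) (hq : q ∈ Db) :
    0 ≤ dl x * TK K0 ν n x q :=
  mul_nonneg (dl_nonneg hx) (kern_nonneg hν n x hx q hq)

lemma kern_Y_succ (ν : ℂ → ℝ) (n : ℕ) {x : ℂ} (hx : x ∈ Db) (q : ℂ) :
    dl x * TK K0 ν (n + 1) x q = ∫ y in D, G0 x y * (ν y * (dl y * TK K0 ν n y q)) := by
  rw [TK, ← integral_const_mul]
  refine setIntegral_congr_fun measurableSet_ball fun y hy => ?_
  rw [← dl_mul_dl_mul_K0 hx (kern0_D_sub hy)]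
  ring

lemma kern_integrand (ν : ℂ → ℝ) (n : ℕ) (p q y : ℂ) :
    K0 p y * TK K0 ν n y q * (dl y ^ 2 * ν y) =
      (dl y * K0 y p) * (ν y * (dl y * TK K0 ν n y q)) := by
  rw [K0_symm p y]; ring

lemma Pot.A_nonneg (hν : Pot ν A θ) : 0 ≤ A := (hν.nonneg 0).trans (hν.le 0)

lemma kern_Y_one (hν : Pot ν A θ) {x q : ℂ} (hx : x ∈ Db) (hq : q ∈ Db) :
    dl x * TK K0 ν 1 x q ≤ A * (2 * kernI) := by
  rw [kern_Y_succ ν 0 hx q]
  refine (kern_dom' ((kern_meas_G0 x).mul (hν.meas.mul (kern_meas_Y hν.meas 0 q))) hx hq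
    hν.A_nonneg (fun y hy => ?_) fun y hy => ?_).2
  · exact mul_nonneg (G0_nonneg hx (kern0_D_sub hy))
      (mul_nonneg (hν.nonneg y) (kern_Y_nonneg hν.nonneg 0 (kern0_D_sub hy) hq))
  · have hy' := kern0_D_sub hy
    have h1 : G0 x y ≤ ‖y - x‖ ^ (-(1 / 2) : ℝ) := by rw [G0_symm]; exact G0_le hy' hx
    have h2 : dl y * TK K0 ν 0 y q ≤ ‖y - q‖⁻¹ := dl_mul_K0_le hy' hq
    have h3 := kern_Y_nonneg hν.nonneg 0 hy' hq
    have h4 := hν.nonneg y
    have h5 := hν.le y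
    have h6 := hν.A_nonneg
    calc G0 x y * (ν y * (dl y * TK K0 ν 0 y q))
        ≤ ‖y - x‖ ^ (-(1 / 2) : ℝ) * (A * ‖y - q‖⁻¹) := by gcongr
      _ = A * (‖y - x‖ ^ (-(1 / 2) : ℝ) * ‖y - q‖⁻¹) := by ring
      _ ≤ _ := mul_le_mul_of_nonneg_left (rpow_half_mul_inv_le x q y) h6

lemma kern_G0_sq (hν : Pot ν A θ) {x : ℂ} (hx : x ∈ Db) :
    IntegrableOn (fun y => ν y * G0 x y ^ 2) D ∧ ∫ y in D, ν y * G0 x y ^ 2 ≤ A * (2 * kernI) := by
  refine kern_dom' (hν.meas.mul ((kern_meas_G0 x).pow_const 2)) hx hx hν.A_nonneg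
    (fun y _ => mul_nonneg (hν.nonneg y) (sq_nonneg _)) fun y hy => ?_
  have hy' := kern0_D_sub hy
  have h1 : G0 x y ≤ ‖y - x‖ ^ (-(1 / 2) : ℝ) := by rw [G0_symm]; exact G0_le hy' hx
  have h2 : G0 x y ^ 2 ≤ ‖y - x‖⁻¹ := by
    rw [kern0_inv_eq (norm_nonneg _), ← kern0_rpow_half (norm_nonneg _)]
    exact pow_le_pow_left₀ (G0_nonneg hx hy') h1 2
  exact mul_le_mul (hν.le y) (h2.trans (kern_inv_le hx hy')) (sq_nonneg _) hν.A_nonneg

/-- The initial energy. -/
noncomputable def kernE (A : ℝ) : ℝ := A * (A * (2 * kernI)) ^ 2 * volume.real D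

/-- The constant for the weighted kernels. -/
noncomputable def kernY (A θ : ℝ) : ℝ := A * (2 * kernI) + (A * kernI + kernE A / 2) / θ

lemma kernE_nonneg (hA : 0 ≤ A) : 0 ≤ kernE A := by
  unfold kernE; positivity

lemma kernY_nonneg (hν : Pot ν A θ) : 0 ≤ kernY A θ := by
  have h1 := hν.A_nonneg
  have h2 := hν.θ_pos
  have h3 := kernE_nonneg h1
  have h4 := kernI_nonneg
  unfold kernY; positivity

lemma kern_Y_both (hν : Pot ν A θ) {q : ℂ} (hq : q ∈ Db) (n : ℕ) :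
    (∀ x ∈ Db, dl x * TK K0 ν (n + 1) x q ≤ kernY A θ * θ ^ n) ∧
      ∫ x in D, ν x * (dl x * TK K0 ν (n + 1) x q) ^ 2 ≤ (θ ^ n) ^ 2 * kernE A := by
  have hA := hν.A_nonneg
  have hθ := hν.θ_pos
  have hE := kernE_nonneg hA
  have hI := kernI_nonneg
  induction n with
  | zero =>
    constructor
    · intro x hx
      refine (kern_Y_one hν hx hq).trans ?_
      have : 0 ≤ (A * kernI + kernE A / 2) / θ := by positivity
      simp only [kernY, pow_zero, mul_one]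
      linarith
    · simp only [pow_zero, one_pow, one_mul, kernE]
      refine (Real.le_norm_self _).trans (norm_setIntegral_le_of_norm_le_const kern_vol_lt ?_)
      intro x hx
      have hx' := kern0_D_sub hx
      rw [Real.norm_eq_abs, abs_of_nonneg (mul_nonneg (hν.nonneg x) (sq_nonneg _))]
      exact mul_le_mul (hν.le x) (pow_le_pow_left₀ (kern_Y_nonneg hν.nonneg _ hx' hq)
        (kern_Y_one hν hx' hq) 2) (sq_nonneg _) hA
  | succ n ih =>
    have hY := kernY_nonneg hν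
    have ht : 0 < θ ^ n := pow_pos hθ n
    constructor
    · intro x hx
      have hint : IntegrableOn (fun y => ν y * (dl y * TK K0 ν (n + 1) y q) ^ 2) D := by
        refine Measure.integrableOn_of_bounded kern_vol_lt.ne
          (hν.meas.mul ((kern_meas_Y hν.meas _ q).pow_const 2)).aestronglyMeasurable
          (M := A * (kernY A θ * θ ^ n) ^ 2) (kern_ae_mem.mono fun y hy => ?_)
        have hy' := kern0_D_sub hy
        rw [Real.norm_eq_abs, abs_of_nonneg (mul_nonneg (hν.nonneg y) (sq_nonneg _))]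
        exact mul_le_mul (hν.le y) (pow_le_pow_left₀ (kern_Y_nonneg hν.nonneg _ hy' hq)
          (ih.1 y hy') 2) (sq_nonneg _) hA
      have hG := kern_G0_sq hν hx
      rw [kern_Y_succ ν (n + 1) hx q]
      have h1 : ∫ y in D, G0 x y * (ν y * (dl y * TK K0 ν (n + 1) y q)) ≤
          ∫ y in D, (θ ^ n / 2 * (ν y * G0 x y ^ 2) +
            1 / (2 * θ ^ n) * (ν y * (dl y * TK K0 ν (n + 1) y q) ^ 2)) := by
        refine integral_mono_of_nonneg (kern_ae_mem.mono fun y hy => ?_)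
          ((hG.1.const_mul _).add (hint.const_mul _)) (Eventually.of_forall fun y => ?_)
        · exact mul_nonneg (G0_nonneg hx (kern0_D_sub hy))
            (mul_nonneg (hν.nonneg y) (kern_Y_nonneg hν.nonneg _ (kern0_D_sub hy) hq))
        · beta_reduce
          generalize G0 x y = g
          generalize dl y * TK K0 ν (n + 1) y q = u
          have h0 := hν.nonneg y
          have e : θ ^ n / 2 * (ν y * g ^ 2) + 1 / (2 * θ ^ n) * (ν y * u ^ 2) - g * (ν y * u) =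
              ν y * (θ ^ n * g - u) ^ 2 / (2 * θ ^ n) := by
            field_simp
            ring
          have : 0 ≤ ν y * (θ ^ n * g - u) ^ 2 / (2 * θ ^ n) := by positivity
          linarith
      refine h1.trans ?_
      rw [integral_add (hG.1.const_mul _) (hint.const_mul _), integral_const_mul,
        integral_const_mul]
      have h2 : θ ^ n / 2 * ∫ y in D, ν y * G0 x y ^ 2 ≤ θ ^ n / 2 * (A * (2 * kernI)) :=
        mul_le_mul_of_nonneg_left hG.2 (by positivity)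
      have h3 : 1 / (2 * θ ^ n) * ∫ y in D, ν y * (dl y * TK K0 ν (n + 1) y q) ^ 2 ≤
          1 / (2 * θ ^ n) * ((θ ^ n) ^ 2 * kernE A) :=
        mul_le_mul_of_nonneg_left ih.2 (by positivity)
      have e : θ ^ n / 2 * (A * (2 * kernI)) + 1 / (2 * θ ^ n) * ((θ ^ n) ^ 2 * kernE A) =
          (A * kernI + kernE A / 2) / θ * θ ^ (n + 1) := by
        field_simp
        ring
      have h4 : 0 ≤ A * (2 * kernI) * θ ^ (n + 1) := by positivity
      unfold kernY
      nlinarith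
    · have hc := hν.contr (D.indicator fun y => dl y * TK K0 ν (n + 1) y q)
        ((kern_meas_Y hν.meas _ q).indicator measurableSet_ball)
        (fun z => indicator_nonneg
          (fun y hy => kern_Y_nonneg hν.nonneg _ (kern0_D_sub hy) hq) z)
        ⟨kernY A θ * θ ^ n, fun z => by
          by_cases hz : z ∈ D
          · rw [indicator_of_mem hz]; exact ih.1 z (kern0_D_sub hz)
          · rw [indicator_of_notMem hz]; positivity⟩
      have e1 : ∫ x in D, ν x * (dl x * TK K0 ν (n + 1 + 1) x q) ^ 2 =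
          ∫ x in D, ν x * (∫ y in D, G0 x y *
            (ν y * D.indicator (fun y => dl y * TK K0 ν (n + 1) y q) y)) ^ 2 := by
        refine setIntegral_congr_fun measurableSet_ball fun x hx => ?_
        rw [kern_Y_succ ν (n + 1) (kern0_D_sub hx) q]
        congr 2
        refine setIntegral_congr_fun measurableSet_ball fun y hy => ?_
        rw [indicator_of_mem hy]
      have e2 : ∫ x in D, ν x * D.indicator (fun y => dl y * TK K0 ν (n + 1) y q) x ^ 2 =
          ∫ x in D, ν x * (dl x * TK K0 ν (n + 1) x q) ^ 2 := by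
        refine setIntegral_congr_fun measurableSet_ball fun y hy => ?_
        rw [indicator_of_mem hy]
      rw [e1]
      refine hc.trans ?_
      rw [e2]
      calc θ ^ 2 * ∫ x in D, ν x * (dl x * TK K0 ν (n + 1) x q) ^ 2
          ≤ θ ^ 2 * ((θ ^ n) ^ 2 * kernE A) := mul_le_mul_of_nonneg_left ih.2 (sq_nonneg _)
        _ = (θ ^ (n + 1)) ^ 2 * kernE A := by ring

lemma kern_Y_le (hν : Pot ν A θ) (n : ℕ) {x q : ℂ} (hx : x ∈ Db) (hq : q ∈ Db) :
    dl x * TK K0 ν (n + 1) x q ≤ kernY A θ * θ ^ n := (kern_Y_both hν hq n).1 x hx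

lemma kern_integrand_nonneg (hν : ∀ z, 0 ≤ ν z) (n : ℕ) {p q y : ℂ} (hp : p ∈ Db) (hq : q ∈ Db)
    (hy : y ∈ Db) : 0 ≤ K0 p y * TK K0 ν n y q * (dl y ^ 2 * ν y) :=
  mul_nonneg (mul_nonneg (K0_nonneg hp hy) (kern_nonneg hν n y hy q hq))
    (mul_nonneg (sq_nonneg _) (hν y))

lemma kern_integrand_zero_le (hν : Pot ν A θ) {p q y : ℂ} (hp : p ∈ Db) (hq : q ∈ Db)
    (hy : y ∈ Db) (hpq : p ≠ q) : K0 p y * TK K0 ν 0 y q * (dl y ^ 2 * ν y) ≤
      A * (2 * ‖p - q‖ ^ (-(1 / 2) : ℝ)) *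
        (‖y - p‖ ^ (-(3 / 2) : ℝ) + ‖y - q‖ ^ (-(3 / 2) : ℝ)) := by
  rw [kern_integrand]
  have h1 : dl y * K0 y p ≤ ‖y - p‖⁻¹ := dl_mul_K0_le hy hp
  have h2 : dl y * TK K0 ν 0 y q ≤ ‖y - q‖⁻¹ := dl_mul_K0_le hy hq
  have h3 := kern_Y_nonneg hν.nonneg 0 hy hq
  have h4 := hν.nonneg y
  have h5 := hν.le y
  have h6 := hν.A_nonneg
  calc (dl y * K0 y p) * (ν y * (dl y * TK K0 ν 0 y q))
      ≤ ‖y - p‖⁻¹ * (A * ‖y - q‖⁻¹) := by gcongr
    _ = A * (‖y - p‖⁻¹ * ‖y - q‖⁻¹) := by ring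
    _ ≤ A * (2 * ‖p - q‖ ^ (-(1 / 2) : ℝ) *
        (‖y - p‖ ^ (-(3 / 2) : ℝ) + ‖y - q‖ ^ (-(3 / 2) : ℝ))) :=
      mul_le_mul_of_nonneg_left (inv_mul_inv_le hpq) h6
    _ = _ := by ring

lemma kern_integrand_succ_le (hν : Pot ν A θ) (n : ℕ) {p q y : ℂ} (hp : p ∈ Db) (hq : q ∈ Db)
    (hy : y ∈ Db) : K0 p y * TK K0 ν (n + 1) y q * (dl y ^ 2 * ν y) ≤
      A * (kernY A θ * θ ^ n) * (‖y - p‖ ^ (-(3 / 2) : ℝ) + ‖y - p‖ ^ (-(3 / 2) : ℝ)) := by
  rw [kern_integrand]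
  have h1 : dl y * K0 y p ≤ _ := (dl_mul_K0_le hy hp).trans (kern_inv_le hp hy)
  have h2 := kern_Y_le hν n hy hq
  have h3 := kern_Y_nonneg hν.nonneg (n + 1) hy hq
  have h4 := hν.nonneg y
  have h5 := hν.le y
  have h6 := hν.A_nonneg
  calc (dl y * K0 y p) * (ν y * (dl y * TK K0 ν (n + 1) y q))
      ≤ (‖y - p‖ ^ (-(3 / 2) : ℝ) + ‖y - p‖ ^ (-(3 / 2) : ℝ)) * (A * (kernY A θ * θ ^ n)) := by
        gcongr
    _ = _ := by ring

lemma kern_T_one (hν : Pot ν A θ) {p q : ℂ} (hp : p ∈ Db) (hq : q ∈ Db) (hpq : p ≠ q) :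
    IntegrableOn (fun y => K0 p y * TK K0 ν 0 y q * (dl y ^ 2 * ν y)) D ∧
      TK K0 ν 1 p q ≤ A * (2 * ‖p - q‖ ^ (-(1 / 2) : ℝ)) * (2 * kernI) :=
  kern_dom' (kern_meas_integrand hν.meas 0 p q) hp hq
    (mul_nonneg hν.A_nonneg (by positivity))
    (fun _ hy => kern_integrand_nonneg hν.nonneg 0 hp hq (kern0_D_sub hy))
    fun _ hy => kern_integrand_zero_le hν hp hq (kern0_D_sub hy) hpq

lemma kern_T_two (hν : Pot ν A θ) (n : ℕ) {p q : ℂ} (hp : p ∈ Db) (hq : q ∈ Db) :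
    IntegrableOn (fun y => K0 p y * TK K0 ν (n + 1) y q * (dl y ^ 2 * ν y)) D ∧
      TK K0 ν (n + 2) p q ≤ A * (kernY A θ * θ ^ n) * (2 * kernI) :=
  kern_dom' (kern_meas_integrand hν.meas (n + 1) p q) hp hp
    (mul_nonneg hν.A_nonneg (mul_nonneg (kernY_nonneg hν) (pow_pos hν.θ_pos n).le))
    (fun _ hy => kern_integrand_nonneg hν.nonneg (n + 1) hp hq (kern0_D_sub hy))
    fun _ hy => kern_integrand_succ_le hν n hp hq (kern0_D_sub hy)

lemma kern_integrable (hν : Pot ν A θ) (n : ℕ) {p q : ℂ} (hp : p ∈ Db) (hq : q ∈ Db)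
    (h : n ≠ 0 ∨ p ≠ q) :
    IntegrableOn (fun y => K0 p y * TK K0 ν n y q * (dl y ^ 2 * ν y)) D := by
  cases n with
  | zero => exact (kern_T_one hν hp hq (h.resolve_left (by simp))).1
  | succ n => exact (kern_T_two hν n hp hq).1

lemma kern_symm_step (hν : Pot ν A θ) (n : ℕ)
    (h0 : ∀ p ∈ Db, ∀ q ∈ Db, TK K0 ν n p q = TK K0 ν n q p)
    (h1 : ∀ p ∈ Db, ∀ q ∈ Db, TK K0 ν (n + 1) p q = TK K0 ν (n + 1) q p)
    {p q : ℂ} (hp : p ∈ Db) (hq : q ∈ Db) : TK K0 ν (n + 2) p q = TK K0 ν (n + 2) q p := by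
  set F : ℂ → ℂ → ℝ := fun x y =>
    (K0 p x * (dl x ^ 2 * ν x)) * (K0 q y * TK K0 ν n y x * (dl y ^ 2 * ν y)) with hF
  have hd := kern0_measurable_dl
  have hm := hν.meas
  have hmeas : Measurable (Function.uncurry F) := by
    have a1 : Measurable fun z : ℂ × ℂ => K0 p z.1 := (kern_meas_K0 p).comp measurable_fst
    have a2 : Measurable fun z : ℂ × ℂ => K0 q z.2 := (kern_meas_K0 q).comp measurable_snd
    have a3 : Measurable fun z : ℂ × ℂ => TK K0 ν n z.2 z.1 :=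
      (kern_meas hm n).comp measurable_swap
    exact (a1.mul (by fun_prop)).mul ((a2.mul a3).mul (by fun_prop))
  have hx : ∀ x ∈ D, ∫ y in D, F x y = K0 p x * TK K0 ν (n + 1) x q * (dl x ^ 2 * ν x) := by
    intro x hx
    rw [h1 x (kern0_D_sub hx) q hq]
    simp only [hF]
    rw [integral_const_mul, TK]
    ring
  have hy : ∀ y ∈ D, ∫ x in D, F x y = K0 q y * TK K0 ν (n + 1) y p * (dl y ^ 2 * ν y) := by
    intro y hy
    rw [h1 y (kern0_D_sub hy) p hp, TK, mul_right_comm, ← integral_const_mul]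
    refine setIntegral_congr_fun measurableSet_ball fun x hx => ?_
    simp only [hF]
    rw [h0 y (kern0_D_sub hy) x (kern0_D_sub hx)]
    ring
  have hint : Integrable (Function.uncurry F) ((volume.restrict D).prod (volume.restrict D)) := by
    rw [integrable_prod_iff hmeas.aestronglyMeasurable]
    constructor
    · filter_upwards [kern_ae_mem, kern_ae_ne q] with x hx hxq
      exact (kern_integrable hν n hq (kern0_D_sub hx) (Or.inr hxq.symm)).const_mul
        (K0 p x * (dl x ^ 2 * ν x))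
    · refine (kern_T_two hν n hp hq).1.congr (kern_ae_mem.mono fun x hx' => ?_)
      beta_reduce
      rw [← hx x hx']
      refine setIntegral_congr_fun measurableSet_ball fun y hy' => ?_
      simp only [Function.uncurry_apply_pair]
      rw [Real.norm_eq_abs, abs_of_nonneg]
      exact mul_nonneg (mul_nonneg (K0_nonneg hp (kern0_D_sub hx'))
        (mul_nonneg (sq_nonneg _) (hν.nonneg x)))
        (kern_integrand_nonneg hν.nonneg n hq (kern0_D_sub hx') (kern0_D_sub hy'))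
  calc TK K0 ν (n + 2) p q = ∫ x in D, ∫ y in D, F x y :=
        setIntegral_congr_fun measurableSet_ball fun x hx' => (hx x hx').symm
    _ = ∫ y in D, ∫ x in D, F x y := integral_integral_swap hint
    _ = TK K0 ν (n + 2) q p := setIntegral_congr_fun measurableSet_ball fun y hy' => hy y hy'

lemma kern_symm (hν : Pot ν A θ) (n : ℕ) :
    (∀ p ∈ Db, ∀ q ∈ Db, TK K0 ν n p q = TK K0 ν n q p) ∧
      ∀ p ∈ Db, ∀ q ∈ Db, TK K0 ν (n + 1) p q = TK K0 ν (n + 1) q p := by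
  induction n with
  | zero =>
    refine ⟨fun p _ q _ => K0_symm p q, fun p _ q _ => ?_⟩
    simp only [TK]
    congr 1
    funext x
    rw [K0_symm p x, K0_symm q x]
    ring
  | succ n ih => exact ⟨ih.2, fun p hp q hq => kern_symm_step hν n ih.1 ih.2 hp hq⟩

end Vale.Agent.P071
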