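import Vale.Agent.P071.Green

/-!
# Green kernels on the unit disc: definitions
-/

open Complex Metric Set Filter Topology MeasureTheory
open scoped ContDiff ComplexConjugate Real

namespace Vale.Agent.P071

/-- The closed unit disc. -/
abbrev Db : Set ℂ := closedBall 0 1

/-- The unit circle. -/
abbrev S1 : Set ℂ := sphere 0 1

/-- The point `exp (i θ)`. -/
noncomputable abbrev ec (θ : ℝ) : ℂ := circleMap 0 1 θ

/-- Arc length on the circle, in the angle variable. -/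
noncomputable abbrev mc : Measure ℝ := volume.restrict (Ioc (-π) π)

/-- `1 - |x|²`. -/
noncomputable def dl (x : ℂ) : ℝ := 1 - ‖x‖ ^ 2

/-- The Dirichlet Green function of the disc. -/
noncomputable def G0 (x y : ℂ) : ℝ := Real.log (1 + dl x * dl y / ‖x - y‖ ^ 2) / (4 * π)

/-- The Poisson kernel. -/
noncomputable def P0 (x s : ℂ) : ℝ := dl x / (2 * π * ‖x - s‖ ^ 2)

/-- The normalised Green function `G0 / (dl x * dl y)`, extended to the closed disc. -/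
noncomputable def K0 (x y : ℂ) : ℝ :=
  if dl x * dl y = 0 then 1 / (4 * π * ‖x - y‖ ^ 2) else G0 x y / (dl x * dl y)

/-- Iterated kernels for the potential `ν`. -/
noncomputable def TK (K : ℂ → ℂ → ℝ) (ν : ℂ → ℝ) : ℕ → ℂ → ℂ → ℝ
  | 0 => K
  | n + 1 => fun p q => ∫ x in D, K p x * TK K ν n x q * (dl x ^ 2 * ν x)

/-- The normalised Green function of `-Δ - ν`. -/
noncomputable def KK (ν : ℂ → ℝ) (p q : ℂ) : ℝ := ∑' n, TK K0 ν n p q

open Classical in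
/-- The kernel of negative type attached to the centre of the disc. -/
noncomputable def dd (ν : ℂ → ℝ) (p q : ℂ) : ℝ :=
  if p = q then 0 else KK ν 0 p * KK ν 0 q / KK ν p q

/-- The Green operator. -/
noncomputable def Gop (f : ℂ → ℂ) (x : ℂ) : ℂ := ∫ y in D, G0 x y • f y

/-- A bounded nonnegative potential below the first Dirichlet eigenvalue. -/
structure Pot (ν : ℂ → ℝ) (A θ : ℝ) : Prop where
  meas : Measurable ν
  nonneg : ∀ z, 0 ≤ ν z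
  le : ∀ z, ν z ≤ A
  θ_pos : 0 < θ
  θ_lt : θ < 1
  contr : ∀ γ : ℂ → ℝ, Measurable γ → (∀ z, 0 ≤ γ z) → (∃ M, ∀ z, γ z ≤ M) →
    ∫ x in D, ν x * (∫ y in D, G0 x y * (ν y * γ y)) ^ 2 ≤ θ ^ 2 * ∫ x in D, ν x * γ x ^ 2

/-- Bounds for the iterated kernels. -/
structure KB (ν : ℂ → ℝ) (C θ : ℝ) : Prop where
  meas : ∀ n, Measurable (Function.uncurry (TK K0 ν n))
  nonneg : ∀ n, ∀ p ∈ Db, ∀ q ∈ Db, 0 ≤ TK K0 ν n p q
  integrable : ∀ n, ∀ p ∈ Db, ∀ q ∈ Db, (n ≠ 0 ∨ p ≠ q) →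
    IntegrableOn (fun x => K0 p x * TK K0 ν n x q * (dl x ^ 2 * ν x)) D
  T1_le : ∀ p ∈ Db, ∀ q ∈ Db, p ≠ q → TK K0 ν 1 p q ≤ C * ‖p - q‖ ^ (-(1 / 2) : ℝ)
  T2_le : ∀ n, ∀ p ∈ Db, ∀ q ∈ Db, TK K0 ν (n + 2) p q ≤ C * θ ^ n
  Y_le : ∀ n, ∀ x ∈ Db, ∀ q ∈ Db, dl x * TK K0 ν (n + 1) x q ≤ C * θ ^ n
  symm : ∀ n, ∀ p ∈ Db, ∀ q ∈ Db, TK K0 ν n p q = TK K0 ν n q p
  summable : ∀ p ∈ Db, ∀ q ∈ Db, Summable fun n => TK K0 ν n p q

/-- Conditionally negative definite kernels on a set. -/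
def CND {X : Type*} (Z : Set X) (ψ : X → X → ℝ) : Prop :=
  ∀ (n : ℕ) (x : Fin n → X) (c : Fin n → ℝ), (∀ i, x i ∈ Z) → ∑ i, c i = 0 →
    ∑ i, ∑ j, c i * c j * ψ (x i) (x j) ≤ 0

/-- Kernels which are nonpositive on the vectors orthogonal to the weight `a`. -/
def LorW {X : Type*} (Z : Set X) (a : X → ℝ) (ψ : X → X → ℝ) : Prop :=
  ∀ (n : ℕ) (x : Fin n → X) (c : Fin n → ℝ), (∀ i, x i ∈ Z) → ∑ i, c i * a (x i) = 0 →
    ∑ i, ∑ j, c i * c j * ψ (x i) (x j) ≤ 0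

open Classical in
/-- The reciprocal of `4 π K0`: the logarithmic mean of `|x - y|²` and `|1 - x conj y|²`. -/
noncomputable def Lm (x y : ℂ) : ℝ := if x = y then 0 else 1 / (4 * π * K0 x y)

end Vale.Agent.P071
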