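import Vale.Agent.P071.KernelDefs

/-!
# Positive semidefinite kernels, Schoenberg's lemma and Kaluza's lemma
-/

open Set Filter Topology MeasureTheory

namespace Vale.Agent.P071.Lor

variable {X : Type*} {Z : Set X}

/-- Symmetric positive semidefinite kernels on a set. -/
structure PSD (Z : Set X) (k : X → X → ℝ) : Prop where
  symm : ∀ p ∈ Z, ∀ q ∈ Z, k p q = k q p
  pos : ∀ (n : ℕ) (x : Fin n → X) (c : Fin n → ℝ), (∀ i, x i ∈ Z) →
    0 ≤ ∑ i, ∑ j, c i * c j * k (x i) (x j)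

variable {k k' : X → X → ℝ}

lemma PSD.congr (h : PSD Z k) (e : ∀ p ∈ Z, ∀ q ∈ Z, k' p q = k p q) : PSD Z k' :=
  ⟨fun p hp q hq => by rw [e p hp q hq, e q hq p hp, h.symm p hp q hq], fun n x c hx => by
    simp_rw [fun i j => e (x i) (hx i) (x j) (hx j)]
    exact h.pos n x c hx⟩

lemma PSD.add (h : PSD Z k) (h' : PSD Z k') : PSD Z fun p q => k p q + k' p q :=
  ⟨fun p hp q hq => by rw [h.symm p hp q hq, h'.symm p hp q hq], fun n x c hx => by
    simp_rw [mul_add, Finset.sum_add_distrib]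
    exact add_nonneg (h.pos n x c hx) (h'.pos n x c hx)⟩

lemma PSD.const_mul (h : PSD Z k) {a : ℝ} (ha : 0 ≤ a) : PSD Z fun p q => a * k p q :=
  ⟨fun p hp q hq => by rw [h.symm p hp q hq], fun n x c hx => by
    have := mul_nonneg ha (h.pos n x c hx)
    simp_rw [Finset.mul_sum] at this
    refine this.trans_eq (Finset.sum_congr rfl fun i _ => Finset.sum_congr rfl fun j _ => ?_)
    ring⟩

lemma PSD.rank_one (f : X → ℝ) : PSD Z fun p q => f p * f q :=
  ⟨fun p _ q _ => mul_comm _ _, fun n x c _ => by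
    have : ∑ i, ∑ j, c i * c j * (f (x i) * f (x j)) = (∑ i, c i * f (x i)) ^ 2 := by
      rw [sq, Finset.sum_mul_sum]
      refine Finset.sum_congr rfl fun i _ => Finset.sum_congr rfl fun j _ => ?_
      ring
    rw [this]; positivity⟩

lemma PSD.one : PSD Z fun _ _ => 1 :=
  (PSD.rank_one fun _ => 1).congr fun _ _ _ _ => by simp

lemma PSD.zero : PSD Z fun _ _ => 0 :=
  (PSD.rank_one fun _ => 0).congr fun _ _ _ _ => by simp

lemma PSD.matrix (h : PSD Z k) {n : ℕ} {x : Fin n → X} (hx : ∀ i, x i ∈ Z) :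
    (Matrix.of fun i j => k (x i) (x j)).PosSemidef := by
  rw [Matrix.posSemidef_iff_dotProduct_mulVec]
  refine ⟨?_, fun c => ?_⟩
  · ext i j
    simp [h.symm _ (hx i) _ (hx j)]
  · refine (h.pos n x c hx).trans_eq ?_
    simp only [dotProduct, Matrix.mulVec, Finset.mul_sum, star_trivial, Matrix.of_apply]
    refine Finset.sum_congr rfl fun i _ => Finset.sum_congr rfl fun j _ => ?_
    ring

lemma PSD.mul (h : PSD Z k) (h' : PSD Z k') : PSD Z fun p q => k p q * k' p q :=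
  ⟨fun p hp q hq => by rw [h.symm p hp q hq, h'.symm p hp q hq], fun n x c hx => by
    have := ((h.matrix hx).hadamard (h'.matrix hx)).dotProduct_mulVec_nonneg c
    refine this.trans_eq ?_
    simp only [dotProduct, Matrix.mulVec, Finset.mul_sum, star_trivial, Matrix.of_apply,
      Matrix.hadamard_apply]
    refine Finset.sum_congr rfl fun i _ => Finset.sum_congr rfl fun j _ => ?_
    ring⟩

lemma PSD.pow (h : PSD Z k) (m : ℕ) : PSD Z fun p q => k p q ^ m := by
  induction m with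
  | zero => exact PSD.one.congr fun _ _ _ _ => by simp
  | succ m ih => exact (ih.mul h).congr fun _ _ _ _ => pow_succ _ _

lemma PSD.sum {ι : Type*} (s : Finset ι) {K : ι → X → X → ℝ} (h : ∀ i ∈ s, PSD Z (K i)) :
    PSD Z fun p q => ∑ i ∈ s, K i p q := by
  classical
  induction s using Finset.induction_on with
  | empty => exact PSD.zero.congr fun _ _ _ _ => by simp
  | insert a s ha ih =>
    exact ((h a (Finset.mem_insert_self _ _)).add
      (ih fun i hi => h i (Finset.mem_insert_of_mem hi))).congr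
      fun _ _ _ _ => Finset.sum_insert ha

lemma PSD.limit {ι : Type*} {l : Filter ι} [l.NeBot] {K : ι → X → X → ℝ}
    (h : ∀ᶠ i in l, PSD Z (K i))
    (ht : ∀ p ∈ Z, ∀ q ∈ Z, Tendsto (fun i => K i p q) l (𝓝 (k p q))) : PSD Z k :=
  ⟨fun p hp q hq => tendsto_nhds_unique_of_eventuallyEq (ht p hp q hq) (ht q hq p hp)
    (h.mono fun _ hi => hi.symm p hp q hq), fun n x c hx =>
    ge_of_tendsto (tendsto_finsetSum _ fun i _ => tendsto_finsetSum _ fun j _ =>
      (ht _ (hx i) _ (hx j)).const_mul (c i * c j)) (h.mono fun _ hi => hi.pos n x c hx)⟩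

lemma PSD.hasSum {K : ℕ → X → X → ℝ} (h : ∀ i, PSD Z (K i))
    (ht : ∀ p ∈ Z, ∀ q ∈ Z, HasSum (fun i => K i p q) (k p q)) : PSD Z k :=
  PSD.limit (l := atTop) (K := fun N p q => ∑ i ∈ Finset.range N, K i p q)
    (Eventually.of_forall fun _ => PSD.sum _ fun i _ => h i)
    fun p hp q hq => (ht p hp q hq).tendsto_sum_nat

lemma PSD.exp (h : PSD Z k) : PSD Z fun p q => Real.exp (k p q) :=
  PSD.hasSum (K := fun m p q => ((m.factorial : ℝ))⁻¹ * k p q ^ m)
    (fun m => (h.pow m).const_mul (by positivity)) fun p _ q _ => by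
      have := NormedSpace.expSeries_div_hasSum_exp (k p q)
      rw [← Real.exp_eq_exp_ℝ] at this
      simpa only [div_eq_inv_mul] using this

lemma PSD.geom (h : PSD Z k) (hk : ∀ p ∈ Z, ∀ q ∈ Z, |k p q| < 1) :
    PSD Z fun p q => (1 - k p q)⁻¹ :=
  PSD.hasSum (fun m => h.pow m) fun p hp q hq => hasSum_geometric_of_abs_lt_one (hk p hp q hq)

lemma sum_cons (ψ : X → X → ℝ) {n : ℕ} (x : Fin n → X) (c : Fin n → ℝ) (z : X) (t : ℝ) :
    ∑ i : Fin (n + 1), ∑ j : Fin (n + 1), (Fin.cons t c : Fin (n + 1) → ℝ) i *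
      (Fin.cons t c : Fin (n + 1) → ℝ) j *
        ψ ((Fin.cons z x : Fin (n + 1) → X) i) ((Fin.cons z x : Fin (n + 1) → X) j) =
      t * t * ψ z z + t * ∑ j, c j * ψ z (x j) + t * ∑ i, c i * ψ (x i) z +
        ∑ i, ∑ j, c i * c j * ψ (x i) (x j) := by
  simp only [Fin.sum_univ_succ, Fin.cons_zero, Fin.cons_succ, Finset.sum_add_distrib,
    Finset.mul_sum]
  have e1 : ∑ j, t * c j * ψ z (x j) = ∑ j, t * (c j * ψ z (x j)) :=
    Finset.sum_congr rfl fun _ _ => by ring
  have e2 : ∑ i, c i * t * ψ (x i) z = ∑ i, t * (c i * ψ (x i) z) :=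
    Finset.sum_congr rfl fun _ _ => by ring
  rw [e1, e2]; ring

lemma cons_mem {n : ℕ} {x : Fin n → X} {z : X} (hz : z ∈ Z) (hx : ∀ i, x i ∈ Z) (i : Fin (n + 1)) :
    (Fin.cons z x : Fin (n + 1) → X) i ∈ Z := by
  refine Fin.cases ?_ (fun i => ?_) i
  · simpa using hz
  · simpa using hx i

lemma psd_of_CND {d : X → X → ℝ} (h : CND Z d) (hs : ∀ p ∈ Z, ∀ q ∈ Z, d p q = d q p) {z : X}
    (hz : z ∈ Z) : PSD Z fun p q => d p z + d z q - d p q - d z z := by
  refine ⟨fun p hp q hq => by rw [hs p hp q hq, hs p hp z hz, hs q hq z hz]; ring,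
    fun n x c hx => ?_⟩
  have := h (n + 1) (Fin.cons z x) (Fin.cons (-∑ i, c i) c) (cons_mem hz hx)
    (by simp [Fin.sum_univ_succ])
  rw [sum_cons] at this
  have e : ∑ i, ∑ j, c i * c j * (d (x i) z + d z (x j) - d (x i) (x j) - d z z) =
      (∑ i, c i * d (x i) z) * (∑ j, c j) + (∑ i, c i) * (∑ j, c j * d z (x j)) -
        ∑ i, ∑ j, c i * c j * d (x i) (x j) - (∑ i, c i) * (∑ j, c j) * d z z := by
    rw [Finset.sum_mul_sum, Finset.sum_mul_sum, Finset.sum_mul_sum]
    simp only [Finset.sum_mul, ← Finset.sum_add_distrib, ← Finset.sum_sub_distrib]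
    refine Finset.sum_congr rfl fun i _ => Finset.sum_congr rfl fun j _ => ?_
    ring
  rw [e]
  linarith

lemma change_weight {a : X → ℝ} {ψ : X → X → ℝ} (h : LorW Z a ψ)
    (hs : ∀ p ∈ Z, ∀ q ∈ Z, ψ p q = ψ q p) {z : X} (hz : z ∈ Z) (ha : a z ≠ 0)
    (hzz : 0 ≤ ψ z z) : LorW Z (ψ z) ψ := by
  intro n x c hx hc
  have := h (n + 1) (Fin.cons z x) (Fin.cons (-(∑ i, c i * a (x i)) / a z) c) (cons_mem hz hx)
    (by
      simp only [Fin.sum_univ_succ, Fin.cons_zero, Fin.cons_succ]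
      field_simp
      ring)
  rw [sum_cons, hc] at this
  have e : ∑ i, c i * ψ (x i) z = 0 := by
    rw [← hc]
    exact Finset.sum_congr rfl fun i _ => by rw [hs _ (hx i) _ hz]
  rw [e] at this
  have := mul_nonneg (mul_self_nonneg (-(∑ i, c i * a (x i)) / a z)) hzz
  linarith

lemma psd_inv_one_add {d : X → X → ℝ} (h : CND Z d) (hs : ∀ p ∈ Z, ∀ q ∈ Z, d p q = d q p)
    (h0 : ∀ p ∈ Z, ∀ q ∈ Z, 0 ≤ d p q) {z : X} (hz : z ∈ Z) {ε : ℝ} (hε : 0 ≤ ε) :
    PSD Z fun p q => (1 + ε * d p q)⁻¹ := by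
  have hexp : ∀ s : ℝ, 0 ≤ s → PSD Z fun p q => Real.exp (-(1 + ε * d p q) * s) := by
    intro s hs0
    have h1 := ((psd_of_CND h hs hz).const_mul (mul_nonneg hs0 hε)).exp
    refine (h1.mul (PSD.rank_one fun p =>
      Real.exp (-(s / 2) - s * ε * (d p z - d z z / 2)))).congr fun p hp q hq => ?_
    rw [← Real.exp_add, ← Real.exp_add, hs q hq z hz]
    congr 1
    ring
  have hneg : ∀ p ∈ Z, ∀ q ∈ Z, -(1 + ε * d p q) < 0 := fun p hp q hq => by
    have := mul_nonneg hε (h0 p hp q hq)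
    linarith
  refine ⟨fun p hp q hq => by rw [hs p hp q hq], fun n x c hx => ?_⟩
  have e : ∀ i j, c i * c j * (1 + ε * d (x i) (x j))⁻¹ =
      ∫ s in Ioi (0 : ℝ), c i * c j * Real.exp (-(1 + ε * d (x i) (x j)) * s) := by
    intro i j
    rw [integral_const_mul, integral_exp_mul_Ioi (hneg _ (hx i) _ (hx j))]
    rw [mul_zero, Real.exp_zero, neg_div_neg_eq, one_div]
  have hi : ∀ i j, IntegrableOn
      (fun s => c i * c j * Real.exp (-(1 + ε * d (x i) (x j)) * s)) (Ioi (0 : ℝ)) :=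
    fun i j => (integrableOn_exp_mul_Ioi (hneg _ (hx i) _ (hx j)) 0).const_mul _
  simp_rw [e]
  rw [Finset.sum_congr rfl fun i _ => (integral_finsetSum _ fun j _ => hi i j).symm,
    ← integral_finsetSum _ fun i _ => integrable_finsetSum _ fun j _ => hi i j]
  exact setIntegral_nonneg measurableSet_Ioi fun s hs0 => (hexp s (le_of_lt hs0)).pos n x c hx

lemma cnd_div_one_add {d : X → X → ℝ} (h : CND Z d) (hs : ∀ p ∈ Z, ∀ q ∈ Z, d p q = d q p)
    (h0 : ∀ p ∈ Z, ∀ q ∈ Z, 0 ≤ d p q) {z : X} (hz : z ∈ Z) {ε : ℝ} (hε : 0 ≤ ε) :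
    CND Z fun p q => d p q / (1 + ε * d p q) := by
  rcases hε.eq_or_lt with rfl | hε'
  · simpa using h
  intro n x c hx hc
  have h1 := (psd_inv_one_add h hs h0 hz hε).pos n x c hx
  have e : ∑ i, ∑ j, c i * c j * (d (x i) (x j) / (1 + ε * d (x i) (x j))) =
      ε⁻¹ * ((∑ i, c i) * (∑ j, c j) - ∑ i, ∑ j, c i * c j * (1 + ε * d (x i) (x j))⁻¹) := by
    rw [Finset.sum_mul_sum]
    simp only [← Finset.sum_sub_distrib, Finset.mul_sum]
    refine Finset.sum_congr rfl fun i _ => Finset.sum_congr rfl fun j _ => ?_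
    have : 1 + ε * d (x i) (x j) ≠ 0 := by
      have := mul_nonneg hε (h0 _ (hx i) _ (hx j))
      linarith
    have h2 : d (x i) (x j) / (1 + ε * d (x i) (x j)) =
        ε⁻¹ * (1 - (1 + ε * d (x i) (x j))⁻¹) := by
      rw [eq_inv_mul_iff_mul_eq₀ hε'.ne', eq_sub_iff_add_eq, ← mul_div_assoc, inv_eq_one_div,
        ← add_div, add_comm, div_self this]
    rw [h2]
    ring
  rw [e, hc]
  exact mul_nonpos_of_nonneg_of_nonpos (inv_nonneg.2 hε) (by linarith)

lemma cnd_of_lorW {G : X → X → ℝ} {a : X → ℝ}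
    (hpos : ∀ p ∈ Z, ∀ q ∈ Z, 0 < G p q) (hsymm : ∀ p ∈ Z, ∀ q ∈ Z, G p q = G q p)
    (ha : ∀ p ∈ Z, a p ≠ 0) (hG : LorW Z a fun p q => 1 / G p q) {z : X} (hz : z ∈ Z) :
    CND Z fun p q => G z p * G z q / G p q := by
  have h1 := change_weight hG (fun p hp q hq => by rw [hsymm p hp q hq]) hz (ha z hz)
    (one_div_pos.2 (hpos z hz z hz)).le
  intro n x c hx hc
  have := h1 n x (fun i => c i * G z (x i)) hx (by
    rw [← hc]
    refine Finset.sum_congr rfl fun i _ => ?_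
    have := (hpos z hz _ (hx i)).ne'
    field_simp)
  refine le_of_eq_of_le ?_ this
  refine Finset.sum_congr rfl fun i _ => Finset.sum_congr rfl fun j _ => ?_
  ring

lemma lorW_rank_one {G : X → X → ℝ} {a : X → ℝ}
    (hpos : ∀ p ∈ Z, ∀ q ∈ Z, 0 < G p q) (hsymm : ∀ p ∈ Z, ∀ q ∈ Z, G p q = G q p)
    (ha : ∀ p ∈ Z, a p ≠ 0) (hG : LorW Z a fun p q => 1 / G p q) {z : X} (hz : z ∈ Z)
    {ε : ℝ} (hε : 0 ≤ ε) :
    LorW Z (fun p => 1 / G z p) fun p q => 1 / (G p q + ε * (G z p * G z q)) := by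
  have h1 := cnd_div_one_add (cnd_of_lorW hpos hsymm ha hG hz)
    (fun p hp q hq => by rw [hsymm p hp q hq, mul_comm])
    (fun p hp q hq => (div_pos (mul_pos (hpos z hz p hp) (hpos z hz q hq)) (hpos p hp q hq)).le)
    hz hε
  intro n x c hx hc
  have := h1 n x (fun i => c i * (1 / G z (x i))) hx hc
  refine le_of_eq_of_le ?_ this
  refine Finset.sum_congr rfl fun i _ => Finset.sum_congr rfl fun j _ => ?_
  have a1 := hpos z hz _ (hx i)
  have a2 := hpos z hz _ (hx j)
  have a3 := hpos _ (hx i) _ (hx j)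
  field_simp

theorem resolvent (F : Finset X) {w : X → ℝ} {S : X → X → ℝ}
    (hS : ∀ p ∈ Z, ∀ q ∈ Z, 0 ≤ S p q) {z : X} (hz : z ∈ Z) :
    ∀ {G : X → X → ℝ} {a : X → ℝ}, (∀ x ∈ F, x ∈ Z) → (∀ x ∈ F, 0 ≤ w x) →
    (∀ p ∈ Z, ∀ q ∈ Z, 0 < G p q) → (∀ p ∈ Z, ∀ q ∈ Z, G p q = G q p) →
    (∀ p ∈ Z, a p ≠ 0) → (LorW Z a fun p q => 1 / G p q) →
    (∀ p ∈ Z, ∀ q ∈ Z, S p q = G p q + ∑ x ∈ F, w x * (G p x * S x q)) →
    CND Z fun p q => S z p * S z q / S p q := by
  classical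
  induction F using Finset.induction_on with
  | empty =>
    intro G a _ _ hpos hsymm ha hG heq n x c hx hc
    simp only [Finset.sum_empty, add_zero] at heq
    simp_rw [fun i => heq z hz (x i) (hx i), fun i j => heq (x i) (hx i) (x j) (hx j)]
    exact cnd_of_lorW hpos hsymm ha hG hz n x c hx hc
  | insert y F hy ih =>
    intro G a hF hw hpos hsymm ha hG heq
    have hyZ := hF y (Finset.mem_insert_self _ _)
    have hwy := hw y (Finset.mem_insert_self _ _)
    have hF' : ∀ x ∈ F, x ∈ Z := fun x hx => hF x (Finset.mem_insert_of_mem hx)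
    have hw' : ∀ x ∈ F, 0 ≤ w x := fun x hx => hw x (Finset.mem_insert_of_mem hx)
    simp only [Finset.sum_insert hy] at heq
    have h1 : 0 < 1 - w y * G y y := by
      have a1 := heq y hyZ y hyZ
      have a2 : 0 ≤ ∑ x ∈ F, w x * (G y x * S x y) := Finset.sum_nonneg fun x hx =>
        mul_nonneg (hw' x hx) (mul_nonneg (hpos _ hyZ _ (hF' x hx)).le (hS _ (hF' x hx) _ hyZ))
      have a3 := hpos y hyZ y hyZ
      have a4 : 0 < S y y * (1 - w y * G y y) := by linarith
      exact (pos_iff_pos_of_mul_pos a4).1 (lt_of_le_of_ne (hS y hyZ y hyZ) fun h => by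
        rw [← h] at a4; simp at a4)
    have hε : 0 ≤ w y / (1 - w y * G y y) := div_nonneg hwy h1.le
    refine ih (G := fun p q => G p q + w y / (1 - w y * G y y) * (G y p * G y q))
      (a := fun p => 1 / G y p) hF' hw' (fun p hp q hq => ?_) (fun p hp q hq => ?_)
      (fun p hp => (one_div_pos.2 (hpos y hyZ p hp)).ne')
      (lorW_rank_one hpos hsymm ha hG hyZ hε) fun p hp q hq => ?_
    · exact add_pos_of_pos_of_nonneg (hpos p hp q hq)
        (mul_nonneg hε (mul_pos (hpos y hyZ p hp) (hpos y hyZ q hq)).le)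
    · rw [hsymm p hp q hq, mul_comm (G y p)]
    · have a1 := heq y hyZ q hq
      have a2 := heq p hp q hq
      have a3 : ∑ x ∈ F, w x * ((G p x + w y / (1 - w y * G y y) * (G y p * G y x)) * S x q) =
          ∑ x ∈ F, w x * (G p x * S x q) +
            w y / (1 - w y * G y y) * G y p * ∑ x ∈ F, w x * (G y x * S x q) := by
        rw [Finset.mul_sum, ← Finset.sum_add_distrib]
        exact Finset.sum_congr rfl fun x _ => by ring
      have a4 : S y q = (G y q + ∑ x ∈ F, w x * (G y x * S x q)) / (1 - w y * G y y) := by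
        rw [eq_div_iff h1.ne']; linarith
      rw [a3, a2, a4, hsymm p hp y hyZ]
      ring

/-- the bilinear form of a kernel -/
noncomputable def form (k : ℂ → ℂ → ℝ) : (ℂ →₀ ℝ) →ₗ[ℝ] (ℂ →₀ ℝ) →ₗ[ℝ] ℝ :=
  Finsupp.linearCombination ℝ fun p => Finsupp.linearCombination ℝ fun q => k p q

lemma form_single (k : ℂ → ℂ → ℝ) (p q : ℂ) :
    form k (Finsupp.single p 1) (Finsupp.single q 1) = k p q := by
  simp [form]

lemma form_apply (k : ℂ → ℂ → ℝ) (f g : ℂ →₀ ℝ) :
    form k f g = ∑ p ∈ f.support, ∑ q ∈ g.support, f p * g q * k p q := by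
  simp only [form, Finsupp.linearCombination_apply, Finsupp.sum, LinearMap.sum_apply,
    LinearMap.smul_apply, smul_eq_mul, Finset.mul_sum, mul_assoc]

/-- the pre-inner product of a positive semidefinite kernel -/
@[reducible] noncomputable def core {k : ℂ → ℂ → ℝ} (h : PSD univ k) :
    PreInnerProductSpace.Core ℝ (ℂ →₀ ℝ) where
  inner f g := form k f g
  conj_inner_symm f g := by
    show form k g f = form k f g
    rw [form_apply, form_apply, Finset.sum_comm]
    refine Finset.sum_congr rfl fun p _ => Finset.sum_congr rfl fun q _ => ?_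
    rw [h.symm q trivial p trivial]; ring
  re_inner_nonneg f := by
    show 0 ≤ form k f f
    rw [form_apply]
    have := h.pos _ (fun i => ((Finsupp.support f).equivFin.symm i : ℂ))
      (fun i => (f : ℂ →₀ ℝ) ((Finsupp.support f).equivFin.symm i : ℂ)) (fun _ => trivial)
    refine this.trans_eq ?_
    rw [← Finset.sum_coe_sort f.support, ← (Finsupp.support f).equivFin.symm.sum_comp]
    refine Finset.sum_congr rfl fun i _ => ?_
    rw [← Finset.sum_coe_sort f.support, ← (Finsupp.support f).equivFin.symm.sum_comp]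
  add_left f g u := by
    show form k ((f : ℂ →₀ ℝ) + g) u = form k f u + form k g u
    rw [map_add, LinearMap.add_apply]
  smul_left f g r := by
    show form k (r • (f : ℂ →₀ ℝ)) g = r * form k f g
    rw [map_smul, LinearMap.smul_apply, smul_eq_mul]

lemma exists_gram {k : ℂ → ℂ → ℝ} (h : PSD univ k) :
    ∃ (H : Type) (_ : NormedAddCommGroup H) (_ : InnerProductSpace ℝ H) (β : ℂ → H),
      ∀ p q, inner ℝ (β p) (β q) = k p q := by
  let := core h
  let : SeminormedAddCommGroup (ℂ →₀ ℝ) := InnerProductSpace.Core.toSeminormedAddCommGroup (𝕜 := ℝ)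
  let : InnerProductSpace ℝ (ℂ →₀ ℝ) := InnerProductSpace.ofCore _
  refine ⟨SeparationQuotient (ℂ →₀ ℝ), inferInstance, inferInstance,
    fun p => SeparationQuotient.mk (Finsupp.single p 1 : ℂ →₀ ℝ), fun p q => ?_⟩
  exact form_single k p q

theorem embedding {Z : Set ℂ} {d : ℂ → ℂ → ℝ} (h : CND Z d)
    (hsymm : ∀ p ∈ Z, ∀ q ∈ Z, d p q = d q p) (hdiag : ∀ p ∈ Z, d p p = 0) :
    ∃ (H : Type) (_ : NormedAddCommGroup H) (_ : InnerProductSpace ℝ H) (β : ℂ → H),
      ∀ p ∈ Z, ∀ q ∈ Z, ‖β p - β q‖ ^ 2 = d p q := by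
  classical
  rcases Z.eq_empty_or_nonempty with rfl | ⟨z, hz⟩
  · exact ⟨ℝ, inferInstance, inferInstance, fun _ => 0, fun p hp => hp.elim⟩
  have h1 := (psd_of_CND h hsymm hz).const_mul (a := 1 / 2) (by norm_num)
  let r : ℂ → ℂ := fun p => if p ∈ Z then p else z
  have hr : ∀ p, r p ∈ Z := fun p => by
    by_cases hp : p ∈ Z <;> simp [r, hp, hz]
  have h2 : PSD univ fun p q => 1 / 2 * (d (r p) z + d z (r q) - d (r p) (r q) - d z z) :=
    ⟨fun p _ q _ => h1.symm _ (hr p) _ (hr q), fun n x c _ =>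
      h1.pos n (fun i => r (x i)) c fun i => hr _⟩
  obtain ⟨H, i1, i2, β, hβ⟩ := exists_gram h2
  refine ⟨H, i1, i2, β, fun p hp q hq => ?_⟩
  rw [norm_sub_sq_real, ← real_inner_self_eq_norm_sq, ← real_inner_self_eq_norm_sq, hβ, hβ, hβ]
  simp only [r, if_pos hp, if_pos hq, hdiag p hp, hdiag q hq, hdiag z hz, hsymm z hz p hp,
    hsymm z hz q hq]
  ring

/-- coefficients of `artanh z / z` in `z ^ 2` -/
noncomputable def ca (n : ℕ) : ℝ := 1 / (2 * n + 1)

/-- coefficients of the reciprocal series -/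
noncomputable def cb (n : ℕ) : ℝ := PowerSeries.coeff n (PowerSeries.mk ca)⁻¹

lemma ca_pos (n : ℕ) : 0 < ca n := by unfold ca; positivity

lemma ca_zero : ca 0 = 1 := by simp [ca]

lemma ca_le_one (n : ℕ) : ca n ≤ 1 := by
  unfold ca
  rw [div_le_one (by positivity)]
  have : (0 : ℝ) ≤ n := n.cast_nonneg
  linarith

lemma conv (n : ℕ) : ∑ p ∈ Finset.HasAntidiagonal.antidiagonal n, cb p.1 * ca p.2 = if n = 0 then 1 else 0 := by
  have h := PowerSeries.inv_mul_cancel (PowerSeries.mk ca) (by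
    rw [← PowerSeries.coeff_zero_eq_constantCoeff_apply, PowerSeries.coeff_mk, ca_zero]
    exact one_ne_zero)
  have := congrArg (PowerSeries.coeff n) h
  rw [PowerSeries.coeff_mul, PowerSeries.coeff_one] at this
  simpa only [PowerSeries.coeff_mk, cb] using this

lemma conv' (n : ℕ) : ∑ i ∈ Finset.range (n + 1), cb i * ca (n - i) = if n = 0 then 1 else 0 := by
  rw [← conv n, Finset.Nat.sum_antidiagonal_eq_sum_range_succ (fun i j => cb i * ca j)]

lemma cb_zero : cb 0 = 1 := by simpa [ca_zero] using conv' 0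

lemma cb_nonpos (n : ℕ) : cb (n + 1) ≤ 0 := by
  induction n using Nat.strong_induction_on with
  | _ n ih =>
  have h1 := conv' (n + 1)
  rw [Finset.sum_range_succ, Nat.sub_self, ca_zero, mul_one, if_neg (Nat.succ_ne_zero n)] at h1
  rcases Nat.eq_zero_or_pos n with rfl | hn
  · simp only [zero_add, Finset.range_one, Finset.sum_singleton, cb_zero] at h1
    have := ca_pos (1 - 0)
    linarith
  have h2 := conv' n
  rw [if_neg hn.ne'] at h2
  have h3 : cb (n + 1) = ∑ i ∈ Finset.range (n + 1),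
      cb i * (ca (n + 1) / ca n * ca (n - i) - ca (n + 1 - i)) := by
    simp only [mul_sub, Finset.sum_sub_distrib]
    have : ∑ i ∈ Finset.range (n + 1), cb i * (ca (n + 1) / ca n * ca (n - i)) =
        ca (n + 1) / ca n * ∑ i ∈ Finset.range (n + 1), cb i * ca (n - i) := by
      rw [Finset.mul_sum]
      exact Finset.sum_congr rfl fun i _ => by ring
    rw [this, h2]
    linarith
  rw [h3]
  refine Finset.sum_nonpos fun i hi => ?_
  rcases i with _ | i
  · have := (ca_pos n).ne'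
    simp only [Nat.sub_zero]
    rw [div_mul_cancel₀ _ this, sub_self, mul_zero]
  · have hi' : i < n := by have := Finset.mem_range.1 hi; omega
    refine mul_nonpos_of_nonpos_of_nonneg (ih i hi') ?_
    obtain ⟨m, rfl⟩ : ∃ m, n = i + 1 + m := ⟨n - (i + 1), by omega⟩
    rw [show i + 1 + m - (i + 1) = m by omega, show i + 1 + m + 1 - (i + 1) = m + 1 by omega]
    unfold ca
    push_cast
    have : (0 : ℝ) ≤ i := i.cast_nonneg
    have : (0 : ℝ) ≤ m := m.cast_nonneg
    rw [sub_nonneg, div_div_eq_mul_div, div_mul_div_comm, div_le_div_iff₀ (by positivity)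
      (by positivity)]
    field_simp
    nlinarith

lemma abs_cb_le (n : ℕ) : |cb n| ≤ 1 := by
  rcases n with _ | n
  · simp [cb_zero]
  have h1 := conv' (n + 1)
  rw [Finset.sum_range_succ, Nat.sub_self, ca_zero, mul_one, if_neg (Nat.succ_ne_zero n),
    Finset.sum_range_succ', cb_zero, one_mul] at h1
  have h2 : ∑ i ∈ Finset.range n, cb (i + 1) * ca (n + 1 - (i + 1)) ≤ 0 :=
    Finset.sum_nonpos fun i _ => mul_nonpos_of_nonpos_of_nonneg (cb_nonpos i) (ca_pos _).le
  have h3 := ca_le_one (n + 1 - 0)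
  rw [abs_of_nonpos (cb_nonpos n)]
  linarith

lemma summable_norm_aux {c : ℕ → ℝ} (hc : ∀ n, |c n| ≤ 1) {w : ℝ} (h0 : 0 ≤ w) (h1 : w < 1) :
    Summable fun n => ‖c n * w ^ n‖ := by
  refine Summable.of_nonneg_of_le (fun _ => norm_nonneg _) (fun n => ?_)
    (summable_geometric_of_lt_one h0 h1)
  rw [norm_mul, Real.norm_eq_abs, Real.norm_eq_abs, abs_of_nonneg (pow_nonneg h0 n)]
  exact mul_le_of_le_one_left (pow_nonneg h0 n) (hc n)

lemma hasSum_cb {z : ℝ} (h0 : 0 < z) (h1 : z < 1) :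
    HasSum (fun n => cb n * (z ^ 2) ^ n) (2 * z / (Real.log (1 + z) - Real.log (1 - z))) := by
  have hw0 : 0 ≤ z ^ 2 := sq_nonneg z
  have hw1 : z ^ 2 < 1 := by nlinarith
  have s1 := summable_norm_aux abs_cb_le hw0 hw1
  have s2 := summable_norm_aux (c := ca)
    (fun n => by rw [abs_of_pos (ca_pos n)]; exact ca_le_one n) hw0 hw1
  have h2 := tsum_mul_tsum_eq_tsum_sum_antidiagonal_of_summable_norm s1 s2
  have h3 : ∀ n, ∑ p ∈ Finset.HasAntidiagonal.antidiagonal n, cb p.1 * (z ^ 2) ^ p.1 * (ca p.2 * (z ^ 2) ^ p.2) =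
      if n = 0 then 1 else 0 := by
    intro n
    have : ∑ p ∈ Finset.HasAntidiagonal.antidiagonal n, cb p.1 * (z ^ 2) ^ p.1 * (ca p.2 * (z ^ 2) ^ p.2) =
        (∑ p ∈ Finset.HasAntidiagonal.antidiagonal n, cb p.1 * ca p.2) * (z ^ 2) ^ n := by
      rw [Finset.sum_mul]
      refine Finset.sum_congr rfl fun p hp => ?_
      rw [← Finset.HasAntidiagonal.mem_antidiagonal.1 hp, pow_add]; ring
    rw [this, conv]
    split_ifs with h
    · simp [h]
    · simp
  simp_rw [h3] at h2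
  rw [tsum_ite_eq] at h2
  have h4 := Real.hasSum_log_sub_log_of_abs_lt_one (x := z) (by rwa [abs_of_pos h0])
  have h5 : HasSum (fun n => ca n * (z ^ 2) ^ n)
      ((Real.log (1 + z) - Real.log (1 - z)) / (2 * z)) := by
    refine (h4.div_const (2 * z)).congr_fun ?_
    intro n
    unfold ca
    field_simp
    ring
  rw [h5.tsum_eq] at h2
  have h6 : ∑' n, cb n * (z ^ 2) ^ n = 2 * z / (Real.log (1 + z) - Real.log (1 - z)) := by
    rw [eq_inv_of_mul_eq_one_left h2, inv_div]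
  rw [← h6]
  exact s1.of_norm.hasSum

/-- the logarithmic mean of `s` and `s + b` -/
noncomputable def LM (s b : ℝ) : ℝ := if b = 0 then s else b / Real.log (1 + b / s)

lemma LM_bounds {s b : ℝ} (hs : 0 ≤ s) (hb : 0 ≤ b) : s ≤ LM s b ∧ LM s b ≤ s + b := by
  unfold LM
  split_ifs with h
  · simp [h]
  have hb' : 0 < b := lt_of_le_of_ne hb (Ne.symm h)
  rcases hs.eq_or_lt with rfl | hs'
  · simp [hb]
  have hu : 0 < b / s := div_pos hb' hs'
  have hl : 0 < Real.log (1 + b / s) := Real.log_pos (by linarith)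
  constructor
  · rw [le_div_iff₀ hl]
    have := Real.log_le_sub_one_of_pos (show 0 < 1 + b / s by linarith)
    calc s * Real.log (1 + b / s) ≤ s * (b / s) := by gcongr; linarith
      _ = b := by field_simp
  · rw [div_le_iff₀ hl]
    have := Real.one_sub_inv_le_log_of_pos (show 0 < 1 + b / s by linarith)
    calc b = (s + b) * (1 - (1 + b / s)⁻¹) := by field_simp; ring
      _ ≤ (s + b) * Real.log (1 + b / s) := by gcongr

lemma LM_mul {c : ℝ} (hc : c ≠ 0) (s b : ℝ) : LM (c * s) (c * b) = c * LM s b := by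
  unfold LM
  by_cases h : b = 0
  · simp [h]
  · rw [if_neg (mul_ne_zero hc h), if_neg h, mul_div_mul_left _ _ hc, mul_div_assoc]

lemma cont_aux : ContinuousWithinAt (fun u : ℝ => (Real.log (1 + u⁻¹))⁻¹) (Ici 0) 0 := by
  rw [← continuousWithinAt_Ioi_iff_Ici, ContinuousWithinAt]
  simp only [inv_zero, add_zero, Real.log_one]
  exact (Real.tendsto_log_atTop.comp
    (tendsto_atTop_add_const_left _ 1 tendsto_inv_nhdsGT_zero)).inv_tendsto_atTop

lemma continuousOn_LM :
    ContinuousOn (fun p : ℝ × ℝ => LM p.1 p.2) (Ici (0 : ℝ) ×ˢ Ici (0 : ℝ)) := by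
  rintro ⟨s, b⟩ ⟨hs, hb⟩
  simp only [mem_Ici] at hs hb
  rcases hb.eq_or_lt with rfl | hb'
  · have e : LM s 0 = s := if_pos rfl
    rw [ContinuousWithinAt, e]
    have t1 : Tendsto (fun p : ℝ × ℝ => p.1) (𝓝[Ici (0 : ℝ) ×ˢ Ici (0 : ℝ)] (s, 0)) (𝓝 s) :=
      continuous_fst.continuousWithinAt
    have t2 : Tendsto (fun p : ℝ × ℝ => p.1 + p.2) (𝓝[Ici (0 : ℝ) ×ˢ Ici (0 : ℝ)] (s, 0))
        (𝓝 (s + 0)) := (continuous_fst.add continuous_snd).continuousWithinAt
    rw [add_zero] at t2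
    exact tendsto_of_tendsto_of_tendsto_of_le_of_le' t1 t2
      (eventually_nhdsWithin_of_forall fun p hp => (LM_bounds hp.1 hp.2).1)
      (eventually_nhdsWithin_of_forall fun p hp => (LM_bounds hp.1 hp.2).2)
  have hev : ∀ᶠ p : ℝ × ℝ in 𝓝 (s, b), 0 < p.2 :=
    continuous_snd.continuousAt.eventually (lt_mem_nhds hb')
  have key : ∀ p : ℝ × ℝ, 0 < p.2 → LM p.1 p.2 = p.2 * (Real.log (1 + (p.1 / p.2)⁻¹))⁻¹ := by
    intro p hp
    rw [LM, if_neg hp.ne', inv_div, div_eq_mul_inv]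
  refine ContinuousWithinAt.congr_of_eventuallyEq
    (f := fun p : ℝ × ℝ => p.2 * (Real.log (1 + (p.1 / p.2)⁻¹))⁻¹) ?_
    (mem_nhdsWithin_of_mem_nhds (hev.mono key)) (key _ hb')
  refine continuous_snd.continuousWithinAt.mul ?_
  have hq : ContinuousAt (fun p : ℝ × ℝ => p.1 / p.2) (s, b) :=
    continuous_fst.continuousAt.div continuous_snd.continuousAt hb'.ne'
  rcases hs.eq_or_lt with rfl | hs'
  · refine ContinuousWithinAt.comp_of_eq (g := fun u : ℝ => (Real.log (1 + u⁻¹))⁻¹)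
      cont_aux hq.continuousWithinAt (fun p hp => mem_Ici.2 (div_nonneg hp.1 hp.2)) (by simp)
  · have hu : 0 < (s / b)⁻¹ := inv_pos.2 (div_pos hs' hb')
    refine ContinuousAt.continuousWithinAt (ContinuousAt.inv₀ (ContinuousAt.log
      (continuousAt_const.add (hq.inv₀ (div_pos hs' hb').ne')) ?_) ?_)
    · exact (show 0 < 1 + (s / b)⁻¹ by linarith).ne'
    · exact (Real.log_pos (show 1 < 1 + (s / b)⁻¹ by linarith)).ne'

lemma hasSum_LM {A B : ℝ} (hB : 0 ≤ B) (hA : B < A) :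
    HasSum (fun n => -cb (n + 1) * (B ^ (2 * n + 2) * A⁻¹ ^ (2 * n + 1)))
      (A - LM (A - B) (2 * B)) := by
  rcases hB.eq_or_lt with rfl | hB'
  · simp [LM, hasSum_zero]
  have hA' : 0 < A := hB'.trans hA
  have h := (hasSum_cb (div_pos hB' hA') ((div_lt_one hA').2 hA)).mul_left A
  have e : A * (2 * (B / A) / (Real.log (1 + B / A) - Real.log (1 - B / A))) =
      LM (A - B) (2 * B) := by
    have h1 : 0 < 1 - B / A := sub_pos.2 ((div_lt_one hA').2 hA)
    have h2 : 0 < 1 + B / A := by positivity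
    have h3 : A - B ≠ 0 := (sub_pos.2 hA).ne'
    rw [LM, if_neg (by positivity), ← Real.log_div h2.ne' h1.ne',
      show (1 + B / A) / (1 - B / A) = 1 + 2 * B / (A - B) by field_simp; ring,
      ← mul_div_assoc]
    congr 1
    field_simp
  rw [e] at h
  have h' := ((hasSum_nat_add_iff' 1).2 h).neg
  simp only [Finset.range_one, Finset.sum_singleton, cb_zero, pow_zero, mul_one, neg_sub] at h'
  refine h'.congr_fun fun n => ?_
  rw [← pow_mul, div_pow, inv_pow]
  field_simp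
  ring

lemma psd_one_sub_LM {al be : X → X → ℝ} (h1 : PSD Z al) (h2 : PSD Z be)
    (ha : ∀ p ∈ Z, ∀ q ∈ Z, -1 ≤ al p q) (hb : ∀ p ∈ Z, ∀ q ∈ Z, 0 ≤ be p q)
    (hab : ∀ p ∈ Z, ∀ q ∈ Z, al p q + be p q ≤ 1) :
    PSD Z fun p q => 1 - LM (1 - al p q - be p q) (2 * be p q) := by
  refine PSD.limit (l := 𝓝[<] (1 : ℝ))
    (K := fun t p q => 1 - LM (1 - t * al p q - t * be p q) (2 * (t * be p q))) ?_ ?_
  · filter_upwards [Ioo_mem_nhdsLT (show (0 : ℝ) < 1 by norm_num)] with t ht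
    have g1 := h1.const_mul ht.1.le
    have g2 := h2.const_mul ht.1.le
    have g3 := g1.geom fun p hp q hq => by
      have := ha p hp q hq
      have := hb p hp q hq
      have := hab p hp q hq
      rw [abs_lt]
      constructor <;> nlinarith [ht.1, ht.2]
    have g4 := PSD.hasSum (k := fun p q => (1 - t * al p q) -
        LM (1 - t * al p q - t * be p q) (2 * (t * be p q)))
      (fun n => ((g2.pow (2 * n + 2)).mul (g3.pow (2 * n + 1))).const_mul
        (neg_nonneg.2 (cb_nonpos n)))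
      fun p hp q hq => hasSum_LM (mul_nonneg ht.1.le (hb p hp q hq)) (by
        have := hab p hp q hq
        nlinarith [ht.1, ht.2])
    exact (g1.add g4).congr fun _ _ _ _ => by ring
  · intro p hp q hq
    have a1 := hb p hp q hq
    have a2 := hab p hp q hq
    refine Tendsto.const_sub _ ?_
    have hc := continuousOn_LM (1 - al p q - be p q, 2 * be p q)
      ⟨show 0 ≤ 1 - al p q - be p q by linarith, show 0 ≤ 2 * be p q by linarith⟩
    have ht : Tendsto (fun t : ℝ => (1 - t * al p q - t * be p q, 2 * (t * be p q))) (𝓝[<] 1)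
        (𝓝[Ici (0 : ℝ) ×ˢ Ici (0 : ℝ)] (1 - al p q - be p q, 2 * be p q)) := by
      refine tendsto_nhdsWithin_iff.2 ⟨?_, ?_⟩
      · have : Continuous fun t : ℝ => (1 - t * al p q - t * be p q, 2 * (t * be p q)) := by
          fun_prop
        simpa using (this.tendsto 1).mono_left nhdsWithin_le_nhds
      · filter_upwards [Ioo_mem_nhdsLT (show (0 : ℝ) < 1 by norm_num)] with t ht
        exact ⟨show 0 ≤ 1 - t * al p q - t * be p q by nlinarith [ht.1, ht.2],
          show 0 ≤ 2 * (t * be p q) by nlinarith [ht.1]⟩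
    exact hc.tendsto.comp ht

end Vale.Agent.P071.Lor
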