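import Vale.Agent.P071.Kernel0
import Vale.Agent.P071.Lor0Aux

/-!
# Kernels with one positive square
-/

open Complex Metric Set Filter Topology MeasureTheory
open scoped ContDiff ComplexConjugate Real

namespace Vale.Agent.P071

lemma lor_Lm_eq (x y : ℂ) : Lm x y = Lor.LM (‖x - y‖ ^ 2) (dl x * dl y) := by
  unfold Lm K0 G0 Lor.LM
  have := Real.pi_pos.ne'
  by_cases h : x = y
  · subst h
    by_cases h' : dl x * dl x = 0 <;> simp [h']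
  · rw [if_neg h]
    split_ifs with h'
    · have : ‖x - y‖ ≠ 0 := by simpa [sub_eq_zero] using h
      field_simp
    · field_simp

lemma lor_dl_nonneg {x : ℂ} (hx : x ∈ Db) : 0 ≤ dl x := by
  have h : ‖x‖ ≤ 1 := by simpa using hx
  have := norm_nonneg x
  unfold dl
  nlinarith

lemma Lm_nonneg {x y : ℂ} (hx : x ∈ Db) (hy : y ∈ Db) : 0 ≤ Lm x y := by
  rw [lor_Lm_eq]
  exact (sq_nonneg _).trans
    (Lor.LM_bounds (sq_nonneg _) (mul_nonneg (lor_dl_nonneg hx) (lor_dl_nonneg hy))).1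

lemma Lm_symm (x y : ℂ) : Lm x y = Lm y x := by
  rw [lor_Lm_eq, lor_Lm_eq, norm_sub_rev, mul_comm]

theorem continuousOn_Lm : ContinuousOn (Function.uncurry Lm) (Db ×ˢ Db) := by
  have h : Continuous fun p : ℂ × ℂ => (‖p.1 - p.2‖ ^ 2, dl p.1 * dl p.2) := by
    unfold dl
    fun_prop
  refine (Lor.continuousOn_LM.comp h.continuousOn fun p hp =>
    ⟨mem_Ici.2 (sq_nonneg _), mem_Ici.2 (mul_nonneg (lor_dl_nonneg hp.1) (lor_dl_nonneg hp.2))⟩).congr fun p _ => ?_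
  exact lor_Lm_eq p.1 p.2

/-- The logarithmic mean kernel has one positive square. -/
theorem lorW_Lm : LorW Db (fun x => 1 + ‖x‖ ^ 2) Lm := by
  have ha : ∀ x : ℂ, 0 < 1 + ‖x‖ ^ 2 := fun x => by positivity
  have hn : ∀ x : ℂ, ‖x‖ ^ 2 = x.re ^ 2 + x.im ^ 2 := fun x => by
    rw [Complex.sq_norm, Complex.normSq_apply]; ring
  have key : ∀ x y : ℂ, 1 - (2 * x.re / (1 + ‖x‖ ^ 2) * (2 * y.re / (1 + ‖y‖ ^ 2)) +
      2 * x.im / (1 + ‖x‖ ^ 2) * (2 * y.im / (1 + ‖y‖ ^ 2))) -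
      dl x / (1 + ‖x‖ ^ 2) * (dl y / (1 + ‖y‖ ^ 2)) =
      2 / ((1 + ‖x‖ ^ 2) * (1 + ‖y‖ ^ 2)) * ‖x - y‖ ^ 2 := by
    intro x y
    have h1 := (ha x).ne'
    have h2 := (ha y).ne'
    unfold dl
    field_simp
    rw [hn (x - y), hn x, hn y, sub_re, sub_im]
    ring
  have hsq : ∀ x : ℂ, (2 * x.re / (1 + ‖x‖ ^ 2)) ^ 2 + (2 * x.im / (1 + ‖x‖ ^ 2)) ^ 2 ≤ 1 := by
    intro x
    rw [div_pow, div_pow, ← add_div, div_le_one (by positivity)]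
    have := hn x
    nlinarith [sq_nonneg (1 - ‖x‖ ^ 2)]
  have h := Lor.psd_one_sub_LM (Z := Db)
    ((Lor.PSD.rank_one fun x => 2 * x.re / (1 + ‖x‖ ^ 2)).add
      (Lor.PSD.rank_one fun x => 2 * x.im / (1 + ‖x‖ ^ 2)))
    (Lor.PSD.rank_one fun x => dl x / (1 + ‖x‖ ^ 2))
    (fun p _ q _ => by
      nlinarith [hsq p, hsq q, sq_nonneg (2 * p.re / (1 + ‖p‖ ^ 2) + 2 * q.re / (1 + ‖q‖ ^ 2)),
        sq_nonneg (2 * p.im / (1 + ‖p‖ ^ 2) + 2 * q.im / (1 + ‖q‖ ^ 2))])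
    (fun p hp q hq => mul_nonneg (div_nonneg (lor_dl_nonneg hp) (ha p).le)
      (div_nonneg (lor_dl_nonneg hq) (ha q).le))
    (fun p _ q _ => by
      have h1 := key p q
      have h2 : 0 ≤ 2 / ((1 + ‖p‖ ^ 2) * (1 + ‖q‖ ^ 2)) * ‖p - q‖ ^ 2 := by positivity
      linarith)
  have h' : Lor.PSD Db fun p q => 1 - 2 / ((1 + ‖p‖ ^ 2) * (1 + ‖q‖ ^ 2)) * Lm p q := by
    refine h.congr fun p _ q _ => ?_
    rw [key, lor_Lm_eq, ← Lor.LM_mul (by positivity)]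
    congr 2
    have h1 := (ha p).ne'
    have h2 := (ha q).ne'
    field_simp
  intro n x c hx hc
  have h1 := h'.pos n x (fun i => c i * (1 + ‖x i‖ ^ 2)) hx
  have e : ∑ i, ∑ j, c i * (1 + ‖x i‖ ^ 2) * (c j * (1 + ‖x j‖ ^ 2)) *
      (1 - 2 / ((1 + ‖x i‖ ^ 2) * (1 + ‖x j‖ ^ 2)) * Lm (x i) (x j)) =
      (∑ i, c i * (1 + ‖x i‖ ^ 2)) * (∑ j, c j * (1 + ‖x j‖ ^ 2)) -
        2 * ∑ i, ∑ j, c i * c j * Lm (x i) (x j) := by
    rw [Finset.sum_mul_sum]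
    simp only [← Finset.sum_sub_distrib, Finset.mul_sum]
    refine Finset.sum_congr rfl fun i _ => Finset.sum_congr rfl fun j _ => ?_
    have h1 := (ha (x i)).ne'
    have h2 := (ha (x j)).ne'
    field_simp
  rw [e, hc] at h1
  linarith

/-- One positive square for `1 / G` survives adding finitely many point potentials. -/
theorem resolvent_CND {X : Type*} {Z : Set X} (F : Finset X) {w : X → ℝ} {G S : X → X → ℝ}
    {a : X → ℝ} (hF : ∀ x ∈ F, x ∈ Z) (hw : ∀ x ∈ F, 0 ≤ w x)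
    (hpos : ∀ p ∈ Z, ∀ q ∈ Z, 0 < G p q) (hsymm : ∀ p ∈ Z, ∀ q ∈ Z, G p q = G q p)
    (ha : ∀ p ∈ Z, a p ≠ 0) (hG : LorW Z a fun p q => 1 / G p q)
    (hS : ∀ p ∈ Z, ∀ q ∈ Z, 0 ≤ S p q)
    (heq : ∀ p ∈ Z, ∀ q ∈ Z, S p q = G p q + ∑ x ∈ F, w x * (G p x * S x q))
    {z : X} (hz : z ∈ Z) : CND Z fun p q => S z p * S z q / S p q :=
  Lor.resolvent F hS hz hF hw hpos hsymm ha hG heq

/-- Schoenberg embedding. -/
theorem CND.exists_embedding {Z : Set ℂ} {d : ℂ → ℂ → ℝ} (h : CND Z d)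
    (hsymm : ∀ p ∈ Z, ∀ q ∈ Z, d p q = d q p) (hdiag : ∀ p ∈ Z, d p p = 0) :
    ∃ (H : Type) (_ : NormedAddCommGroup H) (_ : InnerProductSpace ℝ H) (β : ℂ → H),
      ∀ p ∈ Z, ∀ q ∈ Z, ‖β p - β q‖ ^ 2 = d p q :=
  Lor.embedding h hsymm hdiag

end Vale.Agent.P071
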