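import Vale.Agent.P071.Kernel
import Vale.Agent.P071.Lor0

/-!
# The kernel `dd` is of negative type
-/

open Complex Metric Set Filter Topology MeasureTheory
open scoped ContDiff ComplexConjugate Real

namespace Vale.Agent.P071

lemma lor_CND_of_tendsto {ι : Type*} {l : Filter ι} [l.NeBot] {Z : Set ℂ} {ψ : ι → ℂ → ℂ → ℝ}
    {d : ℂ → ℂ → ℝ} (h : ∀ᶠ i in l, CND Z (ψ i))
    (hl : ∀ p ∈ Z, ∀ q ∈ Z, Tendsto (fun i => ψ i p q) l (𝓝 (d p q))) : CND Z d := by
  intro n x c hx hc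
  refine le_of_tendsto (f := fun k => ∑ i, ∑ j, c i * c j * ψ k (x i) (x j)) (x := l) ?_
    (h.mono fun k hk => hk n x c hx hc)
  exact tendsto_finsetSum _ fun i _ => tendsto_finsetSum _ fun j _ =>
    (hl _ (hx i) _ (hx j)).const_mul _

/-- A measurable finite net in the closed disc. -/
lemma lor_net {δ : ℝ} (hδ : 0 < δ) : ∃ π' : SimpleFunc ℂ ℂ, (∀ x, π' x ∈ Db) ∧
    ∀ x ∈ Db, dist (π' x) x < δ := by
  have : Nonempty (Db : Set ℂ) := ⟨⟨0, mem_closedBall_self zero_le_one⟩⟩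
  let e : ℕ → ℂ := fun k => (TopologicalSpace.denseSeq (Db : Set ℂ) k : ℂ)
  obtain ⟨t, ht⟩ := (isCompact_closedBall (0 : ℂ) 1).elim_finite_subcover
    (fun k => ball (e k) δ) (fun _ => isOpen_ball) (by
      intro x hx
      obtain ⟨k, hk⟩ := (TopologicalSpace.denseRange_denseSeq (Db : Set ℂ)).exists_dist_lt
        ⟨x, hx⟩ hδ
      exact mem_iUnion.2 ⟨k, hk⟩)
  refine ⟨SimpleFunc.nearestPt e (t.sup id), fun x => Subtype.property _, fun x hx => ?_⟩
  obtain ⟨k, hk, hx'⟩ := mem_iUnion₂.1 (ht hx)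
  have := SimpleFunc.edist_nearestPt_le e x (Finset.le_sup (f := id) hk)
  rw [edist_dist, edist_dist, ENNReal.ofReal_le_ofReal_iff dist_nonneg] at this
  exact this.trans_lt (by rw [dist_comm]; exact hx')

lemma lor_meas {G : ℂ → ℂ → ℝ} {ν : ℂ → ℝ} (hG : Measurable (Function.uncurry G))
    (hν : Measurable ν) : ∀ n, Measurable (Function.uncurry (TK G ν n))
  | 0 => hG
  | n + 1 => by
    have ih := lor_meas hG hν n
    have hm : Measurable fun x => dl x ^ 2 * ν x := by unfold dl; fun_prop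
    have : Measurable fun r : (ℂ × ℂ) × ℂ => G r.1.1 r.2 * TK G ν n r.2 r.1.2 *
        (dl r.2 ^ 2 * ν r.2) :=
      ((hG.comp (measurable_fst.fst.prodMk measurable_snd)).mul
        (ih.comp (measurable_snd.prodMk measurable_fst.snd))).mul (hm.comp measurable_snd)
    exact (this.stronglyMeasurable.integral_prod_right' (ν := volume.restrict D)).measurable

variable {ν : ℂ → ℝ} {A θ : ℝ}

lemma lor_m_nonneg (hν : Pot ν A θ) (x : ℂ) : 0 ≤ dl x ^ 2 * ν x :=
  mul_nonneg (sq_nonneg _) (hν.nonneg x)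

lemma lor_m_le (hν : Pot ν A θ) {x : ℂ} (hx : x ∈ Db) : dl x ^ 2 * ν x ≤ A := by
  have h1 : dl x ^ 2 ≤ 1 := pow_le_one₀ (dl_nonneg hx) (dl_le_one x)
  nlinarith [hν.nonneg x, hν.le x]

lemma lor_m_meas (hν : Pot ν A θ) : Measurable fun x => dl x ^ 2 * ν x := by
  have := hν.meas
  unfold dl; fun_prop

lemma lor_ae : ∀ᵐ x ∂(volume.restrict (D : Set ℂ)), x ∈ Db := by
  filter_upwards [ae_restrict_mem measurableSet_ball] with x hx using ball_subset_closedBall hx

lemma lor_int (hν : Pot ν A θ) {f : ℂ → ℝ} (hf : Measurable f) {B : ℝ}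
    (hB : ∀ x ∈ Db, |f x| ≤ B) : IntegrableOn (fun x => f x * (dl x ^ 2 * ν x)) D := by
  refine Measure.integrableOn_of_bounded (M := B * A) measure_ball_lt_top.ne
    (hf.mul (lor_m_meas hν)).aestronglyMeasurable ?_
  filter_upwards [lor_ae] with x hx
  rw [Real.norm_eq_abs, abs_mul, abs_of_nonneg (lor_m_nonneg hν x)]
  exact mul_le_mul (hB x hx) (lor_m_le hν hx) (lor_m_nonneg hν x)
    ((abs_nonneg _).trans (hB x hx))

/-- Bounded nonnegative measurable kernels. -/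
structure LorK (G : ℂ → ℂ → ℝ) : Prop where
  meas : Measurable (Function.uncurry G)
  nonneg : ∀ p ∈ Db, ∀ q ∈ Db, 0 ≤ G p q
  bdd : ∃ B, ∀ p ∈ Db, ∀ q ∈ Db, G p q ≤ B

lemma LorK.int {G H : ℂ → ℂ → ℝ} (hG : LorK G) (hH : LorK H) (hν : Pot ν A θ) {p q : ℂ}
    (hp : p ∈ Db) (hq : q ∈ Db) :
    IntegrableOn (fun x => G p x * H x q * (dl x ^ 2 * ν x)) D := by
  obtain ⟨B, hB⟩ := hG.bdd
  obtain ⟨B', hB'⟩ := hH.bdd
  refine lor_int hν (f := fun x => G p x * H x q)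
    (hG.meas.of_uncurry_left.mul hH.meas.of_uncurry_right) (B := B * B') fun x hx => ?_
  rw [abs_of_nonneg (mul_nonneg (hG.nonneg p hp x hx) (hH.nonneg x hx q hq))]
  exact mul_le_mul (hB p hp x hx) (hB' x hx q hq) (hH.nonneg x hx q hq)
    ((hG.nonneg p hp x hx).trans (hB p hp x hx))

lemma LorK.TK {G : ℂ → ℂ → ℝ} (hG : LorK G) (hν : Pot ν A θ) : ∀ n, LorK (TK G ν n)
  | 0 => hG
  | n + 1 => by
    have ih := LorK.TK hG hν n
    obtain ⟨B, hB⟩ := hG.bdd
    obtain ⟨B', hB'⟩ := ih.bdd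
    refine ⟨lor_meas hG.meas hν.meas _, fun p hp q hq => ?_,
      ∫ x in D, B * B' * (dl x ^ 2 * ν x), fun p hp q hq => ?_⟩
    · refine integral_nonneg_of_ae ?_
      filter_upwards [lor_ae] with x hx
      exact mul_nonneg (mul_nonneg (hG.nonneg p hp x hx) (ih.nonneg x hx q hq))
        (lor_m_nonneg hν x)
    · refine integral_mono_ae (hG.int ih hν hp hq)
        (lor_int hν (f := fun _ => B * B') measurable_const fun _ _ => le_rfl) ?_
      filter_upwards [lor_ae] with x hx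
      refine mul_le_mul_of_nonneg_right ?_ (lor_m_nonneg hν x)
      exact mul_le_mul (hB p hp x hx) (hB' x hx q hq) (ih.nonneg x hx q hq)
        ((hG.nonneg p hp x hx).trans (hB p hp x hx))

/-- Iterated kernels for a finitely supported potential. -/
noncomputable def lorS (F : Finset ℂ) (w : ℂ → ℝ) (G : ℂ → ℂ → ℝ) : ℕ → ℂ → ℂ → ℝ
  | 0 => G
  | n + 1 => fun p q => ∑ y ∈ F, w y * (G p y * lorS F w G n y q)

/-- Discretisation of the potential. -/
lemma lor_disc (hν : Pot ν A θ) {G : ℂ → ℂ → ℝ} (hG : LorK G)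
    (hc : ContinuousOn (Function.uncurry G) (Db ×ˢ Db))
    (hpos : ∀ p ∈ Db, ∀ q ∈ Db, 0 < G p q) {r : ℝ} (hr0 : 0 < r) (hr1 : r < 1) :
    ∃ (F : Finset ℂ) (w : ℂ → ℝ), (∀ x ∈ F, x ∈ Db) ∧ (∀ x ∈ F, 0 ≤ w x) ∧
      ∀ n, ∀ p ∈ Db, ∀ q ∈ Db, r * lorS F w G n p q ≤ TK G ν n p q ∧
        r ^ (2 * n + 1) * TK G ν n p q ≤ lorS F w G n p q := by
  classical
  have hK : IsCompact ((Db : Set ℂ) ×ˢ (Db : Set ℂ)) :=
    (isCompact_closedBall _ _).prod (isCompact_closedBall _ _)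
  have h0 : (0 : ℂ) ∈ Db := mem_closedBall_self zero_le_one
  obtain ⟨z, hz, hmin⟩ := hK.exists_isMinOn ⟨(0, 0), h0, h0⟩ hc
  have hm : 0 < G z.1 z.2 := hpos _ hz.1 _ hz.2
  obtain ⟨δ, hδ, hu⟩ := Metric.uniformContinuousOn_iff.1 (hK.uniformContinuousOn_of_continuous hc)
    ((1 - r) * G z.1 z.2) (mul_pos (by linarith) hm)
  have hG' : ∀ p ∈ Db, ∀ p' ∈ Db, ∀ y ∈ Db, ∀ y' ∈ Db, dist p p' < δ → dist y y' < δ →
      r * G p y ≤ G p' y' := by
    intro p hp p' hp' y hy y' hy' h1 h2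
    have k1 := hu (p, y) ⟨hp, hy⟩ (p', y') ⟨hp', hy'⟩ (by rw [Prod.dist_eq]; exact max_lt h1 h2)
    have k2 : G z.1 z.2 ≤ G p y := hmin (show (p, y) ∈ Db ×ˢ Db from ⟨hp, hy⟩)
    rw [Real.dist_eq, abs_lt] at k1
    simp only [Function.uncurry_apply_pair] at k1
    nlinarith [k1.2]
  obtain ⟨π', hπ, hπ'⟩ := lor_net hδ
  let w : ℂ → ℝ := fun y => r * ∫ x in D, (if π' x = y then 1 else 0) * (dl x ^ 2 * ν x)
  have hi : ∀ y, IntegrableOn (fun x => (if π' x = y then (1 : ℝ) else 0) *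
      (dl x ^ 2 * ν x)) D := fun y =>
    lor_int hν (Measurable.ite (π'.measurableSet_fiber y) measurable_const measurable_const)
      (B := 1) fun x _ => by split_ifs <;> simp
  have hsum : ∀ f : ℂ → ℝ, ∑ y ∈ π'.range, w y * f y =
      r * ∫ x in D, f (π' x) * (dl x ^ 2 * ν x) := by
    intro f
    have : ∀ y, w y * f y = r * ∫ x in D, f y * ((if π' x = y then 1 else 0) *
        (dl x ^ 2 * ν x)) := fun y => by
      rw [integral_const_mul]; simp only [w]; ring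
    simp only [this]
    rw [← Finset.mul_sum, ← integral_finsetSum _ fun y _ => (hi y).const_mul _]
    congr 2 with x
    simp only [ite_mul, one_mul, zero_mul, mul_ite, mul_zero]
    rw [Finset.sum_ite_eq, if_pos (π'.mem_range_self x)]
  have hif : ∀ f : ℂ → ℝ, IntegrableOn (fun x => f (π' x) * (dl x ^ 2 * ν x)) D := fun f =>
    lor_int hν (π'.map f).measurable (B := ∑ y ∈ π'.range, |f y|) fun x _ =>
      Finset.single_le_sum (f := fun y => |f y|) (fun _ _ => abs_nonneg _) (π'.mem_range_self x)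
  have hF : ∀ x ∈ π'.range, x ∈ Db := fun x hx => by
    obtain ⟨y, rfl⟩ := SimpleFunc.mem_range.1 hx
    exact hπ y
  have key : ∀ n, ∀ p ∈ Db, ∀ p' ∈ Db, dist p p' < δ → ∀ q ∈ Db,
      r * lorS π'.range w G n p' q ≤ TK G ν n p q ∧
        r ^ (2 * n + 1) * TK G ν n p q ≤ lorS π'.range w G n p' q := by
    intro n
    induction n with
    | zero =>
      intro p hp p' hp' hd q hq
      refine ⟨hG' _ hp' _ hp _ hq _ hq (by rwa [dist_comm]) (by simpa), ?_⟩
      rw [mul_zero, zero_add, pow_one]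
      exact hG' _ hp _ hp' _ hq _ hq hd (by simpa)
    | succ n ih =>
      intro p hp p' hp' hd q hq
      have e : lorS π'.range w G (n + 1) p' q = r * ∫ x in D,
          G p' (π' x) * lorS π'.range w G n (π' x) q * (dl x ^ 2 * ν x) :=
        hsum fun y => G p' y * lorS π'.range w G n y q
      have i1 := hif fun y => G p' y * lorS π'.range w G n y q
      have i2 := hG.int (hG.TK hν n) hν hp hq
      rw [e, TK]
      constructor
      · rw [← mul_assoc, ← integral_const_mul]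
        refine integral_mono_ae (i1.const_mul _) i2 ?_
        filter_upwards [lor_ae] with x hx
        obtain ⟨k1, k2⟩ := ih x hx _ (hπ x) (by rw [dist_comm]; exact hπ' x hx) q hq
        have k3 := hG' _ hp' _ hp _ (hπ x) _ hx (by rwa [dist_comm]) (hπ' x hx)
        have k4 : 0 ≤ lorS π'.range w G n (π' x) q :=
          (mul_nonneg (pow_pos hr0 _).le ((hG.TK hν n).nonneg x hx q hq)).trans k2
        calc r * r * (G p' (π' x) * lorS π'.range w G n (π' x) q * (dl x ^ 2 * ν x))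
            = (r * G p' (π' x)) * (r * lorS π'.range w G n (π' x) q) * (dl x ^ 2 * ν x) := by ring
          _ ≤ _ := mul_le_mul_of_nonneg_right (mul_le_mul k3 k1 (mul_nonneg hr0.le k4)
              (hG.nonneg p hp x hx)) (lor_m_nonneg hν x)
      · rw [show r ^ (2 * (n + 1) + 1) = r * (r * r ^ (2 * n + 1)) by ring, mul_assoc]
        refine mul_le_mul_of_nonneg_left ?_ hr0.le
        rw [← integral_const_mul]
        refine integral_mono_ae (i2.const_mul _) i1 ?_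
        filter_upwards [lor_ae] with x hx
        obtain ⟨k1, k2⟩ := ih x hx _ (hπ x) (by rw [dist_comm]; exact hπ' x hx) q hq
        have k3 := hG' _ hp _ hp' _ hx _ (hπ x) hd (by rw [dist_comm]; exact hπ' x hx)
        calc r * r ^ (2 * n + 1) * (G p x * TK G ν n x q * (dl x ^ 2 * ν x))
            = (r * G p x) * (r ^ (2 * n + 1) * TK G ν n x q) * (dl x ^ 2 * ν x) := by ring
          _ ≤ _ := mul_le_mul_of_nonneg_right (mul_le_mul k3 k2
              (mul_nonneg (pow_pos hr0 _).le ((hG.TK hν n).nonneg x hx q hq))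
              (hG.nonneg _ hp' _ (hπ x))) (lor_m_nonneg hν x)
  refine ⟨π'.range, w, hF, fun y _ => mul_nonneg hr0.le (integral_nonneg fun x => ?_),
    fun n p hp q hq => key n p hp p hp (by simpa) q hq⟩
  exact mul_nonneg (by split_ifs <;> simp) (lor_m_nonneg hν x)

/-- The resolvent of a continuous kernel with one positive square. -/
lemma lor_cont (hν : Pot ν A θ) {G : ℂ → ℂ → ℝ} {a : ℂ → ℝ} (hG : LorK G)
    (hc : ContinuousOn (Function.uncurry G) (Db ×ˢ Db))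
    (hpos : ∀ p ∈ Db, ∀ q ∈ Db, 0 < G p q) (hsymm : ∀ p ∈ Db, ∀ q ∈ Db, G p q = G q p)
    (ha : ∀ p ∈ Db, a p ≠ 0) (hL : LorW Db a fun p q => 1 / G p q)
    (hs : ∀ p ∈ Db, ∀ q ∈ Db, Summable fun n => TK G ν n p q) :
    CND Db fun p q => (∑' n, TK G ν n 0 p) * (∑' n, TK G ν n 0 q) / ∑' n, TK G ν n p q := by
  have h0 : (0 : ℂ) ∈ Db := mem_closedBall_self zero_le_one
  have hT := fun n => (hG.TK hν n).nonneg
  have main : ∀ r : ℝ, r ∈ Ioo (0 : ℝ) 1 → ∃ S : ℂ → ℂ → ℝ,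
      (CND Db fun p q => S 0 p * S 0 q / S p q) ∧ ∀ p ∈ Db, ∀ q ∈ Db,
        ∑' n, r ^ (2 * n + 1) * TK G ν n p q ≤ S p q ∧ S p q ≤ r⁻¹ * ∑' n, TK G ν n p q := by
    intro r hr
    obtain ⟨F, w, hF, hw, hb⟩ := lor_disc hν hG hc hpos hr.1 hr.2
    have n1 : ∀ n, ∀ p ∈ Db, ∀ q ∈ Db, 0 ≤ lorS F w G n p q := fun n p hp q hq =>
      (mul_nonneg (pow_pos hr.1 _).le (hT n p hp q hq)).trans (hb n p hp q hq).2
    have n2 : ∀ n, ∀ p ∈ Db, ∀ q ∈ Db, lorS F w G n p q ≤ r⁻¹ * TK G ν n p q :=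
      fun n p hp q hq => (le_inv_mul_iff₀ hr.1).2 (hb n p hp q hq).1
    have s1 : ∀ p ∈ Db, ∀ q ∈ Db, Summable fun n => lorS F w G n p q := fun p hp q hq =>
      ((hs p hp q hq).mul_left r⁻¹).of_nonneg_of_le (fun n => n1 n p hp q hq)
        fun n => n2 n p hp q hq
    refine ⟨fun p q => ∑' n, lorS F w G n p q, ?_, fun p hp q hq => ⟨?_, ?_⟩⟩
    · refine resolvent_CND (S := fun p q => ∑' n, lorS F w G n p q) F hF hw hpos hsymm ha hL
        (fun p hp q hq => tsum_nonneg fun n => n1 n p hp q hq) (fun p hp q hq => ?_) h0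
      rw [(s1 p hp q hq).tsum_eq_zero_add]
      simp only [lorS]
      rw [Summable.tsum_finsetSum fun y hy => ((s1 y (hF y hy) q hq).mul_left _).mul_left _]
      simp only [tsum_mul_left]
    · refine Summable.tsum_le_tsum (fun n => (hb n p hp q hq).2) ?_ (s1 p hp q hq)
      exact (s1 p hp q hq).of_nonneg_of_le
        (fun n => mul_nonneg (pow_pos hr.1 _).le (hT n p hp q hq)) fun n => (hb n p hp q hq).2
    · rw [← tsum_mul_left]
      exact Summable.tsum_le_tsum (fun n => n2 n p hp q hq) (s1 p hp q hq)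
        ((hs p hp q hq).mul_left _)
  choose! S hS1 hS2 using main
  have hI : ∀ᶠ r in 𝓝[<] (1 : ℝ), r ∈ Ioo (0 : ℝ) 1 := Ioo_mem_nhdsLT one_pos
  have hid : Tendsto (fun r : ℝ => r) (𝓝[<] 1) (𝓝 1) := tendsto_nhdsWithin_of_tendsto_nhds tendsto_id
  have hlim : ∀ p ∈ Db, ∀ q ∈ Db,
      Tendsto (fun r => S r p q) (𝓝[<] 1) (𝓝 (∑' n, TK G ν n p q)) := by
    intro p hp q hq
    refine tendsto_of_tendsto_of_tendsto_of_le_of_le' ?_ ?_
      (hI.mono fun r hr => (hS2 r hr p hp q hq).1) (hI.mono fun r hr => (hS2 r hr p hp q hq).2)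
    · refine tendsto_tsum_of_dominated_convergence (hs p hp q hq) (fun n => ?_)
        (hI.mono fun r hr n => ?_)
      · simpa using (hid.pow (2 * n + 1)).mul_const (TK G ν n p q)
      · rw [Real.norm_eq_abs, abs_of_nonneg (mul_nonneg (pow_pos hr.1 _).le (hT n p hp q hq))]
        exact mul_le_of_le_one_left (hT n p hp q hq) (pow_le_one₀ hr.1.le hr.2.le)
    · simpa using (hid.inv₀ one_ne_zero).mul_const (∑' n, TK G ν n p q)
  refine lor_CND_of_tendsto (ψ := fun r p q => S r 0 p * S r 0 q / S r p q)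
    (hI.mono fun r hr => hS1 r hr) fun p hp q hq => ?_
  refine ((hlim 0 h0 p hp).mul (hlim 0 h0 q hq)).div (hlim p hp q hq) (ne_of_gt ?_)
  exact (hs p hp q hq).tsum_pos (fun n => hT n p hp q hq) 0 (hpos p hp q hq)

/-- The regularised kernel. -/
noncomputable def lorG (s : ℝ) (p q : ℂ) : ℝ :=
  1 / (4 * π * (Lm p q + s * ((1 + ‖p‖ ^ 2) * (1 + ‖q‖ ^ 2))))

lemma lor_den {s : ℝ} (hs : 0 < s) {p q : ℂ} (hp : p ∈ Db) (hq : q ∈ Db) :
    0 < 4 * π * (Lm p q + s * ((1 + ‖p‖ ^ 2) * (1 + ‖q‖ ^ 2))) := by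
  have := Lm_nonneg hp hq
  positivity

lemma lorG_pos {s : ℝ} (hs : 0 < s) {p q : ℂ} (hp : p ∈ Db) (hq : q ∈ Db) : 0 < lorG s p q :=
  one_div_pos.2 (lor_den hs hp hq)

lemma lorG_cont {s : ℝ} (hs : 0 < s) : ContinuousOn (Function.uncurry (lorG s)) (Db ×ˢ Db) := by
  refine continuousOn_const.div (continuousOn_const.mul (continuousOn_Lm.add ?_))
    fun z hz => (lor_den hs hz.1 hz.2).ne'
  fun_prop

lemma lorG_K {s : ℝ} (hs : 0 < s) : LorK (lorG s) := by
  refine ⟨?_, fun p hp q hq => (lorG_pos hs hp hq).le, ?_⟩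
  · have h1 : Measurable (Function.uncurry Lm) := by
      refine Measurable.ite (measurableSet_eq_fun measurable_fst measurable_snd) measurable_const ?_
      exact measurable_const.div (measurable_const.mul measurable_K0)
    refine measurable_const.div (measurable_const.mul (h1.add ?_))
    fun_prop
  · obtain ⟨B, hB⟩ := (((isCompact_closedBall (0 : ℂ) 1).prod
      (isCompact_closedBall (0 : ℂ) 1)).image_of_continuousOn (lorG_cont hs)).bddAbove
    exact ⟨B, fun p hp q hq => hB ⟨(p, q), ⟨hp, hq⟩, rfl⟩⟩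

lemma lor_K0_pos {p q : ℂ} (hp : p ∈ Db) (hq : q ∈ Db) (h : p ≠ q) : 0 < K0 p q :=
  lt_of_lt_of_le (by positivity) (K0_lower hp hq h)

lemma lor_K0_eq {p q : ℂ} (hp : p ∈ Db) (hq : q ∈ Db) (h : p ≠ q) :
    K0 p q = 1 / (4 * π * Lm p q) := by
  have := lor_K0_pos hp hq h
  rw [Lm, if_neg h]
  field_simp

lemma lor_Lm_pos {p q : ℂ} (hp : p ∈ Db) (hq : q ∈ Db) (h : p ≠ q) : 0 < Lm p q := by
  have := lor_K0_pos hp hq h
  rw [Lm, if_neg h]
  positivity

lemma lorG_le {s : ℝ} (hs : 0 < s) {p q : ℂ} (hp : p ∈ Db) (hq : q ∈ Db) (h : p ≠ q) :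
    lorG s p q ≤ K0 p q := by
  have := lor_Lm_pos hp hq h
  rw [lor_K0_eq hp hq h, lorG]
  gcongr
  exact le_add_of_nonneg_right (by positivity)

lemma lorG_tendsto {p q : ℂ} (hp : p ∈ Db) (hq : q ∈ Db) (h : p ≠ q) :
    Tendsto (fun s => lorG s p q) (𝓝[>] 0) (𝓝 (K0 p q)) := by
  have := lor_Lm_pos hp hq h
  have hc : ContinuousAt (fun s => lorG s p q) 0 := by
    unfold lorG
    refine continuousAt_const.div (by fun_prop) ?_
    rw [zero_mul, add_zero]
    positivity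
  have e : lorG 0 p q = K0 p q := by rw [lor_K0_eq hp hq h, lorG, zero_mul, add_zero]
  rw [← e]
  exact tendsto_nhdsWithin_of_tendsto_nhds hc.tendsto

lemma lorG_diag (p : ℂ) : Tendsto (fun s => lorG s p p) (𝓝[>] 0) atTop := by
  have e : ∀ s, lorG s p p = (4 * π * ((1 + ‖p‖ ^ 2) * (1 + ‖p‖ ^ 2)))⁻¹ * s⁻¹ := fun s => by
    rw [lorG, Lm, if_pos rfl, zero_add, one_div, ← mul_inv]
    congr 1; ring
  simp only [e]
  exact tendsto_inv_nhdsGT_zero.const_mul_atTop (by positivity)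

lemma lorG_lorW (s : ℝ) : LorW Db (fun x => 1 + ‖x‖ ^ 2) fun p q => 1 / lorG s p q := by
  intro n x c hx hc
  have h := lorW_Lm n x c hx hc
  have e : ∑ i, ∑ j, c i * c j * (1 / lorG s (x i) (x j)) =
      4 * π * (∑ i, ∑ j, c i * c j * Lm (x i) (x j) +
        s * ((∑ i, c i * (1 + ‖x i‖ ^ 2)) * ∑ j, c j * (1 + ‖x j‖ ^ 2))) := by
    rw [Finset.sum_mul_sum, Finset.mul_sum, ← Finset.sum_add_distrib, Finset.mul_sum]
    refine Finset.sum_congr rfl fun i _ => ?_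
    rw [Finset.mul_sum, ← Finset.sum_add_distrib, Finset.mul_sum]
    refine Finset.sum_congr rfl fun j _ => ?_
    rw [lorG, one_div_one_div]; ring
  simp only at hc
  rw [e, hc, mul_zero, mul_zero, add_zero]
  exact mul_nonpos_of_nonneg_of_nonpos (by positivity) h

lemma lor_ae_ne (p q : ℂ) : ∀ᵐ x ∂(volume.restrict (D : Set ℂ)), x ∈ Db ∧ p ≠ x ∧ x ≠ q := by
  filter_upwards [lor_ae, ae_restrict_of_ae (Measure.ae_ne volume p),
    ae_restrict_of_ae (Measure.ae_ne volume q)] with x h1 h2 h3 using ⟨h1, h2.symm, h3⟩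

lemma lor_le (hν : Pot ν A θ) {C : ℝ} (hK : KB ν C θ) {s : ℝ} (hs : 0 < s) :
    ∀ n, ∀ p ∈ Db, ∀ q ∈ Db, (2 ≤ n ∨ p ≠ q) → TK (lorG s) ν n p q ≤ TK K0 ν n p q
  | 0 => fun p hp q hq h => lorG_le hs hp hq (h.resolve_left (by norm_num))
  | n + 1 => fun p hp q hq h => by
    refine integral_mono_ae ((lorG_K hs).int ((lorG_K hs).TK hν n) hν hp hq)
      (hK.integrable n p hp q hq (h.imp_left fun h => by omega)) ?_
    filter_upwards [lor_ae_ne p q] with x hx
    refine mul_le_mul_of_nonneg_right (mul_le_mul (lorG_le hs hp hx.1 hx.2.1)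
      (lor_le hν hK hs n x hx.1 q hq (Or.inr hx.2.2)) (((lorG_K hs).TK hν n).nonneg x hx.1 q hq)
      (K0_nonneg hp hx.1)) (lor_m_nonneg hν x)

lemma lor_tendsto (hν : Pot ν A θ) {C : ℝ} (hK : KB ν C θ) :
    ∀ n, ∀ p ∈ Db, ∀ q ∈ Db, p ≠ q →
      Tendsto (fun s => TK (lorG s) ν n p q) (𝓝[>] 0) (𝓝 (TK K0 ν n p q))
  | 0 => fun p hp q hq h => lorG_tendsto hp hq h
  | n + 1 => fun p hp q hq h => by
    refine tendsto_integral_filter_of_dominated_convergence _ ?_ ?_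
      (hK.integrable n p hp q hq (Or.inr h)) ?_
    · filter_upwards [self_mem_nhdsWithin] with s hs
      exact ((lorG_K hs).int ((lorG_K hs).TK hν n) hν hp hq).aestronglyMeasurable
    · filter_upwards [self_mem_nhdsWithin] with s hs
      filter_upwards [lor_ae_ne p q] with x hx
      have k := ((lorG_K hs).TK hν n).nonneg x hx.1 q hq
      rw [Real.norm_eq_abs, abs_of_nonneg (mul_nonneg (mul_nonneg (lorG_pos hs hp hx.1).le k)
        (lor_m_nonneg hν x))]
      exact mul_le_mul_of_nonneg_right (mul_le_mul (lorG_le hs hp hx.1 hx.2.1)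
        (lor_le hν hK hs n x hx.1 q hq (Or.inr hx.2.2)) k (K0_nonneg hp hx.1)) (lor_m_nonneg hν x)
    · filter_upwards [lor_ae_ne p q] with x hx
      exact ((lorG_tendsto hp hx.1 hx.2.1).mul
        (lor_tendsto hν hK n x hx.1 q hq hx.2.2)).mul_const _

theorem lorentz {ν : ℂ → ℝ} {A θ : ℝ} (hν : Pot ν A θ) : CND (Db \ {0}) (dd ν) := by
  obtain ⟨C, -, hC⟩ := exists_KB A θ
  have hK := hC ν hν
  have h0 : (0 : ℂ) ∈ Db := mem_closedBall_self zero_le_one
  have hs : ∀ s, 0 < s → ∀ p ∈ Db, ∀ q ∈ Db, Summable fun n => TK (lorG s) ν n p q := by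
    intro s hs p hp q hq
    rw [← summable_nat_add_iff 2]
    exact ((summable_nat_add_iff 2).2 (hK.summable p hp q hq)).of_nonneg_of_le
      (fun n => ((lorG_K hs).TK hν _).nonneg p hp q hq)
      fun n => lor_le hν hK hs _ p hp q hq (Or.inl (by omega))
  have hl : ∀ p ∈ Db, ∀ q ∈ Db, p ≠ q →
      Tendsto (fun s => ∑' n, TK (lorG s) ν n p q) (𝓝[>] 0) (𝓝 (KK ν p q)) := by
    intro p hp q hq h
    refine tendsto_tsum_of_dominated_convergence (hK.summable p hp q hq)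
      (fun n => lor_tendsto hν hK n p hp q hq h) ?_
    filter_upwards [self_mem_nhdsWithin] with s hs n
    rw [Real.norm_eq_abs, abs_of_nonneg (((lorG_K hs).TK hν _).nonneg p hp q hq)]
    exact lor_le hν hK hs _ p hp q hq (Or.inr h)
  refine lor_CND_of_tendsto (l := 𝓝[>] (0 : ℝ)) (ψ := fun s p q =>
    (∑' n, TK (lorG s) ν n 0 p) * (∑' n, TK (lorG s) ν n 0 q) / ∑' n, TK (lorG s) ν n p q) ?_ ?_
  · filter_upwards [self_mem_nhdsWithin] with s hs' n x c hx hc
    refine lor_cont hν (lorG_K hs') (lorG_cont hs') (fun p hp q hq => lorG_pos hs' hp hq)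
      (fun p _ q _ => ?_) (fun p _ => by positivity) (lorG_lorW s) (hs s hs') n x c
      (fun i => (hx i).1) hc
    rw [lorG, lorG, Lm_symm, mul_comm (1 + ‖p‖ ^ 2)]
  · intro p hp q hq
    have k := (hl 0 h0 p hp.1 (Ne.symm hp.2)).mul (hl 0 h0 q hq.1 (Ne.symm hq.2))
    by_cases h : p = q
    · subst h
      rw [dd, if_pos rfl]
      refine k.div_atTop (tendsto_atTop_mono' _ ?_ (lorG_diag p))
      filter_upwards [self_mem_nhdsWithin] with s hs'
      exact (hs s hs' p hp.1 p hp.1).le_tsum 0 fun n _ =>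
        ((lorG_K hs').TK hν _).nonneg p hp.1 p hp.1
    · rw [dd, if_neg h]
      exact k.div (hl p hp.1 q hq.1 h)
        ((lor_K0_pos hp.1 hq.1 h).trans_le (K0_le_KK hν hp.1 hq.1)).ne'

end Vale.Agent.P071
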