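import Vale.Agent.P071.KernelDefs

/-!
# Smooth multipliers and weak limits
-/

open Complex Metric Set Filter Topology MeasureTheory
open scoped ContDiff ComplexConjugate Real

namespace Vale.Agent.P071

lemma moll_normalize {z w : ℂ} (hz : z ≠ 0) (hw : w ≠ 0) :
    ‖z / ‖z‖ - w / ‖w‖‖ ≤ 2 * ‖z - w‖ / ‖z‖ := by
  have hz0 : 0 < ‖z‖ := norm_pos_iff.2 hz
  have hw0 : 0 < ‖w‖ := norm_pos_iff.2 hw
  have hz1 : (‖z‖ : ℂ) ≠ 0 := by exact_mod_cast hz0.ne'
  have hw1 : (‖w‖ : ℂ) ≠ 0 := by exact_mod_cast hw0.ne'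
  have h1 : z / ‖z‖ - w / ‖w‖
      = ((z - w) + w / ‖w‖ * ((‖w‖ - ‖z‖ : ℝ) : ℂ)) / ‖z‖ := by
    push_cast
    field_simp
    ring
  have h2 : ‖w / ‖w‖ * ((‖w‖ - ‖z‖ : ℝ) : ℂ)‖ ≤ ‖z - w‖ := by
    rw [norm_mul, norm_div, Complex.norm_real, norm_norm, div_self hw0.ne', one_mul,
      Complex.norm_real, Real.norm_eq_abs, norm_sub_rev]
    exact abs_norm_sub_norm_le w z
  rw [h1, norm_div, Complex.norm_real, norm_norm]
  gcongr
  linarith [norm_add_le (z - w) (w / ‖w‖ * ((‖w‖ - ‖z‖ : ℝ) : ℂ))]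

lemma moll_mem {z : ℂ} (hz : z ≠ 0) : z / ‖z‖ ∈ S1 := by
  have hz0 : 0 < ‖z‖ := norm_pos_iff.2 hz
  rw [mem_sphere_zero_iff_norm, norm_div, Complex.norm_real, norm_norm, div_self hz0.ne']

lemma moll_lip {E : Type*} [NormedAddCommGroup E] {γ : ℂ → E} {L : ℝ} (hL : 0 ≤ L)
    (hγ : ∀ s ∈ S1, ∀ t ∈ S1, ‖γ s - γ t‖ ≤ L * ‖s - t‖) {z w : ℂ} (hz : 1 / 4 ≤ ‖z‖)
    (hw : 1 / 4 ≤ ‖w‖) : ‖γ (z / ‖z‖) - γ (w / ‖w‖)‖ ≤ 8 * L * ‖z - w‖ := by
  have hz0 : z ≠ 0 := norm_pos_iff.1 (by linarith)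
  have hw0 : w ≠ 0 := norm_pos_iff.1 (by linarith)
  refine (hγ _ (moll_mem hz0) _ (moll_mem hw0)).trans ?_
  have h1 : ‖z / ‖z‖ - w / ‖w‖‖ ≤ 8 * ‖z - w‖ := by
    refine (moll_normalize hz0 hw0).trans ?_
    rw [div_le_iff₀ (by linarith)]
    nlinarith [norm_nonneg (z - w)]
  calc L * ‖z / ‖z‖ - w / ‖w‖‖ ≤ L * (8 * ‖z - w‖) := by gcongr
    _ = _ := by ring

lemma moll_locInt {E : Type*} [NormedAddCommGroup E] {γ : ℂ → E} {L : ℝ} (hL : 0 ≤ L)
    (hγ : ∀ s ∈ S1, ∀ t ∈ S1, ‖γ s - γ t‖ ≤ L * ‖s - t‖) :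
    LocallyIntegrable (fun z : ℂ => γ (z / ‖z‖)) volume := by
  have hc : ContinuousOn γ S1 := by
    refine LipschitzOnWith.continuousOn (K := ⟨L, hL⟩)
      (LipschitzOnWith.of_dist_le_mul (fun s hs t ht => ?_))
    rw [dist_eq_norm, dist_eq_norm]
    exact hγ s hs t ht
  have hc2 : ContinuousOn (fun z : ℂ => γ (z / ‖z‖)) {0}ᶜ := by
    refine hc.comp (f := fun z : ℂ => z / ‖z‖) ?_ (fun z hz => moll_mem hz)
    refine continuousOn_id.div (by fun_prop) (fun z hz => ?_)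
    exact_mod_cast norm_ne_zero_iff.2 hz
  have hm : AEStronglyMeasurable (fun z : ℂ => γ (z / ‖z‖)) volume := by
    have := hc2.aestronglyMeasurable (μ := volume) (measurableSet_singleton 0).compl
    rwa [Measure.restrict_eq_self_of_ae_mem (s := ({0}ᶜ : Set ℂ))
      (compl_mem_ae_iff.2 (measure_singleton 0))] at this
  refine (memLp_top_of_bound hm (‖γ 1‖ + L * 2) ?_).locallyIntegrable le_top
  filter_upwards [compl_mem_ae_iff.2 (measure_singleton (0 : ℂ))] with z hz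
  have h1 := hγ _ (moll_mem hz) 1 (by simp)
  have h2 : ‖z / ‖z‖ - 1‖ ≤ 2 := by
    have h3 := norm_sub_le (z / ‖z‖) 1
    rw [mem_sphere_zero_iff_norm.1 (moll_mem hz), norm_one] at h3
    linarith
  have h4 := norm_sub_norm_le (γ (z / ‖z‖)) (γ 1)
  nlinarith

/-- Mollification of the zero-homogeneous extension of a Lipschitz function on the circle. -/
theorem exists_mollify {E : Type*} [NormedAddCommGroup E] [NormedSpace ℝ E] [CompleteSpace E]
    {γ : ℂ → E} {L : ℝ} (hL : 0 ≤ L) (hγ : ∀ s ∈ S1, ∀ t ∈ S1, ‖γ s - γ t‖ ≤ L * ‖s - t‖)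
    {δ : ℝ} (hδ : 0 < δ) : ∃ m : ℂ → E, ContDiff ℝ ∞ m ∧
      (∀ z w : ℂ, 1 / 2 ≤ ‖z‖ → 1 / 2 ≤ ‖w‖ → ‖m z - m w‖ ≤ 8 * L * ‖z - w‖) ∧
      (∀ z : ℂ, 1 / 2 < ‖z‖ → ‖fderiv ℝ m z‖ ≤ 8 * L) ∧
      ∀ z : ℂ, 1 / 2 ≤ ‖z‖ → ‖m z - γ (z / ‖z‖)‖ ≤ δ := by
  set r : ℝ := min (1 / 4) (δ / (8 * L + 1)) with hr
  have hr0 : 0 < r := by positivity
  have hr1 : r ≤ 1 / 4 := min_le_left _ _
  have hr2 : 8 * L * r ≤ δ := by
    have h1 : r ≤ δ / (8 * L + 1) := min_le_right _ _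
    rw [le_div_iff₀ (by positivity)] at h1
    nlinarith
  let φ : ContDiffBump (0 : ℂ) := ⟨r / 2, r, by positivity, by linarith⟩
  have hφ : φ.rOut = r := rfl
  set F : ℂ → E := fun z => γ (z / ‖z‖) with hF
  have hloc : LocallyIntegrable F volume := moll_locInt hL hγ
  set m : ℂ → E := convolution (φ.normed volume) F (ContinuousLinearMap.lsmul ℝ ℝ) volume with hm
  have hex : ConvolutionExists (φ.normed volume) F (ContinuousLinearMap.lsmul ℝ ℝ) volume :=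
    φ.hasCompactSupport_normed.convolutionExists_left _ φ.continuous_normed hloc
  have hshift : ∀ z y : ℂ, 1 / 2 ≤ ‖z‖ → ‖y‖ < r → 1 / 4 ≤ ‖z - y‖ := by
    intro z y hz hy
    linarith [norm_sub_norm_le z y]
  have hlip : ∀ z w : ℂ, 1 / 2 ≤ ‖z‖ → 1 / 2 ≤ ‖w‖ → ‖m z - m w‖ ≤ 8 * L * ‖z - w‖ := by
    intro z w hz hw
    rw [hm, convolution_def, convolution_def, ← integral_sub (hex z) (hex w)]
    refine (norm_integral_le_of_norm_le ((φ.integrable_normed (μ := volume)).mul_const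
      (8 * L * ‖z - w‖)) (Eventually.of_forall (fun y => ?_))).trans ?_
    · simp only [ContinuousLinearMap.lsmul_apply]
      rw [← smul_sub, norm_smul, Real.norm_of_nonneg (φ.nonneg_normed y)]
      by_cases hy : ‖y‖ < r
      · have h1 := moll_lip hL hγ (hshift z y hz hy) (hshift w y hw hy)
        rw [sub_sub_sub_cancel_right] at h1
        exact mul_le_mul_of_nonneg_left h1 (φ.nonneg_normed y)
      · have h1 : φ.normed volume y = 0 := by
          by_contra hc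
          have h2 : y ∈ Function.support (φ.normed volume) := hc
          rw [φ.support_normed_eq, mem_ball_zero_iff] at h2
          exact hy h2
        simp [h1]
    · rw [integral_mul_const, φ.integral_normed, one_mul]
  refine ⟨m, φ.hasCompactSupport_normed.contDiff_convolution_left _ φ.contDiff_normed hloc,
    hlip, fun z hz => ?_, fun z hz => ?_⟩
  · refine norm_fderiv_le_of_lip' ℝ (by positivity) ?_
    filter_upwards [continuous_norm.continuousAt.eventually (lt_mem_nhds hz)] with w hw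
    exact hlip w z hw.le hz.le
  · rw [← dist_eq_norm]
    refine φ.dist_normed_convolution_le (g := F) hloc.aestronglyMeasurable (fun x hx => ?_)
    rw [hφ, mem_ball, dist_eq_norm] at hx
    have h1 : 1 / 4 ≤ ‖x‖ := by
      have := hshift z (z - x) hz (by rwa [norm_sub_rev])
      rwa [sub_sub_cancel] at this
    rw [dist_eq_norm]
    refine (moll_lip hL hγ h1 (by linarith)).trans (le_trans ?_ hr2)
    gcongr

/-- Finitely many smooth real multipliers approximating a Hilbert space valued Lipschitz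
function on the circle. -/
theorem exists_multipliers {H : Type*} [NormedAddCommGroup H] [InnerProductSpace ℝ H]
    {γ : ℂ → H} {L : ℝ} (hL : 0 ≤ L) (hγ : ∀ s ∈ S1, ∀ t ∈ S1, ‖γ s - γ t‖ ≤ L * ‖s - t‖)
    {δ : ℝ} (hδ : 0 < δ) : ∃ (n : ℕ) (m : Fin n → ℂ → ℝ), (∀ i, ContDiff ℝ ∞ (m i)) ∧
      (∀ z : ℂ, 1 / 2 < ‖z‖ → ∑ i, (dx (m i) z ^ 2 + dy (m i) z ^ 2) ≤ 128 * L ^ 2) ∧
      ∀ z w : ℂ, 1 / 2 ≤ ‖z‖ → 1 / 2 ≤ ‖w‖ →
        ∑ i, (m i z - m i w) ^ 2 ≤ 64 * L ^ 2 * ‖z - w‖ ^ 2 ∧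
        |Real.sqrt (∑ i, (m i z - m i w) ^ 2) - ‖γ (z / ‖z‖) - γ (w / ‖w‖)‖| ≤ δ := by
  set η : ℝ := δ / (8 * (L + 1)) with hη
  have hη0 : 0 < η := by positivity
  have hη1 : 4 * L * η ≤ δ / 2 := by
    rw [hη, ← mul_div_assoc, div_le_div_iff₀ (by positivity) (by positivity)]
    nlinarith
  obtain ⟨T, hTs, hTf, hT⟩ := finite_cover_balls_of_compact (isCompact_sphere (0 : ℂ) 1) hη0
  set W : Submodule ℝ H := Submodule.span ℝ (γ '' T) with hW
  have : FiniteDimensional ℝ W := FiniteDimensional.span_of_finite ℝ (hTf.image γ)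
  set P : H → EuclideanSpace ℝ (Fin (Module.finrank ℝ W)) :=
    fun x => (stdOrthonormalBasis ℝ W).repr (W.orthogonalProjectionOnto x) with hP
  have hPsub : ∀ x y, P x - P y = P (x - y) := by
    intro x y
    simp only [hP, map_sub]
  have hPle : ∀ x, ‖P x‖ ≤ ‖x‖ := by
    intro x
    simp only [hP, LinearIsometryEquiv.norm_map]
    exact W.norm_orthogonalProjectionOnto_apply_le x
  have hPeq : ∀ x ∈ W, ‖P x‖ = ‖x‖ := by
    intro x hx
    simp only [hP, LinearIsometryEquiv.norm_map]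
    exact W.norm_orthogonalProjectionOnto_apply hx
  have hnet : ∀ s ∈ S1, ∃ x ∈ W, ‖γ s - x‖ ≤ L * η := by
    intro s hs
    obtain ⟨t, ht, hst⟩ := mem_iUnion₂.1 (hT hs)
    refine ⟨γ t, Submodule.subset_span ⟨t, ht, rfl⟩, (hγ s hs t (hTs ht)).trans ?_⟩
    rw [mem_ball, dist_eq_norm] at hst
    gcongr
  have happrox : ∀ s ∈ S1, ∀ t ∈ S1, |‖P (γ s) - P (γ t)‖ - ‖γ s - γ t‖| ≤ δ / 2 := by
    intro s hs t ht
    obtain ⟨x, hx, hsx⟩ := hnet s hs
    obtain ⟨y, hy, hty⟩ := hnet t ht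
    have h1 : ‖(γ s - γ t) - (x - y)‖ ≤ 2 * (L * η) := by
      have h2 : (γ s - γ t) - (x - y) = (γ s - x) - (γ t - y) := by abel
      rw [h2]
      linarith [norm_sub_le (γ s - x) (γ t - y)]
    have h3 := abs_norm_sub_norm_le (P (γ s - γ t)) (P (x - y))
    rw [hPsub, hPeq _ (W.sub_mem hx hy)] at h3
    have h4 := abs_norm_sub_norm_le (γ s - γ t) (x - y)
    have h5 := hPle ((γ s - γ t) - (x - y))
    rw [hPsub, abs_le]
    rw [abs_le] at h3 h4
    constructor <;> linarith [h3.1, h3.2, h4.1, h4.2]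
  obtain ⟨M, hM1, hM2, hM3, hM4⟩ := exists_mollify (γ := fun s => P (γ s)) hL
    (fun s hs t ht => by
      rw [hPsub]
      exact (hPle _).trans (hγ s hs t ht)) (δ := δ / 4) (by positivity)
  have hsq : ∀ v : EuclideanSpace ℝ (Fin (Module.finrank ℝ W)), ∑ i, v i ^ 2 = ‖v‖ ^ 2 :=
    fun v => (EuclideanSpace.real_norm_sq_eq v).symm
  refine ⟨Module.finrank ℝ W, fun i z => M z i,
    fun i => (EuclideanSpace.proj i : _ →L[ℝ] ℝ).contDiff.comp hM1, fun z hz => ?_,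
    fun z w hz hw => ?_⟩
  · have hd : DifferentiableAt ℝ M z := (hM1.differentiable (by simp)).differentiableAt
    have h1 : ∀ i, dx (fun z => M z i) z = dx M z i := fun i =>
      dx_clm (EuclideanSpace.proj i : _ →L[ℝ] ℝ) hd
    have h2 : ∀ i, dy (fun z => M z i) z = dy M z i := fun i =>
      dy_clm (EuclideanSpace.proj i : _ →L[ℝ] ℝ) hd
    simp only [h1, h2]
    rw [Finset.sum_add_distrib, hsq, hsq]
    have h3 : ‖dx M z‖ ^ 2 ≤ (8 * L) ^ 2 := by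
      gcongr
      exact (norm_dx_le M z).trans (hM3 z hz)
    have h4 : ‖dy M z‖ ^ 2 ≤ (8 * L) ^ 2 := by
      gcongr
      exact (norm_dy_le M z).trans (hM3 z hz)
    linarith
  · have h1 : ∑ i, (M z i - M w i) ^ 2 = ‖M z - M w‖ ^ 2 := hsq (M z - M w)
    rw [h1, Real.sqrt_sq (norm_nonneg _)]
    constructor
    · calc ‖M z - M w‖ ^ 2 ≤ (8 * L * ‖z - w‖) ^ 2 := by
            gcongr
            exact hM2 z w hz hw
        _ = _ := by ring
    · have hz0 : z ≠ 0 := norm_pos_iff.1 (by linarith)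
      have hw0 : w ≠ 0 := norm_pos_iff.1 (by linarith)
      have h2 := happrox _ (moll_mem hz0) _ (moll_mem hw0)
      have h3 := abs_norm_sub_norm_le (M z - M w) (P (γ (z / ‖z‖)) - P (γ (w / ‖w‖)))
      have h4 : (M z - M w) - (P (γ (z / ‖z‖)) - P (γ (w / ‖w‖)))
          = (M z - P (γ (z / ‖z‖))) - (M w - P (γ (w / ‖w‖))) := by abel
      have h5 := norm_sub_le (M z - P (γ (z / ‖z‖))) (M w - P (γ (w / ‖w‖)))
      rw [h4] at h3
      have h6 := hM4 z hz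
      have h7 := hM4 w hw
      rw [abs_le] at h2 h3 ⊢
      constructor <;> linarith [h2.1, h2.2, h3.1, h3.2]

/-- Weak limits in `L²` along an ultrafilter. -/
theorem exists_weak_limit {f : ℕ → ℂ → ℂ} (hf : ∀ j, MemLp (f j) 2 (volume.restrict D)) {B : ℝ}
    (hB : ∀ j, ∫ z in D, ‖f j z‖ ^ 2 ≤ B) (𝒰 : Ultrafilter ℕ) :
    ∃ g : ℂ → ℂ, MemLp g 2 (volume.restrict D) ∧ ∀ h : ℂ → ℂ, MemLp h 2 (volume.restrict D) →
      Tendsto (fun j => ∫ z in D, f j z * conj (h z)) 𝒰 (𝓝 (∫ z in D, g z * conj (h z))) := by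
  set μ : Measure ℂ := volume.restrict D with hμ
  set F : ℕ → Lp ℂ 2 μ := fun j => (hf j).toLp (f j) with hF
  have hinner : ∀ (g h : ℂ → ℂ) (hg : MemLp g 2 μ) (hh : MemLp h 2 μ),
      ∫ z, g z * conj (h z) ∂μ = inner ℂ (hh.toLp h) (hg.toLp g) := by
    intro g h hg hh
    rw [L2.inner_def]
    refine integral_congr_ae ?_
    filter_upwards [hg.coeFn_toLp, hh.coeFn_toLp] with z h1 h2
    rw [h1, h2, RCLike.inner_apply]
  have hnorm : ∀ j, ‖F j‖ ≤ Real.sqrt B := by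
    intro j
    refine Real.le_sqrt_of_sq_le (le_trans (le_of_eq ?_) (hB j))
    have h1 := hinner _ _ (hf j) (hf j)
    rw [inner_self_eq_norm_sq_to_K] at h1
    simp only [Complex.mul_conj, Complex.normSq_eq_norm_sq] at h1
    rw [integral_complex_ofReal] at h1
    have h2 : ((∫ z, ‖f j z‖ ^ 2 ∂μ : ℝ) : ℂ) = ((‖F j‖ ^ 2 : ℝ) : ℂ) := by
      rw [h1]
      push_cast
      rfl
    exact (Complex.ofReal_injective h2).symm
  obtain ⟨T, -, hT⟩ := (WeakDual.isCompact_closedBall (0 : StrongDual ℂ (Lp ℂ 2 μ))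
    (Real.sqrt B)).ultrafilter_le_nhds
    (𝒰.map (fun j => StrongDual.toWeakDual (InnerProductSpace.toDual ℂ (Lp ℂ 2 μ) (F j)))) (by
      rw [Ultrafilter.coe_map, le_principal_iff, Filter.mem_map]
      refine Eventually.of_forall (fun j => ?_)
      simpa using hnorm j)
  set G : Lp ℂ 2 μ := (InnerProductSpace.toDual ℂ (Lp ℂ 2 μ)).symm (WeakDual.toStrongDual T)
    with hG
  refine ⟨G, Lp.memLp G, fun h hh => ?_⟩
  have h1 : Tendsto (fun j => inner ℂ (F j) (hh.toLp h)) 𝒰 (𝓝 (inner ℂ G (hh.toLp h))) := by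
    have h2 := ((WeakDual.eval_continuous (hh.toLp h)).tendsto T).comp hT
    rw [hG, InnerProductSpace.toDual_symm_apply]
    exact h2
  have h3 := (Complex.continuous_conj.tendsto _).comp h1
  rw [hinner _ _ (Lp.memLp G) hh, Lp.toLp_coeFn, ← inner_conj_symm]
  refine h3.congr (fun j => ?_)
  rw [hinner _ _ (hf j) hh, ← inner_conj_symm]
  rfl

end Vale.Agent.P071
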