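import Vale.Agent.P071.Test
import Vale.Agent.P071.Mollify
import Vale.Agent.P071.Lorentz

/-!
# New zero modes from a critical point
-/

open Complex Metric Set Filter Topology MeasureTheory
open scoped ContDiff ComplexConjugate Real

namespace Vale.Agent.P071

variable {φ : ℂ → ℂ} {μ c C A θ : ℝ}

instance lim_finite_mc : IsFiniteMeasure mc := isFiniteMeasure_restrict.2 measure_Ioc_lt_top.ne

lemma lim_cont {E : Type*} [NormedAddCommGroup E] {γ : ℂ → E} {L : ℝ}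
    (h : ∀ s ∈ S1, ∀ t ∈ S1, ‖γ s - γ t‖ ≤ L * ‖s - t‖) : Continuous fun x => γ (ec x) := by
  have : LipschitzOnWith L.toNNReal γ S1 := LipschitzOnWith.of_dist_le_mul fun s hs t ht => by
    rw [dist_eq_norm, dist_eq_norm]
    exact (h s hs t ht).trans (mul_le_mul_of_nonneg_right (Real.le_coe_toNNReal L) (norm_nonneg _))
  exact this.continuousOn.comp_continuous (continuous_circleMap 0 1) ec_mem

lemma lim_norm {r : ℝ} (hr : 0 < r) (x : ℝ) : ‖(r : ℂ) * ec x‖ = r := by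
  rw [norm_mul, mem_sphere_zero_iff_norm.1 (ec_mem x), norm_real, Real.norm_of_nonneg hr.le,
    mul_one]

lemma lim_div {r : ℝ} (hr : 0 < r) (x : ℝ) : (r : ℂ) * ec x / (‖(r : ℂ) * ec x‖ : ℝ) = ec x := by
  rw [lim_norm hr, mul_div_cancel_left₀ _ (ofReal_ne_zero.2 hr.ne')]

lemma lim_dist {r : ℝ} (hr : 0 < r) (hr1 : r ≤ 1) (x y : ℝ) :
    ‖(r : ℂ) * ec x - r * ec y‖ ^ 2 ≤ ‖ec x - ec y‖ ^ 2 := by
  rw [← mul_sub, norm_mul, norm_real, Real.norm_of_nonneg hr.le]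
  exact pow_le_pow_left₀ (by positivity) (mul_le_of_le_one_left (norm_nonneg _) hr1) 2

lemma lim_ae_ne : ∀ᵐ p : ℝ × ℝ ∂(mc.prod mc), ec p.1 ≠ ec p.2 := by
  have hm : MeasurableSet {p : ℝ × ℝ | ec p.1 ≠ ec p.2} :=
    (isOpen_ne_fun ((continuous_circleMap 0 1).comp continuous_fst)
      ((continuous_circleMap 0 1).comp continuous_snd)).measurableSet
  refine (Measure.ae_prod_mem_iff_ae_ae_mem hm).2 (Eventually.of_forall fun x => ?_)
  have hc : ((circleMap 0 1) ⁻¹' {ec x}).Countable :=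
    (countable_singleton _).preimage_circleMap 0 one_ne_zero
  filter_upwards [hc.ae_notMem mc] with y hy
  exact fun h => hy h.symm

section

variable (S : Setup φ μ c C) {v₀ Φ₀ : ℂ → ℂ} {a : ℂ → ℝ} {V : ℂ → ℂ} (hm : Mode φ μ v₀ Φ₀ a V)
  {r : ℝ} (hr : 0 < r) (hr1 : r < 1) (hν : Pot (nu φ μ r) A θ)
include S hm hr hr1

lemma lim_om_cont : Continuous fun x => V (r * ec x) / deriv φ (r * ec x) :=
  continuous_iff_continuousAt.2 fun x =>
    ContinuousAt.comp (g := fun w => V w / deriv φ w) (f := fun x => (r : ℂ) * ec x)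
      (hm.om_eq S (mul_mem_D_of_lt hr hr1 (sphere_subset_closedBall (ec_mem x)))).1.continuousAt
      (continuous_const.mul (continuous_circleMap 0 1)).continuousAt

include hν

lemma lim_Wt_meas : Measurable (Wt φ μ V r) := by
  have h := lim_om_cont S hm hr hr1
  refine Measurable.mul (Measurable.const_mul ?_ _) (continuous_re.comp
    ((h.comp continuous_fst).mul (continuous_conj.comp (h.comp continuous_snd)))).measurable
  exact (measurable_KK hν).comp (((continuous_circleMap 0 1).comp continuous_fst).prodMk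
    ((continuous_circleMap 0 1).comp continuous_snd)).measurable

lemma lim_Wt_bound : ∃ B : ℝ, ∀ p : ℝ × ℝ, |Wt φ μ V r p| * ‖ec p.1 - ec p.2‖ ^ 2 ≤ B := by
  obtain ⟨L, hL0, hL⟩ := exists_circle_bound A θ
  obtain ⟨M, hM0, hM⟩ := (S.bm_div_deriv (BM.of_closedBall hm.contV)).bdd'
  refine ⟨2 * L * (M * M), fun p => ?_⟩
  obtain ⟨-, ⟨h1, h2⟩, -⟩ := hL _ hν _ (ec_mem p.1) _ (ec_mem p.2)
  have h3 := fun x => hM _ (mul_mem_D_of_lt hr hr1 (sphere_subset_closedBall (ec_mem x)))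
  rw [Wt, abs_mul, abs_of_nonneg (by positivity), mul_right_comm, mul_assoc 2]
  refine mul_le_mul (by linarith) ((abs_re_le_norm _).trans ?_) (abs_nonneg _) (by positivity)
  rw [norm_mul, norm_conj]
  exact mul_le_mul (h3 _) (h3 _) (norm_nonneg _) hM0

lemma lim_Wt_integrable {f : ℝ × ℝ → ℝ} (hf : Measurable f) {B : ℝ}
    (hB : ∀ p, |f p| ≤ B * ‖ec p.1 - ec p.2‖ ^ 2) (hB0 : 0 ≤ B) :
    Integrable (fun p => Wt φ μ V r p * f p) (mc.prod mc) := by
  obtain ⟨B', hB'⟩ := lim_Wt_bound S hm hr hr1 hν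
  refine Integrable.of_bound ((lim_Wt_meas S hm hr hr1 hν).mul hf).aestronglyMeasurable (B * B')
    (Eventually.of_forall fun p => ?_)
  rw [norm_mul, Real.norm_eq_abs, Real.norm_eq_abs]
  calc |Wt φ μ V r p| * |f p| ≤ |Wt φ μ V r p| * (B * ‖ec p.1 - ec p.2‖ ^ 2) := by gcongr; exact hB p
    _ = B * (|Wt φ μ V r p| * ‖ec p.1 - ec p.2‖ ^ 2) := by ring
    _ ≤ B * B' := by gcongr; exact hB' p

lemma lim_Wt_tendsto {f : ℕ → ℝ × ℝ → ℝ} {g : ℝ × ℝ → ℝ} (hf : ∀ j, Measurable (f j)) {B : ℝ}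
    (hB : ∀ j p, |f j p| ≤ B * ‖ec p.1 - ec p.2‖ ^ 2) (hB0 : 0 ≤ B)
    (hl : ∀ p, Tendsto (fun j => f j p) atTop (𝓝 (g p))) :
    Tendsto (fun j => ∫ p, Wt φ μ V r p * f j p ∂(mc.prod mc)) atTop
      (𝓝 (∫ p, Wt φ μ V r p * g p ∂(mc.prod mc))) := by
  obtain ⟨B', hB'⟩ := lim_Wt_bound S hm hr hr1 hν
  refine tendsto_integral_of_dominated_convergence (fun _ => B * B')
    (fun j => ((lim_Wt_meas S hm hr hr1 hν).mul (hf j)).aestronglyMeasurable) (integrable_const _)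
    (fun j => Eventually.of_forall fun p => ?_) (Eventually.of_forall fun p => (hl p).const_mul _)
  rw [norm_mul, Real.norm_eq_abs, Real.norm_eq_abs]
  calc |Wt φ μ V r p| * |f j p| ≤ |Wt φ μ V r p| * (B * ‖ec p.1 - ec p.2‖ ^ 2) := by
        gcongr; exact hB j p
    _ = B * (|Wt φ μ V r p| * ‖ec p.1 - ec p.2‖ ^ 2) := by ring
    _ ≤ B * B' := by gcongr; exact hB' p

/-- At a critical point the kernel `dd` carries no energy. -/
lemma lim_Wt_dd (hV : V 0 = 0) :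
    ∫ p : ℝ × ℝ, Wt φ μ V r p * dd (nu φ μ r) (ec p.1) (ec p.2) ∂(mc.prod mc) = 0 := by
  set om : ℂ → ℂ := fun w => V w / deriv φ w with hom
  have com : ∀ z ∈ D, ContDiffAt ℝ 2 om z := fun z hz => (hm.om_eq S hz).1.of_le (by norm_cast)
  have hsc : ContDiff ℝ 2 fun w : ℂ => (r : ℂ) * w := contDiff_const.mul contDiff_id
  have h := rep_zero hν (om := fun w => om (r * w))
    (fun z hz => (com _ (mul_mem_D_of_lt hr hr1 hz)).comp z hsc.contDiffAt)
    (fun z hz => by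
      have hz' := mul_mem_D hr hr1.le hz
      rw [test_lap_scale (com _ hz'), (hm.om_eq S hz').2.2, nu_of_mem φ μ r hz]
      push_cast; ring)
  set f : ℝ → ℂ := fun s => (2 * KK (nu φ μ r) 0 (ec s)) • om (r * ec s) with hf
  have h0 : ∫ s, f s ∂mc = 0 := by rw [← h]; simp [hom, hV]
  obtain ⟨L, hL0, hL⟩ := exists_circle_bound A θ
  obtain ⟨M, hM0, hM⟩ := (S.bm_div_deriv (BM.of_closedBall hm.contV)).bdd'
  have hfi : Integrable f mc := by
    refine Integrable.of_bound (Measurable.aestronglyMeasurable ?_) (2 * L * M)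
      (Eventually.of_forall fun s => ?_)
    · exact (((measurable_KK hν).comp
        (continuous_const.prodMk (continuous_circleMap 0 1)).measurable).const_mul 2).smul
        (lim_om_cont S hm hr hr1).measurable
    · obtain ⟨⟨h1, h2⟩, -⟩ := hL _ hν _ (ec_mem s) _ (ec_mem s)
      rw [hf, norm_smul, Real.norm_of_nonneg (by positivity)]
      exact mul_le_mul (by linarith)
        (hM _ (mul_mem_D_of_lt hr hr1 (sphere_subset_closedBall (ec_mem s)))) (norm_nonneg _)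
        (by positivity)
  have hfc : Integrable (fun s => conj (f s)) mc :=
    conjCLE.toContinuousLinearMap.integrable_comp hfi
  have e := integral_prod_mul (μ := mc) (ν := mc) f fun s => conj (f s)
  have e2 := integral_re (hfi.mul_prod hfc)
  rw [e, h0, zero_mul, map_zero] at e2
  rw [← mul_zero (1 / 2 : ℝ), ← e2, ← integral_const_mul]
  refine integral_congr_ae (lim_ae_ne.mono fun p hp => ?_)
  have h1 := sphere_subset_closedBall (ec_mem p.1)
  have h2 := sphere_subset_closedBall (ec_mem p.2)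
  have hK : 0 < KK (nu φ μ r) (ec p.1) (ec p.2) :=
    lt_of_lt_of_le (lt_of_lt_of_le (by have := Real.pi_pos; positivity) (K0_lower h1 h2 hp))
      (K0_le_KK hν h1 h2)
  simp only [Wt, dd, if_neg hp, hf, hom, real_smul, map_mul, conj_ofReal, RCLike.re_to_complex]
  rw [mul_mul_mul_comm, ← ofReal_mul, re_ofReal_mul]
  field_simp

end

/-- The mass of the gradient field on a collar. -/
noncomputable def col (φ V : ℂ → ℂ) (r : ℝ) : ℝ := ∫ z in D \ ball 0 r, ‖V z / deriv φ z‖ ^ 2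

lemma col_nonneg (φ V : ℂ → ℂ) (r : ℝ) : 0 ≤ col φ V r := integral_nonneg fun _ => sq_nonneg _

lemma lim_collar (S : Setup φ μ c C) {V : ℂ → ℂ} (hV : BM V) {r : ℝ} (hr : 1 / 2 < r) {f : ℂ → ℝ}
    (hf : BM f) {B : ℝ} (hB : ∀ z : ℂ, 1 / 2 < ‖z‖ → f z ≤ B) :
    ∫ z in D \ ball 0 r, f z * ‖V z / deriv φ z‖ ^ 2 ≤ B * col φ V r := by
  have b := (S.bm_div_deriv hV).norm.sq
  rw [col, ← integral_const_mul]
  refine setIntegral_mono_on ((hf.mul b).integrableOn.mono_set sdiff_subset)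
    ((b.const_mul B).integrableOn.mono_set sdiff_subset)
    (measurableSet_ball.diff measurableSet_ball) fun z hz => ?_
  refine mul_le_mul_of_nonneg_right (hB z (hr.trans_le ?_)) (sq_nonneg _)
  simpa using hz.2

lemma tendsto_col (S : Setup φ μ c C) {V : ℂ → ℂ} (hV : BM V) :
    Tendsto (col φ V) (𝓝[<] 1) (𝓝 0) := by
  have b := (S.bm_div_deriv hV).norm.sq.integrableOn
  have h := (tendsto_setIntegral_ball b).const_sub (∫ z in D, ‖V z / deriv φ z‖ ^ 2)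
  rw [sub_self] at h
  refine h.congr' ?_
  filter_upwards [self_mem_nhdsWithin] with r hr
  rw [test_split b (le_of_lt hr), add_sub_cancel_right, col]

section

variable (S : Setup φ μ c C) (hθ : θ < 1) (hG : Ground φ μ θ)
  {v₀ Φ₀ : ℂ → ℂ} (h₀ : ZeroMode φ μ v₀ Φ₀) {a : ℂ → ℝ} {V : ℂ → ℂ} (hm : Mode φ μ v₀ Φ₀ a V)
  (hP : ∀ r : ℝ, 0 < r → r ≤ 1 → Pot (nu φ μ r) A θ)
include S h₀ hm hP

include hθ hG in
/-- Positivity of the boundary form on Hilbert space valued multipliers. -/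
lemma lim_pos {H : Type*} [NormedAddCommGroup H] [InnerProductSpace ℝ H] {γ : ℂ → H} {L : ℝ}
    (hL : 0 ≤ L) (hγ : ∀ s ∈ S1, ∀ t ∈ S1, ‖γ s - γ t‖ ≤ L * ‖s - t‖) {r : ℝ} (hr : 1 / 2 < r)
    (hr1 : r < 1) : 0 ≤ 128 * L ^ 2 * col φ V r +
      ∫ p : ℝ × ℝ, Wt φ μ V r p * ‖γ (ec p.1) - γ (ec p.2)‖ ^ 2 ∂(mc.prod mc) := by
  have hr0 : 0 < r := by linarith
  have hν := hP r hr0 hr1.le
  obtain ⟨B, -, hB⟩ := exists_test_pair S h₀ hm hP
  have bV : BM V := .of_closedBall hm.contV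
  have hε : ∀ j : ℕ, (0 : ℝ) < 1 / ((j : ℝ) + 1) := fun j => by positivity
  choose n m h1 h2 h3 using fun j => exists_multipliers hL hγ (hε j)
  have hn : ∀ x, 1 / 2 ≤ ‖(r : ℂ) * ec x‖ := fun x => by rw [lim_norm hr0]; exact hr.le
  have hc : ∀ j i, Continuous fun p : ℝ × ℝ => (m j i (r * ec p.1) - m j i (r * ec p.2)) ^ 2 := by
    intro j i
    have := (h1 j i).continuous.comp (continuous_const.mul (continuous_circleMap 0 1) :
      Continuous fun x => (r : ℂ) * ec x)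
    exact ((this.comp continuous_fst).sub (this.comp continuous_snd)).pow 2
  have hb : ∀ j (p : ℝ × ℝ), ∑ i, (m j i (r * ec p.1) - m j i (r * ec p.2)) ^ 2 ≤
      64 * L ^ 2 * ‖ec p.1 - ec p.2‖ ^ 2 := fun j p =>
    (h3 j _ _ (hn _) (hn _)).1.trans
      (mul_le_mul_of_nonneg_left (lim_dist hr0 hr1.le _ _) (by positivity))
  have t := lim_Wt_tendsto S hm hr0 hr1 hν
    (f := fun j p => ∑ i, (m j i (r * ec p.1) - m j i (r * ec p.2)) ^ 2)
    (g := fun p => ‖γ (ec p.1) - γ (ec p.2)‖ ^ 2)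
    (fun j => (continuous_finsetSum _ fun i _ => hc j i).measurable) (B := 64 * L ^ 2)
    (fun j p => by
      rw [abs_of_nonneg (Finset.sum_nonneg fun i _ => sq_nonneg _)]; exact hb j p)
    (by positivity) (fun p => by
      have := (tendsto_sub_nhds_zero_iff.1 (squeeze_zero_norm
        (fun j => (Real.norm_eq_abs _).trans_le (h3 j _ _ (hn p.1) (hn p.2)).2)
        tendsto_one_div_add_atTop_nhds_zero_nat)).pow 2
      rw [lim_div hr0, lim_div hr0] at this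
      exact this.congr fun j => Real.sq_sqrt (Finset.sum_nonneg fun i _ => sq_nonneg _))
  refine ge_of_tendsto' (t.const_add _) fun j => ?_
  have hd : ∀ i, BM fun z => dx (m j i) z ^ 2 + dy (m j i) z ^ 2 := fun i =>
    have h : ContDiff ℝ 1 (m j i) := (h1 j i).of_le (by norm_cast)
    (BM.dx_of_contDiff h).sq.add (BM.dy_of_contDiff h).sq
  have hd' : BM fun z => ∑ i, (dx (m j i) z ^ 2 + dy (m j i) z ^ 2) :=
    .of_continuous (continuous_finsetSum _ fun i _ => continuous_iff_continuousAt.2 fun z =>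
      ((differentiableAt_dx ((h1 j i).of_le (by norm_cast)).contDiffAt).continuousAt.pow 2).add
        ((differentiableAt_dy ((h1 j i).of_le (by norm_cast)).contDiffAt).continuousAt.pow 2))
  have a1 : ∀ i, 0 ≤ (∫ z in D \ ball 0 r, (dx (m j i) z ^ 2 + dy (m j i) z ^ 2) *
      ‖V z / deriv φ z‖ ^ 2) + ∫ p : ℝ × ℝ, Wt φ μ V r p *
        (m j i (r * ec p.1) - m j i (r * ec p.2)) ^ 2 ∂(mc.prod mc) := by
    intro i
    obtain ⟨M, hM⟩ := (isCompact_closedBall (0 : ℂ) 1).exists_bound_of_continuousOn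
      (h1 j i).continuous.continuousOn
    refine le_of_forall_pos_le_add fun ε hε => ?_
    obtain ⟨v, Φ, b1, b2, -⟩ := hB r hr0 hr1 (m j i) M (h1 j i) (fun z hz _ => hM z hz) ε hε
    exact (hG.EB_nonneg S hθ.le b1).trans b2
  have a2 := Finset.sum_nonneg fun i (_ : i ∈ Finset.univ) => a1 i
  rw [Finset.sum_add_distrib, ← integral_finsetSum, ← integral_finsetSum] at a2
  · simp only [← Finset.sum_mul, ← Finset.mul_sum] at a2
    linarith [lim_collar S bV hr hd' (h2 j)]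
  · intro i _
    refine lim_Wt_integrable S hm hr0 hr1 hν (hc j i).measurable (B := 64 * L ^ 2) (fun p => ?_)
      (by positivity)
    rw [abs_of_nonneg (sq_nonneg _)]
    exact (Finset.single_le_sum (f := fun i => (m j i (r * ec p.1) - m j i (r * ec p.2)) ^ 2)
      (fun i _ => sq_nonneg _) (Finset.mem_univ i)).trans (hb j p)
  · intro i _
    exact ((hd i).mul (S.bm_div_deriv bV).norm.sq).integrableOn.mono_set sdiff_subset

/-- Test pairs for a Lipschitz multiplier. -/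
lemma lim_single : ∃ B : ℝ, 0 ≤ B ∧ ∀ (b : ℂ → ℝ) (L M : ℝ), 0 ≤ L →
    (∀ s ∈ S1, ∀ t ∈ S1, ‖b s - b t‖ ≤ L * ‖s - t‖) → (∀ s ∈ S1, |b s| ≤ M) →
    ∀ r : ℝ, 1 / 2 < r → r < 1 → ∀ ε : ℝ, 0 < ε → ε ≤ 1 → ∃ (v Φ : ℂ → ℂ) (m : ℂ → ℝ),
      Adm φ v Φ ∧ EB μ v Φ v Φ ≤ 128 * L ^ 2 * col φ V r +
        (∫ p : ℝ × ℝ, Wt φ μ V r p * (b (ec p.1) - b (ec p.2)) ^ 2 ∂(mc.prod mc)) + 2 * ε ∧
      ∫ z in D, ‖v z‖ ^ 2 ≤ B * (M + 1) ^ 2 + 1 ∧ Continuous m ∧ (∀ s ∈ S1, |m s - b s| ≤ ε) ∧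
      ∀ K : ℂ → ℝ, ContDiff ℝ ∞ K →
        ell φ K v Φ = ∫ s, m (ec s) * K (ec s) * (ec s * V (ec s)).im ∂mc := by
  obtain ⟨B, hB0, hB⟩ := exists_test_pair S h₀ hm hP
  refine ⟨B, hB0, fun b L M hL hb hM r hr hr1 ε hε hε1 => ?_⟩
  have hr0 : 0 < r := by linarith
  have hν := hP r hr0 hr1.le
  have bV : BM V := .of_closedBall hm.contV
  have hδ : ∀ j : ℕ, (0 : ℝ) < 1 / ((j : ℝ) + 1) := fun j => by positivity
  choose m h1 h2 h3 h4 using fun j => exists_mollify hL hb (hδ j)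
  have hn : ∀ x, 1 / 2 ≤ ‖(r : ℂ) * ec x‖ := fun x => by rw [lim_norm hr0]; exact hr.le
  have hl : ∀ x, Tendsto (fun j => m j (r * ec x)) atTop (𝓝 (b (ec x))) := fun x => by
    have := tendsto_sub_nhds_zero_iff.1 (squeeze_zero_norm (fun j => h4 j _ (hn x))
      tendsto_one_div_add_atTop_nhds_zero_nat)
    rwa [lim_div hr0] at this
  have t := lim_Wt_tendsto S hm hr0 hr1 hν
    (f := fun j p => (m j (r * ec p.1) - m j (r * ec p.2)) ^ 2)
    (g := fun p => (b (ec p.1) - b (ec p.2)) ^ 2)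
    (fun j => by
      have := (h1 j).continuous.comp (continuous_const.mul (continuous_circleMap 0 1) :
        Continuous fun x => (r : ℂ) * ec x)
      exact (((this.comp continuous_fst).sub (this.comp continuous_snd)).pow 2).measurable)
    (B := (8 * L) ^ 2)
    (fun j p => by
      rw [abs_of_nonneg (sq_nonneg _), ← sq_abs]
      refine (pow_le_pow_left₀ (abs_nonneg _) (h2 j _ _ (hn p.1) (hn p.2)) 2).trans ?_
      rw [mul_pow]
      exact mul_le_mul_of_nonneg_left (lim_dist hr0 hr1.le _ _) (by positivity))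
    (by positivity) fun p => ((hl p.1).sub (hl p.2)).pow 2
  obtain ⟨j, hj1, hj2⟩ := ((t.eventually (gt_mem_nhds (lt_add_of_pos_right _ hε))).and
    (tendsto_one_div_add_atTop_nhds_zero_nat.eventually (gt_mem_nhds hε))).exists
  obtain ⟨v, Φ, b1, b2, b3, b4⟩ := hB r hr0 hr1 (m j) (M + 1) (h1 j) (fun z _ hz => by
    have hz0 : 0 < ‖z‖ := by linarith
    have a1 : |m j z - b (z / ‖z‖)| ≤ 1 := (h4 j z (by linarith)).trans (by linarith)
    have a2 := hM (z / ‖z‖) (by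
      rw [mem_sphere_zero_iff_norm, norm_div, norm_real, norm_norm, div_self hz0.ne'])
    have a3 := abs_sub_abs_le_abs_sub (m j z) (b (z / ‖z‖))
    linarith) ε hε
  refine ⟨v, Φ, m j, b1, ?_, by linarith, (h1 j).continuous, fun s hs => ?_, b4⟩
  · have h5 : ContDiff ℝ 1 (m j) := (h1 j).of_le (by norm_cast)
    have := lim_collar S bV hr ((BM.dx_of_contDiff h5).sq.add (BM.dy_of_contDiff h5).sq)
      (B := 128 * L ^ 2) fun z hz => by
        have a1 := pow_le_pow_left₀ (norm_nonneg _) ((norm_dx_le (m j) z).trans (h3 j z hz)) 2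
        have a2 := pow_le_pow_left₀ (norm_nonneg _) ((norm_dy_le (m j) z).trans (h3 j z hz)) 2
        rw [Real.norm_eq_abs, sq_abs] at a1 a2
        nlinarith
    linarith
  · have hs' := mem_sphere_zero_iff_norm.1 hs
    have := h4 j s (by rw [hs']; norm_num)
    rw [hs', ofReal_one, div_one] at this
    exact this.trans hj2.le

end

lemma lim_proj {H : Type*} [NormedAddCommGroup H] [InnerProductSpace ℝ H] (x u : H) :
    inner ℝ x u ^ 2 = ‖u‖ ^ 2 * (‖x‖ ^ 2 - ‖x - (inner ℝ x u / ‖u‖ ^ 2) • u‖ ^ 2) ∧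
      ‖x - (inner ℝ x u / ‖u‖ ^ 2) • u‖ ≤ ‖x‖ := by
  by_cases hu : u = 0
  · simp [hu]
  have h0 : 0 < ‖u‖ ^ 2 := by have := norm_pos_iff.2 hu; positivity
  have e : ‖x - (inner ℝ x u / ‖u‖ ^ 2) • u‖ ^ 2 = ‖x‖ ^ 2 - inner ℝ x u ^ 2 / ‖u‖ ^ 2 := by
    rw [norm_sub_sq_real, inner_smul_right, norm_smul, mul_pow, Real.norm_eq_abs, sq_abs]
    field_simp
    ring
  refine ⟨by rw [e]; field_simp; ring, ?_⟩
  refine le_of_sq_le_sq (by rw [e]; exact sub_le_self _ (by positivity)) (norm_nonneg _)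

section

variable (S : Setup φ μ c C) (hθ : θ < 1) (hG : Ground φ μ θ)
  {v₀ Φ₀ : ℂ → ℂ} (h₀ : ZeroMode φ μ v₀ Φ₀) {a : ℂ → ℝ} {V : ℂ → ℂ} (hm : Mode φ μ v₀ Φ₀ a V)
  (hP : ∀ r : ℝ, 0 < r → r ≤ 1 → Pot (nu φ μ r) A θ) (hV : V 0 = 0) {t : ℂ} (ht : t ∈ Db)
  (ht0 : t ≠ 0)
include S hθ hG h₀ hm hP hV ht ht0

lemma lim_step (N : ℝ) (hN0 : 0 ≤ N) : ∃ B M : ℝ, ∀ r : ℝ, 1 / 2 < r → r < 1 →
    dd (nu φ μ r) t 1 ≤ N ^ 2 → ∀ ε : ℝ, 0 < ε → ε ≤ 1 → ∃ (v Φ : ℂ → ℂ) (m : ℂ → ℝ),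
      Adm φ v Φ ∧ EB μ v Φ v Φ ≤ B * col φ V r + 2 * ε ∧ ∫ z in D, ‖v z‖ ^ 2 ≤ B ∧
      Continuous m ∧ (∀ s ∈ S1, |m s - (dd (nu φ μ r) s 1 - dd (nu φ μ r) s t)| ≤ ε ∧
        |m s| ≤ M) ∧ ∀ K : ℂ → ℝ, ContDiff ℝ ∞ K →
        ell φ K v Φ = ∫ s, m (ec s) * K (ec s) * (ec s * V (ec s)).im ∂mc := by
  obtain ⟨B, hB0, hB⟩ := lim_single S h₀ hm hP
  obtain ⟨L, hL0, hL⟩ := exists_circle_bound A θ
  refine ⟨max (128 * (2 * L * N) ^ 2 + 4 * N ^ 2 * (128 * L ^ 2))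
    (B * (4 * L * N + N ^ 2 + 1) ^ 2 + 1), 4 * L * N + N ^ 2 + 1, fun r hr hr1 hN ε hε hε1 => ?_⟩
  have hr0 : 0 < r := by linarith
  have hν := hP r hr0 hr1.le
  set ν := nu φ μ r with hνd
  obtain ⟨H, _, _, β, hβ⟩ := (lorentz hν).exists_embedding
    (fun p hp q hq => dd_symm hν hp.1 hq.1) fun p _ => by simp [dd]
  have hS : ∀ s ∈ S1, s ∈ Db \ {0} := fun s hs => ⟨sphere_subset_closedBall hs, fun h => by
    rw [mem_singleton_iff.1 h] at hs; simp at hs⟩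
  have h1 : (1 : ℂ) ∈ S1 := by simp
  have ht' : t ∈ Db \ {0} := ⟨ht, ht0⟩
  have hlip : ∀ s ∈ S1, ∀ s' ∈ S1, ‖β s - β s'‖ ≤ L * ‖s - s'‖ := fun s hs s' hs' =>
    le_of_sq_le_sq (by rw [hβ s (hS s hs) s' (hS s' hs'), mul_pow]; exact (hL _ hν s hs s' hs').2.2)
      (by positivity)
  set u := β t - β 1 with hu
  have hu1 : ‖u‖ ≤ N := le_of_sq_le_sq (by rw [hβ t ht' 1 (hS 1 h1)]; exact hN) hN0
  set b : ℂ → ℝ := fun s => dd ν s 1 - dd ν s t with hb
  have e1 : ∀ s ∈ S1, b s = 2 * inner ℝ (β s - β 1) u - ‖u‖ ^ 2 := fun s hs => by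
    have : β s - β t = (β s - β 1) - u := by rw [hu]; abel
    simp only [hb]
    rw [← hβ s (hS s hs) 1 (hS 1 h1), ← hβ s (hS s hs) t ht', this, norm_sub_sq_real (β s - β 1)]
    ring
  have e2 : ∀ s ∈ S1, ∀ s' ∈ S1, b s - b s' = 2 * inner ℝ (β s - β s') u := fun s hs s' hs' => by
    rw [e1 s hs, e1 s' hs']
    simp only [inner_sub_left]
    ring
  have e3 : ∀ s ∈ S1, ∀ s' ∈ S1, |inner ℝ (β s - β s') u| ≤ L * ‖s - s'‖ * N := fun s hs s' hs' =>
    (abs_real_inner_le_norm _ _).trans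
      (mul_le_mul (hlip s hs s' hs') hu1 (norm_nonneg _) (by positivity))
  have hbl : ∀ s ∈ S1, ∀ s' ∈ S1, ‖b s - b s'‖ ≤ 2 * L * N * ‖s - s'‖ := fun s hs s' hs' => by
    rw [e2 s hs s' hs', Real.norm_eq_abs, abs_mul, abs_two]
    linarith [e3 s hs s' hs']
  have hbM : ∀ s ∈ S1, |b s| ≤ 4 * L * N + N ^ 2 := fun s hs => by
    rw [e1 s hs]
    refine (abs_sub _ _).trans ?_
    rw [abs_mul, abs_two, abs_of_nonneg (sq_nonneg ‖u‖)]
    have a1 := e3 s hs 1 h1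
    have a2 : ‖s - 1‖ ≤ 2 := (norm_sub_le _ _).trans (by
      rw [mem_sphere_zero_iff_norm.1 hs, norm_one]; norm_num)
    have a3 : L * ‖s - 1‖ * N ≤ L * 2 * N := by gcongr
    have a4 := pow_le_pow_left₀ (norm_nonneg _) hu1 2
    linarith
  obtain ⟨v, Φ, m, b1, b2, b3, b4, b5, b6⟩ :=
    hB b (2 * L * N) _ (by positivity) hbl hbM r hr hr1 ε hε hε1
  refine ⟨v, Φ, m, b1, b2.trans ?_, b3.trans (le_max_right _ _), b4, fun s hs => ⟨b5 s hs, ?_⟩, b6⟩
  · set γ : ℂ → H := fun s => β s - (inner ℝ (β s) u / ‖u‖ ^ 2) • u with hγ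
    have e4 : ∀ s s', γ s - γ s' =
        (β s - β s') - (inner ℝ (β s - β s') u / ‖u‖ ^ 2) • u := fun s s' => by
      simp only [hγ, inner_sub_left, sub_div, sub_smul]; abel
    have hγl : ∀ s ∈ S1, ∀ s' ∈ S1, ‖γ s - γ s'‖ ≤ L * ‖s - s'‖ := fun s hs s' hs' => by
      rw [e4]; exact (lim_proj _ _).2.trans (hlip s hs s' hs')
    have p1 := lim_pos S hθ hG h₀ hm hP hL0 hγl hr hr1
    have p2 := lim_Wt_dd S hm hr0 hr1 hν hV
    have hi : ∀ {g : ℂ → H}, (∀ s ∈ S1, ∀ s' ∈ S1, ‖g s - g s'‖ ≤ L * ‖s - s'‖) →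
        Integrable (fun p : ℝ × ℝ => Wt φ μ V r p * ‖g (ec p.1) - g (ec p.2)‖ ^ 2) (mc.prod mc) := by
      intro g hg
      have hc := lim_cont hg
      refine lim_Wt_integrable S hm hr0 hr1 hν
        (((hc.comp continuous_fst).sub (hc.comp continuous_snd)).norm.pow 2).measurable
        (B := L ^ 2) (fun p => ?_) (by positivity)
      rw [abs_of_nonneg (sq_nonneg _), ← mul_pow]
      exact pow_le_pow_left₀ (norm_nonneg _) (hg _ (ec_mem _) _ (ec_mem _)) 2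
    have p3 : ∫ p : ℝ × ℝ, Wt φ μ V r p * (b (ec p.1) - b (ec p.2)) ^ 2 ∂(mc.prod mc) =
        4 * ‖u‖ ^ 2 * ((∫ p : ℝ × ℝ, Wt φ μ V r p * ‖β (ec p.1) - β (ec p.2)‖ ^ 2 ∂(mc.prod mc)) -
          ∫ p : ℝ × ℝ, Wt φ μ V r p * ‖γ (ec p.1) - γ (ec p.2)‖ ^ 2 ∂(mc.prod mc)) := by
      rw [← integral_sub (hi hlip) (hi hγl), ← integral_const_mul]
      refine integral_congr_ae (Eventually.of_forall fun p => ?_)
      simp only
      rw [e2 _ (ec_mem _) _ (ec_mem _), mul_pow, (lim_proj _ _).1, e4]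
      ring
    simp only [hβ _ (hS _ (ec_mem _)) _ (hS _ (ec_mem _))] at p3
    rw [p3, p2]
    have c0 := col_nonneg φ V r
    have a4 := pow_le_pow_left₀ (norm_nonneg _) hu1 2
    have a5 : 4 * ‖u‖ ^ 2 * (0 - ∫ p : ℝ × ℝ, Wt φ μ V r p * ‖γ (ec p.1) - γ (ec p.2)‖ ^ 2
        ∂(mc.prod mc)) ≤ 4 * N ^ 2 * (128 * L ^ 2 * col φ V r) :=
      (mul_le_mul_of_nonneg_left (by linarith) (by positivity)).trans
        (mul_le_mul_of_nonneg_right (by linarith) (by positivity))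
    have a6 := mul_le_mul_of_nonneg_right (le_max_left (128 * (2 * L * N) ^ 2 +
      4 * N ^ 2 * (128 * L ^ 2)) (B * (4 * L * N + N ^ 2 + 1) ^ 2 + 1)) c0
    linarith
  · have a1 := b5 s hs
    have a2 := hbM s hs
    have a3 := abs_sub_abs_le_abs_sub (m s) (b s)
    linarith

end

theorem exists_zeroMode_point (S : Setup φ μ c C) (hθ : θ < 1) (hG : Ground φ μ θ)
    {v₀ Φ₀ : ℂ → ℂ} (h₀ : ZeroMode φ μ v₀ Φ₀) {a : ℂ → ℝ} {V : ℂ → ℂ} (hm : Mode φ μ v₀ Φ₀ a V)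
    (hP : ∀ r : ℝ, 0 < r → r ≤ 1 → Pot (nu φ μ r) A θ) (hV : V 0 = 0) {t : ℂ} (ht : t ∈ Db)
    (ht0 : t ≠ 0) : ∃ v Φ : ℂ → ℂ, ZeroMode φ μ v Φ ∧ ∀ K : ℂ → ℝ, ContDiff ℝ ∞ K →
      ell φ K v Φ = ∫ s, (dd (nu φ μ 1) (ec s) 1 - dd (nu φ μ 1) (ec s) t) * K (ec s) *
        (ec s * V (ec s)).im ∂mc := by
  have hμ := S.mu_pos
  have bV : BM V := .of_closedBall hm.contV
  set ε : ℕ → ℝ := fun j => 1 / ((j : ℝ) + 1) with hε
  have hε0 : ∀ j, 0 < ε j := fun j => by positivity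
  have hε1 : ∀ j, ε j ≤ 1 := fun j => by
    rw [hε, div_le_one (by positivity)]; linarith [Nat.cast_nonneg (α := ℝ) j]
  have hεt : Tendsto ε atTop (𝓝 0) := tendsto_one_div_add_atTop_nhds_zero_nat
  set r : ℕ → ℝ := fun j => 1 - ε j / 4 with hr
  have hr1 : ∀ j, 1 / 2 < r j := fun j => by simp only [hr]; linarith [hε1 j]
  have hr2 : ∀ j, r j < 1 := fun j => by simp only [hr]; linarith [hε0 j]
  have hr0 : ∀ j, 0 < r j := fun j => by linarith [hr1 j]
  have hrt : Tendsto r atTop (𝓝 1) := by simpa using (hεt.div_const 4).const_sub 1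
  have hrt' : Tendsto r atTop (𝓝[<] 1) :=
    tendsto_nhdsWithin_iff.2 ⟨hrt, Eventually.of_forall hr2⟩
  have hνt : ∀ z ∈ D, Tendsto (fun j => nu φ μ (r j) z) atTop (𝓝 (nu φ μ 1 z)) := fun z hz => by
    simp only [nu_of_mem _ _ _ hz]
    refine ((hrt.pow 2).mul_const μ).mul (ContinuousAt.tendsto ?_ |>.comp
      (((continuous_ofReal.tendsto 1).comp hrt).mul_const z))
    exact S.continuousAt_rho (by simpa using hz)
  have hdt : ∀ {p q : ℂ}, p ∈ Db → q ∈ Db → p ≠ 0 → q ≠ 0 →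
      Tendsto (fun j => dd (nu φ μ (r j)) p q) atTop (𝓝 (dd (nu φ μ 1) p q)) :=
    fun hp hq hp0 hq0 => dd_tendsto (fun j => hP _ (hr0 j) (hr2 j).le) (hP 1 one_pos le_rfl) hνt
      hp hq hp0 hq0
  obtain ⟨N, hN⟩ := (hdt ht (by simp) ht0 one_ne_zero).bddAbove_range
  obtain ⟨B, M, hB⟩ := lim_step S hθ hG h₀ hm hP hV ht ht0 (|N| + 1) (by positivity)
  choose v Φ m h1 h2 h3 h4 h5 h6 using fun j => hB (r j) (hr1 j) (hr2 j)
    ((hN (mem_range_self j)).trans (by nlinarith [le_abs_self N, abs_nonneg N])) (ε j) (hε0 j)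
    (hε1 j)
  have hEt : Tendsto (fun j => B * col φ V (r j) + 2 * ε j) atTop (𝓝 0) := by
    simpa using (((tendsto_col S bV).comp hrt').const_mul B).add (hεt.const_mul 2)
  obtain ⟨E, hE⟩ := hEt.bddAbove_range
  have h7 : ∀ j, ∫ z in D, ‖Φ j z‖ ^ 2 ≤ E + μ * B := fun j => by
    have a1 := (h2 j).trans (hE (mem_range_self j))
    simp only [EB, mul_conj_re_self] at a1
    have a2 := mul_le_mul_of_nonneg_left (h3 j) hμ.le
    linarith
  set 𝒰 : Ultrafilter ℕ := Ultrafilter.of atTop with h𝒰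
  have hle : (𝒰 : Filter ℕ) ≤ atTop := Ultrafilter.of_le _
  obtain ⟨w, hw, hwt⟩ := exists_weak_limit (fun j => (h1 j).l2v) h3 𝒰
  obtain ⟨Ψ, hΨ, hΨt⟩ := exists_weak_limit (fun j => (h1 j).l2F) h7 𝒰
  have hre : ∀ {f : ℕ → ℂ → ℂ} {g h : ℂ → ℂ}, (∀ j, MemLp (f j) 2 (volume.restrict D)) →
      MemLp g 2 (volume.restrict D) → MemLp h 2 (volume.restrict D) →
      Tendsto (fun j => ∫ z in D, f j z * conj (h z)) 𝒰 (𝓝 (∫ z in D, g z * conj (h z))) →
      Tendsto (fun j => ∫ z in D, (f j z * conj (h z)).re) 𝒰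
        (𝓝 (∫ z in D, (g z * conj (h z)).re)) := by
    intro f g h hf hg hh hl
    have e : ∀ {k : ℂ → ℂ}, MemLp k 2 (volume.restrict D) →
        ∫ z in D, (k z * conj (h z)).re = (∫ z in D, k z * conj (h z)).re := fun hk =>
      integral_re (integrableOn_mul_of_memLp hk (memLp_conj hh))
    simp only [e (hf _), e hg]
    exact (continuous_re.tendsto _).comp hl
  have hpair : ∀ {f U : ℂ → ℂ}, MemLp f 2 (volume.restrict D) → MemLp U 2 (volume.restrict D) →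
      Tendsto (fun j => ∫ z in D, (v j z * conj (f z) + deriv φ z * Φ j z * conj (U z)).re) 𝒰
        (𝓝 (∫ z in D, (w z * conj (f z) + deriv φ z * Ψ z * conj (U z)).re)) := by
    intro f U hf hU
    have hU' := S.bm_deriv.conj.mul_memLp hU
    have e : ∀ {k l : ℂ → ℂ}, MemLp k 2 (volume.restrict D) → MemLp l 2 (volume.restrict D) →
        ∫ z in D, (k z * conj (f z) + deriv φ z * l z * conj (U z)).re =
          (∫ z in D, (k z * conj (f z)).re) +
            ∫ z in D, (l z * conj (conj (deriv φ z) * U z)).re := fun hk hl => by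
      rw [← integral_add (integrableOn_mul_conj_re hk hf) (integrableOn_mul_conj_re hl hU')]
      refine integral_congr_ae (Eventually.of_forall fun z => ?_)
      simp only [← add_re, map_mul, conj_conj]
      congr 1; ring
    simp only [e (h1 _).l2v (h1 _).l2F, e hw hΨ]
    exact (hre (fun j => (h1 j).l2v) hw hf (hwt _ hf)).add
      (hre (fun j => (h1 j).l2F) hΨ hU' (hΨt _ hU'))
  refine ⟨w, Ψ, ⟨⟨hw, hΨ, fun U hU => ?_⟩, fun v' Φ' h' => ?_⟩, fun K hK => ?_⟩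
  · have := hpair hU.memLp_dD hU.memLp
    simp only [(h1 _).eq U hU] at this
    exact tendsto_nhds_unique this tendsto_const_nhds
  · have t1 : Tendsto (fun j => EB μ (v j) (Φ j) v' Φ') 𝒰 (𝓝 (EB μ w Ψ v' Φ')) :=
      (hre (fun j => (h1 j).l2F) hΨ h'.l2F (hΨt _ h'.l2F)).sub
        ((hre (fun j => (h1 j).l2v) hw h'.l2v (hwt _ h'.l2v)).const_mul μ)
    have t2 := (hEt.mul_const (EB μ v' Φ' v' Φ')).mono_left hle
    rw [zero_mul] at t2
    have := le_of_tendsto_of_tendsto' (t1.pow 2) t2 fun j =>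
      (hG.EB_sq_le S hθ.le (h1 j) h').trans
        (mul_le_mul_of_nonneg_right (h2 j) (hG.EB_nonneg S hθ.le h'))
    exact pow_eq_zero_iff two_ne_zero |>.1 (le_antisymm this (sq_nonneg _))
  · have hU : ContDiff ℝ 1 fun w => I * (K w : ℂ) :=
      contDiff_const.mul (ofRealCLM.contDiff.comp (hK.of_le (by norm_cast)))
    have t1 : Tendsto (fun j => ell φ K (v j) (Φ j)) 𝒰 (𝓝 (ell φ K w Ψ)) :=
      hpair (BM.dD_of_contDiff hU).memLp (BM.of_continuous hU.continuous).memLp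
    simp only [h6 _ K hK] at t1
    refine tendsto_nhds_unique t1 (Tendsto.mono_left ?_ hle)
    have hec := continuous_circleMap 0 1
    have hg : Continuous fun s => K (ec s) * (ec s * V (ec s)).im :=
      (hK.continuous.comp hec).mul (continuous_im.comp (hec.mul
        (hm.contV.comp_continuous hec fun s => sphere_subset_closedBall (ec_mem s))))
    simp only [mul_assoc]
    refine tendsto_integral_of_dominated_convergence
      (fun s => M * ‖K (ec s) * (ec s * V (ec s)).im‖)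
      (fun j => (((h4 j).comp hec).mul hg).aestronglyMeasurable)
      ((hg.norm.integrableOn_Icc.mono_set Ioc_subset_Icc_self).const_mul M)
      (fun j => Eventually.of_forall fun s => ?_) (Eventually.of_forall fun s => ?_)
    · rw [norm_mul]
      exact mul_le_mul_of_nonneg_right (h5 j _ (ec_mem s)).2 (norm_nonneg _)
    · refine Tendsto.mul_const _ ?_
      have hs := sphere_subset_closedBall (ec_mem s)
      have hs0 : ec s ≠ 0 := circleMap_ne_center one_ne_zero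
      have t2 := (hdt hs (by simp) hs0 one_ne_zero).sub (hdt hs ht hs0 ht0)
      have t3 := squeeze_zero_norm (fun j => (Real.norm_eq_abs _).trans_le (h5 j _ (ec_mem s)).1) hεt
      simpa using t3.add t2

end Vale.Agent.P071
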