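import Vale.Agent.P071.RegT

/-!
# Zero modes: regularity up to the boundary
-/

open Complex Metric Set Filter Topology MeasureTheory
open scoped ContDiff ComplexConjugate Real

namespace Vale.Agent.P071

variable {φ : ℂ → ℂ} {μ c C θ : ℝ}

lemma reg_two_le : (2 : WithTop ℕ∞) ≤ ∞ := WithTop.coe_le_coe.2 le_top

lemma reg_ground (hG : Ground φ μ θ) {v Φ : ℂ → ℂ} (h : Adm φ v Φ) :
    μ * ∫ z in D, ‖v z‖ ^ 2 ≤ (∫ z in D, (deriv φ z * Φ z).re ^ 2 / rho φ z) +
      θ * ∫ z in D, (deriv φ z * Φ z).im ^ 2 / rho φ z :=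
  hG v Φ h.l2v h.l2F fun U hU h0 => h.eq U (UC.of_contDiff (hU.of_le reg_two_le) h0)

lemma reg_mean {v Φ : ℂ → ℂ} (h : Adm φ v Φ) : ∫ z in D, (deriv φ z * Φ z).re = 0 := by
  have := h.eq (fun _ => 1) (UC.of_contDiff contDiff_const (by simp))
  simpa only [dD_const, map_zero, map_one, mul_zero, mul_one, zero_add] using this

lemma reg_rho_pos (S : Setup φ μ c C) {z : ℂ} (hz : z ∈ D) : 0 < rho φ z :=
  pow_pos (S.c_pos.trans_le (S.lower z hz)) 2

lemma reg_meas_rho : Measurable (rho φ) := (measurable_deriv φ).norm.pow_const 2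

lemma reg_re_mul_conj (w : ℂ) : (w * conj w).re = ‖w‖ ^ 2 := by
  rw [mul_conj, ofReal_re, normSq_eq_norm_sq]

lemma reg_memLp_mul (S : Setup φ μ c C) {Φ : ℂ → ℂ} (h : MemLp Φ 2 mD) :
    MemLp (fun z => deriv φ z * Φ z) 2 mD := by
  refine (h.norm.const_mul C).mono' ((measurable_deriv φ).aestronglyMeasurable.mul h.1)
    (regT_ae_mem.mono fun z hz => ?_)
  rw [norm_mul]
  exact mul_le_mul_of_nonneg_right (S.upper z hz) (norm_nonneg _)

lemma reg_im_zero (S : Setup φ μ c C) (hθ : θ < 1) (hG : Ground φ μ θ) {v Φ : ℂ → ℂ}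
    (h : ZeroMode φ μ v Φ) : ∀ᵐ z ∂mD, (deriv φ z * Φ z).im = 0 := by
  have h1 := h.zero v Φ h.adm
  have h2 := reg_ground hG h.adm
  simp only [EB, reg_re_mul_conj] at h1
  have hF := (reg_memLp_mul S h.adm.l2F).1
  have hΦ : Integrable (fun z => ‖Φ z‖ ^ 2) mD :=
    (memLp_two_iff_integrable_sq_norm h.adm.l2F.1).1 h.adm.l2F
  have e : ∀ z ∈ D, ‖Φ z‖ ^ 2 =
      (deriv φ z * Φ z).re ^ 2 / rho φ z + (deriv φ z * Φ z).im ^ 2 / rho φ z := by
    intro z hz
    have := reg_rho_pos S hz
    rw [← add_div, eq_div_iff this.ne', rho, ← mul_pow, mul_comm, ← norm_mul, Complex.sq_norm,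
      normSq_apply]
    ring
  have n1 : ∀ z ∈ D, 0 ≤ (deriv φ z * Φ z).re ^ 2 / rho φ z := fun z hz =>
    div_nonneg (sq_nonneg _) (reg_rho_pos S hz).le
  have n2 : ∀ z ∈ D, 0 ≤ (deriv φ z * Φ z).im ^ 2 / rho φ z := fun z hz =>
    div_nonneg (sq_nonneg _) (reg_rho_pos S hz).le
  have i1 : Integrable (fun z => (deriv φ z * Φ z).re ^ 2 / rho φ z) mD := by
    refine hΦ.mono' (((continuous_re.measurable.comp_aemeasurable hF.aemeasurable).pow_const 2).div
      reg_meas_rho.aemeasurable).aestronglyMeasurable (regT_ae_mem.mono fun z hz => ?_)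
    rw [Real.norm_of_nonneg (n1 z hz), e z hz]
    linarith [n2 z hz]
  have i2 : Integrable (fun z => (deriv φ z * Φ z).im ^ 2 / rho φ z) mD := by
    refine hΦ.mono' (((continuous_im.measurable.comp_aemeasurable hF.aemeasurable).pow_const 2).div
      reg_meas_rho.aemeasurable).aestronglyMeasurable (regT_ae_mem.mono fun z hz => ?_)
    rw [Real.norm_of_nonneg (n2 z hz), e z hz]
    linarith [n1 z hz]
  rw [integral_congr_ae (regT_ae_mem.mono e), integral_add i1 i2] at h1
  have h3 : 0 ≤ ∫ z in D, (deriv φ z * Φ z).im ^ 2 / rho φ z :=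
    integral_nonneg_of_ae (regT_ae_mem.mono n2)
  have h4 : ∫ z in D, (deriv φ z * Φ z).im ^ 2 / rho φ z = 0 := by nlinarith
  rw [integral_eq_zero_iff_of_nonneg_ae (regT_ae_mem.mono n2) i2] at h4
  filter_upwards [h4, regT_ae_mem] with z k1 hz
  have k2 : (deriv φ z * Φ z).im ^ 2 / rho φ z = 0 := k1
  rw [div_eq_zero_iff] at k2
  exact pow_eq_zero_iff two_ne_zero |>.1 (k2.resolve_right (reg_rho_pos S hz).ne')

lemma reg_eq_TT (S : Setup φ μ c C) (hG : Ground φ μ θ) {v Φ : ℂ → ℂ} (h : Adm φ v Φ) :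
    ∀ᵐ z ∂mD, v z = TT (fun w => deriv φ w * Φ w) z := by
  have h1 := Adm.add S h ((adm_TT S (reg_memLp_mul S h.l2F) (reg_mean h)).smul (-1))
  have h2 := reg_ground hG h1
  have e : ∀ z ∈ D, deriv φ z * (Φ z + ((-1 : ℝ) : ℂ) * (deriv φ z * Φ z / deriv φ z)) = 0 := by
    intro z hz
    have := regT_deriv_ne S hz
    push_cast
    field_simp
    ring
  have e1 : ∫ z in D, (deriv φ z * (Φ z + ((-1 : ℝ) : ℂ) * (deriv φ z * Φ z / deriv φ z))).re ^ 2 /
      rho φ z = 0 := integral_eq_zero_of_ae (regT_ae_mem.mono fun z hz => by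
        simp only [e z hz]; simp)
  have e2 : ∫ z in D, (deriv φ z * (Φ z + ((-1 : ℝ) : ℂ) * (deriv φ z * Φ z / deriv φ z))).im ^ 2 /
      rho φ z = 0 := integral_eq_zero_of_ae (regT_ae_mem.mono fun z hz => by
        simp only [e z hz]; simp)
  rw [e1, e2, mul_zero, add_zero] at h2
  have h3 := le_antisymm (nonpos_of_mul_nonpos_right h2 S.mu_pos)
    (integral_nonneg fun z => sq_nonneg _)
  rw [integral_eq_zero_iff_of_nonneg (fun z => sq_nonneg _)
    ((memLp_two_iff_integrable_sq_norm h1.l2v.1).1 h1.l2v)] at h3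
  filter_upwards [h3] with z k1
  have k2 : ‖v z + ((-1 : ℝ) : ℂ) * TT (fun w => deriv φ w * Φ w) z‖ ^ 2 = 0 := k1
  rw [pow_eq_zero_iff two_ne_zero, norm_eq_zero] at k2
  push_cast at k2
  linear_combination k2

lemma reg_tsupport_dD (U : ℂ → ℂ) : tsupport (dD U) ⊆ tsupport U := by
  refine (closure_mono fun z hz => ?_).trans (tsupport_fderiv_subset ℝ)
  intro h
  apply hz
  simp [dD, dx, dy, h]

lemma reg_contDiff_mul {a η : ℂ → ℂ} (ha : ContDiffOn ℝ 1 a D) (hη : ContDiff ℝ 1 η)
    (hs : tsupport η ⊆ D) : ContDiff ℝ 1 fun z => a z * η z := by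
  refine contDiff_iff_contDiffAt.2 fun z => ?_
  by_cases hz : z ∈ tsupport η
  · exact (ha.contDiffAt (isOpen_ball.mem_nhds (hs hz))).mul hη.contDiffAt
  · refine (contDiffAt_const (c := (0 : ℂ))).congr_of_eventuallyEq ?_
    filter_upwards [notMem_tsupport_iff_eventuallyEq.1 hz] with w hw
    rw [hw, Pi.zero_apply, mul_zero]

lemma reg_int_cont {g : ℂ → ℂ} (hg : Continuous g) : Integrable g mD :=
  (hg.continuousOn.integrableOn_compact (isCompact_closedBall (0 : ℂ) 1)).mono_set
    ball_subset_closedBall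

lemma reg_memLp_cont {g : ℂ → ℂ} (hg : Continuous g) : MemLp g 2 mD := by
  obtain ⟨K, hK⟩ := (isCompact_closedBall (0 : ℂ) 1).exists_bound_of_continuousOn hg.continuousOn
  exact MemLp.of_bound hg.aestronglyMeasurable K (regT_ae_mem.mono fun z hz => hK z (regT_D_sub hz))

/-- Identification of the weak gradient. -/
lemma reg_grad (S : Setup φ μ c C) {a : ℂ → ℝ} {v : ℂ → ℂ} (ha : ContDiffOn ℝ ∞ a D)
    (haL : MemLp a 2 mD) (hv : MemLp v 2 mD)
    (h : ∀ η : ℂ → ℂ, ContDiff ℝ ∞ η → tsupport η ⊆ D →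
      ∫ z in D, a z * (dB η z).re = -∫ z in D, (v z * conj (η z)).re) :
    ∀ᵐ z ∂mD, v z = dD (fun w => (a w : ℂ)) z := by
  have ha' : ∀ z ∈ D, ContDiffAt ℝ ∞ a z := fun z hz => ha.contDiffAt (isOpen_ball.mem_nhds hz)
  have haC : ContDiffOn ℝ 1 (fun w => (a w : ℂ)) D := fun z hz =>
    (contDiffAt_ofReal' ((ha' z hz).of_le (by simp))).contDiffWithinAt
  have hDc : ContinuousOn (dD fun w => (a w : ℂ)) D := fun z hz =>
    (contDiffAt_dD (m := 0) (contDiffAt_ofReal' (ha' z hz)) (by simp)).continuousAt.continuousWithinAt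
  have key : ∀ η : ℂ → ℂ, ContDiff ℝ ∞ η → tsupport η ⊆ D →
      ∫ z in D, ((v z - dD (fun w => (a w : ℂ)) z) * conj (η z)).re = 0 := by
    intro η hη hs
    have hη1 : ContDiff ℝ 1 η := hη.of_le (by simp)
    have hW := reg_contDiff_mul haC hη1 hs
    have hWs : tsupport (fun z => (a z : ℂ) * η z) ⊆ D := tsupport_mul_subset_right.trans hs
    have h1 := reg_mean (adm_of_compactSupport S hW hWs)
    have hdB : Continuous (dB η) :=
      continuous_iff_continuousAt.2 fun z => (contDiffAt_dB (m := 0) hη1.contDiffAt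
        (by simp)).continuousAt
    have hdW : Continuous (dB fun z => (a z : ℂ) * η z) :=
      continuous_iff_continuousAt.2 fun z => (contDiffAt_dB (m := 0) hW.contDiffAt
        (by simp)).continuousAt
    have i1 : Integrable (fun z => a z * (dB η z).re) mD :=
      haL.integrable_mul (reg_memLp_cont hdB).re
    have i2 := regT_int_re_mul hv (reg_memLp_cont hη.continuous)
    have i3 : Integrable (fun z => (dB (fun z => (a z : ℂ) * η z) z).re) mD := (reg_int_cont hdW).re
    have e1 : (fun z => (deriv φ z * (dB (fun z => (a z : ℂ) * η z) z / deriv φ z)).re) =ᵐ[mD]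
        fun z => (dB (fun z => (a z : ℂ) * η z) z).re := regT_ae_mem.mono fun z hz => by
      simp only [mul_div_cancel₀ _ (regT_deriv_ne S hz)]
    rw [integral_congr_ae e1] at h1
    have e2 : (fun z => ((v z - dD (fun w => (a w : ℂ)) z) * conj (η z)).re) =ᵐ[mD] fun z =>
        (v z * conj (η z)).re + a z * (dB η z).re - (dB (fun z => (a z : ℂ) * η z) z).re := by
      filter_upwards [regT_ae_mem] with z hz
      have d1 : DifferentiableAt ℝ a z := (ha' z hz).differentiableAt (by simp)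
      rw [dB_mul (differentiableAt_ofReal' d1) (hη1.differentiable one_ne_zero z),
        dB_ofReal_eq_conj d1, add_re, re_ofReal_mul, sub_mul, sub_re,
        ← conj_re (conj (dD (fun w => (a w : ℂ)) z) * η z), map_mul, conj_conj]
      ring
    have i4 : Integrable (fun z => (v z * conj (η z)).re + a z * (dB η z).re) mD := i2.add i1
    rw [integral_congr_ae e2, integral_sub i4 i3, integral_add i2 i1, h η hη hs, h1]
    ring
  have hloc : LocallyIntegrableOn (fun z => v z - dD (fun w => (a w : ℂ)) z) D mD :=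
    ((hv.integrable one_le_two).locallyIntegrable.locallyIntegrableOn D).sub
      (hDc.locallyIntegrableOn measurableSet_ball)
  have main : ∀ u : ℂ, ∀ᵐ z ∂mD, z ∈ D → ((v z - dD (fun w => (a w : ℂ)) z) * conj u).re = 0 := by
    intro u
    refine isOpen_ball.ae_eq_zero_of_integral_contDiff_smul_eq_zero ?_ fun g hg _ hs => ?_
    · intro x hx
      obtain ⟨s, hs, hi⟩ := hloc x hx
      exact ⟨s, hs, (hi.mul_const (conj u)).re⟩
    · rw [← key (fun z => g z * u) ((ofRealCLM.contDiff.comp hg).mul contDiff_const)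
        (tsupport_mul_subset_left.trans ((closure_mono fun z hz => ?_).trans hs))]
      · refine integral_congr_ae (Eventually.of_forall fun z => ?_)
        simp only [smul_eq_mul, map_mul, conj_ofReal]
        rw [← re_ofReal_mul]
        congr 1
        ring
      · simpa using hz
  filter_upwards [main 1, main I, regT_ae_mem] with z k1 k2 hz
  have k3 := k1 hz
  have k4 := k2 hz
  rw [← sub_eq_zero]
  apply Complex.ext
  · simpa using k3
  · simpa using k4

/-- A pointwise bound from a dual estimate. -/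
lemma reg_bound {a : ℂ → ℝ} {L : ℝ} (ha : ContinuousOn a D) (haL : MemLp a 2 mD)
    (h : ∀ g : ℂ → ℝ, MemLp g 2 mD → ∫ z in D, g z = 0 →
      |∫ z in D, a z * g z| ≤ L * ∫ z in D, |g z|) (hL : 0 ≤ L) :
    ∃ K, ∀ x ∈ D, |a x| ≤ K := by
  set V : ℝ := mD.real univ with hV
  have hV0 : 0 < V := regT_vol_pos
  have hai : Integrable a mD := haL.integrable one_le_two
  refine ⟨|∫ z in D, a z| / V + 2 * L, fun x hx => ?_⟩
  have l1 := tendsto_peak hx hai (ha.continuousAt (isOpen_ball.mem_nhds hx))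
  have l2 := tendsto_peak (F := fun _ => (1 : ℝ)) hx (integrable_const _) continuousAt_const
  simp only [smul_eq_mul, mul_one] at l1 l2
  have l3 := l2.const_mul (|∫ z in D, a z| / V + 2 * L)
  rw [mul_one] at l3
  refine le_of_tendsto_of_tendsto l1.abs l3 ?_
  filter_upwards [self_mem_nhdsWithin] with ε hε
  have hε' : 0 < ε := hε
  set p : ℂ → ℝ := fun y => ε / (π * (‖y - x‖ ^ 2 + ε) ^ 2) with hp
  have hp0 : ∀ y, 0 ≤ p y := fun y => by positivity
  have hpL : MemLp p 2 mD := by
    refine MemLp.of_bound (by fun_prop : Measurable _).aestronglyMeasurable (ε / (π * ε ^ 2))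
      (Eventually.of_forall fun y => ?_)
    rw [Real.norm_of_nonneg (hp0 y), hp]
    simp only
    gcongr
    exact le_add_of_nonneg_left (by positivity)
  have hpi : Integrable p mD := hpL.integrable one_le_two
  set P : ℝ := ∫ y in D, p y with hP
  have hP0 : 0 ≤ P := integral_nonneg hp0
  have hc : ∫ _ in D, P / V = P := by
    rw [integral_const, smul_eq_mul, ← hV]
    field_simp
  have k1 := h (fun y => p y - P / V) (hpL.sub (memLp_const _))
    (by rw [integral_sub hpi (integrable_const _), hc, sub_self])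
  have k2 : ∫ z in D, |p z - P / V| ≤ 2 * P := by
    have : ∫ z in D, |p z - P / V| ≤ ∫ z in D, (p z + P / V) := by
      refine integral_mono (hpi.sub (integrable_const _)).abs (hpi.add (integrable_const _))
        fun z => (abs_sub _ _).trans ?_
      rw [abs_of_nonneg (hp0 z), abs_of_nonneg (by positivity)]
    rw [integral_add hpi (integrable_const _), hc] at this
    linarith
  have i1 : Integrable (fun z => a z * p z) mD := haL.integrable_mul hpL
  have k3 : ∫ z in D, a z * (p z - P / V) = (∫ z in D, p z * a z) - (∫ z in D, a z) / V * P := by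
    simp only [mul_sub]
    rw [integral_sub i1 (hai.mul_const _), integral_mul_const]
    simp only [mul_comm (a _)]
    ring
  rw [k3] at k1
  have k4 := abs_sub_abs_le_abs_sub (∫ z in D, p z * a z) ((∫ z in D, a z) / V * P)
  rw [abs_mul, abs_div, abs_of_pos hV0, abs_of_nonneg hP0] at k4
  have k5 := mul_le_mul_of_nonneg_left k2 hL
  change |∫ z in D, p z * a z| ≤ (|∫ z in D, a z| / V + 2 * L) * P
  linarith

theorem exists_mode (S : Setup φ μ c C) (hθ : θ < 1) (hG : Ground φ μ θ) {v Φ : ℂ → ℂ}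
    (h : ZeroMode φ μ v Φ) : ∃ (a : ℂ → ℝ) (V : ℂ → ℂ), Mode φ μ v Φ a V := by
  set F : ℂ → ℂ := fun z => deriv φ z * Φ z with hFd
  have hF : MemLp F 2 mD := reg_memLp_mul S h.adm.l2F
  have him : ∀ᵐ z ∂mD, (F z).im = 0 := reg_im_zero S hθ hG h
  have hvT : ∀ᵐ z ∂mD, v z = TT F z := reg_eq_TT S hG h.adm
  have hμ := S.mu_pos
  have hc := S.c_pos
  set f : ℂ → ℝ := fun z => -(F z).re / (μ * rho φ z) with hf
  have hfL : MemLp f 2 mD := by
    refine (hF.norm.const_mul (μ * c ^ 2)⁻¹).mono'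
      (((continuous_re.measurable.comp_aemeasurable hF.1.aemeasurable).neg).div
        (reg_meas_rho.const_mul μ).aemeasurable).aestronglyMeasurable
      (regT_ae_mem.mono fun z hz => ?_)
    have h1 := reg_rho_pos S hz
    rw [hf, ← div_eq_inv_mul]
    simp only
    rw [norm_div, norm_neg, Real.norm_of_nonneg (by positivity : 0 ≤ μ * rho φ z)]
    exact div_le_div₀ (norm_nonneg _) (abs_re_le_norm _) (by positivity)
      (mul_le_mul_of_nonneg_left (pow_le_pow_left₀ hc.le (S.lower z hz) 2) hμ.le)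
  have hFf : ∀ᵐ z ∂mD, F z = -((μ * rho φ z * f z : ℝ) : ℂ) := by
    filter_upwards [him, regT_ae_mem] with z k1 hz
    have h1 := reg_rho_pos S hz
    apply Complex.ext
    · rw [neg_re, ofReal_re, hf]
      field_simp
    · rw [k1, neg_im, ofReal_im, neg_zero]
  have star : ∀ η G : ℂ → ℂ, Adm φ η (fun z => G z / deriv φ z) →
      ∫ z in D, f z * (G z).re = -∫ z in D, (v z * conj (η z)).re := by
    intro η G hA
    have h1 := h.zero _ _ hA
    have e : (fun z => (Φ z * conj (G z / deriv φ z)).re) =ᵐ[mD]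
        fun z => -μ * (f z * (G z).re) := by
      filter_upwards [hFf, regT_ae_mem] with z k1 hz
      have n1 := regT_deriv_ne S hz
      have n2 : conj (deriv φ z) ≠ 0 := by simpa using n1
      have e1 : ((rho φ z : ℝ) : ℂ) = deriv φ z * conj (deriv φ z) := by
        rw [mul_conj, normSq_eq_norm_sq, rho]
      have e2 : Φ z * conj (G z / deriv φ z) = ((-μ * f z : ℝ) : ℂ) * conj (G z) := by
        have e3 : Φ z = F z / deriv φ z := by rw [hFd]; field_simp
        rw [e3, k1, map_div₀]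
        push_cast
        rw [e1]
        field_simp
      rw [e2, re_ofReal_mul, conj_re]
      ring
    rw [EB, integral_congr_ae e, integral_const_mul] at h1
    have : μ * ((∫ z in D, f z * (G z).re) + ∫ z in D, (v z * conj (η z)).re) = 0 := by linarith
    have := (mul_eq_zero.1 this).resolve_left hμ.ne'
    linarith
  have hρb : ∀ z ∈ D, rho φ z ≤ C ^ 2 := fun z hz =>
    pow_le_pow_left₀ (norm_nonneg _) (S.upper z hz) 2
  obtain ⟨a, ha, hfa, hlap⟩ := S.weyl f hfL fun U hU _ hs => by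
    have hUC : ContDiff ℝ ∞ fun z => (U z : ℂ) := ofRealCLM.contDiff.comp hU
    have hsC : tsupport (fun z => (U z : ℂ)) ⊆ D :=
      (closure_mono fun z hz => by simpa using hz).trans hs
    have hη : ContDiff ℝ 1 (dD fun z => (U z : ℂ)) :=
      contDiff_iff_contDiffAt.2 fun z => contDiffAt_dD hUC.contDiffAt
        (one_add_one_eq_two.trans_le reg_two_le)
    have h1 := star _ _ (adm_of_compactSupport S hη ((reg_tsupport_dD _).trans hsC))
    have h2 := h.adm.eq _ (UC.of_contDiff (hUC.of_le reg_two_le) fun z _ => ofReal_im _)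
    have e1 : ∀ z, (dB (dD fun z => (U z : ℂ)) z).re = lap U z := fun z => by
      rw [dB_dD (hUC.contDiffAt.of_le reg_two_le), lap_ofReal (hU.contDiffAt.of_le reg_two_le),
        ofReal_re]
    simp only [e1] at h1
    have hlc : Continuous (lap U) := continuous_iff_continuousAt.2 fun z =>
      (contDiffAt_lap (m := 0) hU.contDiffAt ((zero_add _).trans_le reg_two_le)).continuousAt
    have i1 := regT_int_re_mul h.adm.l2v (reg_memLp_cont hη.continuous)
    have i2 : Integrable (fun z => f z * lap U z) mD :=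
      hfL.integrable_mul (by simpa using (reg_memLp_cont (continuous_ofReal.comp hlc)).re)
    have i3 : Integrable (fun z => (F z * conj (U z : ℂ)).re) mD :=
      regT_int_re_mul hF (reg_memLp_cont hUC.continuous)
    have e2 : (fun z => f z * (lap U z + μ * rho φ z * U z)) =ᵐ[mD]
        fun z => f z * lap U z - (F z * conj (U z : ℂ)).re := by
      filter_upwards [hFf] with z k1
      rw [k1, conj_ofReal, neg_mul, ← ofReal_mul, neg_re, ofReal_re]
      ring
    simp only [add_re] at h2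
    rw [integral_add i1 i3] at h2
    rw [integral_congr_ae e2, integral_sub i2 i3, h1]
    linarith
  have haL : MemLp a 2 mD := hfL.ae_eq hfa
  have star' : ∀ η G : ℂ → ℂ, Adm φ η (fun z => G z / deriv φ z) →
      ∫ z in D, a z * (G z).re = -∫ z in D, (v z * conj (η z)).re := by
    intro η G hA
    rw [← star η G hA]
    exact integral_congr_ae (hfa.mono fun z hz => by simp only [hz])
  have hva := reg_grad S ha haL h.adm.l2v fun η hη hs =>
    star' _ _ (adm_of_compactSupport S (hη.of_le (by simp)) hs)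
  obtain ⟨B, hB0, hB⟩ := exists_TT_dual
  obtain ⟨K, hK⟩ := reg_bound (L := B * Real.sqrt (∫ z in D, ‖F z‖ ^ 2)) ha.continuousOn haL
    (fun g hg h0 => by
      have hg' : MemLp (fun z => (g z : ℂ)) 2 mD := hg.ofReal
      have h1 := star' _ _ (adm_TT S hg' (by simpa using h0))
      have h2 := hB F _ hF hg'
      simp only [ofReal_re] at h1
      simp only [norm_real, Real.norm_eq_abs] at h2
      rw [h1, abs_neg, integral_congr_ae (hvT.mono fun z hz => by simp only [hz]; rfl)]
      exact h2) (by positivity)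
  set F' : ℂ → ℂ := fun z => -((μ * rho φ z * a z : ℝ) : ℂ) with hF'
  have hFF' : F =ᵐ[mD] F' := by
    filter_upwards [hFf, hfa] with z k1 k2
    rw [k1, k2]
  have hF'm : AEStronglyMeasurable F' mD := hF.1.congr hFF'
  have hF'b : ∀ y ∈ D, ‖F' y‖ ≤ μ * C ^ 2 * K := by
    intro y hy
    have h1 := reg_rho_pos S hy
    rw [hF']
    simp only
    rw [norm_neg, norm_real, norm_mul, Real.norm_of_nonneg (by positivity : 0 ≤ μ * rho φ y)]
    exact mul_le_mul (mul_le_mul_of_nonneg_left (hρb y hy) hμ.le) (hK y hy) (norm_nonneg _)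
      (by positivity)
  have hTT : TT F = TT F' := by
    funext z
    exact integral_congr_ae (hFF'.mono fun y hy => by simp only [tau, hy])
  obtain ⟨B', -, hB'⟩ := exists_TT_holder
  have hol := hB' F' _ hF'm hF'b
  have hVc : ContinuousOn (TT F') Db := by
    intro z hz
    rw [ContinuousWithinAt, tendsto_iff_norm_sub_tendsto_zero]
    have h1 : ContinuousAt (fun w : ℂ => B' * (μ * C ^ 2 * K) * ‖w - z‖ ^ (1 / 2 : ℝ)) z :=
      continuousAt_const.mul (ContinuousAt.rpow_const (by fun_prop) (Or.inr (by norm_num)))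
    have h2 := h1.tendsto.mono_left (nhdsWithin_le_nhds (s := Db))
    simp only [sub_self, norm_zero, Real.zero_rpow (by norm_num : (1 / 2 : ℝ) ≠ 0), mul_zero] at h2
    refine squeeze_zero' (Eventually.of_forall fun w => norm_nonneg _) ?_ h2
    filter_upwards [self_mem_nhdsWithin] with w hw
    exact hol w hw z hz
  have ha' : ∀ z ∈ D, ContDiffAt ℝ ∞ a z := fun z hz => ha.contDiffAt (isOpen_ball.mem_nhds hz)
  have hDc : ContinuousOn (dD fun w => (a w : ℂ)) D := fun z hz =>
    (contDiffAt_dD (m := 0) (contDiffAt_ofReal' (ha' z hz)) (by simp)).continuousAt.continuousWithinAt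
  have hDV : EqOn (dD fun w => (a w : ℂ)) (TT F') D :=
    Measure.eqOn_open_of_ae_eq (μ := volume) (by
      filter_upwards [hva, hvT] with z k1 k2
      rw [← k1, k2, hTT]) isOpen_ball hDc (hVc.mono ball_subset_closedBall)
  obtain ⟨K', hK'⟩ := (isCompact_closedBall (0 : ℂ) 1).exists_bound_of_continuousOn hVc
  have hlip : LipschitzOnWith (2 * K').toNNReal a D := by
    refine (convex_ball _ _).lipschitzOnWith_of_nnnorm_fderiv_le (𝕜 := ℝ)
      (fun z hz => (ha' z hz).differentiableAt (by simp)) fun z hz => ?_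
    rw [← NNReal.coe_le_coe, coe_nnnorm]
    refine le_trans ?_ (Real.le_coe_toNNReal _)
    have h1 := norm_dD_ofReal_sq ((ha' z hz).differentiableAt (by simp))
    have h2 := hK' z (regT_D_sub hz)
    rw [← hDV hz] at h2
    have h3 : ‖dx a z‖ ≤ ‖dD (fun w => (a w : ℂ)) z‖ :=
      abs_le_of_sq_le_sq' (by nlinarith [sq_nonneg (dy a z)]) (norm_nonneg _) |> abs_le.2
    have h4 : ‖dy a z‖ ≤ ‖dD (fun w => (a w : ℂ)) z‖ :=
      abs_le_of_sq_le_sq' (by nlinarith [sq_nonneg (dx a z)]) (norm_nonneg _) |> abs_le.2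
    linarith [norm_fderiv_le a z]
  obtain ⟨a', hlip', hEq⟩ := hlip.extend_real
  have hev : ∀ z ∈ D, a' =ᶠ[𝓝 z] a := fun z hz =>
    (hEq.eventuallyEq_of_mem (isOpen_ball.mem_nhds hz)).symm
  refine ⟨a', TT F', ha.congr fun z hz => (hEq hz).symm, ⟨_, hlip'⟩, fun z hz => ?_, hVc,
    fun z hz => ?_, ⟨_, hol⟩, fun z hz => TT_tang hF'm hF'b ?_ hz, ?_, ?_⟩
  · rw [lap_congr (hev z hz), ← hEq hz, hlap z hz]
  · rw [← hDV hz]
    exact dD_congr ((hev z hz).mono fun w hw => by simp only [hw])
  · rw [← reg_mean h.adm]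
    exact integral_congr_ae (hFF'.mono fun z hz => by simp only [← hz, hFd])
  · rw [← hTT]
    exact hvT
  · filter_upwards [hFF', regT_ae_mem] with z k1 hz
    rw [← hEq hz]
    exact k1

end Vale.Agent.P071
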