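import Vale.Agent.P071.SetupLemmas
import Vale.Agent.P071.Kernel0
import Vale.Agent.P071.RegTAuxB

/-!
# The solution operator of the boundary problem for `dB`
-/

open Complex Metric Set Filter Topology MeasureTheory
open scoped ContDiff ComplexConjugate Real

namespace Vale.Agent.P071

/-- Integrand of the solution operator. -/
noncomputable def tau (F : ℂ → ℂ) (z y : ℂ) : ℂ :=
  (F y / (z - y) - conj y * conj (F y) / (1 - z * conj y)) / (2 * π)

/-- The solution operator: `dB (TT F) = F` in the disc, `re (z * TT F z)` is constant on the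
circle. -/
noncomputable def TT (F : ℂ → ℂ) (z : ℂ) : ℂ := ∫ y in D, tau F z y

variable {φ : ℂ → ℂ} {μ c C : ℝ}

lemma regT_norm_two_pi : ‖(2 * π : ℂ)‖ = 2 * π := by simp [Real.pi_pos.le]

lemma regT_tau_le (F : ℂ → ℂ) {z y : ℂ} (hz : z ∈ Db) (hy : y ∈ D) (hne : z ≠ y) :
    ‖tau F z y‖ ≤ ‖z - y‖⁻¹ * ‖F y‖ := by
  have hd : 0 < ‖z - y‖ := norm_pos_iff.2 (sub_ne_zero.2 hne)
  have h1 : ‖conj y * conj (F y) / (1 - z * conj y)‖ ≤ ‖F y‖ / ‖z - y‖ := by
    rw [norm_div, norm_mul, Complex.norm_conj, Complex.norm_conj]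
    exact div_le_div₀ (norm_nonneg _) (mul_le_of_le_one_left (norm_nonneg _) (regT_norm_lt hy).le)
      hd (regT_norm_sub_le hz (regT_D_sub hy))
  have h2 := norm_sub_le (F y / (z - y)) (conj y * conj (F y) / (1 - z * conj y))
  rw [norm_div] at h2
  rw [tau, norm_div, regT_norm_two_pi, div_le_iff₀ (by positivity), ← div_eq_inv_mul]
  have h3 : 0 ≤ ‖F y‖ / ‖z - y‖ := by positivity
  nlinarith [Real.pi_gt_three]

lemma regT_meas_conj : Measurable (fun z : ℂ => conj z) := continuous_conj.measurable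

lemma regT_tau_meas {F : ℂ → ℂ} (hF : AEStronglyMeasurable F mD) :
    AEStronglyMeasurable (fun p : ℂ × ℂ => tau F p.1 p.2) (mD.prod mD) := by
  have h1 : AEMeasurable (fun p : ℂ × ℂ => F p.2) (mD.prod mD) := hF.aemeasurable.comp_snd
  have h2 : Measurable (fun p : ℂ × ℂ => conj p.2) := regT_meas_conj.comp measurable_snd
  exact (((h1.div (measurable_fst.sub measurable_snd).aemeasurable).sub
    ((h2.aemeasurable.mul (regT_meas_conj.comp_aemeasurable h1)).div
      (measurable_const.sub (measurable_fst.mul h2)).aemeasurable)).div_const _).aestronglyMeasurable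

lemma regT_tau_meas_right {F : ℂ → ℂ} (hF : AEStronglyMeasurable F mD) (z : ℂ) :
    AEStronglyMeasurable (tau F z) mD := by
  have h1 := hF.aemeasurable
  exact (((h1.div (measurable_const.sub measurable_id).aemeasurable).sub
    ((regT_meas_conj.aemeasurable.mul (regT_meas_conj.comp_aemeasurable h1)).div
      (measurable_const.sub (measurable_const.mul regT_meas_conj)).aemeasurable)).div_const
        _).aestronglyMeasurable

lemma regT_tau_int {F : ℂ → ℂ} (hF : Integrable F mD) :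
    Integrable (fun p : ℂ × ℂ => tau F p.1 p.2) (mD.prod mD) :=
  (regT_int_prod hF.norm).mono' (regT_tau_meas hF.1)
    (regT_ae_ne.mono fun _ hp => regT_tau_le F (regT_D_sub hp.1) hp.2.1 hp.2.2)

lemma regT_TT_le {F : ℂ → ℂ} {z : ℂ} (hz : z ∈ Db)
    (h : Integrable (fun y => ‖z - y‖⁻¹ * ‖F y‖) mD) :
    ‖TT F z‖ ≤ ∫ y, ‖z - y‖⁻¹ * ‖F y‖ ∂mD := by
  refine norm_integral_le_of_norm_le h ?_
  filter_upwards [regT_ae_mem, mD.ae_ne z] with y hy hne
  exact regT_tau_le F hz hy hne.symm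

theorem memLp_TT {F : ℂ → ℂ} (hF : MemLp F 2 (volume.restrict D)) :
    MemLp (TT F) 2 (volume.restrict D) := by
  obtain ⟨I₀, -, hI⟩ := regT_sing
  have h1 : Integrable F mD := hF.integrable one_le_two
  have h2 : Integrable (fun y => ‖F y‖ ^ 2) mD := (memLp_two_iff_integrable_sq_norm hF.1).1 hF
  have hm : AEStronglyMeasurable (TT F) mD := (regT_tau_meas hF.1).integral_prod_right'
  refine (memLp_two_iff_integrable_sq_norm hm).2 ?_
  refine ((regT_int_prod h2).integral_prod_left.const_mul (2 * I₀)).mono' (hm.norm.pow 2) ?_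
  filter_upwards [regT_ae_mem, (regT_int_prod h1.norm).prod_right_ae,
    (regT_int_prod h2).prod_right_ae] with z hz k1 k2
  obtain ⟨-, k3, k4⟩ := hI z (regT_D_sub hz)
  simp only [norm_sub_rev _ z] at k3 k4
  have k5 := regT_cs (μ := mD) (w := fun y => ‖z - y‖⁻¹) (a := fun _ => 1) (b := fun y => ‖F y‖)
    (Eventually.of_forall fun y => by positivity) (by simpa using k3) k2 (by simpa using k1)
  simp only [one_mul, one_pow, mul_one] at k5
  rw [Real.norm_of_nonneg (by positivity)]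
  calc ‖TT F z‖ ^ 2 ≤ (∫ y, ‖z - y‖⁻¹ * ‖F y‖ ∂mD) ^ 2 :=
        pow_le_pow_left₀ (norm_nonneg _) (regT_TT_le (regT_D_sub hz) k1) 2
    _ ≤ _ := k5
    _ ≤ _ := mul_le_mul_of_nonneg_right k4 (integral_nonneg fun y => by positivity)

lemma regT_memLp_div (S : Setup φ μ c C) {F : ℂ → ℂ} (hF : MemLp F 2 mD) :
    MemLp (fun z => F z / deriv φ z) 2 mD := by
  refine (hF.norm.const_mul c⁻¹).mono' (hF.1.aemeasurable.div
    (measurable_deriv φ).aemeasurable).aestronglyMeasurable (regT_ae_mem.mono fun z hz => ?_)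
  rw [norm_div, ← div_eq_inv_mul]
  exact div_le_div_of_nonneg_left (norm_nonneg _) S.c_pos (S.lower z hz)

lemma regT_deriv_ne (S : Setup φ μ c C) {z : ℂ} (hz : z ∈ D) : deriv φ z ≠ 0 :=
  norm_pos_iff.1 (S.c_pos.trans_le (S.lower z hz))

lemma regT_int_re_mul {f g : ℂ → ℂ} (hf : MemLp f 2 mD) (hg : MemLp g 2 mD) :
    Integrable (fun z => (f z * conj (g z)).re) mD :=
  (hf.integrable_mul (hg.continuousLinearMap_comp conjCLE.toContinuousLinearMap)).re

theorem adm_TT (S : Setup φ μ c C) {F : ℂ → ℂ} (hF : MemLp F 2 (volume.restrict D))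
    (h0 : ∫ z in D, (F z).re = 0) : Adm φ (TT F) (fun z => F z / deriv φ z) := by
  refine ⟨memLp_TT hF, regT_memLp_div S hF, fun U hU => ?_⟩
  obtain ⟨M, hM⟩ := hU.bdd
  have h1 : Integrable F mD := hF.integrable one_le_two
  have hU2 : ∀ z ∈ D, ContDiffAt ℝ 2 U z := fun z hz => hU.cd.contDiffAt (isOpen_ball.mem_nhds hz)
  have hUc : ContinuousOn (fun z => conj (U z)) D :=
    continuous_conj.comp_continuousOn hU.cd.continuousOn
  have hDc : ContinuousOn (fun z => conj (dD U z)) D :=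
    continuous_conj.comp_continuousOn fun z hz =>
      (contDiffAt_dD (m := 0) (hU2 z hz) (by norm_num)).continuousAt.continuousWithinAt
  have hDb : ∀ z ∈ D, ‖conj (dD U z)‖ ≤ 2 * M := fun z hz => by
    rw [Complex.norm_conj]
    exact (norm_dD_le U z).trans (by linarith [(hM z hz).2.1])
  have hP : Integrable (fun p : ℂ × ℂ => tau F p.1 p.2 * conj (dD U p.1)) (mD.prod mD) :=
    (regT_tau_int h1).mul_bdd (c := 2 * M) (hDc.aestronglyMeasurable measurableSet_ball).comp_fst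
      (regT_ae_ne.mono fun p hp => hDb _ hp.1)
  have hP' : Integrable (fun p : ℂ × ℂ => (tau F p.1 p.2 * conj (dD U p.1)).re) (mD.prod mD) :=
    hP.re
  have hκ : Integrable (fun z => (conj z * conj (dD U z) + 2 * conj (U z)).re) mD := by
    refine regT_int_of_bdd (K := 2 * M + 2 * M) (continuous_re.comp_continuousOn
      ((continuous_conj.continuousOn.mul hDc).add (continuousOn_const.mul hUc))) fun z hz => ?_
    refine (abs_re_le_norm _).trans ((norm_add_le _ _).trans (add_le_add ?_ ?_))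
    · rw [norm_mul, Complex.norm_conj]
      exact (mul_le_of_le_one_left (norm_nonneg _) (regT_norm_lt hz).le).trans (hDb z hz)
    · rw [norm_mul, Complex.norm_conj, Complex.norm_ofNat]
      linarith [(hM z hz).1]
  set κ : ℝ := ∫ z, (conj z * conj (dD U z) + 2 * conj (U z)).re ∂mD with hκd
  have hπ : (π : ℂ) ≠ 0 := ofReal_ne_zero.2 Real.pi_ne_zero
  have e1 : ∫ z, (TT F z * conj (dD U z)).re ∂mD =
      ∫ z, ∫ y, (tau F z y * conj (dD U z)).re ∂mD ∂mD := by
    refine integral_congr_ae ?_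
    filter_upwards [hP.prod_right_ae] with z hz
    rw [TT, ← integral_mul_const]
    exact (reCLM.integral_comp_comm hz).symm
  have e2 : ∫ y, ∫ z, (tau F z y * conj (dD U z)).re ∂mD ∂mD =
      ∫ y, (-(F y * conj (U y)).re + κ / (2 * π) * (F y).re) ∂mD := by
    refine integral_congr_ae ?_
    filter_upwards [hP'.prod_left_ae, regT_ae_mem] with y k1 hy
    have k2 := regT_repro hU (F y) hy
    have k3 : ∀ z, ((F y / (z - y) - regR (F y) y z) * conj (dD U z) -
        2 * (F y).re * conj (U z)).re = 2 * π * (tau F z y * conj (dD U z)).re -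
          (F y).re * (conj z * conj (dD U z) + 2 * conj (U z)).re := by
      intro z
      rw [← re_ofReal_mul, ← re_ofReal_mul, ← sub_re, tau, regR]
      congr 1
      push_cast
      field_simp
      ring
    simp only [k3] at k2
    rw [integral_sub (k1.const_mul _) (hκ.const_mul _), integral_const_mul, integral_const_mul,
      ← hκd] at k2
    have hπ' := Real.pi_pos
    field_simp
    linarith
  have i1 := regT_int_re_mul hF hU.memLp
  have i2 := regT_int_re_mul (memLp_TT hF) hU.memLp_dD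
  have e3 : ∫ z, (TT F z * conj (dD U z)).re ∂mD = -∫ y, (F y * conj (U y)).re ∂mD := by
    have i3 : Integrable (fun y => -(F y * conj (U y)).re) mD := i1.neg
    have i4 : Integrable (fun y => κ / (2 * π) * (F y).re) mD := h1.re.const_mul _
    rw [e1, integral_integral_swap hP', e2, integral_add i3 i4, integral_const_mul, integral_neg,
      h0, mul_zero, add_zero]
  have e4 : (fun z => (TT F z * conj (dD U z) + deriv φ z * (F z / deriv φ z) * conj (U z)).re)
      =ᵐ[mD] fun z => (TT F z * conj (dD U z)).re + (F z * conj (U z)).re := by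
    filter_upwards [regT_ae_mem] with z hz
    rw [mul_div_cancel₀ _ (regT_deriv_ne S hz), add_re]
  rw [integral_congr_ae e4, integral_add i2 i1, e3, neg_add_cancel]

theorem exists_TT_dual : ∃ B : ℝ, 0 ≤ B ∧ ∀ F F' : ℂ → ℂ, MemLp F 2 (volume.restrict D) →
    MemLp F' 2 (volume.restrict D) →
    |∫ z in D, (TT F z * conj (TT F' z)).re| ≤
      B * Real.sqrt (∫ z in D, ‖F z‖ ^ 2) * ∫ z in D, ‖F' z‖ := by
  obtain ⟨I₀, hI0, hI⟩ := regT_sing
  refine ⟨4 * I₀ * Real.sqrt (2 * I₀), by positivity, fun F F' hF hF' => ?_⟩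
  have h1 : Integrable F mD := hF.integrable one_le_two
  have h1' : Integrable F' mD := hF'.integrable one_le_two
  have h2 : Integrable (fun y => ‖F y‖ ^ 2) mD := (memLp_two_iff_integrable_sq_norm hF.1).1 hF
  set A : ℂ → ℝ := fun z => ∫ y, ‖z - y‖⁻¹ * ‖F y‖ ∂mD with hA
  have hAi : Integrable A mD := (regT_int_prod h1.norm).integral_prod_left
  have hA0 : ∀ z, 0 ≤ A z := fun z => integral_nonneg fun y => by positivity
  set N : ℝ := Real.sqrt (∫ z in D, ‖F z‖ ^ 2) with hN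
  have step1 : ∀ y' ∈ D, Integrable (fun z => ‖z - y'‖⁻¹ * A z) mD ∧
      ∫ z, ‖z - y'‖⁻¹ * A z ∂mD ≤ 4 * I₀ * Real.sqrt (2 * I₀) * N := by
    intro y' hy'
    obtain ⟨⟨a1, a2⟩, a3, a4⟩ := hI y' (regT_D_sub hy')
    have hs : ∀ y : ℂ, (‖y' - y‖ ^ (-(1 / 2) : ℝ)) ^ 2 = ‖y - y'‖⁻¹ := by
      intro y
      rw [← Real.rpow_natCast, ← Real.rpow_mul (norm_nonneg _), norm_sub_rev]
      norm_num
      exact Real.rpow_neg_one _
    have hsm : AEStronglyMeasurable (fun y : ℂ => ‖y' - y‖ ^ (-(1 / 2) : ℝ)) mD :=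
      (by fun_prop : Measurable _).aestronglyMeasurable
    have hsL : MemLp (fun y : ℂ => ‖y' - y‖ ^ (-(1 / 2) : ℝ)) 2 mD :=
      (memLp_two_iff_integrable_sq hsm).2 (by simpa only [hs] using a3)
    have b1 : Integrable (fun y => ‖y' - y‖ ^ (-(1 / 2) : ℝ) * ‖F y‖) mD :=
      hsL.integrable_mul hF.norm
    have b2 : ∫ y, ‖y' - y‖ ^ (-(1 / 2) : ℝ) * ‖F y‖ ∂mD ≤ Real.sqrt (2 * I₀) * N := by
      have k5 := regT_cs (μ := mD) (w := fun _ => 1) (a := fun y => ‖y' - y‖ ^ (-(1 / 2) : ℝ))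
        (b := fun y => ‖F y‖) (Eventually.of_forall fun y => zero_le_one)
        (by simpa only [hs, one_mul] using a3) (by simpa only [one_mul] using h2)
        (by simpa only [one_mul] using b1)
      simp only [one_mul, hs] at k5
      rw [hN, ← Real.sqrt_mul (by positivity)]
      exact Real.le_sqrt_of_sq_le (k5.trans
        (mul_le_mul_of_nonneg_right a4 (integral_nonneg fun y => by positivity)))
    have b3 : ∀ᵐ y ∂mD, Integrable (fun z => ‖z - y'‖⁻¹ * (‖z - y‖⁻¹ * ‖F y‖)) mD ∧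
        ∫ z, ‖z - y'‖⁻¹ * (‖z - y‖⁻¹ * ‖F y‖) ∂mD ≤
          4 * I₀ * (‖y' - y‖ ^ (-(1 / 2) : ℝ) * ‖F y‖) := by
      filter_upwards [regT_ae_mem, mD.ae_ne y'] with y hy hne
      obtain ⟨⟨c1, c2⟩, -⟩ := hI y (regT_D_sub hy)
      have c3 : Integrable (fun z => 2 * ‖y' - y‖ ^ (-(1 / 2) : ℝ) *
          (‖z - y'‖ ^ (-(3 / 2) : ℝ) + ‖z - y‖ ^ (-(3 / 2) : ℝ)) * ‖F y‖) mD :=
        ((a1.add c1).const_mul _).mul_const _
      have c4 : ∀ z, ‖z - y'‖⁻¹ * (‖z - y‖⁻¹ * ‖F y‖) ≤ 2 * ‖y' - y‖ ^ (-(1 / 2) : ℝ) *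
          (‖z - y'‖ ^ (-(3 / 2) : ℝ) + ‖z - y‖ ^ (-(3 / 2) : ℝ)) * ‖F y‖ := fun z => by
        rw [← mul_assoc]
        exact mul_le_mul_of_nonneg_right (inv_mul_inv_le hne.symm) (norm_nonneg _)
      have c5 : Integrable (fun z => ‖z - y'‖⁻¹ * (‖z - y‖⁻¹ * ‖F y‖)) mD :=
        c3.mono' (by fun_prop : Measurable _).aestronglyMeasurable
          (Eventually.of_forall fun z => by
            rw [Real.norm_of_nonneg (by positivity)]; exact c4 z)
      refine ⟨c5, (integral_mono c5 c3 c4).trans ?_⟩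
      rw [integral_mul_const, integral_const_mul, integral_add a1 c1]
      have c6 : 0 ≤ ‖y' - y‖ ^ (-(1 / 2) : ℝ) * ‖F y‖ := by positivity
      nlinarith
    have b4 : Integrable (fun p : ℂ × ℂ => ‖p.1 - y'‖⁻¹ * (‖p.1 - p.2‖⁻¹ * ‖F p.2‖))
        (mD.prod mD) := by
      refine regT_prod_int ((by fun_prop : Measurable fun p : ℂ × ℂ =>
        ‖p.1 - y'‖⁻¹).aestronglyMeasurable.mul (regT_int_prod h1.norm).1) (b1.const_mul (4 * I₀))
        (b3.mono fun y hy => ⟨hy.1, le_trans (le_of_eq ?_) hy.2⟩)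
      exact integral_congr_ae (Eventually.of_forall fun z => Real.norm_of_nonneg (by positivity))
    have b5 : ∀ z, ∫ y, ‖z - y'‖⁻¹ * (‖z - y‖⁻¹ * ‖F y‖) ∂mD = ‖z - y'‖⁻¹ * A z := fun z =>
      integral_const_mul _ _
    refine ⟨by simpa only [b5] using b4.integral_prod_left, ?_⟩
    simp only [← b5]
    rw [integral_integral_swap b4]
    refine (integral_mono_ae b4.integral_prod_right (b1.const_mul (4 * I₀))
      (b3.mono fun y hy => hy.2)).trans ?_
    rw [integral_const_mul, mul_assoc (4 * I₀)]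
    exact mul_le_mul_of_nonneg_left b2 (by positivity)
  have step2 : ∀ y' ∈ D, Integrable (fun z => A z * (‖z - y'‖⁻¹ * ‖F' y'‖)) mD ∧
      ∫ z, A z * (‖z - y'‖⁻¹ * ‖F' y'‖) ∂mD ≤ 4 * I₀ * Real.sqrt (2 * I₀) * N * ‖F' y'‖ := by
    intro y' hy'
    have e : (fun z => A z * (‖z - y'‖⁻¹ * ‖F' y'‖)) = fun z => ‖z - y'‖⁻¹ * A z * ‖F' y'‖ := by
      funext z; ring
    rw [e, integral_mul_const]
    exact ⟨(step1 y' hy').1.mul_const _,
      mul_le_mul_of_nonneg_right (step1 y' hy').2 (norm_nonneg _)⟩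
  have step3 : Integrable (fun p : ℂ × ℂ => A p.1 * (‖p.1 - p.2‖⁻¹ * ‖F' p.2‖)) (mD.prod mD) := by
    have hm1 : AEStronglyMeasurable (fun p : ℂ × ℂ => A p.1) (mD.prod mD) := hAi.1.comp_fst
    refine regT_prod_int (hm1.mul (regT_int_prod h1'.norm).1)
      (h1'.norm.const_mul (4 * I₀ * Real.sqrt (2 * I₀) * N))
      (regT_ae_mem.mono fun y hy => ⟨(step2 y hy).1, le_trans (le_of_eq ?_) (step2 y hy).2⟩)
    exact integral_congr_ae (Eventually.of_forall fun z =>
      Real.norm_of_nonneg (mul_nonneg (hA0 z) (by positivity)))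
  rw [← Real.norm_eq_abs]
  refine (norm_integral_le_of_norm_le step3.integral_prod_left ?_).trans ?_
  · filter_upwards [regT_ae_mem, (regT_int_prod h1.norm).prod_right_ae,
      (regT_int_prod h1'.norm).prod_right_ae] with z hz k1 k2
    refine (abs_re_le_norm _).trans ?_
    rw [norm_mul, Complex.norm_conj, integral_const_mul]
    exact mul_le_mul (regT_TT_le (regT_D_sub hz) k1) (regT_TT_le (regT_D_sub hz) k2)
      (norm_nonneg _) (hA0 z)
  · rw [integral_integral_swap step3, ← integral_const_mul]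
    exact integral_mono_ae step3.integral_prod_right (h1'.norm.const_mul _)
      (regT_ae_mem.mono fun y hy => (step2 y hy).2)

lemma regT_tau_int_right {F : ℂ → ℂ} {M : ℝ} (hF : AEStronglyMeasurable F mD)
    (hM : ∀ y ∈ D, ‖F y‖ ≤ M) {z : ℂ} (hz : z ∈ Db) : Integrable (tau F z) mD := by
  obtain ⟨I₀, -, hI⟩ := regT_sing
  refine ((hI z hz).2.1.mul_const M).mono' (regT_tau_meas_right hF z) ?_
  filter_upwards [regT_ae_mem, mD.ae_ne z] with y hy hne
  refine (regT_tau_le F hz hy hne.symm).trans ?_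
  rw [norm_sub_rev]
  exact mul_le_mul_of_nonneg_left (hM y hy) (by positivity)

theorem exists_TT_holder : ∃ B : ℝ, 0 ≤ B ∧ ∀ (F : ℂ → ℂ) (M : ℝ),
    AEStronglyMeasurable F (volume.restrict D) → (∀ y ∈ D, ‖F y‖ ≤ M) →
    ∀ z ∈ Db, ∀ w ∈ Db, ‖TT F z - TT F w‖ ≤ B * M * ‖z - w‖ ^ (1 / 2 : ℝ) := by
  obtain ⟨I₀, hI0, hI⟩ := regT_sing
  refine ⟨4 * I₀, by positivity, fun F M hF hM z hz w hw => ?_⟩
  have hM0 : 0 ≤ M := (norm_nonneg _).trans (hM 0 (by simp))
  by_cases hzw : z = w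
  · subst hzw
    simp only [sub_self, norm_zero]
    positivity
  have hd : 0 < ‖z - w‖ := norm_pos_iff.2 (sub_ne_zero.2 hzw)
  obtain ⟨⟨a1, a2⟩, -⟩ := hI z hz
  obtain ⟨⟨b1, b2⟩, -⟩ := hI w hw
  rw [TT, TT, ← integral_sub (regT_tau_int_right hF hM hz) (regT_tau_int_right hF hM hw)]
  have hi : Integrable (fun y => M * ‖z - w‖ * (2 * ‖z - w‖ ^ (-(1 / 2) : ℝ) *
      (‖y - z‖ ^ (-(3 / 2) : ℝ) + ‖y - w‖ ^ (-(3 / 2) : ℝ)))) mD :=
    ((a1.add b1).const_mul _).const_mul _
  refine (norm_integral_le_of_norm_le hi ?_).trans ?_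
  · filter_upwards [regT_ae_mem, mD.ae_ne z, mD.ae_ne w] with y hy h1 h2
    refine le_trans ?_ (mul_le_mul_of_nonneg_left (inv_mul_inv_le hzw) (by positivity))
    have n1 : z - y ≠ 0 := sub_ne_zero.2 h1.symm
    have n2 : w - y ≠ 0 := sub_ne_zero.2 h2.symm
    have n3 := regT_one_sub_ne hz hy
    have n4 := regT_one_sub_ne hw hy
    have p1 := norm_pos_iff.2 n1
    have p2 := norm_pos_iff.2 n2
    have hπ : (π : ℂ) ≠ 0 := ofReal_ne_zero.2 Real.pi_ne_zero
    have e : tau F z y - tau F w y = -((z - w) * (F y / ((z - y) * (w - y)) +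
        conj y ^ 2 * conj (F y) / ((1 - z * conj y) * (1 - w * conj y)))) / (2 * π) := by
      rw [tau, tau]
      have n5 : 1 - conj y * z ≠ 0 := by rwa [mul_comm]
      have n6 : 1 - conj y * w ≠ 0 := by rwa [mul_comm]
      field_simp
      ring
    have c1 : ‖F y / ((z - y) * (w - y))‖ ≤ M * (‖y - z‖⁻¹ * ‖y - w‖⁻¹) := by
      rw [norm_div, norm_mul, norm_sub_rev y, norm_sub_rev y, ← mul_inv, ← div_eq_mul_inv]
      exact div_le_div_of_nonneg_right (hM y hy) (by positivity)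
    have c2 : ‖conj y ^ 2 * conj (F y) / ((1 - z * conj y) * (1 - w * conj y))‖ ≤
        M * (‖y - z‖⁻¹ * ‖y - w‖⁻¹) := by
      rw [norm_div, norm_mul, norm_mul, norm_pow, Complex.norm_conj, Complex.norm_conj,
        norm_sub_rev y, norm_sub_rev y, ← mul_inv, ← div_eq_mul_inv]
      refine div_le_div₀ hM0 ((mul_le_of_le_one_left (norm_nonneg _)
        (pow_le_one₀ (norm_nonneg _) (regT_norm_lt hy).le)).trans (hM y hy)) (by positivity) ?_
      exact mul_le_mul (regT_norm_sub_le hz (regT_D_sub hy)) (regT_norm_sub_le hw (regT_D_sub hy))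
        (norm_nonneg _) (norm_nonneg _)
    have c3 := (norm_add_le _ _).trans (add_le_add c1 c2)
    rw [e, norm_div, norm_neg, norm_mul, regT_norm_two_pi, div_le_iff₀ (by positivity)]
    have c4 : 0 ≤ ‖z - w‖ * (M * (‖y - z‖⁻¹ * ‖y - w‖⁻¹)) := by positivity
    have c5 := mul_le_mul_of_nonneg_left c3 hd.le
    nlinarith [Real.pi_gt_three]
  · rw [integral_const_mul, integral_const_mul, integral_add a1 b1]
    have e : ‖z - w‖ * ‖z - w‖ ^ (-(1 / 2) : ℝ) = ‖z - w‖ ^ (1 / 2 : ℝ) := by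
      rw [← Real.rpow_one_add' hd.le (by norm_num)]
      norm_num
    rw [← e]
    have c6 : 0 ≤ M * ‖z - w‖ * ‖z - w‖ ^ (-(1 / 2) : ℝ) := by positivity
    nlinarith

theorem TT_tang {F : ℂ → ℂ} {M : ℝ} (hF : AEStronglyMeasurable F (volume.restrict D))
    (hM : ∀ y ∈ D, ‖F y‖ ≤ M) (h0 : ∫ z in D, (F z).re = 0) {z : ℂ} (hz : z ∈ S1) :
    (z * TT F z).re = 0 := by
  have hz' : z ∈ Db := sphere_subset_closedBall hz
  have h1 := (regT_tau_int_right hF hM hz').const_mul z
  rw [TT, ← integral_const_mul]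
  have h2 : (∫ y, z * tau F z y ∂mD).re = ∫ y, (z * tau F z y).re ∂mD :=
    (reCLM.integral_comp_comm h1).symm
  have h3 : (fun y => (z * tau F z y).re) =ᵐ[mD] fun y => (2 * π)⁻¹ * (F y).re := by
    filter_upwards [regT_ae_mem] with y hy
    have hne : z ≠ y := by
      rintro rfl
      have := regT_norm_lt hy
      rw [mem_sphere_zero_iff_norm.1 hz] at this
      exact lt_irrefl _ this
    have := regT_re_formula (F y) hne (regT_one_sub_ne hz' hy)
    rw [dl_eq_zero hz, zero_mul, add_zero] at this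
    rw [← this, ← re_ofReal_mul, tau]
    congr 1
    push_cast
    ring
  rw [h2, integral_congr_ae h3, integral_const_mul, h0, mul_zero]

end Vale.Agent.P071
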