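import Vale.Agent.P071.ZM0
import Vale.Agent.P071.Inner
import Vale.Agent.P071.BM

/-!
# Test pairs built from a zero mode and a multiplier
-/

open Complex Metric Set Filter Topology MeasureTheory
open scoped ContDiff ComplexConjugate Real

namespace Vale.Agent.P071

/-- The weight of the boundary double integral on the circle of radius `r`. -/
noncomputable def Wt (φ : ℂ → ℂ) (μ : ℝ) (V : ℂ → ℂ) (r : ℝ) (p : ℝ × ℝ) : ℝ :=
  2 * KK (nu φ μ r) (ec p.1) (ec p.2) *
    (V (r * ec p.1) / deriv φ (r * ec p.1) * conj (V (r * ec p.2) / deriv φ (r * ec p.2))).re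

variable {φ : ℂ → ℂ} {μ c C A θ : ℝ}

lemma test_split {E : Type*} [NormedAddCommGroup E] [NormedSpace ℝ E] {f : ℂ → E}
    (hf : IntegrableOn f D) {r : ℝ} (hr : r ≤ 1) :
    ∫ z in D, f z = (∫ z in D \ ball 0 r, f z) + ∫ z in ball 0 r, f z := by
  rw [← integral_inter_add_sdiff (measurableSet_ball (x := (0 : ℂ)) (ε := r)) hf,
    inter_eq_right.2 (ball_subset_ball hr), add_comm]

lemma test_indicator {E : Type*} [NormedAddCommGroup E] [NormedSpace ℝ E] (f : ℂ → E) {r : ℝ}
    (hr : r ≤ 1) : ∫ z in D, (ball (0 : ℂ) r).indicator f z = ∫ z in ball 0 r, f z := by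
  rw [setIntegral_indicator measurableSet_ball, inter_eq_right.2 (ball_subset_ball hr)]

lemma BM.indicator {E : Type*} [NormedAddCommGroup E] {f : ℂ → E} (hf : BM f) {s : Set ℂ}
    (hs : MeasurableSet s) : BM (s.indicator f) := by
  obtain ⟨M, hM⟩ := hf.bdd
  exact ⟨hf.meas.indicator hs, M, fun z hz => (norm_indicator_le_norm_self _ _).trans (hM z hz)⟩

lemma test_analytic (r : ℂ) (z : ℂ) : AnalyticAt ℂ (fun w : ℂ => r * w) z := by fun_prop

lemma test_deriv (r : ℂ) (z : ℂ) : deriv (fun w : ℂ => r * w) z = r := by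
  simp

lemma test_lap_scale {f : ℂ → ℂ} {r : ℝ} {z : ℂ} (hf : ContDiffAt ℝ 2 f (r * z)) :
    lap (fun w => f (r * w)) z = (r ^ 2 : ℝ) * lap f (r * z) := by
  rw [lap_comp_holo (φ := fun w => (r : ℂ) * w) hf (test_analytic r z), test_deriv]
  simp

lemma test_grad_scale {f : ℂ → ℝ} {r : ℝ} {z : ℂ} (hf : DifferentiableAt ℝ f (r * z)) :
    dx (fun w => f (r * w)) z ^ 2 + dy (fun w => f (r * w)) z ^ 2 =
      r ^ 2 * (dx f (r * z) ^ 2 + dy f (r * z) ^ 2) := by
  rw [dx_comp_holo (φ := fun w => (r : ℂ) * w) hf (test_analytic r z).differentiableAt,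
    dy_comp_holo (φ := fun w => (r : ℂ) * w) hf (test_analytic r z).differentiableAt, test_deriv]
  simp
  ring

lemma test_vanish {η : ℂ → ℂ} (h0 : ∀ z ∈ S1, η z = 0) {r : ℝ} (hr : 0 < r) (t : ℝ) :
    η (circleMap 0 r t / r) = 0 := by
  refine h0 _ ?_
  rw [mem_sphere_zero_iff_norm, norm_div, norm_circleMap_zero, norm_real, Real.norm_eq_abs,
    div_self (abs_pos.2 hr.ne').ne']

/-- The inner correction has no flux. -/
lemma test_flux (S : Setup φ μ c C) {η : ℂ → ℂ} (hη : ContDiff ℝ ∞ η) (h0 : ∀ z ∈ S1, η z = 0)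
    {r : ℝ} (hr : 0 < r) (hr1 : r < 1) {U : ℂ → ℂ} (hU : ContDiffOn ℝ 1 U D) :
    ∫ z in D, ((ball (0 : ℂ) r).indicator (fun w => deriv φ w * η (w / r)) z * conj (dD U z) +
      deriv φ z * (ball (0 : ℂ) r).indicator (dB fun w => η (w / r)) z * conj (U z)).re = 0 := by
  have hsub : closedBall (0 : ℂ) r ⊆ D := closedBall_subset_ball hr1
  have hη' : ContDiff ℝ 1 fun w => η (w / r) :=
    (hη.of_le (by norm_cast)).comp (contDiff_id.div_const _)
  have hU' : ∀ z ∈ D, ContDiffAt ℝ 1 U z := fun z hz => hU.contDiffAt (isOpen_ball.mem_nhds hz)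
  have hW : ∀ z ∈ closedBall (0 : ℂ) r,
      ContDiffAt ℝ 1 (fun w => deriv φ w * η (w / r) * conj (U w)) z := fun z hz =>
    ((S.contDiffAt_deriv (hsub hz)).mul hη'.contDiffAt).mul (contDiffAt_conj' (hU' z (hsub hz)))
  have h := green_dB hr.le hW
  simp only [test_vanish h0 hr, mul_zero, zero_mul, intervalIntegral.integral_zero] at h
  have hi : IntegrableOn (dB fun w => deriv φ w * η (w / r) * conj (U w)) (ball 0 r) :=
    integrableOn_ball_of_continuousAt fun z hz =>
      (contDiffAt_dB (m := 0) (hW z hz) (by norm_num)).continuousAt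
  have h2 : ∫ z in ball 0 r, (dB (fun w => deriv φ w * η (w / r) * conj (U w)) z).re = 0 := by
    have := integral_re hi
    rw [h] at this
    simpa using this
  rw [← h2, ← test_indicator _ hr1.le]
  refine setIntegral_congr_fun measurableSet_ball fun z hz => ?_
  by_cases hb : z ∈ ball (0 : ℂ) r
  · have d1 : DifferentiableAt ℝ (deriv φ) z :=
      (S.contDiffAt_deriv (n := 1) hz).differentiableAt (by norm_num)
    have d2 : DifferentiableAt ℝ (fun w => η (w / r)) z :=
      hη'.contDiffAt.differentiableAt (by norm_num)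
    have d3 : DifferentiableAt ℝ U z := (hU' z hz).differentiableAt (by norm_num)
    simp only [indicator_of_mem hb]
    rw [dB_mul (d1.fun_mul d2) (differentiableAt_conj' d3), dB_mul d1 d2, dB_conj d3,
      dB_holo (S.analyticAt_deriv hz).differentiableAt]
    congr 1
    ring
  · simp [indicator_of_notMem hb]

/-- The energy pairing with the inner correction, rescaled to the unit disc. -/
lemma test_inner (S : Setup φ μ c C) {η : ℂ → ℂ} (hη : ContDiff ℝ ∞ η) (h0 : ∀ z ∈ S1, η z = 0)
    {r : ℝ} (hr : 0 < r) (hr1 : r < 1) {g : ℂ → ℂ}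
    (hg : ∀ z ∈ closedBall (0 : ℂ) r, ContDiffAt ℝ 2 g z) :
    (∫ z in ball 0 r, (dB g z * conj (dB (fun w => η (w / r)) z)).re) -
      μ * ∫ z in ball 0 r, (deriv φ z * g z * conj (deriv φ z * η (z / r))).re =
    ∫ z in D, ((-lap (fun w => g (r * w)) z - nu φ μ r z * g (r * z)) * conj (η z)).re := by
  have hsub : closedBall (0 : ℂ) r ⊆ D := closedBall_subset_ball hr1
  have hr' : (r : ℂ) ≠ 0 := ofReal_ne_zero.2 hr.ne'
  have hη' : ContDiff ℝ 1 fun w => η (w / r) :=
    (hη.of_le (by norm_cast)).comp (contDiff_id.div_const _)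
  have hW : ∀ z ∈ closedBall (0 : ℂ) r,
      ContDiffAt ℝ 1 (fun w => dB g w * conj (η (w / r))) z := fun z hz =>
    (contDiffAt_dB (hg z hz) (by norm_num)).mul (contDiffAt_conj' hη'.contDiffAt)
  have h := green_dD hr.le hW
  simp only [test_vanish h0 hr, map_zero, mul_zero, zero_mul, intervalIntegral.integral_zero] at h
  have hi : IntegrableOn (dD fun w => dB g w * conj (η (w / r))) (ball 0 r) :=
    integrableOn_ball_of_continuousAt fun z hz =>
      (contDiffAt_dD (m := 0) (hW z hz) (by norm_num)).continuousAt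
  have h2 : ∫ z in ball 0 r, (dD (fun w => dB g w * conj (η (w / r))) z).re = 0 := by
    have := integral_re hi
    rw [h] at this
    simpa using this
  have i1 : IntegrableOn (fun z => (dB g z * conj (dB (fun w => η (w / r)) z)).re) (ball 0 r) :=
    integrableOn_ball_of_continuousAt fun z hz => continuous_re.continuousAt.comp
      ((contDiffAt_dB (m := 1) (hg z hz) (by norm_num)).continuousAt.mul
        (contDiffAt_conj' (contDiffAt_dB (m := 0) hη'.contDiffAt (by norm_num))).continuousAt)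
  have i2 : IntegrableOn (fun z => μ * (deriv φ z * g z * conj (deriv φ z * η (z / r))).re)
      (ball 0 r) := by
    refine integrableOn_ball_of_continuousAt fun z hz => continuousAt_const.mul ?_
    have c1 := (S.analyticAt_deriv (hsub hz)).continuousAt
    exact continuous_re.continuousAt.comp ((c1.mul (hg z hz).continuousAt).mul
      (continuous_conj.continuousAt.comp (c1.mul hη'.continuous.continuousAt)))
  have i3 : IntegrableOn (fun z => (dD (fun w => dB g w * conj (η (w / r))) z).re) (ball 0 r) :=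
    hi.re
  rw [← integral_const_mul, ← integral_sub i1 i2, ← sub_zero (∫ z in ball 0 r, _), ← h2,
    ← integral_sub (Integrable.sub' i1 i2) i3, integral_ball_scale _ hr, ← integral_smul]
  refine setIntegral_congr_fun measurableSet_ball fun z hz => ?_
  have hz' := ball_subset_closedBall (mul_mem_ball hr hz)
  have d1 : DifferentiableAt ℝ (dB g) (r * z) :=
    (contDiffAt_dB (m := 1) (hg _ hz') (by norm_num)).differentiableAt (by norm_num)
  have d2 : DifferentiableAt ℝ (fun w => η (w / r)) (r * z) :=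
    hη'.contDiffAt.differentiableAt (by norm_num)
  rw [dD_mul d1 (differentiableAt_conj' d2), dD_conj d2, dD_dB (hg _ hz'), test_lap_scale (hg _ hz'),
    nu_of_mem φ μ r hz, mul_div_cancel_left₀ _ hr', smul_eq_mul, ← re_ofReal_mul μ, ← sub_re,
    ← sub_re, ← re_ofReal_mul]
  congr 1
  push_cast
  rw [rho_eq, map_mul]
  ring

lemma test_EB_add {v Φ v' Φ' : ℂ → ℂ} (hv : MemLp v 2 (volume.restrict D))
    (hΦ : MemLp Φ 2 (volume.restrict D)) (hv' : MemLp v' 2 (volume.restrict D))
    (hΦ' : MemLp Φ' 2 (volume.restrict D)) :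
    EB μ (fun z => v z + v' z) (fun z => Φ z + Φ' z) (fun z => v z + v' z) (fun z => Φ z + Φ' z) =
      EB μ v Φ v Φ + 2 * EB μ v Φ v' Φ' + EB μ v' Φ' v' Φ' := by
  have aux : ∀ {f g : ℂ → ℂ}, MemLp f 2 (volume.restrict D) → MemLp g 2 (volume.restrict D) →
      ∫ z in D, ((f z + g z) * conj (f z + g z)).re = (∫ z in D, (f z * conj (f z)).re) +
        2 * (∫ z in D, (f z * conj (g z)).re) + ∫ z in D, (g z * conj (g z)).re := by
    intro f g hf hg
    have i1 := integrableOn_mul_conj_re hf hf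
    have i2 := (integrableOn_mul_conj_re hf hg).const_mul 2
    have i3 := integrableOn_mul_conj_re hg hg
    rw [← integral_const_mul, ← integral_add i1 i2, ← integral_add (Integrable.fun_add i1 i2) i3]
    refine integral_congr_ae (Eventually.of_forall fun z => ?_)
    simp
    ring
  simp only [EB, aux hv hv', aux hΦ hΦ']
  ring

lemma test_ell_add (S : Setup φ μ c C) {K : ℂ → ℝ} (hK : ContDiff ℝ ∞ K) {v Φ v' Φ' : ℂ → ℂ}
    (hv : MemLp v 2 (volume.restrict D)) (hΦ : MemLp Φ 2 (volume.restrict D))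
    (hv' : MemLp v' 2 (volume.restrict D)) (hΦ' : MemLp Φ' 2 (volume.restrict D)) :
    ell φ K (fun z => v z + v' z) (fun z => Φ z + Φ' z) = ell φ K v Φ + ell φ K v' Φ' := by
  have hU : ContDiff ℝ 1 fun w => I * (K w : ℂ) :=
    contDiff_const.mul (ofRealCLM.contDiff.comp (hK.of_le (by norm_cast)))
  have aux : ∀ {v Φ : ℂ → ℂ}, MemLp v 2 (volume.restrict D) → MemLp Φ 2 (volume.restrict D) →
      IntegrableOn (fun z => (v z * conj (dD (fun w => I * (K w : ℂ)) z) +
        deriv φ z * Φ z * conj (I * (K z : ℂ))).re) D := fun hv hΦ =>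
    ((integrableOn_mul_of_memLp hv (BM.dD_of_contDiff hU).conj.memLp).fun_add
      (integrableOn_mul_of_memLp (S.bm_deriv.mul_memLp hΦ)
        (BM.of_continuous hU.continuous).conj.memLp)).re
  rw [ell, ell, ell, ← integral_add (aux hv hΦ) (aux hv' hΦ')]
  refine integral_congr_ae (Eventually.of_forall fun z => ?_)
  simp only [← add_re]
  congr 1
  ring

/-- The energy of a multiple of a zero mode. -/
lemma test_EB_mul (S : Setup φ μ c C) {v Φ : ℂ → ℂ} (h : ZeroMode φ μ v Φ) {m : ℂ → ℝ}
    (hm : ContDiff ℝ ∞ m) :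
    EB μ (fun z => m z * v z) (fun z => m z * Φ z + dB (fun w => (m w : ℂ)) z * v z / deriv φ z)
      (fun z => m z * v z) (fun z => m z * Φ z + dB (fun w => (m w : ℂ)) z * v z / deriv φ z) =
      ∫ z in D, (dx m z ^ 2 + dy m z ^ 2) * ‖v z / deriv φ z‖ ^ 2 := by
  have hm2 : ContDiff ℝ 2 fun w => (m w : ℂ) := ofRealCLM.contDiff.comp (hm.of_le (by norm_cast))
  have u1 : UC fun w => (m w : ℂ) := .of_contDiff hm2 fun z _ => ofReal_im _
  have a1 := h.adm.mul S u1
  have a2 := h.adm.mul S (u1.mul u1)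
  have e := h.zero _ _ a2
  rw [← sub_zero (EB _ _ _ _ _), ← e, EB, EB]
  have e1 : ∫ z in D, (m z * v z * conj (m z * v z)).re =
      ∫ z in D, (v z * conj ((m z : ℂ) * m z * v z)).re :=
    integral_congr_ae (Eventually.of_forall fun z => by
      simp only [map_mul, conj_ofReal]; congr 1; ring)
  rw [e1, sub_sub_sub_cancel_right, ← integral_sub (integrableOn_mul_conj_re a1.l2F a1.l2F)
    (integrableOn_mul_conj_re h.adm.l2F a2.l2F)]
  refine integral_congr_ae (Eventually.of_forall fun z => ?_)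
  have d1 : DifferentiableAt ℝ m z := hm.contDiffAt.differentiableAt (by simp)
  have d2 := differentiableAt_ofReal' d1
  simp only
  rw [dB_mul d2 d2, ← norm_dD_ofReal_sq d1, ← mul_pow, ← norm_conj (dD _ _), ← dB_ofReal_eq_conj d1,
    ← norm_mul, ← mul_conj_re_self (dB _ _ * _), mul_div_assoc, mul_div_assoc]
  generalize dB (fun w => (m w : ℂ)) z = b
  generalize v z / deriv φ z = w
  simp
  ring

theorem exists_test_pair (S : Setup φ μ c C) {v₀ Φ₀ : ℂ → ℂ} (h₀ : ZeroMode φ μ v₀ Φ₀)
    {a : ℂ → ℝ} {V : ℂ → ℂ} (hm : Mode φ μ v₀ Φ₀ a V)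
    (hP : ∀ r : ℝ, 0 < r → r ≤ 1 → Pot (nu φ μ r) A θ) :
    ∃ B : ℝ, 0 ≤ B ∧ ∀ r : ℝ, 0 < r → r < 1 → ∀ (m : ℂ → ℝ) (M : ℝ), ContDiff ℝ ∞ m →
      (∀ z ∈ Db, r ≤ ‖z‖ → |m z| ≤ M) → ∀ ε : ℝ, 0 < ε → ∃ v Φ : ℂ → ℂ, Adm φ v Φ ∧
        EB μ v Φ v Φ ≤
          (∫ z in D \ ball 0 r, (dx m z ^ 2 + dy m z ^ 2) * ‖V z / deriv φ z‖ ^ 2) +
          (∫ p : ℝ × ℝ, Wt φ μ V r p * (m (r * ec p.1) - m (r * ec p.2)) ^ 2 ∂(mc.prod mc)) + ε ∧
        ∫ z in D, ‖v z‖ ^ 2 ≤ B * M ^ 2 + ε ∧
        ∀ K : ℂ → ℝ, ContDiff ℝ ∞ K →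
          ell φ K v Φ = ∫ s, m (ec s) * K (ec s) * (ec s * V (ec s)).im ∂mc := by
  obtain ⟨Ci, hCi, hin⟩ := inner_ineq A θ
  have bV : BM V := .of_closedBall hm.contV
  set om : ℂ → ℂ := fun w => V w / deriv φ w with hom
  have bom : BM om := S.bm_div_deriv bV
  obtain ⟨MV, hMV0, hMV⟩ := bV.bdd'
  obtain ⟨Mo, hMo0, hMo⟩ := bom.bdd'
  refine ⟨MV ^ 2 * π + C ^ 2 * (Ci * Mo ^ 2), by positivity, fun r hr hr1 m M hmc hM ε hε => ?_⟩
  have hr' : (r : ℂ) ≠ 0 := ofReal_ne_zero.2 hr.ne'
  have hsub : closedBall (0 : ℂ) r ⊆ D := closedBall_subset_ball hr1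
  have hM0 : 0 ≤ M := (abs_nonneg _).trans (hM 1 (by simp) (by simpa using hr1.le))
  have com : ∀ z ∈ D, ContDiffAt ℝ 2 om z := fun z hz => (hm.om_eq S hz).1.of_le (by norm_cast)
  have hsc : ContDiff ℝ 2 fun w : ℂ => (r : ℂ) * w := contDiff_const.mul contDiff_id
  have hm2 : ContDiff ℝ 2 m := hmc.of_le (by norm_cast)
  have hmC : ContDiff ℝ 2 fun w => (m w : ℂ) := ofRealCLM.contDiff.comp hm2
  have hε' : 0 < ε / (1 + C ^ 2) := by positivity
  have hε1 : ε / (1 + C ^ 2) ≤ ε := div_le_self hε.le (by nlinarith [sq_nonneg C])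
  have hε2 : C ^ 2 * (ε / (1 + C ^ 2)) ≤ ε := by
    rw [← mul_div_assoc, div_le_iff₀ (by positivity)]; nlinarith
  obtain ⟨η, hη, hη0, hE, hN⟩ := hin _ (hP r hr hr1.le) (fun w => om (r * w)) (fun w => m (r * w))
    (M * Mo) (fun z hz => (com _ (mul_mem_D_of_lt hr hr1 hz)).comp z hsc.contDiffAt)
    (fun z hz => by
      have hz' := mul_mem_D hr hr1.le hz
      rw [test_lap_scale (com _ hz'), (hm.om_eq S hz').2.2, nu_of_mem φ μ r hz]
      push_cast; ring)
    (fun z _ => (hm2.comp hsc).contDiffAt)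
    (fun z hz => by
      have hz' := mul_mem_D_of_lt hr hr1 (sphere_subset_closedBall hz)
      rw [norm_mul, norm_real, Real.norm_eq_abs]
      refine mul_le_mul (hM _ (ball_subset_closedBall hz') ?_) (hMo _ hz') (norm_nonneg _) hM0
      rw [norm_mul, mem_sphere_zero_iff_norm.1 hz, norm_real, Real.norm_of_nonneg hr.le, mul_one])
    _ hε'
  have hη' : ContDiff ℝ 2 fun w => η (w / r) :=
    (hη.of_le (by norm_cast)).comp (contDiff_id.div_const _)
  have bη : BM fun w => η (w / r) := .of_continuous hη'.continuous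
  have u1 : UC fun w => (m w : ℂ) := .of_contDiff hmC fun z _ => ofReal_im _
  have a1 := h₀.adm.mul S u1
  have b2 : BM ((ball (0 : ℂ) r).indicator fun w => deriv φ w * η (w / r)) :=
    (S.bm_deriv.mul bη).indicator measurableSet_ball
  have b3 : BM ((ball (0 : ℂ) r).indicator (dB fun w => η (w / r))) :=
    (BM.dB_of_contDiff (hη'.of_le (by norm_num))).indicator measurableSet_ball
  have a2 : Adm φ ((ball (0 : ℂ) r).indicator fun w => deriv φ w * η (w / r))
      ((ball (0 : ℂ) r).indicator (dB fun w => η (w / r))) :=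
    ⟨b2.memLp, b3.memLp, fun U hU => test_flux S hη hη0 hr hr1 (hU.cd.of_le (by norm_num))⟩
  have bm : BM m := .of_continuous hmc.continuous
  have hVe : ∀ z ∈ D, V z = deriv φ z * om z := fun z hz => by
    rw [hom, mul_div_cancel₀ _ (S.deriv_ne hz)]
  refine ⟨_, _, a1.add S a2, ?_, ?_, fun K hK => ?_⟩
  · rw [test_EB_add a1.l2v a1.l2F a2.l2v a2.l2F, test_EB_mul S h₀ hmc]
    have e1 : ∫ z in D, (dx m z ^ 2 + dy m z ^ 2) * ‖v₀ z / deriv φ z‖ ^ 2 =
        (∫ z in D \ ball 0 r, (dx m z ^ 2 + dy m z ^ 2) * ‖om z‖ ^ 2) +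
        ∫ z in D, (dx (fun w => m (r * w)) z ^ 2 + dy (fun w => m (r * w)) z ^ 2) *
          ‖om (r * z)‖ ^ 2 := by
      have h1 : ContDiff ℝ 1 m := hmc.of_le (by norm_cast)
      rw [integral_congr_ae (g := fun z => (dx m z ^ 2 + dy m z ^ 2) * ‖om z‖ ^ 2)
        (hm.v_eq.mono fun z hz => by simp only [hz, hom]),
        test_split (((BM.dx_of_contDiff h1).sq.add (BM.dy_of_contDiff h1).sq).mul
          bom.norm.sq).integrableOn hr1.le, integral_ball_scale _ hr, ← integral_smul]
      congr 1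
      refine integral_congr_ae (Eventually.of_forall fun z => ?_)
      simp only
      rw [test_grad_scale (h1.contDiffAt.differentiableAt (by norm_num)), smul_eq_mul, mul_assoc]
    have e2 := test_inner S hη hη0 hr hr1 (g := fun w => m w * om w) fun z hz =>
      hmC.contDiffAt.mul (com z (hsub hz))
    have e3 := test_inner S hη hη0 hr hr1 (g := fun w => η (w / r)) fun z _ => hη'.contDiffAt
    simp only [mul_div_cancel_left₀ _ hr'] at e3
    have e4 : EB μ (fun z => m z * v₀ z)
        (fun z => m z * Φ₀ z + dB (fun w => (m w : ℂ)) z * v₀ z / deriv φ z)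
        ((ball (0 : ℂ) r).indicator fun w => deriv φ w * η (w / r))
        ((ball (0 : ℂ) r).indicator (dB fun w => η (w / r))) = _ := Eq.trans (by
      rw [EB, ← test_indicator _ hr1.le, ← test_indicator _ hr1.le]
      congr 1
      · refine integral_congr_ae ?_
        filter_upwards [hm.v_eq, hm.F_eq, ae_restrict_mem measurableSet_ball] with z h1 h2 hz
        by_cases hb : z ∈ ball (0 : ℂ) r
        · simp only [indicator_of_mem hb]
          have h3 : Φ₀ z = dB om z := by
            refine mul_left_cancel₀ (S.deriv_ne hz) ?_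
            rw [h2, (hm.om_eq S hz).2.1]
            push_cast
            rw [rho_eq]; ring
          rw [dB_mul (hmC.contDiffAt.differentiableAt (by norm_num))
            ((com z hz).differentiableAt (by norm_num)), h1, h3, mul_div_assoc, add_comm]
        · simp [indicator_of_notMem hb]
      · congr 1
        refine integral_congr_ae ?_
        filter_upwards [hm.v_eq, ae_restrict_mem measurableSet_ball] with z h1 hz
        by_cases hb : z ∈ ball (0 : ℂ) r
        · simp only [indicator_of_mem hb]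
          rw [h1, hVe z hz]
          congr 2
          ring
        · simp [indicator_of_notMem hb]) e2
    have e5 : EB μ ((ball (0 : ℂ) r).indicator fun w => deriv φ w * η (w / r))
        ((ball (0 : ℂ) r).indicator (dB fun w => η (w / r)))
        ((ball (0 : ℂ) r).indicator fun w => deriv φ w * η (w / r))
        ((ball (0 : ℂ) r).indicator (dB fun w => η (w / r))) = _ := Eq.trans (by
      rw [EB, ← test_indicator _ hr1.le, ← test_indicator _ hr1.le]
      congr 1
      · refine integral_congr_ae (Eventually.of_forall fun z => ?_)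
        by_cases hb : z ∈ ball (0 : ℂ) r <;> simp [hb]
      · congr 1
        refine integral_congr_ae (Eventually.of_forall fun z => ?_)
        by_cases hb : z ∈ ball (0 : ℂ) r <;> simp [hb]) e3
    rw [e1, e4, e5]
    simp only [Wt]
    linarith
  · have bw : BM fun z => m z * V z + (ball (0 : ℂ) r).indicator
        (fun w => deriv φ w * η (w / r)) z := (bm.ofReal.mul bV).add b2
    rw [integral_congr_ae (g := fun z => ‖m z * V z + (ball (0 : ℂ) r).indicator
      (fun w => deriv φ w * η (w / r)) z‖ ^ 2) (hm.v_eq.mono fun z hz => by simp only [hz]),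
      test_split bw.norm.sq.integrableOn hr1.le]
    have n1 : ∫ z in D \ ball 0 r, ‖m z * V z + (ball (0 : ℂ) r).indicator
        (fun w => deriv φ w * η (w / r)) z‖ ^ 2 ≤ (M * MV) ^ 2 * π := by
      rw [← integral_D_one, ← integral_const_mul]
      refine (setIntegral_mono_on (bw.norm.sq.integrableOn.mono_set sdiff_subset)
        ((BM.const ((M * MV) ^ 2 * 1)).integrableOn.mono_set sdiff_subset)
        (measurableSet_ball.diff measurableSet_ball) fun z hz => ?_).trans
        (setIntegral_mono_set (BM.const _).integrableOn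
          (Eventually.of_forall fun _ => by positivity) sdiff_subset.eventuallyLE)
      rw [indicator_of_notMem hz.2, add_zero, mul_one, norm_mul, norm_real, Real.norm_eq_abs]
      refine pow_le_pow_left₀ (by positivity) (mul_le_mul (hM z (ball_subset_closedBall hz.1) ?_)
        (hMV z hz.1) (norm_nonneg _) hM0) 2
      simpa using hz.2
    have n2 : ∫ z in ball 0 r, ‖m z * V z + (ball (0 : ℂ) r).indicator
        (fun w => deriv φ w * η (w / r)) z‖ ^ 2 ≤
        C ^ 2 * ∫ z in D, ‖m (r * z) * om (r * z) + η z‖ ^ 2 := by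
      rw [integral_ball_scale _ hr, ← integral_smul, ← integral_const_mul]
      refine integral_mono_of_nonneg (Eventually.of_forall fun z => by positivity)
        (Integrable.const_mul ?_ _) ?_
      · refine (BM.of_continuousAt fun z hz => ?_).norm.sq.integrableOn
        exact ((hmC.contDiffAt.mul (com _ (mul_mem_D_of_lt hr hr1 hz))).continuousAt.comp
          hsc.continuous.continuousAt).add hη.continuous.continuousAt
      · filter_upwards [ae_restrict_mem measurableSet_ball] with z hz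
        have hz' := mul_mem_D hr hr1.le hz
        rw [indicator_of_mem (mul_mem_ball hr hz), mul_div_cancel_left₀ _ hr', hVe _ hz',
          mul_left_comm, ← mul_add, norm_mul, mul_pow, smul_eq_mul, ← mul_assoc]
        refine mul_le_mul_of_nonneg_right ?_ (sq_nonneg _)
        have := S.rho_le hz'
        have h2 : r ^ 2 ≤ 1 := pow_le_one₀ hr.le hr1.le
        rw [rho] at this
        nlinarith [sq_nonneg ‖deriv φ (r * z)‖]
    have n3 := mul_le_mul_of_nonneg_left hN (sq_nonneg C)
    nlinarith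
  · rw [test_ell_add S hK a1.l2v a1.l2F a2.l2v a2.l2F, hm.ell_mul S hmc hK, ell,
      test_flux S hη hη0 hr hr1 (U := fun w => I * (K w : ℂ))
        (contDiff_const.mul (ofRealCLM.contDiff.comp (hK.of_le (by norm_cast)))).contDiffOn,
      add_zero]

end Vale.Agent.P071
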