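import Vale.Agent.P071.SetupLemmas
import Vale.Agent.P071.Kernel0
import Vale.Agent.P071.GR

/-!
# The gradient of an eigenfunction is a zero mode
-/

open Complex Metric Set Filter Topology MeasureTheory
open scoped ContDiff ComplexConjugate Real

namespace Vale.Agent.P071

variable {φ : ℂ → ℂ} {μ c C θ : ℝ}

lemma zm_two_le : (2 : WithTop ℕ∞) ≤ ∞ := WithTop.coe_le_coe.2 le_top

lemma zm_one_le : (1 : WithTop ℕ∞) ≤ ∞ := WithTop.coe_le_coe.2 le_top

lemma zm_ev_r : ∀ᶠ r : ℝ in 𝓝[<] 1, 0 < r ∧ r < 1 :=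
  Ioo_mem_nhdsLT (by norm_num)

/-- Dilations of a continuous function on the disc are bounded. -/
lemma zm_bm_scale {f : ℂ → ℂ} (hc : ContinuousOn f D) {r : ℝ} (hr : 0 < r) (hr1 : r < 1) :
    BM fun z => f (r * z) :=
  BM.of_closedBall (hc.comp (by fun_prop) fun _ hz => mul_mem_D_of_lt hr hr1 hz)

lemma zm_tendsto_pt {f : ℂ → ℂ} (hc : ContinuousOn f D) {z : ℂ} (hz : z ∈ D) :
    Tendsto (fun r : ℝ => f (r * z)) (𝓝[<] 1) (𝓝 (f z)) := by
  have h1 : Tendsto (fun r : ℝ => (r : ℂ) * z) (𝓝[<] 1) (𝓝 z) := by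
    have : Continuous fun r : ℝ => (r : ℂ) * z := by fun_prop
    have h := this.tendsto 1
    simp only [ofReal_one, one_mul] at h
    exact h.mono_left nhdsWithin_le_nhds
  exact (hc.continuousAt (isOpen_ball.mem_nhds hz)).tendsto.comp h1

/-- Dilations converge in mean square. -/
lemma zm_tendsto_sq {f : ℂ → ℂ} (hc : ContinuousOn f D) (hf : MemLp f 2 (volume.restrict D)) :
    Tendsto (fun r : ℝ => ∫ z in D, ‖f (r * z) - f z‖ ^ 2) (𝓝[<] 1) (𝓝 0) := by
  have hu := integrableOn_norm_sq hf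
  have hev := zm_ev_r
  have h1 : Tendsto (fun r : ℝ => ∫ z in D, ‖f (r * z)‖ ^ 2) (𝓝[<] 1)
      (𝓝 (∫ z in D, ‖f z‖ ^ 2)) := by
    have h2 : Tendsto (fun r : ℝ => (r ^ 2)⁻¹) (𝓝[<] 1) (𝓝 1) := by
      have h := ((continuous_pow 2).tendsto (1 : ℝ)).inv₀ (by norm_num)
      simp only [one_pow, inv_one] at h
      exact h.mono_left nhdsWithin_le_nhds
    have h3 := h2.mul (tendsto_setIntegral_ball hu)
    rw [one_mul] at h3
    refine h3.congr' (hev.mono fun r hr => ?_)
    have h0 : r ^ 2 ≠ 0 := pow_ne_zero 2 hr.1.ne'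
    simp only [integral_ball_scale (fun z => ‖f z‖ ^ 2) hr.1, smul_eq_mul]
    rw [inv_mul_cancel_left₀ h0]
  set F : ℝ → ℂ → ℝ := fun r z => min (‖f (r * z) - f z‖ ^ 2) (4 * ‖f z‖ ^ 2) +
    2 * max (‖f z‖ ^ 2 - ‖f (r * z)‖ ^ 2) 0 with hF
  have hFm : ∀ r : ℝ, 0 < r → r < 1 → AEStronglyMeasurable (F r) (volume.restrict D) := by
    intro r hr hr1
    have hs : ContinuousOn (fun z => f (r * z)) D :=
      hc.comp (by fun_prop) fun _ hz => mul_mem_D hr hr1.le hz
    refine sl_aesm ?_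
    exact ((((hs.sub hc).norm.pow 2).inf ((hc.norm.pow 2).const_mul 4))).add
      ((((hc.norm.pow 2).sub (hs.norm.pow 2)).sup continuousOn_const).const_mul 2)
  have hFb : ∀ (r : ℝ) (z : ℂ), ‖F r z‖ ≤ 6 * ‖f z‖ ^ 2 := by
    intro r z
    have a1 : 0 ≤ min (‖f (r * z) - f z‖ ^ 2) (4 * ‖f z‖ ^ 2) :=
      le_min (by positivity) (by positivity)
    have a2 := min_le_right (‖f (r * z) - f z‖ ^ 2) (4 * ‖f z‖ ^ 2)
    have a3 := le_max_right (‖f z‖ ^ 2 - ‖f (r * z)‖ ^ 2) 0
    have a4 : max (‖f z‖ ^ 2 - ‖f (r * z)‖ ^ 2) 0 ≤ ‖f z‖ ^ 2 :=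
      max_le (by nlinarith [sq_nonneg ‖f (r * z)‖]) (by positivity)
    rw [Real.norm_of_nonneg (by simp only [hF]; linarith)]
    simp only [hF]
    linarith
  have h4 : Tendsto (fun r => ∫ z in D, F r z) (𝓝[<] 1) (𝓝 (∫ _ in D, (0 : ℝ))) := by
    refine tendsto_integral_filter_of_dominated_convergence (fun z => 6 * ‖f z‖ ^ 2)
      (hev.mono fun r hr => hFm r hr.1 hr.2)
      (Eventually.of_forall fun r => Eventually.of_forall (hFb r)) (hu.const_mul 6)
      (sl_ae_mem.mono fun z hz => ?_)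
    have h5 := zm_tendsto_pt hc hz
    have h6 := (((h5.sub_const (f z)).norm.pow 2).min
      (tendsto_const_nhds (x := 4 * ‖f z‖ ^ 2))).add
      ((((tendsto_const_nhds (x := ‖f z‖ ^ 2)).sub (h5.norm.pow 2)).max
        (tendsto_const_nhds (x := (0 : ℝ)))).const_mul 2)
    have h7 : min (‖f z - f z‖ ^ 2) (4 * ‖f z‖ ^ 2) + 2 * max (‖f z‖ ^ 2 - ‖f z‖ ^ 2) 0 = 0 := by
      simp
    rw [h7] at h6
    exact h6
  have h8 := h4.add ((h1.sub_const (∫ z in D, ‖f z‖ ^ 2)).const_mul 2)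
  simp only [integral_zero, sub_self, mul_zero, add_zero] at h8
  refine tendsto_of_tendsto_of_tendsto_of_le_of_le' tendsto_const_nhds h8
    (Eventually.of_forall fun r => integral_nonneg fun z => by positivity)
    (hev.mono fun r hr => ?_)
  have b1 := (zm_bm_scale hc hr.1 hr.2).memLp
  have i1 := integrableOn_norm_sq b1
  have i2 : IntegrableOn (F r) D :=
    (hu.const_mul 6).mono' (hFm r hr.1 hr.2) (Eventually.of_forall (hFb r))
  have i3 : IntegrableOn (fun z => ‖f (r * z)‖ ^ 2 - ‖f z‖ ^ 2) D := i1.sub hu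
  rw [← integral_sub i1 hu, ← integral_const_mul, ← integral_add i2 (i3.const_mul 2)]
  refine integral_mono (integrableOn_norm_sq (b1.sub hf)) (i2.add (i3.const_mul 2)) fun z => ?_
  have c1 : ‖f (r * z) - f z‖ ^ 2 ≤ 2 * ‖f (r * z)‖ ^ 2 + 2 * ‖f z‖ ^ 2 := by
    have := norm_sub_le (f (r * z)) (f z)
    nlinarith [norm_nonneg (f (r * z) - f z), sq_nonneg (‖f (r * z)‖ - ‖f z‖)]
  have c2 := le_max_left (‖f z‖ ^ 2 - ‖f (r * z)‖ ^ 2) 0
  have c3 := le_max_right (‖f z‖ ^ 2 - ‖f (r * z)‖ ^ 2) 0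
  simp only [hF]
  rcases min_cases (‖f (r * z) - f z‖ ^ 2) (4 * ‖f z‖ ^ 2) with h | h <;> rw [h.1] <;> linarith

lemma zm_tendsto_pair {f g : ℂ → ℂ} (hc : ContinuousOn f D) (hf : MemLp f 2 (volume.restrict D))
    (hg : MemLp g 2 (volume.restrict D)) :
    Tendsto (fun r : ℝ => ∫ z in D, (g z * conj (f (r * z))).re) (𝓝[<] 1)
      (𝓝 (∫ z in D, (g z * conj (f z)).re)) := by
  have hev := zm_ev_r
  have h1 := ((zm_tendsto_sq hc hf).const_mul (∫ z in D, ‖g z‖ ^ 2)).sqrt
  rw [mul_zero, Real.sqrt_zero] at h1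
  rw [tendsto_iff_norm_sub_tendsto_zero]
  refine tendsto_of_tendsto_of_tendsto_of_le_of_le' tendsto_const_nhds h1
    (Eventually.of_forall fun r => norm_nonneg _) (hev.mono fun r hr => ?_)
  have b1 := (zm_bm_scale hc hr.1 hr.2).memLp
  have b2 : MemLp (fun z => f (r * z) - f z) 2 (volume.restrict D) := b1.sub hf
  have i1 : IntegrableOn (fun z => ‖g z‖ * ‖f (r * z) - f z‖) D :=
    integrableOn_mul_of_memLp hg.norm b2.norm
  have h2 := weighted_cs (m := volume.restrict D) (w := fun _ => 1) (f := fun z => ‖g z‖)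
    (g := fun z => ‖f (r * z) - f z‖) (Eventually.of_forall fun _ => zero_le_one)
    ((integrableOn_norm_sq hg).const_mul 1) (i1.const_mul 1)
    ((integrableOn_norm_sq b2).const_mul 1)
  simp only [one_mul] at h2
  refine le_trans ?_ (Real.le_sqrt_of_sq_le h2)
  rw [← integral_sub (integrableOn_mul_conj_re hg b1) (integrableOn_mul_conj_re hg hf)]
  refine norm_integral_le_of_norm_le i1 (Eventually.of_forall fun z => ?_)
  rw [← sub_re, ← mul_sub, ← map_sub, Real.norm_eq_abs]
  refine (abs_re_le_norm _).trans ?_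
  rw [norm_mul, norm_conj]

lemma zm_bdd1 {U : ℂ → ℂ} (hU : UC U) (L : ℂ →L[ℝ] ℝ) : Bdd1 fun z => L (U z) := by
  obtain ⟨M, hM⟩ := hU.bdd
  have h1 : ContDiffOn ℝ 1 U D := hU.cd.of_le (by norm_num)
  have h2 := BM.of_fderiv h1 ⟨M, fun z hz => (hM z hz).2.1⟩
  refine Bdd1.of_bm (L.contDiff.comp_contDiffOn h1)
    ((BM.of_continuousOn hU.continuousOn ⟨M, fun z hz => (hM z hz).1⟩).clm L)
    ((h2.1.clm L).congr fun z hz => (dx_clm L (hU.differentiableAt hz)).symm)
    ((h2.2.clm L).congr fun z hz => (dy_clm L (hU.differentiableAt hz)).symm)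

lemma zm_uc_scale {a : ℂ → ℝ} (ha : ContDiffOn ℝ ∞ a D) {r : ℝ} (hr : 0 < r) (hr1 : r < 1) :
    UC fun z => (a (r * z) : ℂ) := by
  have h1 : ∀ z ∈ closedBall (0 : ℂ) 1, ContDiffAt ℝ 2 (fun z => (a (r * z) : ℂ)) z :=
    fun z hz => contDiffAt_ofReal' (((sl_contDiffAt ha (mul_mem_D_of_lt hr hr1 hz)).of_le
      zm_two_le).comp z (contDiffAt_const.mul contDiffAt_id))
  obtain ⟨M₁, -, h₁⟩ := (BM.of_continuousAt fun z hz => (h1 z hz).continuousAt).bdd'
  obtain ⟨M₂, h0, h₂⟩ := (BM.of_continuousAt fun z hz =>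
    ((h1 z hz).fderiv_right (m := 0) (by norm_num)).continuousAt).bdd'
  refine ⟨fun z hz => (h1 z (ball_subset_closedBall hz)).contDiffWithinAt, max M₁ M₂,
    fun z hz => ⟨(h₁ z hz).trans (le_max_left _ _), (h₂ z hz).trans (le_max_right _ _), ?_⟩⟩
  have := sl_norm_lt hz
  rw [ofReal_im, abs_zero]
  exact mul_nonneg (h0.trans (le_max_right _ _)) (by linarith)

theorem DiscEigen.zeroMode (S : Setup φ μ c C) {a : ℂ → ℝ} (h : DiscEigen φ μ a) :
    ZeroMode φ μ (dD fun z => (a z : ℂ)) (fun z => -(μ * conj (deriv φ z) * a z)) := by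
  have ha2 : ∀ z ∈ D, ContDiffAt ℝ 2 a z := fun z hz => (sl_contDiffAt h.smooth hz).of_le zm_two_le
  have ha1 : ∀ z ∈ D, DifferentiableAt ℝ a z := fun z hz =>
    (ha2 z hz).differentiableAt (by norm_num)
  have hD1 : ∀ z ∈ D, ContDiffAt ℝ 1 (dD fun w => (a w : ℂ)) z := fun z hz =>
    contDiffAt_dD (contDiffAt_ofReal' (ha2 z hz)) (by norm_num)
  have hla := memLp_ofReal h.l2
  refine ⟨⟨h.l2grad, ((S.bm_deriv.conj.const_mul μ).mul_memLp hla).neg, fun U hU => ?_⟩,
    fun v' Φ' h' => ?_⟩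
  · have hb : Bdd1 fun z => (U z).re := zm_bdd1 hU reCLM
    have hψ : Bdd1 fun z => (U z).im := zm_bdd1 hU imCLM
    obtain ⟨M, hM⟩ := hU.bdd
    have hx : MemLp (dx a) 2 (volume.restrict D) :=
      (memLp_re h.l2grad).ae_eq (sl_ae_mem.mono fun z hz => by simp [dD_ofReal (ha1 z hz)])
    have hy : MemLp (dy a) 2 (volume.restrict D) :=
      (memLp_im h.l2grad).neg.ae_eq (sl_ae_mem.mono fun z hz => by simp [dD_ofReal (ha1 z hz)])
    have e0 : ∀ z ∈ D, (dB (fun w => I * dD (fun w => (a w : ℂ)) w) z).re = 0 := fun z hz => by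
      rw [dB_const_mul I ((hD1 z hz).differentiableAt (by norm_num)),
        dB_dD (contDiffAt_ofReal' (ha2 z hz)), lap_ofReal (ha2 z hz)]
      simp
    have e1 := green_zero_mul (V := fun w => I * dD (fun w => (a w : ℂ)) w)
      (fun z hz => (contDiffAt_const.mul (hD1 z hz)).contDiffWithinAt)
      (integrableOn_of_memLp (h.l2grad.const_mul I))
      ((integrableOn_zero (μ := volume) (s := D)).congr_fun (fun z hz => (e0 z hz).symm)
        measurableSet_ball) hψ (fun z hz => (hM z hz).2.2)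
    have e2 := h.weak _ hb
    have i1 : IntegrableOn (fun z => dx a z * dx (fun z => (U z).re) z +
        dy a z * dy (fun z => (U z).re) z) D :=
      (integrableOn_mul_of_memLp hx hb.bm.2.1.memLp).add
        (integrableOn_mul_of_memLp hy hb.bm.2.2.memLp)
    have i2 : IntegrableOn (fun z => μ * (rho φ z * (a z * (U z).re))) D :=
      (S.bm_rho.mul_integrableOn (integrableOn_mul_of_memLp h.l2 hb.bm.1.memLp)).const_mul μ
    have i3 : IntegrableOn (fun z => dx (fun z => (U z).im) z * dy a z -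
        dy (fun z => (U z).im) z * dx a z) D :=
      (integrableOn_mul_of_memLp hψ.bm.2.1.memLp hy).sub
        (integrableOn_mul_of_memLp hψ.bm.2.2.memLp hx)
    have e3 : ∫ z in D, (dx (fun z => (U z).im) z * dy a z -
        dy (fun z => (U z).im) z * dx a z) = 0 := by
      rw [← e1]
      refine setIntegral_congr_fun measurableSet_ball fun z hz => ?_
      simp only [e0 z hz, dD_ofReal (ha1 z hz)]
      simp
    have i4 : IntegrableOn (fun z => (dx a z * dx (fun z => (U z).re) z +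
        dy a z * dy (fun z => (U z).re) z) - μ * (rho φ z * (a z * (U z).re))) D := i1.sub i2
    have e4 := integral_sub i4 i3
    rw [integral_sub i1 i2, integral_const_mul, e2, e3, sub_self, sub_self] at e4
    rw [← e4]
    refine setIntegral_congr_fun measurableSet_ball fun z hz => ?_
    have d0 := hU.differentiableAt hz
    have e5 : deriv φ z * -(μ * conj (deriv φ z) * a z) = (-(μ * rho φ z * a z) : ℝ) := by
      push_cast; rw [rho_eq]; ring
    simp only [e5, dD_ofReal (ha1 z hz), dx_re d0, dy_re d0, dx_im d0, dy_im d0]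
    rw [dD]
    simp
    ring
  · have hF := S.memLp_mul h'.l2F
    have t1 := zm_tendsto_pair (fun z hz => (hD1 z hz).continuousAt.continuousWithinAt)
      h.l2grad h'.l2v
    have t2 := zm_tendsto_pair (f := fun z => (a z : ℂ))
      (continuous_ofReal.comp_continuousOn h.smooth.continuousOn) hla hF
    have t3 : Tendsto (fun r : ℝ => r) (𝓝[<] 1) (𝓝 1) := nhdsWithin_le_nhds
    have t4 := (t3.mul t1).add t2
    have hev := zm_ev_r
    have t5 := tendsto_nhds_unique_of_eventuallyEq t4 (tendsto_const_nhds (x := (0 : ℝ)))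
      (hev.mono fun r hr => by
        have b1 := (zm_bm_scale (fun z hz => (hD1 z hz).continuousAt.continuousWithinAt)
          hr.1 hr.2).memLp
        have b2 := (zm_bm_scale (f := fun z => (a z : ℂ))
          (continuous_ofReal.comp_continuousOn h.smooth.continuousOn) hr.1 hr.2).memLp
        beta_reduce
        rw [← integral_const_mul, ← integral_add
          ((integrableOn_mul_conj_re h'.l2v b1).const_mul r) (integrableOn_mul_conj_re hF b2),
          ← h'.eq _ (zm_uc_scale h.smooth hr.1 hr.2)]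
        refine setIntegral_congr_fun measurableSet_ball fun z hz => ?_
        have e := dD_comp_holo (f := fun w => (a w : ℂ)) (φ := fun w => (r : ℂ) * w) (z := z)
          (differentiableAt_ofReal' (ha1 _ (mul_mem_D hr.1 hr.2.le hz))) (by fun_prop)
        beta_reduce at e ⊢
        rw [e]
        simp
        ring)
    have e1 : ∫ z in D, (-(μ * conj (deriv φ z) * a z) * conj (Φ' z)).re =
        -μ * ∫ z in D, (deriv φ z * Φ' z * conj (a z : ℂ)).re := by
      rw [← integral_const_mul]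
      refine setIntegral_congr_fun measurableSet_ball fun z _ => ?_
      simp
      ring
    have e2 : ∫ z in D, (dD (fun z => (a z : ℂ)) z * conj (v' z)).re =
        ∫ z in D, (v' z * conj (dD (fun z => (a z : ℂ)) z)).re := by
      simp only [sl_re_mul_conj_comm (v' _)]
    rw [EB, e1, e2]
    linear_combination (-μ) * t5

lemma zm_ev {v Φ : ℂ → ℂ} {a : ℂ → ℝ} {V : ℂ → ℂ} (hm : Mode φ μ v Φ a V) {z : ℂ} (hz : z ∈ D) :
    V =ᶠ[𝓝 z] dD fun w => (a w : ℂ) :=
  Filter.mem_of_superset (isOpen_ball.mem_nhds hz) fun w hw => (hm.dDa w hw).symm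

lemma zm_smooth {v Φ : ℂ → ℂ} {a : ℂ → ℝ} {V : ℂ → ℂ} (hm : Mode φ μ v Φ a V) {z : ℂ}
    (hz : z ∈ D) : ContDiffAt ℝ ∞ V z :=
  (contDiffAt_dD (contDiffAt_ofReal' (sl_contDiffAt hm.smooth hz)) le_rfl).congr_of_eventuallyEq
    (zm_ev hm hz)

lemma zm_dB {v Φ : ℂ → ℂ} {a : ℂ → ℝ} {V : ℂ → ℂ} (hm : Mode φ μ v Φ a V) {z : ℂ} (hz : z ∈ D) :
    dB V z = -(μ * rho φ z * a z : ℝ) := by
  have h2 := (sl_contDiffAt hm.smooth hz).of_le zm_two_le
  rw [dB_congr (zm_ev hm hz), dB_dD (contDiffAt_ofReal' h2), lap_ofReal h2, hm.eq z hz]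
  push_cast
  ring

/-- Green's formula for a smooth multiple of a mode. -/
lemma zm_green (S : Setup φ μ c C) {v Φ : ℂ → ℂ} {a : ℂ → ℝ} {V : ℂ → ℂ} (hm : Mode φ μ v Φ a V)
    {G : ℂ → ℂ} (hG : ContDiff ℝ 1 G) :
    ∫ z in D, (dB G z * v z + G z * (deriv φ z * Φ z)).re =
      ∫ s, (G (ec s) * (ec s * V (ec s))).re ∂mc := by
  have hV1 : ∀ z ∈ D, ContDiffAt ℝ 1 V z := fun z hz => (zm_smooth hm hz).of_le zm_one_le
  have e : ∀ z ∈ D, dB (fun w => G w * V w) z = dB G z * V z + G z * -(μ * rho φ z * a z : ℝ) :=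
    fun z hz => by
      rw [dB_mul (hG.differentiable (by norm_num) z) ((hV1 z hz).differentiableAt (by norm_num)),
        zm_dB hm hz]
  obtain ⟨K, hK⟩ := hm.lip
  have b1 : BM fun z => dB G z * V z + G z * -(μ * rho φ z * a z : ℝ) :=
    ((BM.dB_of_contDiff hG).mul (BM.of_closedBall hm.contV)).add
      ((BM.of_continuous hG.continuous).mul
        (((S.bm_rho.const_mul μ).mul (BM.of_continuous hK.continuous)).ofReal.neg))
  have i1 : IntegrableOn (dB fun w => G w * V w) D :=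
    (b1.congr fun z hz => (e z hz).symm).integrableOn
  have hc : ContinuousOn (fun w => G w * V w) (closedBall 0 1) :=
    hG.continuous.continuousOn.mul hm.contV
  have h1 := green_dB_closed hc
    (fun z hz => (hG.contDiffAt.mul (hV1 z hz)).contDiffWithinAt) i1
  have c1 : Continuous fun s : ℝ => G (ec s) * V (ec s) * ec s :=
    (hc.comp_continuous (continuous_circleMap 0 1) fun s => kern0_S1_sub (ec_mem s)).mul
      (continuous_circleMap 0 1)
  rw [intervalIntegral.integral_of_le (by linarith [Real.pi_pos])] at h1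
  have h2 := congrArg re h1
  have r1 := integral_re (𝕜 := ℂ) i1
  have r2 := integral_re (𝕜 := ℂ) (μ := mc) (f := fun s : ℝ => G (ec s) * V (ec s) * ec s)
    (c1.integrableOn_Icc.mono_set Ioc_subset_Icc_self)
  simp only [RCLike.re_to_complex] at r1 r2
  rw [← r1, ← r2] at h2
  calc _ = ∫ z in D, (dB (fun w => G w * V w) z).re := by
        refine integral_congr_ae ?_
        filter_upwards [sl_ae_mem, hm.v_eq, hm.F_eq] with z hz h1 h2
        rw [e z hz, h1, h2]
    _ = _ := by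
        rw [h2]
        refine integral_congr_ae (Eventually.of_forall fun s => ?_)
        simp only [mul_assoc, mul_comm (V _)]

/-- The tangential component of a nontrivial zero mode does not vanish identically. -/
theorem Mode.exists_im_ne_zero (S : Setup φ μ c C) (hθ : θ < 1) (hG : Ground φ μ θ)
    {v Φ : ℂ → ℂ} (h : ZeroMode φ μ v Φ) {a : ℂ → ℝ} {V : ℂ → ℂ} (hm : Mode φ μ v Φ a V)
    (hne : ∃ z ∈ D, a z ≠ 0) : ∃ s ∈ S1, (s * V s).im ≠ 0 := by
  by_contra hcon
  push Not at hcon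
  have h0 : ∀ s ∈ S1, s * V s = 0 := fun s hs => Complex.ext (hm.tang s hs) (hcon s hs)
  have h1 := hG (fun z => I * v z) (fun z => I * Φ z) (h.adm.l2v.const_mul I)
    (h.adm.l2F.const_mul I) fun U hU _ => by
      have hU1 : ContDiff ℝ 1 U := hU.of_le zm_one_le
      have hU2 : ContDiff ℝ 1 fun w => conj (U w) :=
        contDiff_iff_contDiffAt.2 fun z => contDiffAt_conj' hU1.contDiffAt
      have e := zm_green S hm (G := fun w => I * conj (U w)) (contDiff_const.mul hU2)
      simp only [h0 _ (ec_mem _), mul_zero, zero_re, integral_zero] at e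
      rw [← e]
      refine setIntegral_congr_fun measurableSet_ball fun z _ => ?_
      rw [dB_const_mul I (hU2.differentiable (by norm_num) z),
        dB_conj (hU1.differentiable (by norm_num) z)]
      congr 1
      ring
  have h2 := h.zero _ _ h.adm
  rw [sl_EB_self, sl_integral_norm_sq_eq S h.adm.l2F] at h2
  set J := ∫ z in D, μ ^ 2 * rho φ z * a z ^ 2 with hJ
  have e1 : ∫ z in D, (deriv φ z * Φ z).re ^ 2 / rho φ z = J := by
    refine integral_congr_ae ?_
    filter_upwards [sl_ae_mem, hm.F_eq] with z hz h2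
    have := (S.rho_pos hz).ne'
    rw [h2, neg_re, ofReal_re]
    field_simp
  have e2 : ∫ z in D, (deriv φ z * Φ z).im ^ 2 / rho φ z = ∫ _ in D, (0 : ℝ) := by
    refine integral_congr_ae ?_
    filter_upwards [hm.F_eq] with z h2
    rw [h2, neg_im, ofReal_im]
    simp
  have e3 : ∀ z, deriv φ z * (I * Φ z) = I * (deriv φ z * Φ z) := fun z => by ring
  simp only [e3, I_mul_re, I_mul_im, neg_sq, norm_mul, norm_I, one_mul] at h1
  rw [e1, e2] at h1 h2
  simp only [integral_zero, add_zero, zero_add] at h1 h2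
  have hn : ∀ z, 0 ≤ μ ^ 2 * rho φ z * a z ^ 2 := fun z => by
    have := rho_nonneg φ z
    positivity
  have hJ0 : 0 ≤ J := integral_nonneg hn
  have hJ1 : J = 0 := by nlinarith
  obtain ⟨K, hK⟩ := hm.lip
  have b1 : BM fun z => μ ^ 2 * rho φ z * a z ^ 2 :=
    (S.bm_rho.const_mul _).mul (BM.of_continuous hK.continuous).sq
  have h3 := (integral_eq_zero_iff_of_nonneg hn b1.integrableOn).1 hJ1
  have h4 := Measure.eqOn_open_of_ae_eq h3 isOpen_ball
    ((S.continuousOn_rho.const_mul _).mul (hK.continuous.continuousOn.pow 2)) continuousOn_const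
  obtain ⟨z, hz, hz0⟩ := hne
  have h5 := h4 hz
  have := S.rho_pos hz
  have := S.mu_pos
  have : 0 < μ ^ 2 * rho φ z * a z ^ 2 := by positivity
  simp only [Pi.zero_apply] at h5
  linarith

/-- Green's formula up to the boundary for a multiple of a mode. -/
theorem Mode.ell_mul (S : Setup φ μ c C) {v Φ : ℂ → ℂ} {a : ℂ → ℝ} {V : ℂ → ℂ}
    (hm : Mode φ μ v Φ a V) {m K : ℂ → ℝ} (hm' : ContDiff ℝ ∞ m) (hK : ContDiff ℝ ∞ K) :
    ell φ K (fun z => m z * v z) (fun z => m z * Φ z + dB (fun w => (m w : ℂ)) z * v z / deriv φ z)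
      = ∫ s, m (ec s) * K (ec s) * (ec s * V (ec s)).im ∂mc := by
  have h1 : ContDiff ℝ 1 fun w => (m w : ℂ) :=
    contDiff_iff_contDiffAt.2 fun z => contDiffAt_ofReal' (hm'.of_le zm_one_le).contDiffAt
  have h2 : ContDiff ℝ 1 fun w => I * (K w : ℂ) := contDiff_const.mul
    (contDiff_iff_contDiffAt.2 fun z => contDiffAt_ofReal' (hK.of_le zm_one_le).contDiffAt)
  have h3 : ContDiff ℝ 1 fun w => conj (I * (K w : ℂ)) :=
    contDiff_iff_contDiffAt.2 fun z => contDiffAt_conj' h2.contDiffAt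
  have e := zm_green S hm (h1.mul h3)
  calc _ = _ := ?_
    _ = _ := e
    _ = _ := ?_
  · refine setIntegral_congr_fun measurableSet_ball fun z hz => ?_
    have h0 := S.deriv_ne_zero hz
    beta_reduce
    rw [dB_mul (h1.differentiable (by norm_num) z) (h3.differentiable (by norm_num) z),
      dB_conj (h2.differentiable (by norm_num) z)]
    congr 1
    field_simp
    ring
  · refine integral_congr_ae (Eventually.of_forall fun s => ?_)
    beta_reduce
    generalize ec s * V (ec s) = w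
    simp

/-- The gradient field in the original coordinates solves the Helmholtz equation. -/
theorem Mode.om_eq (S : Setup φ μ c C) {v Φ : ℂ → ℂ} {a : ℂ → ℝ} {V : ℂ → ℂ}
    (hm : Mode φ μ v Φ a V) {z : ℂ} (hz : z ∈ D) :
    ContDiffAt ℝ ∞ (fun w => V w / deriv φ w) z ∧
      dB (fun w => V w / deriv φ w) z = -(μ * conj (deriv φ z) * a z) ∧
      lap (fun w => V w / deriv φ w) z = -((μ * rho φ z : ℝ) * (V z / deriv φ z)) := by
  have h1 : ∀ z ∈ D, ContDiffAt ℝ ∞ (fun w => V w / deriv φ w) z := fun z hz => by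
    simp only [div_eq_mul_inv]
    exact (zm_smooth hm hz).mul ((S.contDiffAt_deriv hz).inv (S.deriv_ne_zero hz))
  have h2 : ∀ z ∈ D, dB (fun w => V w / deriv φ w) z = -(μ * conj (deriv φ z) * a z) := by
    intro z hz
    have h0 := S.deriv_ne_zero hz
    have d1 : DifferentiableAt ℂ (fun w => (deriv φ w)⁻¹) z :=
      (S.analyticAt_deriv hz).differentiableAt.inv h0
    simp only [div_eq_mul_inv]
    rw [dB_mul ((zm_smooth hm hz).differentiableAt (by simp)) (d1.restrictScalars ℝ), dB_holo d1,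
      zm_dB hm hz]
    push_cast
    rw [rho_eq]
    field_simp
    ring
  refine ⟨h1 z hz, h2 z hz, ?_⟩
  have e : dB (fun w => V w / deriv φ w) =ᶠ[𝓝 z] fun w => -(μ * (conj (deriv φ w) * a w)) :=
    Filter.mem_of_superset (isOpen_ball.mem_nhds hz) fun w hw => by
      simp only [mem_ofPred_eq, h2 w hw, mul_assoc]
  have d1 := (S.analyticAt_deriv hz).differentiableAt
  have d2 := differentiableAt_conj' (d1.restrictScalars ℝ)
  have d3 := differentiableAt_ofReal' ((sl_contDiffAt hm.smooth hz).differentiableAt (by simp))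
  have h0 := S.deriv_ne_zero hz
  rw [← dD_dB ((h1 z hz).of_le zm_two_le), dD_congr e, dD_neg, dD_const_mul _ (d2.fun_mul d3),
    dD_mul d2 d3, dD_conj (d1.restrictScalars ℝ), dB_holo d1, hm.dDa z hz]
  push_cast
  rw [rho_eq, map_zero]
  field_simp
  ring

end Vale.Agent.P071
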